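import Vale.Agent.P054A.AsyA

/-!
Asymptotic comparison along a free ultrafilter.
-/

namespace Vale.Agent.P054A

open MvPolynomial Filter
open scoped Classical

variable {u : UF}

section Full

variable {ι : Type} {E F G : ℕ → Finset ι}

theorem UF.Full.refl (u : UF) (E : ℕ → Finset ι) : u.Full E E := by
  exact ⟨u.ev_of_forall fun n => Finset.Subset.refl _,
    UF.LE.refl (u.ev_of_forall (cd_nonneg E))⟩

theorem UF.Full.trans (h : u.Full G F) (h' : u.Full F E) : u.Full G E := by
  exact ⟨(h.1.and h'.1).mono fun n hn => hn.1.trans hn.2, h'.2.trans h.2⟩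

theorem UF.Full.of_const (C : ℝ) (h : u.ev fun n => F n ⊆ E n ∧ ((E n).card : ℝ) ≤ C * (F n).card) :
    u.Full F E := by
  exact ⟨h.mono fun n hn => hn.1,
    UF.LE.of_const C (u.ev_of_forall (cd_nonneg F)) (h.mono fun n hn => hn.2)⟩

/-- A set between a full set and the ambient set is full. -/
theorem UF.Full.superset (h : u.Full G E) (h' : u.ev fun n => G n ⊆ F n ∧ F n ⊆ E n) :
    u.Full F E := by
  refine ⟨h'.mono fun n hn => hn.2, h.2.mono_right (h'.mono fun n hn => ?_)⟩
  unfold cd
  exact_mod_cast Finset.card_le_card hn.1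

theorem UF.Full.nonempty (h : u.Full F E) (hE : u.ev fun n => (E n).Nonempty) :
    u.ev fun n => (F n).Nonempty := by
  refine ((h.2 1 one_pos).and hE).mono fun n hn => ?_
  rcases Finset.eq_empty_or_nonempty (F n) with h0 | h0
  · exfalso
    have h1 := hn.1
    unfold cd at h1
    rw [h0, Finset.card_empty, Nat.cast_zero, mul_zero] at h1
    have h2 : (0 : ℝ) < (E n).card := by exact_mod_cast hn.2.card_pos
    linarith
  · exact h0

theorem UF.Full.not_ll (h : u.Full F E) (hE : u.ev fun n => (E n).Nonempty) :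
    ¬ u.LL (cd F) (cd E) := by
  intro hl
  refine hl.not_le (hE.mono fun n hn => ?_) h.2
  unfold cd
  exact_mod_cast hn.card_pos

theorem UF.full_or_ll (h : u.ev fun n => F n ⊆ E n) : u.Full F E ∨ u.LL (cd F) (cd E) := by
  rcases u.ll_or_le (cd F) (cd E) with h1 | h1
  · exact Or.inr h1
  · exact Or.inl ⟨h, h1⟩

/-- Negligible in `E` means negligible in every full part of `E`. -/
theorem UF.Full.ll (h : u.Full F E) {a : ℕ → ℝ} (ha : u.LL a (cd E)) : u.LL a (cd F) := by
  exact ha.trans_le h.2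

/-- Removing a negligible set from a full set. -/
theorem UF.Full.sdiff (h : u.Full F E) (hG : u.LL (cd G) (cd E)) :
    u.Full (fun n => F n \ G n) E := by
  refine UF.Full.trans ?_ h
  have h1 := (h.ll hG).ev_le (u.ev_of_forall (cd_nonneg G)) 2
  refine UF.Full.of_const 2 (h1.mono fun n hn => ⟨Finset.sdiff_subset, ?_⟩)
  unfold cd at hn
  have h2 : (F n).card ≤ (F n \ G n).card + (G n).card := Finset.card_le_card_sdiff_add_card
  have h3 : ((F n).card : ℝ) ≤ (F n \ G n).card + (G n).card := by exact_mod_cast h2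
  linarith

theorem UF.asy_ll_sum {α : Type} (s : Finset α) (a : α → ℕ → ℝ) (b : ℕ → ℝ)
    (hb : u.ev fun n => 0 ≤ b n) (h : ∀ i ∈ s, u.LL (a i) b) :
    u.LL (fun n => ∑ i ∈ s, a i n) b := by
  induction s using Finset.induction_on with
  | empty => exact ⟨1, one_pos, hb.mono fun n hn => by simpa using hn⟩
  | insert i s hi ih =>
    have h1 := (h i (Finset.mem_insert_self _ _)).add
      (ih fun j hj => h j (Finset.mem_insert_of_mem hj)) hb
    refine h1.mono_left (u.ev_of_forall fun n => ?_)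
    rw [Finset.sum_insert hi]


/-- Removing finitely many negligible sets. -/
theorem UF.Full.filter_all {α : Type} [Fintype α] (h : u.Full F E) (p : α → ℕ → ι → Prop)
    (hp : ∀ a, u.LL (cd fun n => (F n).filter fun e => ¬ p a n e) (cd E)) :
    u.Full (fun n => (F n).filter fun e => ∀ a, p a n e) E := by
  have h1 := UF.asy_ll_sum (Finset.univ : Finset α)
    (fun a => cd fun n => (F n).filter fun e => ¬ p a n e) (cd E)
    (u.ev_of_forall (cd_nonneg E)) (fun a _ => hp a)
  have h2 : u.LL (cd fun n => Finset.univ.biUnion fun a => (F n).filter fun e => ¬ p a n e)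
      (cd E) := by
    refine h1.mono_left (u.ev_of_forall fun n => ?_)
    unfold cd
    exact_mod_cast Finset.card_biUnion_le
  refine (h.sdiff h2).superset (h.1.mono fun n hn => ⟨?_, (Finset.filter_subset _ _).trans hn⟩)
  intro e he
  rw [Finset.mem_sdiff] at he
  rw [Finset.mem_filter]
  refine ⟨he.1, fun a => ?_⟩
  by_contra hc
  exact he.2 (Finset.mem_biUnion.2 ⟨a, Finset.mem_univ _, Finset.mem_filter.2 ⟨he.1, hc⟩⟩)

theorem UF.Full.or_of_union (h : u.Full (fun n => F n ∪ G n) E) : u.Full F E ∨ u.Full G E := by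
  rcases UF.full_or_ll (u := u) (F := F) (E := E)
    (h.1.mono fun n hn => Finset.subset_union_left.trans hn) with h1 | h1
  · exact Or.inl h1
  · right
    refine (h.sdiff h1).superset (h.1.mono fun n hn => ⟨?_, Finset.subset_union_right.trans hn⟩)
    intro e he
    rw [Finset.mem_sdiff, Finset.mem_union] at he
    tauto

/-- Pigeonhole over few classes. -/
theorem UF.Full.pigeon {β : Type} [Nonempty β] (h : u.Full F E) (col : ℕ → ι → β)
    (hN : u.LE (fun n => (((F n).image (col n)).card : ℝ)) fun _ => 1) :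
    ∃ b : ℕ → β, u.Full (fun n => (F n).filter fun e => col n e = b n) E := by
  have h1 : ∀ n, ∃ b : β, (F n).card ≤
      ((F n).filter fun e => col n e = b).card * ((F n).image (col n)).card := by
    intro n
    rcases Finset.eq_empty_or_nonempty ((F n).image (col n)) with h0 | h0
    · rw [Finset.image_eq_empty] at h0
      exact ⟨Classical.arbitrary β, by simp [h0]⟩
    · obtain ⟨b, _, hb⟩ := Finset.exists_max_image _
        (fun b => ((F n).filter fun e => col n e = b).card) h0
      exact ⟨b, Finset.card_le_mul_card_image _ _ hb⟩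
  choose b hb using h1
  refine ⟨b, UF.Full.trans ⟨u.ev_of_forall fun n => Finset.filter_subset _ _, ?_⟩ h⟩
  intro κ hκ
  refine (hN κ hκ).mono fun n hn => ?_
  unfold cd
  have h2 : ((F n).card : ℝ) ≤
      ((F n).filter fun e => col n e = b n).card * ((F n).image (col n)).card := by
    exact_mod_cast hb n
  rw [mul_one] at hn
  calc ((F n).card : ℝ) ≤ _ := h2
    _ ≤ ((F n).filter fun e => col n e = b n).card * (n : ℝ) ^ κ :=
        mul_le_mul_of_nonneg_left hn (Nat.cast_nonneg _)
    _ = _ := mul_comm _ _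

/-- Pigeonhole over a fixed finite set of classes. -/
theorem UF.Full.pigeon_fin {β : Type} [Finite β] [Nonempty β] (h : u.Full F E)
    (col : ℕ → ι → β) : ∃ b : β, u.Full (fun n => (F n).filter fun e => col n e = b) E := by
  haveI := Fintype.ofFinite β
  obtain ⟨b, hb⟩ := h.pigeon col (UF.LE.of_const (Fintype.card β : ℝ)
    (u.ev_of_forall fun _ => zero_le_one) (u.ev_of_forall fun n => by
      rw [mul_one]
      exact_mod_cast Finset.card_le_univ _))
  obtain ⟨b0, hb0⟩ := u.ev_const b
  refine ⟨b0, hb.superset ((hb0.and h.1).mono fun n hn => ⟨?_, ?_⟩)⟩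
  · rw [hn.1]
  · exact (Finset.filter_subset _ _).trans hn.2

/-- If every power bound fails only on a negligible set, a slowly growing bound holds on a
full set. -/
theorem UF.Full.slow (h : u.Full F E) (a : ℕ → ι → ℕ)
    (ha : ∀ κ : ℝ, 0 < κ →
      u.LL (cd fun n => (F n).filter fun e => (n : ℝ) ^ κ ≤ a n e) (cd E)) :
    ∃ B : ℕ → ℕ, u.LE (nr B) (fun _ => 1) ∧
      u.Full (fun n => (F n).filter fun e => a n e ≤ B n) E := by
  have h1 : ∀ j : ℕ, u.ev fun n => 2 * cd (fun n => (F n).filter fun e =>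
      (n : ℝ) ^ (1 / ((j : ℝ) + 1)) ≤ a n e) n ≤ cd F n := fun j =>
    (h.ll (ha _ (by positivity))).ev_le (u.ev_of_forall (cd_nonneg _)) 2
  obtain ⟨j, hj, hP⟩ := UF.diag h1
  refine ⟨fun n => ⌊(n : ℝ) ^ (1 / ((j n : ℝ) + 1))⌋₊, ?_, UF.Full.trans ?_ h⟩
  · intro κ hκ
    obtain ⟨N, hN⟩ := exists_nat_one_div_lt hκ
    refine ((hj N).and (u.ev_ge 1)).mono fun n hn => ?_
    unfold nr
    rw [mul_one]
    have h2 : (1 : ℝ) ≤ n := by exact_mod_cast hn.2
    have h3 : (N : ℝ) ≤ j n := by exact_mod_cast hn.1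
    refine (Nat.floor_le (by positivity)).trans (Real.rpow_le_rpow_of_exponent_le h2 ?_)
    refine le_trans ?_ hN.le
    exact one_div_le_one_div_of_le (by positivity) (by linarith)
  · refine UF.Full.of_const 2 (hP.mono fun n hn => ⟨Finset.filter_subset _ _, ?_⟩)
    have h2 := hn (j n) le_rfl
    unfold cd at h2
    have h3 : (F n).card ≤ ((F n).filter fun e => a n e ≤ ⌊(n : ℝ) ^ (1 / ((j n : ℝ) + 1))⌋₊).card
        + ((F n).filter fun e => (n : ℝ) ^ (1 / ((j n : ℝ) + 1)) ≤ a n e).card := by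
      refine le_trans (Finset.card_le_card ?_) (Finset.card_union_le _ _)
      intro e he
      rw [Finset.mem_union, Finset.mem_filter, Finset.mem_filter]
      rcases le_total ((n : ℝ) ^ (1 / ((j n : ℝ) + 1))) (a n e) with h4 | h4
      · exact Or.inr ⟨he, h4⟩
      · exact Or.inl ⟨he, Nat.le_floor h4⟩
    have h4 : ((F n).card : ℝ) ≤
        ((F n).filter fun e => a n e ≤ ⌊(n : ℝ) ^ (1 / ((j n : ℝ) + 1))⌋₊).card
        + ((F n).filter fun e => (n : ℝ) ^ (1 / ((j n : ℝ) + 1)) ≤ a n e).card := by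
      exact_mod_cast h3
    linarith

/-- A full part minimising a bounded monotone quantity. -/
theorem UF.exists_min_full (u : UF) (E : ℕ → Finset ι) (q : ℕ → Finset ι → ℕ) (B : ℕ)
    (hq : ∀ n s, q n s ≤ B) :
    ∃ F a, u.Full F E ∧ (u.ev fun n => q n (F n) = a) ∧
      ∀ G, u.Full G E → u.ev fun n => a ≤ q n (G n) := by
  have h1 : ∀ G, u.Full G E → ∃ a, u.Full G E ∧ u.ev fun n => q n (G n) = a := by
    intro G hG
    obtain ⟨a, _, ha⟩ := UF.ev_const_nat (u := u) (a := fun n => q n (G n)) (B := B)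
      (u.ev_of_forall fun n => hq n _)
    exact ⟨a, hG, ha⟩
  have h2 : ∃ a, ∃ F, u.Full F E ∧ u.ev fun n => q n (F n) = a := by
    obtain ⟨a, ha⟩ := h1 E (UF.Full.refl u E)
    exact ⟨a, E, ha⟩
  obtain ⟨F, hF, hFa⟩ := Nat.find_spec h2
  refine ⟨F, Nat.find h2, hF, hFa, fun G hG => ?_⟩
  obtain ⟨a, ha⟩ := h1 G hG
  have h3 : Nat.find h2 ≤ a := Nat.find_min' h2 ⟨G, ha⟩
  exact ha.2.mono fun n hn => hn ▸ h3

end Full

end Vale.Agent.P054A
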