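import Vale.Agent.P054A.Defs

/-!
Asymptotic comparison along a free ultrafilter.
-/

namespace Vale.Agent.P054A

open MvPolynomial Filter
open scoped Classical

variable {u : UF}

theorem UF.ev.and {P Q : ℕ → Prop} (h : u.ev P) (h' : u.ev Q) : u.ev fun n => P n ∧ Q n :=
  Filter.Eventually.and h h'

theorem UF.ev.mono {P Q : ℕ → Prop} (h : u.ev P) (h' : ∀ n, P n → Q n) : u.ev Q :=
  Filter.Eventually.mono h h'

theorem UF.ev_of_forall (u : UF) {P : ℕ → Prop} (h : ∀ n, P n) : u.ev P :=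
  Filter.Eventually.of_forall h

theorem UF.ev.exists {P : ℕ → Prop} (h : u.ev P) : ∃ n, P n := Filter.Eventually.exists h

theorem UF.ev_ge (u : UF) (N : ℕ) : u.ev fun n => N ≤ n := u.le (eventually_ge_atTop N)

theorem UF.ev_or {P Q : ℕ → Prop} (h : u.ev fun n => P n ∨ Q n) : u.ev P ∨ u.ev Q :=
  Ultrafilter.eventually_or.1 h

theorem UF.ev_not {P : ℕ → Prop} (h : ¬ u.ev P) : u.ev fun n => ¬ P n :=
  Ultrafilter.eventually_not.2 h

theorem UF.ev_all {α : Type} [Finite α] {P : α → ℕ → Prop} (h : ∀ a, u.ev (P a)) :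
    u.ev fun n => ∀ a, P a n := Filter.eventually_all.2 h

/-- A function with finitely many values is constant on a large set. -/
theorem UF.ev_const (u : UF) {α : Type} [Finite α] (a : ℕ → α) : ∃ a₀, u.ev fun n => a n = a₀ := by
  obtain ⟨a₀, h⟩ := Ultrafilter.eq_pure_of_finite (u.U.map a)
  refine ⟨a₀, ?_⟩
  have : {a₀} ∈ u.U.map a := by
    rw [h]
    exact Ultrafilter.mem_pure.2 rfl
  exact this

/-- A bounded sequence of naturals is constant on a large set. -/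
theorem UF.ev_const_nat {a : ℕ → ℕ} {B : ℕ} (h : u.ev fun n => a n ≤ B) :
    ∃ a₀ ≤ B, u.ev fun n => a n = a₀ := by
  obtain ⟨a₀, h₀⟩ := u.ev_const fun n => (⟨min (a n) B, by omega⟩ : Fin (B + 1))
  refine ⟨a₀, by omega, (h.and h₀).mono fun n hn => ?_⟩
  have := congrArg Fin.val hn.2
  have h1 := hn.1
  simp only at this
  omega

/-- Choice along the ultrafilter. -/
theorem UF.ev.choose {α : Type} [Nonempty α] {P : ℕ → α → Prop} (h : u.ev fun n => ∃ a, P n a) :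
    ∃ a : ℕ → α, u.ev fun n => P n (a n) := by
  refine ⟨fun n => Classical.epsilon (P n), h.mono fun n hn => Classical.epsilon_spec hn⟩

theorem UF.ev_pw_ge (u : UF) {κ : ℝ} (hκ : 0 < κ) (C : ℝ) : u.ev fun n => C ≤ (n : ℝ) ^ κ :=
  u.le (((tendsto_rpow_atTop hκ).comp tendsto_natCast_atTop_atTop).eventually_ge_atTop C)

/-- Diagonal argument. -/
theorem UF.diag {P : ℕ → ℕ → Prop} (h : ∀ j, u.ev (P j)) :
    ∃ j : ℕ → ℕ, (∀ N, u.ev fun n => N ≤ j n) ∧ u.ev fun n => ∀ i ≤ j n, P i n := by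
  refine ⟨fun n => Nat.findGreatest (fun N => ∀ i ≤ N, P i n) n, fun N => ?_,
    (h 0).mono fun n hn => ?_⟩
  · have h1 : u.ev fun n => ∀ i : Fin (N + 1), P i n := UF.ev_all fun i => h i
    refine (h1.and (u.ev_ge N)).mono fun n hn => Nat.le_findGreatest hn.2 fun i hi => ?_
    exact hn.1 ⟨i, by omega⟩
  · refine Nat.findGreatest_spec (P := fun N => ∀ i ≤ N, P i n) (Nat.zero_le n) fun i hi => ?_
    rw [Nat.le_zero.1 hi]
    exact hn

theorem pw_nonneg (μ : ℝ) (n : ℕ) : 0 ≤ pw μ n := Real.rpow_nonneg (Nat.cast_nonneg n) μ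

theorem nr_nonneg (a : ℕ → ℕ) (n : ℕ) : 0 ≤ nr a n := Nat.cast_nonneg _

theorem cd_nonneg {ι : Type} (E : ℕ → Finset ι) (n : ℕ) : 0 ≤ cd E n := Nat.cast_nonneg _

theorem UF.asyA_half (u : UF) {κ : ℝ} (hκ : 0 < κ) : u.ev fun n =>
    2 ≤ (n : ℝ) ^ (κ / 2) ∧ (n : ℝ) ^ κ = (n : ℝ) ^ (κ / 2) * (n : ℝ) ^ (κ / 2) :=
  ((u.ev_pw_ge (half_pos hκ) 2).and (u.ev_ge 1)).mono fun n hn =>
    ⟨hn.1, by
      rw [← Real.rpow_add (by exact_mod_cast hn.2), add_halves]⟩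

theorem UF.LE.of_ev {a b : ℕ → ℝ} (hb : u.ev fun n => 0 ≤ b n) (h : u.ev fun n => a n ≤ b n) :
    u.LE a b := fun κ hκ =>
  ((hb.and h).and (u.ev_pw_ge hκ 1)).mono fun _ hn =>
    hn.1.2.trans (le_mul_of_one_le_left hn.1.1 hn.2)

theorem UF.LE.of_const {a b : ℕ → ℝ} (C : ℝ) (hb : u.ev fun n => 0 ≤ b n)
    (h : u.ev fun n => a n ≤ C * b n) : u.LE a b := fun κ hκ =>
  ((hb.and h).and (u.ev_pw_ge hκ C)).mono fun _ hn =>
    hn.1.2.trans (mul_le_mul_of_nonneg_right hn.2 hn.1.1)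

theorem UF.LE.refl {a : ℕ → ℝ} (ha : u.ev fun n => 0 ≤ a n) : u.LE a a :=
  UF.LE.of_ev ha (u.ev_of_forall fun _ => le_rfl)

theorem UF.LE.trans {a b c : ℕ → ℝ} (h : u.LE a b) (h' : u.LE b c) : u.LE a c := fun κ hκ =>
  (((h _ (half_pos hκ)).and (h' _ (half_pos hκ))).and (u.asyA_half hκ)).mono fun n hn => by
    obtain ⟨⟨h1, h2⟩, h3, h4⟩ := hn
    rw [h4, mul_assoc]
    exact h1.trans (mul_le_mul_of_nonneg_left h2 (by linarith))

theorem UF.LE.mono_left {a a' b : ℕ → ℝ} (h : u.LE a b) (h' : u.ev fun n => a' n ≤ a n) :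
    u.LE a' b := fun κ hκ =>
  ((h κ hκ).and h').mono fun _ hn => hn.2.trans hn.1

theorem UF.LE.mono_right {a b b' : ℕ → ℝ} (h : u.LE a b) (h' : u.ev fun n => b n ≤ b' n) :
    u.LE a b' := fun κ hκ =>
  ((h κ hκ).and h').mono fun n hn =>
    hn.1.trans (mul_le_mul_of_nonneg_left hn.2 (Real.rpow_nonneg (Nat.cast_nonneg n) κ))

theorem UF.LE.mul {a b a' b' : ℕ → ℝ} (h : u.LE a b) (h' : u.LE a' b')
    (ha : u.ev fun n => 0 ≤ a n) (ha' : u.ev fun n => 0 ≤ a' n) :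
    u.LE (fun n => a n * a' n) fun n => b n * b' n := fun κ hκ =>
  ((((h _ (half_pos hκ)).and (h' _ (half_pos hκ))).and (ha.and ha')).and
    (u.asyA_half hκ)).mono fun n hn => by
    obtain ⟨⟨⟨h1, h2⟩, h5, h6⟩, h3, h4⟩ := hn
    refine (mul_le_mul h1 h2 h6 (h5.trans h1)).trans (le_of_eq ?_)
    rw [h4]
    ring

theorem UF.LE.add {a a' b : ℕ → ℝ} (h : u.LE a b) (h' : u.LE a' b) (hb : u.ev fun n => 0 ≤ b n) :
    u.LE (fun n => a n + a' n) b := fun κ hκ =>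
  ((((h _ (half_pos hκ)).and (h' _ (half_pos hκ))).and hb).and
    (u.asyA_half hκ)).mono fun n hn => by
    obtain ⟨⟨⟨h1, h2⟩, h5⟩, h3, h4⟩ := hn
    have h6 : 0 ≤ (n : ℝ) ^ (κ / 2) * b n := mul_nonneg (by linarith) h5
    have h7 := mul_le_mul_of_nonneg_right h3 h6
    rw [h4, mul_assoc]
    linarith

theorem UF.LE.const_mul {a b : ℕ → ℝ} (h : u.LE a b) (C : ℝ) (hb : u.ev fun n => 0 ≤ b n)
    (ha : u.ev fun n => 0 ≤ a n) : u.LE (fun n => C * a n) b := fun κ hκ =>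
  ((((h _ (half_pos hκ)).and (u.ev_pw_ge (half_pos hκ) C)).and ha).and
    (u.asyA_half hκ)).mono fun n hn => by
    obtain ⟨⟨⟨h1, h2⟩, h5⟩, h3, h4⟩ := hn
    rw [h4, mul_assoc]
    exact mul_le_mul h2 h1 h5 (by linarith)

theorem UF.LE.pow {a b : ℕ → ℝ} (h : u.LE a b) (ha : u.ev fun n => 0 ≤ a n) (j : ℕ) :
    u.LE (fun n => a n ^ j) fun n => b n ^ j := by
  induction j with
  | zero => exact UF.LE.of_ev (u.ev_of_forall fun _ => by simp) (u.ev_of_forall fun _ => by simp)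
  | succ j ih =>
    simp only [pow_succ]
    exact ih.mul h (ha.mono fun _ hn => pow_nonneg hn j) ha

theorem UF.LE.one_pw (u : UF) {μ : ℝ} (h : 0 ≤ μ) : u.LE (fun _ => 1) (pw μ) :=
  UF.LE.of_ev (u.ev_of_forall (pw_nonneg μ)) ((u.ev_ge 1).mono fun n hn =>
    Real.one_le_rpow (by exact_mod_cast hn) h)

theorem UF.LE.pw_pw (u : UF) {μ ν : ℝ} (h : μ ≤ ν) : u.LE (pw μ) (pw ν) :=
  UF.LE.of_ev (u.ev_of_forall (pw_nonneg ν)) ((u.ev_ge 1).mono fun n hn =>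
    Real.rpow_le_rpow_of_exponent_le (by exact_mod_cast hn) h)

theorem UF.LL.pw_pw (u : UF) {μ ν : ℝ} (h : μ < ν) : u.LL (pw μ) (pw ν) :=
  ⟨ν - μ, sub_pos.2 h, (u.ev_ge 1).mono fun n hn => by
    unfold pw
    rw [← Real.rpow_add (by exact_mod_cast hn), sub_add_cancel]⟩

theorem UF.ev_pw_add (u : UF) (μ ν : ℝ) : u.ev fun n => pw μ n * pw ν n = pw (μ + ν) n :=
  (u.ev_ge 1).mono fun n hn => (Real.rpow_add (by exact_mod_cast hn) μ ν).symm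

theorem UF.ev_pw_pow (u : UF) (μ : ℝ) (j : ℕ) : u.ev fun n => pw μ n ^ j = pw (μ * j) n :=
  u.ev_of_forall fun n => (Real.rpow_mul_natCast (Nat.cast_nonneg n) μ j).symm

theorem UF.ev_pw_pos (u : UF) (μ : ℝ) : u.ev fun n => 0 < pw μ n :=
  (u.ev_ge 1).mono fun n hn => Real.rpow_pos_of_pos (by exact_mod_cast hn) μ

theorem UF.LL.le {a b : ℕ → ℝ} (h : u.LL a b) (hb : u.ev fun n => 0 ≤ b n) : u.LE a b := by
  obtain ⟨κ, hκ, h⟩ := h
  refine UF.LE.of_ev hb (((h.and hb).and (u.ev_pw_ge hκ 1)).mono fun n hn => ?_)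
  rcases le_total (a n) 0 with h1 | h1
  · exact h1.trans hn.1.2
  · exact (le_mul_of_one_le_left h1 hn.2).trans hn.1.1

theorem UF.LL.trans_le {a b c : ℕ → ℝ} (h : u.LL a b) (h' : u.LE b c) : u.LL a c := by
  obtain ⟨κ, hκ, h⟩ := h
  refine ⟨κ / 2, half_pos hκ, ((h.and (h' _ (half_pos hκ))).and (u.asyA_half hκ)).mono
    fun n hn => ?_⟩
  obtain ⟨⟨h1, h2⟩, h3, h4⟩ := hn
  rw [h4, mul_assoc] at h1
  exact le_of_mul_le_mul_left (h1.trans h2) (by linarith)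

theorem UF.LE.trans_ll {a b c : ℕ → ℝ} (h : u.LE a b) (h' : u.LL b c) : u.LL a c := by
  obtain ⟨κ, hκ, h'⟩ := h'
  refine ⟨κ / 2, half_pos hκ, ((h'.and (h _ (half_pos hκ))).and (u.asyA_half hκ)).mono
    fun n hn => ?_⟩
  obtain ⟨⟨h1, h2⟩, h3, h4⟩ := hn
  rw [h4, mul_assoc] at h1
  exact (mul_le_mul_of_nonneg_left h2 (by linarith)).trans h1

theorem UF.LL.mono_left {a a' b : ℕ → ℝ} (h : u.LL a b) (h' : u.ev fun n => a' n ≤ a n) :
    u.LL a' b := by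
  obtain ⟨κ, hκ, h⟩ := h
  exact ⟨κ, hκ, (h.and h').mono fun n hn =>
    (mul_le_mul_of_nonneg_left hn.2 (Real.rpow_nonneg (Nat.cast_nonneg n) κ)).trans hn.1⟩

theorem UF.LL.mono_right {a b b' : ℕ → ℝ} (h : u.LL a b) (h' : u.ev fun n => b n ≤ b' n) :
    u.LL a b' := by
  obtain ⟨κ, hκ, h⟩ := h
  exact ⟨κ, hκ, (h.and h').mono fun n hn => hn.1.trans hn.2⟩

theorem UF.LL.add {a a' b : ℕ → ℝ} (h : u.LL a b) (h' : u.LL a' b) (hb : u.ev fun n => 0 ≤ b n) :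
    u.LL (fun n => a n + a' n) b := by
  obtain ⟨κ, hκ, h⟩ := h
  obtain ⟨κ', hκ', h'⟩ := h'
  have hm : 0 < min κ κ' := lt_min hκ hκ'
  have key : ∀ (n : ℕ) (x y μ : ℝ), 1 ≤ n → min κ κ' ≤ μ → 0 ≤ y → (n : ℝ) ^ μ * x ≤ y →
      (n : ℝ) ^ min κ κ' * x ≤ y := by
    intro n x y μ hn h1 h2 h3
    rcases le_total x 0 with h4 | h4
    · exact (mul_nonpos_of_nonneg_of_nonpos (Real.rpow_nonneg (Nat.cast_nonneg n) _) h4).trans h2
    · exact (mul_le_mul_of_nonneg_right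
        (Real.rpow_le_rpow_of_exponent_le (by exact_mod_cast hn) h1) h4).trans h3
  refine ⟨min κ κ' / 2, half_pos hm,
    ((((h.and h').and hb).and (u.ev_ge 1)).and (u.asyA_half hm)).mono fun n hn => ?_⟩
  obtain ⟨⟨⟨⟨h1, h2⟩, h5⟩, h6⟩, h3, h4⟩ := hn
  have k1 := key n _ _ _ h6 (min_le_left _ _) h5 h1
  have k2 := key n _ _ _ h6 (min_le_right _ _) h5 h2
  have k3 := mul_le_mul_of_nonneg_right h3 h5
  refine le_of_mul_le_mul_left (a := (n : ℝ) ^ (min κ κ' / 2)) ?_ (by linarith)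
  rw [← mul_assoc, ← h4, mul_add]
  linarith

theorem UF.LL.mul_le {a b a' b' : ℕ → ℝ} (h : u.LL a b) (h' : u.LE a' b')
    (ha : u.ev fun n => 0 ≤ a n) (ha' : u.ev fun n => 0 ≤ a' n) :
    u.LL (fun n => a n * a' n) fun n => b n * b' n := by
  obtain ⟨κ, hκ, h⟩ := h
  refine ⟨κ / 2, half_pos hκ, (((h.and (h' _ (half_pos hκ))).and (ha.and ha')).and
    (u.asyA_half hκ)).mono fun n hn => ?_⟩
  obtain ⟨⟨⟨h1, h2⟩, h5, h6⟩, h3, h4⟩ := hn
  have k1 := mul_le_mul h1 h2 h6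
    ((mul_nonneg (Real.rpow_nonneg (Nat.cast_nonneg n) κ) h5).trans h1)
  refine le_of_mul_le_mul_left (a := (n : ℝ) ^ (κ / 2)) ?_ (by linarith)
  rw [← mul_assoc, ← h4]
  linarith

theorem UF.LL.ev_le {a b : ℕ → ℝ} (h : u.LL a b) (ha : u.ev fun n => 0 ≤ a n) (C : ℝ) :
    u.ev fun n => C * a n ≤ b n := by
  obtain ⟨κ, hκ, h⟩ := h
  exact ((h.and ha).and (u.ev_pw_ge hκ C)).mono fun n hn =>
    (mul_le_mul_of_nonneg_right hn.2 hn.1.2).trans hn.1.1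

theorem UF.LL.not_le {a b : ℕ → ℝ} (h : u.LL a b) (hb : u.ev fun n => 0 < b n) : ¬ u.LE b a := by
  intro h'
  obtain ⟨κ, hκ, h⟩ := h.trans_le (UF.LE.refl (hb.mono fun _ hn => hn.le))
  obtain ⟨n, ⟨⟨h1, h2⟩, h5⟩, h3, h4⟩ :=
    (((h.and (h' _ (half_pos hκ))).and hb).and (u.asyA_half hκ)).exists
  rw [h4, mul_assoc] at h1
  have := mul_le_mul_of_nonneg_right h3 (h5.le.trans h2)
  linarith

theorem UF.ll_or_le (u : UF) (a b : ℕ → ℝ) : u.LL a b ∨ u.LE b a := by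
  by_cases h : u.LL a b
  · exact Or.inl h
  · exact Or.inr fun κ hκ => (UF.ev_not fun h1 => h ⟨κ, hκ, h1⟩).mono fun _ hn => (not_le.1 hn).le

/-- A sequence strictly below `pw ν` is below some smaller power. -/
theorem UF.LL.exists_pw {a : ℕ → ℝ} {ν : ℝ} (h : u.LL a (pw ν)) :
    ∃ ν' < ν, u.ev fun n => a n ≤ pw ν' n := by
  obtain ⟨κ, hκ, h⟩ := h
  refine ⟨ν - κ, by linarith, (h.and (u.ev_ge 1)).mono fun n hn => ?_⟩
  have h0 : (0 : ℝ) < n := by exact_mod_cast hn.2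
  unfold pw
  rw [Real.rpow_sub h0, le_div_iff₀ (Real.rpow_pos_of_pos h0 κ), mul_comm]
  exact hn.1

theorem UF.le_of_pw {μ ν : ℝ} (h : u.LE (pw μ) (pw ν)) : μ ≤ ν := by
  by_contra hn
  exact (UF.LL.pw_pw u (not_le.1 hn)).not_le (u.ev_pw_pos μ) h

/-- The integer part of a power. -/
theorem UF.floor_pw (u : UF) (μ : ℝ) : u.ev fun n =>
    ((⌊pw μ n⌋₊ : ℕ) : ℝ) ≤ pw μ n ∧ pw μ n ≤ ((⌊pw μ n⌋₊ : ℕ) : ℝ) + 1 :=
  u.ev_of_forall fun n => ⟨Nat.floor_le (pw_nonneg μ n), (Nat.lt_floor_add_one _).le⟩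

end Vale.Agent.P054A
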