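import Vale.Agent.P054A.LocR

/-!
Closure properties of the bidegree bounds.
-/

namespace Vale.Agent.P054A

open MvPolynomial
open scoped Classical

section BD

variable {A : Type} [CommRing A] {σ τ : Type} [Fintype σ] [Fintype τ]

theorem BD.mono {t t' M M' : ℕ} {G : MvPolynomial (σ ⊕ τ) A} (h : BD t M G) (ht : t ≤ t')
    (hM : M ≤ M') : BD t' M' G :=
  fun α hα => ⟨(h α hα).1.trans ht, (h α hα).2.trans hM⟩

theorem bdl_sub {t M : ℕ} {G G' : MvPolynomial (σ ⊕ τ) A} (h : BD t M G)
    (h' : G'.support ⊆ G.support) : BD t M G' := fun α hα => h α (h' hα)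

theorem BD.add {t M : ℕ} {G G' : MvPolynomial (σ ⊕ τ) A} (h : BD t M G) (h' : BD t M G') :
    BD t M (G + G') := fun α hα =>
  (Finset.mem_union.1 (support_add hα)).elim (h α) (h' α)

theorem BD.neg {t M : ℕ} {G : MvPolynomial (σ ⊕ τ) A} (h : BD t M G) : BD t M (-G) :=
  bdl_sub h (by rw [support_neg])

theorem BD.sum {α : Type} {t M : ℕ} (s : Finset α) {G : α → MvPolynomial (σ ⊕ τ) A}
    (h : ∀ a ∈ s, BD t M (G a)) : BD t M (∑ a ∈ s, G a) := by
  intro β hβ
  obtain ⟨a, ha, h1⟩ := Finset.mem_biUnion.1 (support_sum hβ)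
  exact h a ha β h1

theorem BD.mul {t t' M M' : ℕ} {G G' : MvPolynomial (σ ⊕ τ) A} (h : BD t M G)
    (h' : BD t' M' G') : BD (t + t') (M + M') (G * G') := by
  intro β hβ
  obtain ⟨a, ha, b, hb, rfl⟩ := Finset.mem_add.1 (support_mul _ _ hβ)
  simp only [Finsupp.add_apply, Finset.sum_add_distrib]
  exact ⟨add_le_add (h a ha).1 (h' b hb).1, add_le_add (h a ha).2 (h' b hb).2⟩

theorem BD.pderiv {t M : ℕ} {G : MvPolynomial (σ ⊕ τ) A} (h : BD t M G) (l : σ ⊕ τ) :
    BD t M (MvPolynomial.pderiv l G) := by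
  intro β hβ
  rw [mem_support_iff, coeff_pderiv] at hβ
  have h1 := h _ (mem_support_iff.2 (left_ne_zero_of_mul hβ))
  simp only [Finsupp.add_apply, Finset.sum_add_distrib] at h1
  exact ⟨le_of_add_le_left h1.1, le_of_add_le_left h1.2⟩

theorem BD.of_totalDegree {t : ℕ} {G : MvPolynomial (σ ⊕ τ) A} (h : G.totalDegree ≤ t) :
    BD t t G := by
  intro β hβ
  have h1 := (le_totalDegree hβ).trans h
  rw [Finsupp.sum_fintype _ _ fun _ => rfl, Fintype.sum_sum_type] at h1
  exact ⟨le_of_add_le_right h1, le_of_add_le_left h1⟩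

theorem bdl_prod {κ : Type} {t M : ℕ} (s : Finset κ) {G : κ → MvPolynomial (σ ⊕ τ) A}
    (h : ∀ i, BD t M (G i)) : BD (s.card * t) (s.card * M) (∏ i ∈ s, G i) := by
  induction s using Finset.induction_on with
  | empty =>
    rw [Finset.prod_empty, Finset.card_empty, zero_mul, zero_mul]
    exact BD.of_totalDegree totalDegree_one.le
  | insert a s ha ih =>
    rw [Finset.prod_insert ha, Finset.card_insert_of_notMem ha]
    exact ((h a).mul ih).mono (le_of_eq (by ring)) (le_of_eq (by ring))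

theorem BD.minor {κ : Type} [Fintype κ] [DecidableEq κ] {t M : ℕ}
    {G : κ → MvPolynomial (σ ⊕ τ) A} (h : ∀ i, BD t M (G i)) (J : κ → σ ⊕ τ) :
    BD (Fintype.card κ * t) (Fintype.card κ * M) (minor G J) := by
  rw [Vale.Agent.P054A.minor, Matrix.det_apply]
  refine BD.sum _ fun π _ => ?_
  have h1 := bdl_prod Finset.univ
    (G := fun i => MvPolynomial.pderiv (J i) (G (π i))) fun i => (h (π i)).pderiv (J i)
  rcases Int.units_eq_one_or (Equiv.Perm.sign π) with h2 | h2 <;> rw [h2]
  · rw [one_smul]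
    exact h1
  · rw [Units.neg_smul, one_smul]
    exact h1.neg

theorem BD.rename_inl {M : ℕ} {g : MvPolynomial σ A} (h : g.totalDegree ≤ M) :
    BD 0 M (rename Sum.inl g : MvPolynomial (σ ⊕ τ) A) := by
  intro β hβ
  rw [support_rename_of_injective Sum.inl_injective] at hβ
  obtain ⟨a, ha, rfl⟩ := Finset.mem_image.1 hβ
  have h1 := (le_totalDegree ha).trans h
  rw [Finsupp.sum_fintype _ _ fun _ => rfl] at h1
  constructor
  · refine le_of_eq (Finset.sum_eq_zero fun i _ => ?_)
    exact Finsupp.mapDomain_of_notMem_range _ _ (by simp)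
  · refine le_trans (le_of_eq (Finset.sum_congr rfl fun i _ => ?_)) h1
    exact Finsupp.mapDomain_apply Sum.inl_injective _ _

/-- Substituting constants for the second group and affine forms for the first. -/
theorem BD.totalDegree_aeval {σ' : Type} {t M : ℕ} {G : MvPolynomial (σ ⊕ τ) A} (h : BD t M G)
    (a : σ → MvPolynomial σ' A) (ha : ∀ i, (a i).totalDegree ≤ 1) (z : τ → A) :
    (aeval (Sum.elim a fun l => (C (z l) : MvPolynomial σ' A)) G).totalDegree ≤ M := by
  rw [G.as_sum, map_sum]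
  refine (totalDegree_finsetSum _ _).trans (Finset.sup_le fun β hβ => ?_)
  rw [aeval_monomial, Finsupp.prod_fintype _ _ fun _ => pow_zero _, algebraMap_eq]
  refine (totalDegree_mul _ _).trans ?_
  rw [totalDegree_C, zero_add]
  refine (totalDegree_finsetProd _ _).trans ?_
  rw [Fintype.sum_sum_type]
  refine le_trans (add_le_add (Finset.sum_le_sum fun i _ => ?_)
    (le_of_eq (Finset.sum_eq_zero fun i _ => ?_))) (le_trans (add_zero _).le (h β hβ).2)
  · refine (totalDegree_pow _ _).trans ?_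
    exact (Nat.mul_le_mul_left _ (ha i)).trans (mul_one _).le
  · rw [Sum.elim_inr, ← map_pow, totalDegree_C]

end BD

end Vale.Agent.P054A
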