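import Vale.Agent.P054A.BezA

/-!
The Bezoutian: separation of simple zeros of a square system.
-/

namespace Vale.Agent.P054A

open MvPolynomial
open scoped Classical

variable {κ : Type} [Fintype κ] [DecidableEq κ]

/-- A simple zero of a square system is algebraic of bounded degree. -/
theorem finrank_adjoin_le {K L : Type} [Field K] [Field L] [Algebra K L]
    (f : κ → MvPolynomial κ K) {t : ℕ} (hs : ∀ i, (f i).totalDegree ≤ t) (ξ : κ → L)
    (h0 : ∀ i, aeval ξ (f i) = 0) (hJ : aeval ξ (minor f id) ≠ 0) :
    FiniteDimensional K (IntermediateField.adjoin K (Set.range ξ)) ∧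
      Module.finrank K (IntermediateField.adjoin K (Set.range ξ))
        ≤ (Fintype.card κ * t + 1) ^ Fintype.card κ := by
  obtain ⟨Δ, hΔ, hB⟩ := exists_bez f (fun _ => t) fun i => (hs i).trans (Nat.le_succ t)
  let i₁ : L →ₐ[K] TensorProduct K L L := Algebra.TensorProduct.includeLeft
  let i₂ : L →ₐ[K] TensorProduct K L L := Algebra.TensorProduct.includeRight
  have e₁ : ∀ p, aeval (fun l => i₁ (ξ l)) p = i₁ (aeval ξ p) := fun p =>
    (comp_aeval_apply ..).symm
  have e₂ : ∀ p, aeval (fun l => i₂ (ξ l)) p = i₂ (aeval ξ p) := fun p =>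
    (comp_aeval_apply ..).symm
  set D := eval₂ (aeval fun l => i₂ (ξ l)).toRingHom (fun l => i₁ (ξ l)) Δ with hD
  have h1 := (hB _ (fun l => i₁ (ξ l)) fun l => i₂ (ξ l)).1 fun i => by
    rw [e₁, e₂, h0, map_zero, map_zero]
  have h2 : ∀ p : MvPolynomial κ K, D * i₁ (aeval ξ p) = D * i₂ (aeval ξ p) := fun p => by
    induction p using MvPolynomial.induction_on with
    | C a => rw [aeval_C, AlgHom.commutes, AlgHom.commutes]
    | add p q hp hq => simp only [map_add, mul_add, hp, hq]
    | mul_X p l hp =>
      have := h1 l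
      rw [← hD] at this
      simp only [map_mul, aeval_X]
      linear_combination i₁ (ξ l) * hp + i₂ (aeval ξ p) * this
  have h3 : ∀ a, D * i₂ a = ∑ α ∈ Δ.support,
      (α.prod fun l e => ξ l ^ e) ⊗ₜ[K] (aeval ξ (coeff α Δ) * a) := fun a => by
    rw [hD, eval₂_eq, Finset.sum_mul]
    refine Finset.sum_congr rfl fun α _ => ?_
    have : ∏ l ∈ α.support, i₁ (ξ l) ^ α l = i₁ (α.prod fun l e => ξ l ^ e) := by
      simp only [Finsupp.prod, map_prod, map_pow]
    rw [this]
    change aeval _ _ * _ * _ = _
    rw [e₂]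
    simp only [i₁, i₂, Algebra.TensorProduct.includeLeft_apply,
      Algebra.TensorProduct.includeRight_apply, Algebra.TensorProduct.tmul_mul_tmul, one_mul,
      mul_one]
  have h4 : D ≠ 0 := fun h => hJ (by
    have := congrArg (Algebra.TensorProduct.lmul' K (S := L)) (h3 1)
    rw [h, zero_mul, map_zero, map_sum] at this
    rw [← (hB L ξ ξ).2, eval₂_eq, this]
    refine Finset.sum_congr rfl fun α _ => ?_
    rw [Algebra.TensorProduct.lmul'_apply_tmul, mul_one, mul_comm]
    rfl)
  let b := Algebra.TensorProduct.basis L (Module.Basis.ofVectorSpace K L)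
  obtain ⟨i, hi⟩ : ∃ i, b.repr D i ≠ 0 := by
    by_contra! h
    exact h4 (b.repr.map_eq_zero_iff.1 (Finsupp.ext h))
  let S : Finset L := Δ.support.image fun α => α.prod fun l e => ξ l ^ e
  let U := Submodule.span K (S : Set L)
  have h5 : ∀ x ∈ Algebra.adjoin K (Set.range ξ), x * b.repr D i ∈ U := fun x hx => by
    rw [Algebra.adjoin_range_eq_range_aeval] at hx
    obtain ⟨p, rfl⟩ := hx
    have e : D * i₁ (aeval ξ p) = aeval ξ p • D := by
      rw [mul_comm, Algebra.smul_def]; rfl
    have := congrArg (fun z => b.repr z i) (h2 p)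
    simp only [e, map_smul, Finsupp.smul_apply, smul_eq_mul, h3, map_sum,
      Finsupp.finsetSum_apply] at this
    change aeval ξ p * _ ∈ _
    rw [this]
    refine Submodule.sum_mem _ fun α hα => ?_
    rw [Algebra.TensorProduct.basis_repr_tmul, Finsupp.smul_apply, Finsupp.mapRange_apply,
      smul_eq_mul, mul_comm, ← Algebra.smul_def]
    exact Submodule.smul_mem _ _ (Submodule.subset_span (Finset.mem_image_of_mem _ hα))
  have h6 : ∀ T : Subalgebra K L, T ≤ Algebra.adjoin K (Set.range ξ) →
      FiniteDimensional K T ∧ Module.finrank K T ≤ Module.finrank K U := fun T hT => by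
    let φ : T →ₗ[K] U := LinearMap.codRestrict U
      (LinearMap.mulRight K (b.repr D i) ∘ₗ T.val.toLinearMap) fun x => h5 _ (hT x.2)
    have hφ : Function.Injective φ := fun x y h =>
      Subtype.ext (mul_right_cancel₀ hi (congrArg Subtype.val h))
    exact ⟨Module.Finite.of_injective φ hφ, LinearMap.finrank_le_finrank_of_injective hφ⟩
  have h7 := h6 _ (IntermediateField.adjoin_toSubalgebra_of_isAlgebraic (S := Set.range ξ)
    fun x hx => by
      have := (h6 _ le_rfl).1
      exact ((Algebra.IsIntegral.isIntegral (R := K) (⟨x, Algebra.subset_adjoin hx⟩ :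
        Algebra.adjoin K (Set.range ξ))).map (Subalgebra.val _)).isAlgebraic).le
  refine ⟨h7.1, h7.2.trans ((finrank_span_finset_le_card S).trans (Finset.card_image_le.trans ?_))⟩
  have := Finset.card_le_card_of_injOn (s := Δ.support) (t := Fintype.piFinset fun _ : κ =>
    Finset.range (Fintype.card κ * t + 1)) (fun α => (α : κ → ℕ)) (fun α hα => by
      refine Finset.mem_coe.2 (Fintype.mem_piFinset.2 fun l => Finset.mem_range.2
        (Nat.lt_succ_of_le (((monomial_le_degreeOf l hα).trans
          (degreeOf_le_totalDegree _ _)).trans (hΔ.trans (le_of_eq ?_)))))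
      simp) DFunLike.coe_injective.injOn
  simpa using this

/-- The same for a system with free coordinates in a subfield. -/
theorem finrank_adjoin_le' {K L σ : Type} [Field K] [Field L] [Algebra K L] [Fintype σ]
    (f : κ → MvPolynomial σ K) (J : κ → σ) {t : ℕ}
    (hs : ∀ i, ∀ α ∈ (f i).support, ∑ l, α (J l) ≤ t) (ξ : σ → L)
    (h0 : ∀ i, aeval ξ (f i) = 0) (hJ : aeval ξ (minor f J) ≠ 0) (F : IntermediateField K L)
    (hF : ∀ l, l ∉ Set.range J → ξ l ∈ F) :
    FiniteDimensional F (IntermediateField.adjoin F (Set.range ξ)) ∧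
      Module.finrank F (IntermediateField.adjoin F (Set.range ξ))
        ≤ (Fintype.card κ * t + 1) ^ Fintype.card κ := by
  have hJi : Function.Injective J := inj_of_minor_ne (f := f) fun h => hJ (by rw [h, map_zero])
  let s : σ → MvPolynomial κ F := fun l =>
    if h : l ∈ Set.range J then X h.choose else C ⟨ξ l, hF l h⟩
  have hsJ : ∀ k, s (J k) = X k := fun k => by
    have h : J k ∈ Set.range J := ⟨k, rfl⟩
    simp only [s]
    rw [dif_pos h, hJi h.choose_spec]
  have hsF : ∀ l (h : l ∉ Set.range J), s l = C ⟨ξ l, hF l h⟩ := fun l h => dif_neg h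
  have h1 : ∀ p : MvPolynomial σ K, aeval (fun k => ξ (J k)) (aeval s p) = aeval ξ p := fun p => by
    have : ((aeval fun k => ξ (J k)).restrictScalars K).comp (aeval s) = aeval ξ := by
      refine algHom_ext fun l => ?_
      by_cases h : l ∈ Set.range J
      · obtain ⟨k, rfl⟩ := h
        simp [hsJ]
      · simp [hsF l h]
    exact DFunLike.congr_fun this p
  have h2 : ∀ k (p : MvPolynomial σ K), pderiv k (aeval s p) = aeval s (pderiv (J k) p) := by
    intro k p
    induction p using MvPolynomial.induction_on with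
    | C a => rw [aeval_C, pderiv_C, map_zero, MvPolynomial.algebraMap_apply, pderiv_C]
    | add p q hp hq => simp only [map_add, hp, hq]
    | mul_X p l hp =>
      have : pderiv k (s l) = aeval s (pderiv (J k) (X l : MvPolynomial σ K)) := by
        by_cases h : l ∈ Set.range J
        · obtain ⟨k', rfl⟩ := h
          rw [hsJ, pderiv_X, pderiv_X, Pi.single_apply, Pi.single_apply]
          simp [hJi.eq_iff]
        · rw [hsF l h, pderiv_C, pderiv_X, Pi.single_eq_of_ne fun e => h ⟨k, e.symm⟩, map_zero]
      simp only [map_mul, aeval_X, pderiv_mul, map_add, hp, this]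
  have h3 : minor (fun i => aeval s (f i)) id = aeval s (minor f J) := by
    rw [minor, minor, AlgHom.map_det]
    congr 1
    ext i k : 2
    simp [h2]
  have h4 : ∀ i, (aeval s (f i)).totalDegree ≤ t := fun i => by
    rw [aeval_def, eval₂_eq']
    refine totalDegree_finsetSum_le fun α hα => (totalDegree_mul _ _).trans ?_
    rw [MvPolynomial.algebraMap_apply, totalDegree_C, zero_add]
    refine (totalDegree_finsetProd _ _).trans (le_trans ?_ (hs i α hα))
    rw [← Finset.sum_subset (Finset.subset_univ (Finset.univ.image J)) fun l _ hl => ?_,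
      Finset.sum_image hJi.injOn]
    · exact Finset.sum_le_sum fun k _ => (totalDegree_pow _ _).trans (by
        rw [hsJ, totalDegree_X, mul_one])
    · rw [hsF l (by simpa using hl), ← map_pow, totalDegree_C]
  have h5 : IntermediateField.adjoin F (Set.range ξ) =
      IntermediateField.adjoin F (Set.range fun k => ξ (J k)) := by
    refine le_antisymm (IntermediateField.adjoin_le_iff.2 ?_)
      (IntermediateField.adjoin.mono _ _ _ (Set.range_comp_subset_range J ξ))
    rintro _ ⟨l, rfl⟩
    by_cases h : l ∈ Set.range J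
    · obtain ⟨k, rfl⟩ := h
      exact IntermediateField.subset_adjoin _ _ ⟨k, rfl⟩
    · exact IntermediateField.algebraMap_mem _ (⟨ξ l, hF l h⟩ : F)
  rw [h5]
  exact finrank_adjoin_le _ h4 _ (fun i => by rw [h1, h0]) (by rwa [h3, h1])

end Vale.Agent.P054A
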