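import Vale.Agent.P054A.LocA

/-!
The Bezoutian: separation of simple zeros of a square system.
-/

namespace Vale.Agent.P054A

open MvPolynomial
open scoped Classical

variable {κ : Type} [Fintype κ] [DecidableEq κ]

/-- Divided differences of a polynomial. -/
def DivD {A : Type} [CommRing A] (f : MvPolynomial κ A)
    (θ : κ → MvPolynomial κ (MvPolynomial κ A)) : Prop :=
  MvPolynomial.map C f - C f = ∑ l, θ l * (X l - C (X l)) ∧ ∀ l, eval X (θ l) = pderiv l f

theorem divD_monomial {A : Type} [CommRing A] (a : A) (d : ℕ) : ∀ m : κ →₀ ℕ, ∑ l, m l = d →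
    ∃ θ, DivD (monomial m a) θ ∧ (∀ l, (θ l).totalDegree ≤ d - 1) ∧ (d = 0 → θ = 0) := by
  induction d with
  | zero =>
    intro m hm
    have h0 : m = 0 := Finsupp.ext fun l => (Finset.sum_eq_zero_iff.1 hm) l (Finset.mem_univ _)
    subst h0
    refine ⟨0, ⟨?_, fun l => ?_⟩, fun l => by simp, fun _ => rfl⟩
    · rw [← C_apply]
      simp
    · rw [← C_apply]
      simp
  | succ d ih =>
    intro m hm
    obtain ⟨n, -, hn⟩ := Finset.exists_ne_zero_of_sum_ne_zero (by omega : ∑ l, m l ≠ 0)
    obtain ⟨m', rfl⟩ : ∃ m', m = m' + Finsupp.single n 1 :=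
      ⟨m - Finsupp.single n 1, (tsub_add_cancel_of_le (Finsupp.single_le_iff.2 (by omega))).symm⟩
    have hm' : ∑ l, m' l = d := by
      simp only [Finsupp.add_apply, Finset.sum_add_distrib] at hm
      rw [Finsupp.univ_sum_single_apply] at hm
      omega
    obtain ⟨θ, ⟨h1, h2⟩, h3, h4⟩ := ih m' hm'
    rw [monomial_add_single, pow_one]
    set f : MvPolynomial κ A := monomial m' a with hf
    refine ⟨fun l => θ l * X n + if l = n then C f else 0, ⟨?_, fun l => ?_⟩, fun l => ?_,
      fun h => by omega⟩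
    · simp only [add_mul, Finset.sum_add_distrib, ite_mul, zero_mul, Finset.sum_ite_eq',
        Finset.mem_univ, if_true, map_mul, map_X]
      have e : ∑ l, θ l * X n * (X l - C (X l)) = (MvPolynomial.map C f - C f) * X n := by
        rw [h1, Finset.sum_mul]
        exact Finset.sum_congr rfl fun l _ => by ring
      rw [e]
      ring
    · rw [map_add, map_mul, h2, eval_X, Derivation.leibniz, pderiv_X, smul_eq_mul, smul_eq_mul]
      by_cases h : l = n
      · subst h
        simp
        ring
      · simp [h, Ne.symm h]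
        ring
    · refine (totalDegree_add _ _).trans (max_le ?_ ?_)
      · rcases Nat.eq_zero_or_pos d with h | h
        · rw [h4 h]
          simp
        · refine (totalDegree_mul _ _).trans ?_
          have h5 := h3 l
          have h6 : (X n : MvPolynomial κ (MvPolynomial κ A)).totalDegree ≤ 1 := by
            rw [X]
            refine (totalDegree_monomial_le _ _).trans ?_
            simp
          omega
      · split_ifs <;> simp

theorem exists_divD {A : Type} [CommRing A] (f : MvPolynomial κ A) {s : ℕ}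
    (hs : f.totalDegree ≤ s + 1) : ∃ θ, DivD f θ ∧ ∀ l, (θ l).totalDegree ≤ s := by
  choose θ h1 h2 _ using fun m : κ →₀ ℕ => divD_monomial (coeff m f) _ m rfl
  refine ⟨fun l => ∑ m ∈ f.support, θ m l, ⟨?_, fun l => ?_⟩, fun l => ?_⟩
  · conv_lhs => rw [f.as_sum]
    rw [map_sum, map_sum, ← Finset.sum_sub_distrib]
    simp only [Finset.sum_mul]
    rw [Finset.sum_comm]
    exact Finset.sum_congr rfl fun m _ => (h1 m).1
  · conv_rhs => rw [f.as_sum]
    rw [map_sum, map_sum]
    exact Finset.sum_congr rfl fun m _ => (h1 m).2 l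
  · refine totalDegree_finsetSum_le fun m hm => (h2 m l).trans ?_
    have h := le_totalDegree hm
    rw [Finsupp.sum_fintype _ _ fun _ => rfl] at h
    omega

/-- The Bezoutian of a square system; the outer variables are the first point. -/
theorem exists_bez {A : Type} [CommRing A] (f : κ → MvPolynomial κ A) (s : κ → ℕ)
    (hs : ∀ i, (f i).totalDegree ≤ s i + 1) :
    ∃ Δ : MvPolynomial κ (MvPolynomial κ A), Δ.totalDegree ≤ ∑ i, s i ∧
      ∀ (B : Type) [CommRing B] [Algebra A B] (ξ η : κ → B),
        ((∀ i, aeval ξ (f i) = aeval η (f i)) →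
          ∀ l, eval₂ (aeval η).toRingHom ξ Δ * (ξ l - η l) = 0) ∧
        eval₂ (aeval ξ).toRingHom ξ Δ = aeval ξ (minor f id) := by
  choose θ h1 h2 using fun i => exists_divD (f i) (hs i)
  refine ⟨(Matrix.of θ).det, ?_, fun B _ _ ξ η => ⟨fun h l => ?_, ?_⟩⟩
  · rw [Matrix.det_apply]
    refine totalDegree_finsetSum_le fun σ _ => ?_
    refine (totalDegree_smul_le _ _).trans ((totalDegree_finsetProd _ _).trans ?_)
    rw [← Equiv.sum_comp σ s]
    exact Finset.sum_le_sum fun i _ => h2 _ _
  · set φ : MvPolynomial κ (MvPolynomial κ A) →+* B := eval₂Hom (aeval η).toRingHom ξ with hφ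
    have e1 : ∀ g : MvPolynomial κ A, φ (MvPolynomial.map C g) = aeval ξ g := fun g => by
      rw [hφ, coe_eval₂Hom, eval₂_map, aeval_def]
      congr 1
      ext a
      simp
    have e2 : ∀ g : MvPolynomial κ A, φ (C g) = aeval η g := fun g => by simp [hφ]
    have e3 : (φ.mapMatrix (Matrix.of θ)).mulVec (ξ - η) = 0 := by
      funext i
      have e := congrArg φ (h1 i).1
      rw [map_sub, e1, e2, h i, sub_self, map_sum] at e
      rw [Pi.zero_apply, e]
      refine Finset.sum_congr rfl fun l _ => ?_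
      rw [map_mul, map_sub, e2]
      simp [hφ]
    have e4 := congrArg (φ.mapMatrix (Matrix.of θ)).adjugate.mulVec e3
    rw [Matrix.mulVec_mulVec, Matrix.adjugate_mul, Matrix.mulVec_zero, Matrix.smul_mulVec,
      Matrix.one_mulVec, ← RingHom.map_det] at e4
    exact congrFun e4 l
  · have e : ∀ g : MvPolynomial κ (MvPolynomial κ A),
        eval₂Hom (aeval ξ).toRingHom ξ g = aeval ξ (eval X g) := fun g => by
      induction g using MvPolynomial.induction_on with
      | C a => simp
      | add p q hp hq => rw [map_add, map_add, map_add, hp, hq]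
      | mul_X p n hp => rw [map_mul, map_mul, map_mul, hp, eval₂Hom_X', eval_X, aeval_X]
    rw [← coe_eval₂Hom, e, RingHom.map_det, minor]
    congr 2
    exact Matrix.ext fun i l => (h1 i).2 l

/-- Distinct simple zeros are separated by monomials of low degree. -/
theorem sep_monomials {Ω : Type} [Field Ω] (f : κ → MvPolynomial κ Ω) (s : κ → ℕ)
    (hs : ∀ i, (f i).totalDegree ≤ s i + 1) {α : Type} [Fintype α] (ξ : α → κ → Ω)
    (hξ : Function.Injective ξ) (h : ∀ a, Simple f id (ξ a)) :
    ∃ β : α → κ →₀ ℕ, (∀ a, ∑ l, β a l ≤ ∑ i, s i) ∧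
      ∀ c : α → Ω, (∀ a, ∑ a', c a' * ∏ l, ξ a l ^ β a' l = 0) → c = 0 := by
  obtain ⟨Δ, hΔ, hb⟩ := exists_bez f s hs
  set v : {m : κ →₀ ℕ // ∑ l, m l ≤ ∑ i, s i} → α → Ω := fun m a => ∏ l, ξ a l ^ m.1 l with hv
  have hp : ∀ p : MvPolynomial κ Ω, p.totalDegree ≤ ∑ i, s i →
      (fun a => eval (ξ a) p) ∈ Submodule.span Ω (Set.range v) := fun p hp => by
    have e : (fun a => eval (ξ a) p) = ∑ m ∈ p.support, coeff m p • fun a => ∏ l, ξ a l ^ m l := by
      funext a
      rw [eval_eq', Finset.sum_apply]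
      rfl
    rw [e]
    refine Submodule.sum_mem _ fun m hm => Submodule.smul_mem _ _ (Submodule.subset_span ?_)
    have h1 := le_totalDegree hm
    rw [Finsupp.sum_fintype _ _ fun _ => rfl] at h1
    exact ⟨⟨m, h1.trans hp⟩, rfl⟩
  have htop : Submodule.span Ω (Set.range v) = ⊤ := by
    rw [eq_top_iff, ← (Pi.basisFun Ω α).span_eq, Submodule.span_le]
    rintro _ ⟨a₀, rfl⟩
    have h1 := hp (MvPolynomial.map (aeval (ξ a₀)).toRingHom Δ)
      ((Finset.sup_mono (support_map_subset _ _)).trans hΔ)
    have h2 : eval₂ (aeval (ξ a₀)).toRingHom (ξ a₀) Δ ≠ 0 := by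
      rw [(hb Ω (ξ a₀) (ξ a₀)).2]
      exact (h a₀).2
    have e : Pi.basisFun Ω α a₀ = (eval₂ (aeval (ξ a₀)).toRingHom (ξ a₀) Δ)⁻¹ •
        fun a => eval (ξ a) (MvPolynomial.map (aeval (ξ a₀)).toRingHom Δ) := by
      funext a
      rw [Pi.basisFun_apply, Pi.smul_apply, eval_map, smul_eq_mul]
      by_cases ha : a = a₀
      · subst ha
        rw [Pi.single_eq_same, inv_mul_cancel₀ h2]
      · obtain ⟨l, hl⟩ := Function.ne_iff.1 (hξ.ne ha)
        have h3 := (hb Ω (ξ a) (ξ a₀)).1
          (fun i => ((h a).1 i).trans ((h a₀).1 i).symm) l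
        rw [Pi.single_eq_of_ne ha, (mul_eq_zero.1 h3).resolve_right (sub_ne_zero.2 hl), mul_zero]
    rw [e]
    exact Submodule.smul_mem _ _ h1
  obtain ⟨ι, j, -, h1, h2⟩ := exists_linearIndependent' Ω v
  let b : Module.Basis ι Ω (α → Ω) := Module.Basis.mk h2 (by rw [h1, htop])
  let e : α ≃ ι := (Pi.basisFun Ω α).indexEquiv b
  refine ⟨fun a => (j (e a)).1, fun a => (j (e a)).2, fun c hc => ?_⟩
  have h3 := Fintype.linearIndependent_iff.1 (h2.comp e e.injective) c (by
    funext a
    rw [Finset.sum_apply]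
    exact hc a)
  exact funext h3

/-- Weak Bezout bound. -/
theorem card_simple_le {Ω : Type} [Field Ω] (f : κ → MvPolynomial κ Ω) {t : ℕ}
    (hs : ∀ i, (f i).totalDegree ≤ t) {α : Type} [Fintype α] (ξ : α → κ → Ω)
    (hξ : Function.Injective ξ) (h : ∀ a, Simple f id (ξ a)) :
    Fintype.card α ≤ (Fintype.card κ * t + 1) ^ Fintype.card κ := by
  obtain ⟨β, h1, h2⟩ := sep_monomials f (fun _ => t) (fun i => (hs i).trans (Nat.le_succ _)) ξ hξ h
  have hb : ∀ a l, β a l < Fintype.card κ * t + 1 := fun a l => by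
    have h3 := (Finset.single_le_sum (f := fun l => β a l) (fun _ _ => Nat.zero_le _)
      (Finset.mem_univ l)).trans (h1 a)
    rw [Finset.sum_const, Finset.card_univ, smul_eq_mul] at h3
    omega
  have hi : Function.Injective fun a l => (⟨β a l, hb a l⟩ : Fin (Fintype.card κ * t + 1)) := by
    intro a a' e
    by_contra hn
    have e' : β a = β a' := Finsupp.ext fun l => congrArg Fin.val (congrFun e l)
    have h3 := h2 (Pi.single a 1 - Pi.single a' 1) fun x => by
      simp [sub_mul, Finset.sum_sub_distrib, Pi.single_apply, e']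
    have h4 := congrFun h3 a
    simp [hn] at h4
  simpa using Fintype.card_le_of_injective _ hi

end Vale.Agent.P054A
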