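import Vale.Agent.P054A.LocB

/-!
Rational solutions of linear systems and clearing of denominators.
-/

namespace Vale.Agent.P054A

open MvPolynomial Sum
open scoped Classical

theorem clr_det_deg {τ β : Type} [Fintype β] (N : Matrix β β (MvPolynomial τ ℂ))
    (h : ∀ i j, (N i j).totalDegree ≤ 1) : N.det.totalDegree ≤ Fintype.card β := by
  rw [Matrix.det_apply']
  refine totalDegree_finsetSum_le fun σ _ => ?_
  refine (totalDegree_mul _ _).trans ?_
  have h0 : ((Equiv.Perm.sign σ : ℤ) : MvPolynomial τ ℂ).totalDegree = 0 := by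
    rw [← map_intCast (C : ℂ →+* MvPolynomial τ ℂ)]; exact totalDegree_C _
  rw [h0, zero_add]
  refine (totalDegree_finsetProd _ _).trans ?_
  refine (Finset.sum_le_sum fun i _ => h (σ i) i).trans ?_
  simp

theorem clr_left {α β : Type} [Fintype α] [Fintype β] (N : Matrix α β ℂ)
    (h : ∀ w : β → ℂ, N.mulVec w = 0 → w = 0) : ∃ B : Matrix β α ℂ, B * N = 1 := by
  have hk : LinearMap.ker (Matrix.toLin' N) = ⊥ := by
    rw [LinearMap.ker_eq_bot']
    intro w hw
    exact h w (by simpa using hw)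
  obtain ⟨g, hg⟩ := LinearMap.exists_leftInverse_of_injective _ hk
  refine ⟨LinearMap.toMatrix' g, ?_⟩
  have := congrArg LinearMap.toMatrix' hg
  rwa [LinearMap.toMatrix'_comp, LinearMap.toMatrix'_toLin', LinearMap.toMatrix'_id] at this

theorem clr_aeval {τ β : Type} [Fintype β] (Δ : MvPolynomial τ ℂ) (Z : β → MvPolynomial τ ℂ)
    (g : MvPolynomial β ℂ) {M : ℕ} (hg : g.totalDegree ≤ M) (L : Type) [CommRing L] [Algebra ℂ L]
    (p : τ → L) (z : β → L) (h : ∀ l, aeval p (Z l) = aeval p Δ * z l) :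
    aeval p (∑ a ∈ g.support, C (coeff a g) * Δ ^ (M - ∑ l, a l) * ∏ l, Z l ^ a l) =
      aeval p Δ ^ M * aeval z g := by
  conv_rhs => rw [g.as_sum]
  rw [map_sum, map_sum, Finset.mul_sum]
  refine Finset.sum_congr rfl fun a ha => ?_
  have h1 : ∑ l, a l ≤ M := by
    refine le_trans ?_ ((le_totalDegree ha).trans hg)
    rw [Finsupp.sum_fintype _ _ (fun _ => rfl)]
  rw [aeval_monomial, Finsupp.prod_fintype _ _ (fun _ => pow_zero _)]
  simp only [map_mul, map_pow, map_prod, h, mul_pow, Finset.prod_mul_distrib,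
    Finset.prod_pow_eq_pow_sum, aeval_C]
  obtain ⟨k, rfl⟩ := Nat.exists_eq_add_of_le h1
  rw [Nat.add_sub_cancel_left, pow_add]
  ring

/-- Unique solutions of linear systems depending affinely on parameters are rational. -/
theorem exists_rat {τ α β γ : Type} [Fintype α] [Fintype β] (s : Finset γ)
    (A : α → β → MvPolynomial τ ℂ) (hA : ∀ i l, (A i l).totalDegree ≤ 1) (c : α → ℂ)
    (p : γ → τ → ℂ) (z : γ → β → ℂ) (hz : ∀ e ∈ s, ∀ i, ∑ l, eval (p e) (A i l) * z e l = c i)
    (hu : ∀ e ∈ s, ∀ w : β → ℂ, (∀ i, ∑ l, eval (p e) (A i l) * w l = 0) → w = 0) :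
    ∃ (Δ : MvPolynomial τ ℂ) (Z : β → MvPolynomial τ ℂ), Δ.totalDegree ≤ Fintype.card β ∧
      (∀ l, (Z l).totalDegree ≤ Fintype.card β) ∧
      ∀ e ∈ s, eval (p e) Δ ≠ 0 ∧ ∀ l, eval (p e) (Z l) = eval (p e) Δ * z e l := by
  let N : γ → Matrix α β ℂ := fun e => Matrix.of fun i l => eval (p e) (A i l)
  let Xm : Matrix β α (MvPolynomial (β × α) ℂ) := Matrix.of fun l i => X (l, i)
  let Y : γ → Matrix α β (MvPolynomial (β × α) ℂ) := fun e => (N e).map C
  let XY : γ → Matrix β β (MvPolynomial (β × α) ℂ) := fun e => Xm * Y e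
  let F : γ → MvPolynomial (β × α) ℂ := fun e => (XY e).det
  have hF : ∀ e (lam : β × α → ℂ),
      eval lam (F e) = (Matrix.of (fun l i => lam (l, i)) * N e).det := by
    intro e lam
    simp only [F]
    rw [RingHom.map_det]
    congr 1
    ext l l'
    simp [XY, Y, Xm, Matrix.mul_apply]
  have hF0 : ∀ e ∈ s, F e ≠ 0 := by
    intro e he h0
    obtain ⟨B, hB⟩ := clr_left (N e) fun w hw => hu e he w fun i => by
      simpa [N, Matrix.mulVec, dotProduct] using congrFun hw i
    have h1 := hF e fun q => B q.1 q.2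
    have h2 : (Matrix.of fun l i => B l i) = B := rfl
    rw [h0, map_zero] at h1
    simp only [h2, hB, Matrix.det_one] at h1
    exact zero_ne_one h1
  obtain ⟨lam, hlam⟩ := exists_common_ne s F hF0
  let Ξ : Matrix β α ℂ := Matrix.of fun l i => lam (l, i)
  let Mx : Matrix β β (MvPolynomial τ ℂ) := Matrix.of fun l l' => ∑ i, C (Ξ l i) * A i l'
  let b : β → MvPolynomial τ ℂ := fun l => C (Ξ.mulVec c l)
  have hMx : ∀ l l', (Mx l l').totalDegree ≤ 1 := fun l l' =>
    totalDegree_finsetSum_le fun i _ => (totalDegree_mul _ _).trans (by simpa using hA i l')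
  have hev : ∀ e, (eval (p e)).mapMatrix Mx = Ξ * N e := by
    intro e
    ext l l'
    simp [Mx, N, Matrix.mul_apply]
  refine ⟨Mx.det, fun l => (Mx.updateCol l b).det, clr_det_deg _ hMx,
    fun l => clr_det_deg _ fun i j => ?_, fun e he => ⟨?_, fun l => ?_⟩⟩
  · rw [Matrix.updateCol_apply]
    split_ifs
    · simp [b]
    · exact hMx i j
  · rw [RingHom.map_det, hev, ← hF]
    exact hlam e he
  · have h1 : (N e).mulVec (z e) = c := by
      funext i
      simpa [N, Matrix.mulVec, dotProduct] using hz e he i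
    have h2 : (eval (p e)).mapMatrix (Mx.updateCol l b) =
        (Ξ * N e).updateCol l ((Ξ * N e).mulVec (z e)) := by
      rw [← Matrix.mulVec_mulVec, h1, ← hev]
      ext i j
      simp only [RingHom.mapMatrix_apply, Matrix.map_apply, Matrix.updateCol_apply]
      split_ifs
      · simp [b]
      · rfl
    rw [RingHom.map_det, RingHom.map_det, h2, hev, ← Matrix.cramer_apply,
      Matrix.cramer_eq_adjugate_mulVec, Matrix.mulVec_mulVec, Matrix.adjugate_mul,
      Matrix.smul_mulVec, Matrix.one_mulVec]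
    rfl

/-- Clearing denominators. -/
theorem exists_clear {τ β : Type} [Fintype β] (Δ : MvPolynomial τ ℂ) (Z : β → MvPolynomial τ ℂ)
    {r M : ℕ} (hΔ : Δ.totalDegree ≤ r) (hZ : ∀ l, (Z l).totalDegree ≤ r) (g : MvPolynomial β ℂ)
    (hg : g.totalDegree ≤ M) :
    ∃ G : MvPolynomial τ ℂ, G.totalDegree ≤ r * M ∧ ∀ (p : τ → ℂ) (z : β → ℂ),
      (∀ l, eval p (Z l) = eval p Δ * z l) → eval p G = eval p Δ ^ M * eval z g := by
  refine ⟨∑ a ∈ g.support, C (coeff a g) * Δ ^ (M - ∑ l, a l) * ∏ l, Z l ^ a l,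
    totalDegree_finsetSum_le fun a ha => ?_, fun p z h => ?_⟩
  · have h1 : ∑ l, a l ≤ M := by
      refine le_trans ?_ ((le_totalDegree ha).trans hg)
      rw [Finsupp.sum_fintype _ _ (fun _ => rfl)]
    have h2 : (C (coeff a g) * Δ ^ (M - ∑ l, a l)).totalDegree ≤ (M - ∑ l, a l) * r := by
      refine (totalDegree_mul _ _).trans ?_
      rw [totalDegree_C, zero_add]
      exact (totalDegree_pow _ _).trans (Nat.mul_le_mul_left _ hΔ)
    have h3 : (∏ l, Z l ^ a l).totalDegree ≤ (∑ l, a l) * r := by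
      refine (totalDegree_finsetProd _ _).trans ?_
      rw [Finset.sum_mul]
      exact Finset.sum_le_sum fun l _ =>
        (totalDegree_pow _ _).trans (Nat.mul_le_mul_left _ (hZ l))
    refine (totalDegree_mul _ _).trans ((add_le_add h2 h3).trans (le_of_eq ?_))
    rw [← add_mul, Nat.sub_add_cancel h1, mul_comm]
  · exact clr_aeval Δ Z g hg ℂ p z h

/-- Clearing denominators, valid at points with values in any algebra. -/
theorem exists_clear' {τ β : Type} [Fintype β] (Δ : MvPolynomial τ ℂ) (Z : β → MvPolynomial τ ℂ)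
    (g : MvPolynomial β ℂ) :
    ∃ (G : MvPolynomial τ ℂ) (M : ℕ), ∀ (L : Type) [CommRing L] [Algebra ℂ L] (p : τ → L)
      (z : β → L), (∀ l, aeval p (Z l) = aeval p Δ * z l) →
        aeval p G = aeval p Δ ^ M * aeval z g :=
  ⟨_, g.totalDegree, fun L _ _ p z h => clr_aeval Δ Z g le_rfl L p z h⟩

end Vale.Agent.P054A
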