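import Vale.Agent.P054A.CmpA

/-!
Comparison of simple components.
-/

namespace Vale.Agent.P054A

open MvPolynomial
open scoped Classical

variable {σ : Type} [Fintype σ]

variable {κ : Type} [Fintype κ] [DecidableEq κ]

/-- The lower bound in a mature range of degrees. -/
theorem dg_le_H {f : κ → MvPolynomial σ ℂ} {J : κ → σ} {p : σ → ℂ} (h : Simple f J p) {s : ℕ}
    (hs : ∀ i, (f i).totalDegree ≤ s) {v : ℕ} (hv : v + Fintype.card κ = Fintype.card σ) {M : ℕ}
    (hM : 2 * (Fintype.card κ * s) ≤ M) :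
    dg v (locP f p) * (M + 1) ^ v ≤ (2 * v + 2) ^ (2 * v) * H (locP f p) M := by
  have h1 := sum_dg_le hs {p} (fun q hq => Finset.mem_singleton.1 hq ▸ h) hv (I := locP f p)
    (fun q hq => Finset.mem_singleton.1 hq ▸ le_rfl) ((M - Fintype.card κ * s) / v)
  rw [Finset.image_singleton, Finset.sum_singleton] at h1
  set k := (M - Fintype.card κ * s) / v with hk
  have h2 : v * k + Fintype.card κ * s ≤ M := by
    have := Nat.mul_div_le (M - Fintype.card κ * s) v
    rw [← hk] at this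
    omega
  have h3 : (M + 1) ^ v ≤ ((2 * v + 2) * (k + 1)) ^ v := by
    rcases Nat.eq_zero_or_pos v with e | e
    · simp [e]
    refine Nat.pow_le_pow_left ?_ v
    have h4 := Nat.lt_mul_div_succ (M - Fintype.card κ * s) e
    rw [← hk] at h4
    have h5 : (2 * v + 2) * (k + 1) = 2 * (v * (k + 1)) + 2 * k + 2 := by ring
    omega
  have h6 : (v + 1) ^ v ≤ (2 * v + 2) ^ v := Nat.pow_le_pow_left (by omega) v
  calc dg v (locP f p) * (M + 1) ^ v ≤ dg v (locP f p) * ((2 * v + 2) * (k + 1)) ^ v :=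
        Nat.mul_le_mul_left _ h3
    _ = (2 * v + 2) ^ v * (dg v (locP f p) * (k + 1) ^ v) := by rw [mul_pow]; ring
    _ ≤ (2 * v + 2) ^ v * ((2 * v + 2) ^ v * H (locP f p) M) :=
        Nat.mul_le_mul_left _ (h1.trans (Nat.mul_le_mul h6 (H_mono _ h2)))
    _ = (2 * v + 2) ^ (2 * v) * H (locP f p) M := by rw [← mul_assoc, ← pow_add, two_mul v]

/-- The degrees of the children of a component. -/
theorem sum_dg_children {f : κ → MvPolynomial σ ℂ} {J : κ → σ} {s : ℕ} (h1 : 1 ≤ s)
    (hs : ∀ i, (f i).totalDegree ≤ s) (W : Finset (σ → ℂ)) (hW : ∀ p ∈ W, Simple f J p) {v : ℕ}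
    (hv : v + Fintype.card κ = Fintype.card σ) {P : Ideal (MvPolynomial σ ℂ)} (hP : P.IsPrime)
    {a : ℕ} (ha : ∀ M, H P M ≤ a * (M + 1) ^ (v + 1)) (i₀ : κ) (hi : f i₀ ∉ P)
    (hle : ∀ p ∈ W, P ≤ locP f p) :
    ∑ Q ∈ W.image (locP f), dg v Q ≤ (3 * v + 3) ^ (3 * v + 3) * a * s := by
  have h2 : ∀ p ∈ W, P ⊔ Ideal.span {f i₀} ≤ locP f p := fun p hp =>
    sup_le (hle p hp) ((Ideal.span_singleton_le_iff_mem _).2 (mem_locP f p i₀))
  have h3 := le_of_growth_coeff (r := ∑ Q ∈ W.image (locP f), dg v Q)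
    (a := (v + 1) ^ v * (3 ^ (v + 1) * a * s)) (e := Fintype.card κ * s) (v := v) fun M => by
      rw [mul_assoc]
      exact (sum_dg_le hs W hW hv h2 M).trans
        (Nat.mul_le_mul_left _ (H_sec hP ha hi (hs i₀) h1 _))
  have h4 : (v + 1) ^ v ≤ (3 * v + 3) ^ v := Nat.pow_le_pow_left (by omega) v
  have h5 : 3 ^ (v + 1) ≤ (3 * v + 3) ^ (v + 3) :=
    (Nat.pow_le_pow_left (by omega) _).trans (Nat.pow_le_pow_right (by omega) (by omega))
  calc _ ≤ (v + 1) ^ v * (3 ^ (v + 1) * a * s) * (v + 1) ^ v := h3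
    _ = (v + 1) ^ v * (v + 1) ^ v * 3 ^ (v + 1) * (a * s) := by ring
    _ ≤ (3 * v + 3) ^ v * (3 * v + 3) ^ v * (3 * v + 3) ^ (v + 3) * (a * s) :=
        Nat.mul_le_mul_right _ (Nat.mul_le_mul (Nat.mul_le_mul h4 h4) h5)
    _ = _ := by
        rw [← pow_add, ← pow_add, mul_assoc, show v + v + (v + 3) = 3 * v + 3 by ring]

/-- Contraction of the local ideal of an extended system. -/
theorem comap_locP {σ' κ' : Type} [Fintype σ'] [Fintype κ'] [DecidableEq κ'] {e : σ → σ'}
    (he : Function.Injective e) {f : κ → MvPolynomial σ ℂ} {J : κ → σ}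
    {φ : κ' → MvPolynomial σ' ℂ} {J' : κ' → σ'} (hJ : ∀ i, J' i ∉ Set.range e) {p : σ' → ℂ}
    (h : Simple (Sum.elim (fun i => rename e (f i)) φ) (Sum.elim (fun i => e (J i)) J') p) :
    Simple f J (fun l => p (e l)) ∧ ∀ G, rename e G ∈
      locP (Sum.elim (fun i => rename e (f i)) φ) p ↔ G ∈ locP f fun l => p (e l) := by
  have ev : ∀ G : MvPolynomial σ ℂ, eval p (rename e G) = eval (fun l => p (e l)) G :=
    fun G => eval_rename e p G
  have hs : Simple f J fun l => p (e l) := by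
    refine ⟨fun i => (ev _).symm.trans (h.1 (Sum.inl i)), fun h0 => h.2 ?_⟩
    rw [minor_block he f J φ J' hJ, map_mul, ev, h0, zero_mul]
  have hQ := locP_prime h
  set I := (locP (Sum.elim (fun i => rename e (f i)) φ) p).comap (rename e : _ →ₐ[ℂ] _) with hI
  have hIp : I.IsPrime := Ideal.comap_isPrime _ _
  have hon : On (fun l => p (e l)) I := fun G hG => (ev G).symm.trans (on_locP h.1 _ hG)
  have hle : locP f (fun l => p (e l)) ≤ I :=
    locP_le hIp (fun i => mem_locP (Sum.elim (fun i => rename e (f i)) φ) p (Sum.inl i)) hon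
  refine ⟨hs, fun G => ⟨fun hG => ?_, fun hG => hle hG⟩⟩
  by_contra hn
  have hP := locP_prime hs
  have hd := H_le_dg_loc hs
  have hc : (Finset.univ.filter fun l => l ∉ Set.range J).card
      = Fintype.card σ - Fintype.card κ := by
    have hi : Function.Injective J := inj_of_minor_ne fun h0 => hs.2 (by rw [h0, map_zero])
    have e1 : (Finset.univ.filter fun l => l ∉ Set.range J) = (Finset.univ.image J)ᶜ := by
      ext l
      simp
    rw [e1, Finset.card_compl, Finset.card_image_of_injective _ hi, Finset.card_univ]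
  have hf := pow_le_H_of_free (I := I) (Finset.univ.filter fun l => l ∉ Set.range J)
    fun G' hG' hv => by
      refine rename_injective e he ((eq_zero_of_free h (fun l hl hr => ?_) hG').trans
        (map_zero _).symm)
      obtain ⟨k, hk, rfl⟩ := mem_vars_rename e G' hl
      obtain ⟨i | i, hi⟩ := hr
      · exact (Finset.mem_filter.1 (hv k hk)).2 ⟨i, he hi⟩
      · exact hJ i ⟨k, hi.symm⟩
  rw [hc] at hf
  generalize Fintype.card σ - Fintype.card κ = v at hd hf
  rcases v with _ | w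
  · exact eval_ne_zero_of_dim_zero hP (fun M => by simpa using hd M) hn (on_locP hs.1) (hon G hG)
  have h2 : locP f (fun l => p (e l)) ⊔ Ideal.span {G} ≤ I :=
    sup_le hle ((Ideal.span_singleton_le_iff_mem _).2 hG)
  have h3 := le_of_growth (C := 1) (s := 0) (t := w + 1) (v := w + 1) (w := w) fun M => by
    rw [one_mul, add_zero]
    exact (hf M).trans ((H_anti h2 _).trans
      (H_sec hP hd hn (Nat.le_succ _) (Nat.succ_le_succ (Nat.zero_le _)) _))
  omega

end Vale.Agent.P054A
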