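import Vale.Agent.P054A.HilA

/-!
Basic properties of the Hilbert function.
-/

namespace Vale.Agent.P054A

open MvPolynomial
open scoped Classical

variable {K : Type} [Field K] {σ : Type} [Fintype σ]

theorem Hil_le_of_inj {V W : Type} [AddCommGroup V] [Module K V] [AddCommGroup W] [Module K W]
    (f : V →ₗ[K] W) (hf : Function.Injective f) {U : Submodule K V} {T : Submodule K W}
    [FiniteDimensional K T] (h : U.map f ≤ T) : Module.finrank K U ≤ Module.finrank K T := by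
  rw [(Submodule.equivMapOfInjective f hf U).finrank_eq]
  exact Submodule.finrank_mono h

theorem Hil_rank {V W : Type} [AddCommGroup V] [Module K V] [AddCommGroup W] [Module K W]
    (f : V →ₗ[K] W) (T : Submodule K V) [FiniteDimensional K T] :
    Module.finrank K (T.map f) + Module.finrank K (LinearMap.ker f ⊓ T : Submodule K V) =
      Module.finrank K T := by
  rw [← (f.domRestrict T).finrank_range_add_finrank_ker, LinearMap.range_domRestrict,
    LinearMap.ker_domRestrict, inf_comm, ← Submodule.map_comap_subtype, Submodule.finrank_map_subtype_eq]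

theorem H_sup_add {I : Ideal (MvPolynomial σ K)} (hI : I.IsPrime) {g : MvPolynomial σ K}
    (hg : g ∉ I) {m : ℕ} (hm : g.totalDegree ≤ m) (M : ℕ) :
    H (I ⊔ Ideal.span {g}) (M + m) + H I M ≤ H I (M + m) := by
  have hm0 : Ideal.Quotient.mk I g ≠ 0 := fun h => hg (Ideal.Quotient.eq_zero_iff_mem.1 h)
  have h1 := Hil_rank (Ideal.Quotient.factorₐ K
    (le_sup_left : I ≤ I ⊔ Ideal.span {g})).toLinearMap
    ((restrictTotalDegree σ K (M + m)).map (Ideal.Quotient.mkₐ K I).toLinearMap)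
  rw [← Submodule.map_comp] at h1
  refine le_trans (Nat.add_le_add_left ?_ _) h1.le
  refine Hil_le_of_inj (LinearMap.mulLeft K (Ideal.Quotient.mk I g)) (mul_right_injective₀ hm0) ?_
  rintro _ ⟨_, ⟨f, hf, rfl⟩, rfl⟩
  refine ⟨?_, g * f, ?_, rfl⟩
  · exact Ideal.Quotient.eq_zero_iff_mem.2
      (Ideal.mem_sup_right (Ideal.mul_mem_right f _ (Ideal.mem_span_singleton_self g)))
  · rw [SetLike.mem_coe, mem_restrictTotalDegree] at hf ⊢
    exact (totalDegree_mul g f).trans (by omega)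

theorem Hil_sum {I : Ideal (MvPolynomial σ K)} (hI : I.IsPrime) {g : MvPolynomial σ K}
    (hg : g ∉ I) {m : ℕ} (hm : g.totalDegree ≤ m) (M R : ℕ) :
    R * H (I ⊔ Ideal.span {g}) M ≤ H I (M + R * m) := by
  induction R with
  | zero => simp
  | succ R ih =>
    have h1 := H_sup_add hI hg hm (M + R * m)
    have h2 := H_mono (I ⊔ Ideal.span {g}) (show M ≤ M + R * m + m by omega)
    rw [Nat.succ_mul, Nat.succ_mul, ← add_assoc]
    omega

/-- Hypersurface sections lose one dimension. -/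
theorem H_sec {I : Ideal (MvPolynomial σ K)} (hI : I.IsPrime) {v a : ℕ}
    (ha : ∀ M, H I M ≤ a * (M + 1) ^ (v + 1)) {g : MvPolynomial σ K} (hg : g ∉ I) {m : ℕ}
    (hm : g.totalDegree ≤ m) (h1 : 1 ≤ m) (M : ℕ) :
    H (I ⊔ Ideal.span {g}) M ≤ 3 ^ (v + 1) * a * m * (M + 1) ^ v := by
  rcases le_or_gt (M + 1) m with h2 | h2
  · refine ((H_anti le_sup_left M).trans (ha M)).trans ?_
    calc a * (M + 1) ^ (v + 1) = 1 * a * (M + 1) * (M + 1) ^ v := by ring
      _ ≤ _ := by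
        gcongr
        exact Nat.one_le_pow _ _ (by norm_num)
  · have h3 := (Hil_sum hI hg hm M (M / m + 1)).trans (ha _)
    have h4 : M + 1 ≤ m * (M / m + 1) := Nat.lt_mul_div_succ M h1
    have h5 : M + (M / m + 1) * m + 1 ≤ 3 * (M + 1) := by
      have := Nat.div_mul_le_self M m
      rw [Nat.succ_mul]
      omega
    refine Nat.le_of_mul_le_mul_left ?_ (Nat.succ_pos M)
    calc (M + 1) * H (I ⊔ Ideal.span {g}) M ≤ m * ((M / m + 1) * H (I ⊔ Ideal.span {g}) M) := by
          rw [← mul_assoc]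
          exact Nat.mul_le_mul_right _ h4
      _ ≤ m * (a * (3 * (M + 1)) ^ (v + 1)) :=
          Nat.mul_le_mul_left _ (h3.trans (by gcongr))
      _ = (M + 1) * (3 ^ (v + 1) * a * m * (M + 1) ^ v) := by rw [mul_pow]; ring

/-- In dimension zero no polynomial outside the prime vanishes at a point of it. -/
theorem eval_ne_zero_of_dim_zero {I : Ideal (MvPolynomial σ K)} (hI : I.IsPrime) {a : ℕ}
    (ha : ∀ M, H I M ≤ a) {g : MvPolynomial σ K} (hg : g ∉ I) {p : σ → K} (hp : On p I) :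
    eval p g ≠ 0 := by
  intro h0
  have h1 : On p (I ⊔ Ideal.span {g}) := fun f hf => by
    obtain ⟨y, hy, z, hz, rfl⟩ := Submodule.mem_sup.1 hf
    obtain ⟨c, rfl⟩ := Ideal.mem_span_singleton'.1 hz
    rw [map_add, map_mul, hp y hy, h0, mul_zero, add_zero]
  have h2 := (Hil_sum hI hg le_rfl 0 (a + 1)).trans (ha _)
  have h3 := Nat.mul_le_mul_left (a + 1) (one_le_H h1 0)
  omega

theorem Hil_aeval {σ' : Type} {A : Type} [CommRing A] (φ : σ → MvPolynomial σ' A)
    {s : ℕ} (hφ : ∀ i, (φ i).totalDegree ≤ s) (g : MvPolynomial σ A) :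
    (aeval φ g).totalDegree ≤ s * g.totalDegree := by
  conv_lhs => rw [g.as_sum, map_sum]
  refine totalDegree_finsetSum_le fun d hd => ?_
  rw [aeval_monomial, algebraMap_eq]
  refine (totalDegree_mul _ _).trans ?_
  rw [totalDegree_C, zero_add]
  refine (totalDegree_finsetProd _ _).trans (le_trans ?_
    (Nat.mul_le_mul_left s (le_totalDegree hd)))
  rw [Finsupp.sum, Finset.mul_sum]
  refine Finset.sum_le_sum fun i _ => (totalDegree_pow _ _).trans ?_
  rw [mul_comm]
  exact Nat.mul_le_mul_right _ (hφ i)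

theorem H_comap_le {σ' : Type} [Fintype σ'] (φ : MvPolynomial σ K →ₐ[K] MvPolynomial σ' K)
    {s : ℕ} (hφ : ∀ i, (φ (X i)).totalDegree ≤ s) (I : Ideal (MvPolynomial σ' K)) (M : ℕ) :
    H (I.comap φ) M ≤ H I (s * M) := by
  refine Hil_le_of_inj (Ideal.quotientMapₐ I φ le_rfl).toLinearMap Ideal.quotientMap_injective ?_
  rintro _ ⟨_, ⟨f, hf, rfl⟩, rfl⟩
  refine ⟨φ f, ?_, rfl⟩
  rw [SetLike.mem_coe, mem_restrictTotalDegree] at hf ⊢
  rw [aeval_unique φ]
  exact (Hil_aeval _ hφ f).trans (Nat.mul_le_mul_left s hf)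

theorem totalDegree_aeval_le {σ' : Type} {A : Type} [CommRing A] (φ : σ → MvPolynomial σ' A)
    {s : ℕ} (hφ : ∀ i, (φ i).totalDegree ≤ s) (g : MvPolynomial σ A) :
    (aeval φ g).totalDegree ≤ s * g.totalDegree := by
  exact Hil_aeval φ hφ g

theorem dg_le {I : Ideal (MvPolynomial σ K)} {v a : ℕ} (h : ∀ M, H I M ≤ a * (M + 1) ^ v) :
    dg v I ≤ a := Nat.sInf_le h

theorem H_le_dg {I : Ideal (MvPolynomial σ K)} {v a : ℕ} (h : ∀ M, H I M ≤ a * (M + 1) ^ v)
    (M : ℕ) : H I M ≤ dg v I * (M + 1) ^ v := Nat.sInf_mem (s := {k | ∀ M, H I M ≤ k * (M + 1) ^ v}) ⟨a, h⟩ M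

/-- Growth comparison. -/
theorem le_of_growth {a C s t v w : ℕ} (h : ∀ M, (M + 1) ^ v ≤ C * (a * (t * M + s + 1) ^ w)) :
    v ≤ w := by
  by_contra hc
  obtain ⟨N, hN⟩ : ∃ N, N = C * (a * (t + s + 1) ^ w) := ⟨_, rfl⟩
  have h1 : (N + 1) * (N + 1) ^ w ≤ N * (N + 1) ^ w :=
    calc (N + 1) * (N + 1) ^ w = (N + 1) ^ (w + 1) := by ring
      _ ≤ (N + 1) ^ v := Nat.pow_le_pow_right (Nat.succ_pos N) (by omega)
      _ ≤ C * (a * (t * N + s + 1) ^ w) := h N
      _ ≤ C * (a * ((t + s + 1) * (N + 1)) ^ w) := by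
        gcongr
        nlinarith [Nat.zero_le (s * N), Nat.zero_le t]
      _ = C * (a * (t + s + 1) ^ w) * (N + 1) ^ w := by rw [mul_pow]; ring
      _ = N * (N + 1) ^ w := by rw [← hN]
  have h2 := Nat.le_of_mul_le_mul_right h1 (Nat.pow_pos (Nat.succ_pos N))
  omega

/-- Asymptotic comparison of leading coefficients. -/
theorem le_of_growth_coeff {r a e v : ℕ} (h : ∀ M, r * (M + 1) ^ v ≤ a * (v * M + e + 1) ^ v) :
    r ≤ a * (v + 1) ^ v := by
  refine Nat.le_of_mul_le_mul_right ((h e).trans ?_) (Nat.pow_pos (n := v) (Nat.succ_pos e))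
  rw [mul_assoc, ← mul_pow]
  gcongr
  nlinarith [Nat.zero_le v]

end Vale.Agent.P054A
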