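import Vale.Agent.P054A.LocB
import Vale.Agent.P054A.Hil

/-!
The multiplicity lemma, and the lower bound from the free coordinates.
-/

namespace Vale.Agent.P054A

open MvPolynomial
open scoped Classical

variable {K : Type} [Field K] [CharZero K] {σ κ : Type} [Fintype σ] [Fintype κ] [DecidableEq κ]

/-- The exponent vector of a box point. -/
noncomputable def MultEx (S : Finset σ) {r : ℕ} (a : S → Fin r) : σ →₀ ℕ :=
  Finsupp.equivFunOnFinite.symm fun l => if h : l ∈ S then (a ⟨l, h⟩ : ℕ) else 0

theorem MultEx_apply (S : Finset σ) {r : ℕ} (a : S → Fin r) (l : σ) :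
    MultEx S a l = if h : l ∈ S then (a ⟨l, h⟩ : ℕ) else 0 := rfl

theorem MultEx_inj (S : Finset σ) {r : ℕ} : Function.Injective (MultEx S (r := r)) := by
  intro a b h
  funext l
  have := DFunLike.congr_fun h l.1
  rw [MultEx_apply, MultEx_apply, dif_pos l.2, dif_pos l.2] at this
  exact Fin.ext this

theorem MultEx_supp (S : Finset σ) {r : ℕ} (a : S → Fin r) : (MultEx S a).support ⊆ S := by
  intro l hl
  by_contra h
  rw [Finsupp.mem_support_iff, MultEx_apply, dif_neg h] at hl
  exact hl rfl

theorem MultEx_deg (S : Finset σ) {r : ℕ} (a : S → Fin r) :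
    (MultEx S a).degree = ∑ l : S, (a l : ℕ) := by
  rw [Finsupp.degree_apply, Finset.sum_subset (MultEx_supp S a)
    fun l _ h => Finsupp.notMem_support_iff.1 h, ← Finset.sum_coe_sort S]
  exact Finset.sum_congr rfl fun l _ => by rw [MultEx_apply, dif_pos l.2]

omit [CharZero K] in
theorem Mult_indep (S : Finset σ) {r : ℕ} (c : (S → Fin r) → K)
    (h : ∑ a, c a • (monomial (MultEx S a) 1 : MvPolynomial σ K) = 0) : c = 0 := by
  funext a
  have := congrArg (coeff (MultEx S a)) h
  rw [coeff_sum, Finset.sum_eq_single a, coeff_smul, coeff_monomial, if_pos rfl, smul_eq_mul,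
    mul_one] at this
  · exact this
  · intro b _ hb
    rw [coeff_smul, coeff_monomial, if_neg fun e => hb (MultEx_inj S e), smul_zero]
  · intro k
    exact absurd (Finset.mem_univ a) k

omit [CharZero K] [Fintype σ] in
theorem Mult_mem_pow (p : σ → K) (m : σ →₀ ℕ) :
    aeval (fun l => X l - C (p l) : σ → MvPolynomial σ K) (monomial m (1 : K)) ∈
      vanI {p} ^ m.degree := by
  rw [aeval_monomial, map_one, one_mul, Finsupp.degree_apply, ← Finset.prod_pow_eq_pow_sum]
  refine Ideal.prod_mem_prod fun l _ => Ideal.pow_mem_pow ?_ _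
  rintro q rfl
  simp

omit [CharZero K] in
theorem Mult_lin (f : κ → MvPolynomial σ K) (J : κ → σ) (p lam : σ → K) (i : ℕ) :
    ∃ φ : MvPolynomial σ K →ₗ[K] K, ∀ g, φ g = eval p ((Dl f J lam)^[i] g) := by
  obtain ⟨D, hD⟩ := exists_der_Dl f J lam
  refine ⟨(aeval p).toLinearMap ∘ₗ (D.toLinearMap ^ i), fun g => ?_⟩
  have e : Dl f J lam = D.toLinearMap := funext fun g => (hD g).symm
  rw [e, LinearMap.comp_apply, Module.End.pow_apply]
  rfl

theorem Mult_pt {f : κ → MvPolynomial σ K} {J : κ → σ} {p : σ → K} (hp : Simple f J p)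
    (S : Finset σ) (hS : ∀ l ∈ S, l ∉ Set.range J) {r N : ℕ} (c : (S → Fin r) → K)
    (hN : ∀ a : S → Fin r, (MultEx S a).degree < N) {s : MvPolynomial σ K} (hs : eval p s = 1)
    (h : ∀ lam : σ → K, ∀ i < N, eval p ((Dl f J lam)^[i] (∑ a, c a •
      (s * aeval (fun l => X l - C (p l)) (monomial (MultEx S a) (1 : K))))) = 0) : c = 0 := by
  have key : ∀ i, ∀ a : S → Fin r, (MultEx S a).degree = i → c a = 0 := by
    intro i
    induction i using Nat.strong_induction_on with
    | _ i ih =>
      intro a ha
      have h0 : ∑ b, (if (MultEx S b).degree = i then c b else 0) •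
          (monomial (MultEx S b) 1 : MvPolynomial σ K) = 0 := by
        refine MvPolynomial.funext fun lam => ?_
        obtain ⟨φ, hφ⟩ := Mult_lin f J p lam i
        have h1 := h lam i (ha ▸ hN a)
        rw [← hφ, map_sum] at h1
        have hc : (i.factorial : K) * eval p (minor f J) ^ i ≠ 0 :=
          mul_ne_zero (Nat.cast_ne_zero.2 i.factorial_ne_zero) (pow_ne_zero _ hp.2)
        refine mul_left_cancel₀ hc ?_
        rw [map_zero, mul_zero, map_sum, Finset.mul_sum]
        refine Eq.trans (Finset.sum_congr rfl fun b _ => ?_) h1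
        rw [smul_eval, φ.map_smul, hφ, smul_eq_mul]
        rcases lt_trichotomy (MultEx S b).degree i with k | k | k
        · rw [ih _ k b rfl, ite_self, zero_mul, zero_mul, mul_zero]
        · rw [if_pos k, Dl_iter_lead f J p lam (isHomogeneous_monomial _ k) (fun l hl => hS l
            (MultEx_supp S b (by rwa [vars_monomial one_ne_zero] at hl))), hs]
          ring
        · rw [if_neg k.ne', Dl_iter_pow_ideal f J p lam
            (Ideal.mul_mem_left _ s (Mult_mem_pow p _)) i k, zero_mul, mul_zero, mul_zero]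
      have := congrFun (Mult_indep S _ h0) a
      rwa [if_pos ha] at this
  funext a
  exact key _ a rfl

/-- Points of high order of vanishing impose few conditions. -/
theorem mult_lemma {f : κ → MvPolynomial σ K} {J : κ → σ} {P : Ideal (MvPolynomial σ K)}
    (W : Finset (σ → K)) (hW : ∀ p ∈ W, Simple f J p ∧ locP f p = P) (g : MvPolynomial σ K)
    {v r : ℕ} (hv : v + Fintype.card κ = Fintype.card σ) (hv1 : 1 ≤ v)
    (hg : ∀ p ∈ W, ∀ lam : σ → K, ∀ i < v * r, eval p ((Dl f J lam)^[i] g) = 0) (M : ℕ) :
    H (vanI (W : Set (σ → K))) M * r ^ v ≤ H (P ⊔ Ideal.span {g}) (v * r * (M + 1)) := by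
  obtain ⟨T, hTW, hT, hs⟩ := exists_sep W M
  rw [← hT]
  rcases T.eq_empty_or_nonempty with rfl | ⟨p₀, hp₀⟩
  · simp
  choose! s hs1 hs2 hs3 using hs
  have hJ : Function.Injective J :=
    inj_of_minor_ne (f := f) fun e => (hW p₀ (hTW hp₀)).1.2 (by rw [e, map_zero])
  obtain ⟨S, hS, hc⟩ : ∃ S : Finset σ, (∀ l ∈ S, l ∉ Set.range J) ∧ S.card = v := by
    refine ⟨(Finset.univ.image J)ᶜ, fun l hl k => ?_, ?_⟩
    · obtain ⟨i, rfl⟩ := k
      exact Finset.mem_compl.1 hl (Finset.mem_image_of_mem J (Finset.mem_univ i))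
    · rw [Finset.card_compl, Finset.card_image_of_injective _ hJ, Finset.card_univ]
      omega
  have hN : ∀ a : S → Fin r, (MultEx S a).degree < v * r := by
    intro a
    have hne : (Finset.univ : Finset S).Nonempty := by
      rw [← Finset.card_pos, Finset.card_univ, Fintype.card_coe]
      omega
    have := Finset.sum_lt_sum_of_nonempty hne (f := fun l => (a l : ℕ)) (g := fun _ => r)
      fun l _ => (a l).2
    rw [MultEx_deg]
    simpa [hc] using this
  have := card_le_H_of_indep (α := T × (S → Fin r)) (I := P ⊔ Ideal.span {g})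
    (M := v * r * (M + 1)) (fun z => s z.1 ^ (v * r) *
      aeval (fun l => X l - C (z.1.1 l)) (monomial (MultEx S z.2) (1 : K))) (by
      intro z
      have a1 : (s z.1 ^ (v * r)).totalDegree ≤ v * r * M :=
        (totalDegree_pow _ _).trans (Nat.mul_le_mul_left _ (hs1 _ z.1.2))
      have a2 := totalDegree_aeval_le (fun l => X l - C (z.1.1 l) : σ → MvPolynomial σ K) (s := 1)
        (fun l => (totalDegree_sub _ _).trans (by simp)) (monomial (MultEx S z.2) (1 : K))
      have a3 : (monomial (MultEx S z.2) (1 : K)).totalDegree ≤ (MultEx S z.2).degree :=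
        (isHomogeneous_monomial _ rfl).totalDegree_le
      have a4 := hN z.2
      refine (totalDegree_mul _ _).trans ?_
      rw [mul_add, mul_one]
      omega) (by
      intro c hc
      funext z
      obtain ⟨p, a⟩ := z
      have hp := hW p (hTW p.2)
      refine congrFun (Mult_pt hp.1 S hS (fun a => c (p, a)) hN (s := s p ^ (v * r))
        (by rw [map_pow, hs2 _ p.2, one_pow]) fun lam i hi => ?_) a
      obtain ⟨φ, hφ⟩ := Mult_lin f J p lam i
      obtain ⟨u, hu, w, hw, e⟩ := Submodule.mem_sup.1 hc
      obtain ⟨w, rfl⟩ := Ideal.mem_span_singleton'.1 hw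
      have b1 : φ u = 0 := by
        rw [hφ]
        exact on_locP hp.1.1 _ (Dl_iter_mem_locP f J p lam i (hp.2 ▸ hu))
      have b2 : φ (w * g) = 0 := by
        rw [hφ, mul_comm]
        exact Dl_iter_mul_eq_zero f J p lam (hg p (hTW p.2) lam) w i hi
      have b3 := congrArg φ e
      rw [map_add, b1, b2, add_zero, Fintype.sum_prod_type, map_sum,
        Finset.sum_eq_single p] at b3
      · rw [← hφ]
        exact b3.symm
      · intro q _ hq
        rw [hφ]
        refine Dl_iter_pow_ideal f J p lam (r := v * r) (Ideal.sum_mem _ fun b _ => ?_) i hi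
        rw [smul_eq_C_mul]
        refine Ideal.mul_mem_left _ _ (Ideal.mul_mem_right _ _ (Ideal.pow_mem_pow ?_ _))
        rintro x rfl
        exact hs3 _ q.2 _ p.2 fun k => hq (Subtype.ext k).symm
      · intro k
        exact absurd (Finset.mem_univ p) k)
  simpa [hc] using this

/-- The free coordinates give a lower bound for every ideal whose contraction is small. -/
theorem pow_le_H_of_free {I : Ideal (MvPolynomial σ K)} (S : Finset σ)
    (h : ∀ G ∈ I, (∀ l ∈ G.vars, l ∈ S) → G = 0) (M : ℕ) :
    (M + 1) ^ S.card ≤ H I (S.card * M) := by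
  have := card_le_H_of_indep (α := S → Fin (M + 1)) (I := I) (M := S.card * M)
    (fun a => monomial (MultEx S a) (1 : K)) (by
      intro a
      refine (isHomogeneous_monomial _ rfl).totalDegree_le.trans ?_
      rw [MultEx_deg]
      simpa using Finset.sum_le_card_nsmul (Finset.univ : Finset S) (fun l => (a l : ℕ)) M
        fun l _ => Nat.lt_succ_iff.1 (a l).2) (by
      intro c hc
      refine Mult_indep S c (h _ hc fun l hl => ?_)
      obtain ⟨a, -, ha⟩ := Finset.mem_biUnion.1 (vars_sum_subset _ _ hl)
      rw [smul_monomial] at ha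
      by_cases k : c a • (1 : K) = 0
      · rw [k, monomial_zero, vars_0] at ha
        exact absurd ha (Finset.notMem_empty l)
      · rw [vars_monomial k] at ha
        exact MultEx_supp S a ha)
  simpa using this

end Vale.Agent.P054A
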