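import Vale.Agent.P054A.Low
import Vale.Agent.P054A.Mult

/-!
Comparison of simple components.
-/

namespace Vale.Agent.P054A

open MvPolynomial
open scoped Classical

variable {σ : Type} [Fintype σ]

theorem IsComp.prime {c : ℕ} {p : σ → ℂ} {P : Ideal (MvPolynomial σ ℂ)} (h : IsComp c p P) :
    P.IsPrime := by
  obtain ⟨g, J, h1, rfl⟩ := h
  exact locP_prime h1

theorem IsComp.on {c : ℕ} {p : σ → ℂ} {P : Ideal (MvPolynomial σ ℂ)} (h : IsComp c p P) :
    On p P := by
  obtain ⟨g, J, h1, rfl⟩ := h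
  exact on_locP h1.1

theorem IsComp.le_card {c : ℕ} {p : σ → ℂ} {P : Ideal (MvPolynomial σ ℂ)} (h : IsComp c p P) :
    c ≤ Fintype.card σ := by
  obtain ⟨g, J, h1, rfl⟩ := h
  simpa using h1.card_le

theorem IsComp.H_le {c : ℕ} {p : σ → ℂ} {P : Ideal (MvPolynomial σ ℂ)} (h : IsComp c p P)
    (M : ℕ) : H P M ≤ dg (Fintype.card σ - c) P * (M + 1) ^ (Fintype.card σ - c) := by
  obtain ⟨g, J, h1, rfl⟩ := h
  simpa using H_le_dg_loc h1 M

theorem IsComp.one_le_dg {c : ℕ} {p : σ → ℂ} {P : Ideal (MvPolynomial σ ℂ)} (h : IsComp c p P) :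
    1 ≤ dg (Fintype.card σ - c) P := by
  simpa using (one_le_H h.on 0).trans (h.H_le 0)

theorem Simple.isComp {κ : Type} [Fintype κ] [DecidableEq κ] {f : κ → MvPolynomial σ ℂ}
    {J : κ → σ} {p : σ → ℂ} (h : Simple f J p) : IsComp (Fintype.card κ) p (locP f p) := by
  refine ⟨fun i => f ((Fintype.equivFin κ).symm i), fun i => J ((Fintype.equivFin κ).symm i),
    ⟨fun i => h.1 _, ?_⟩, locP_congr ((Fintype.equivFin κ).symm.surjective.range_comp f) p⟩
  rw [minor_reindex]
  exact h.2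

theorem dg_bot_le : dg (Fintype.card σ) (⊥ : Ideal (MvPolynomial σ ℂ)) ≤ 1 := by
  exact dg_le fun M => by rw [one_mul]; exact H_le_pow _ M

/-- Components of the same codimension are incomparable. -/
theorem IsComp.eq_of_le {c : ℕ} {p p' : σ → ℂ} {P P' : Ideal (MvPolynomial σ ℂ)}
    (h : IsComp c p P) (h' : IsComp c p' P') (hle : P ≤ P') : P = P' := by
  refine le_antisymm hle fun g hg => not_not.1 fun hn => ?_
  have h1 := h.H_le
  have h2 := h'.one_le_dg
  have h3 := h.le_card
  rcases Nat.eq_zero_or_eq_succ_pred (Fintype.card σ - c) with h0 | h0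
  · rw [h0] at h1
    exact eval_ne_zero_of_dim_zero h.prime (fun M => by simpa using h1 M) hn
      (fun q hq => h'.on q (hle hq)) (h'.on g hg)
  generalize (Fintype.card σ - c).pred = v at h0
  rw [h0] at h1 h2
  have h4 := H_sec h.prime h1 hn (le_max_left _ 1) (le_max_right _ _)
  obtain ⟨f, J, h5, rfl⟩ := h'
  have h6 := sum_dg_le (J := J) (fun i => Finset.le_sup (f := fun i => (f i).totalDegree)
    (Finset.mem_univ i)) {p'} (by simpa using h5) (v := v + 1) (by rw [Fintype.card_fin]; omega)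
    (I := locP f p') (by simp)
  rw [Finset.image_singleton, Finset.sum_singleton] at h6
  have h7 := le_of_growth (v := v + 1) (w := v) fun M =>
    (Nat.le_mul_of_pos_left _ h2).trans ((h6 M).trans (Nat.mul_le_mul_left _
      ((H_anti (sup_le hle ((Ideal.span_singleton_le_iff_mem _).2 hg)) _).trans (h4 _))))
  omega

/-- The tangent space at a point of a component annihilates the ideal. -/
theorem IsComp.exists_tan {c : ℕ} {p : σ → ℂ} {P : Ideal (MvPolynomial σ ℂ)} (h : IsComp c p P) :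
    ∃ T : Submodule ℂ (σ → ℂ), Module.finrank ℂ T + c = Fintype.card σ ∧
      ∀ w ∈ T, ∀ g ∈ P, ∑ l, eval p (pderiv l g) * w l = 0 := by
  obtain ⟨f, J, h1, rfl⟩ := h
  refine ⟨tan f p, by simpa using finrank_tan (f := f) (J := J) (ζ := p) h1.2,
    fun w hw g hg => ?_⟩
  exact tan_lemma (J := J) (ζ := p) h1.2 (fun k => on_locP h1.1 _ (Dk_mem_locP f J p k hg)) hw

end Vale.Agent.P054A
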