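import Vale.Agent.P054A.Cmp

/-!
Boundedly many components lie over a given component.
-/

namespace Vale.Agent.P054A

open MvPolynomial
open scoped Classical

variable {σ τ κ κ' : Type} [Fintype σ] [Fintype τ] [Fintype κ] [DecidableEq κ] [Fintype κ']
  [DecidableEq κ']

omit [Fintype σ] [Fintype τ] [Fintype κ] [DecidableEq κ] [Fintype κ'] [DecidableEq κ'] in
theorem cnt_map_eq (J : κ → σ) (J' : κ' → τ) :
    Sum.map J J' = Sum.elim (fun i => Sum.inl (J i)) (fun i => (Sum.inr (J' i) : σ ⊕ τ)) := by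
  funext o
  cases o <;> rfl

theorem ext_simple {f : κ → MvPolynomial σ ℂ} {J : κ → σ} {φ : κ' → MvPolynomial (σ ⊕ τ) ℂ}
    {J' : κ' → τ} {p : σ → ℂ} {z : τ → ℂ} :
    Simple (ext f φ) (Sum.map J J') (Sum.elim p z) ↔ Simple f J p ∧
      Simple φ (fun i => Sum.inr (J' i)) (Sum.elim p z) := by
  have hm : minor (ext f φ) (Sum.map J J') =
      rename Sum.inl (minor f J) * minor φ (fun i => Sum.inr (J' i)) := by
    rw [cnt_map_eq]
    exact minor_block Sum.inl_injective f J φ _ (by simp)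
  have he : ∀ g : MvPolynomial σ ℂ, eval (Sum.elim p z) (rename Sum.inl g) = eval p g := by
    intro g
    rw [eval_rename]
    rfl
  unfold Simple
  rw [hm, map_mul, he, mul_ne_zero_iff, Sum.forall]
  simp only [ext, Sum.elim_inl, Sum.elim_inr, he]
  tauto

theorem rename_mem_locP_ext {f : κ → MvPolynomial σ ℂ} {J : κ → σ}
    {φ : κ' → MvPolynomial (σ ⊕ τ) ℂ} {J' : κ' → τ} {p : σ → ℂ} {z : τ → ℂ}
    (h : Simple (ext f φ) (Sum.map J J') (Sum.elim p z)) (G : MvPolynomial σ ℂ) :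
    rename Sum.inl G ∈ locP (ext f φ) (Sum.elim p z) ↔ G ∈ locP f p := by
  rw [cnt_map_eq] at h
  exact (comap_locP Sum.inl_injective (by simp) h).2 G

section Sub

variable {σ' K : Type} [Field K] [Algebra ℂ K]

/-- Keep the variables `J₁ i` and replace the others by constants. -/
noncomputable def cntS (J₁ : κ' → σ') (c : σ' → K) : MvPolynomial σ' ℂ →ₐ[ℂ] MvPolynomial κ' K :=
  aeval (Function.extend J₁ X fun l => C (c l))

omit [Fintype κ'] [DecidableEq κ'] in
theorem cntS_in {J₁ : κ' → σ'} (hJ : Function.Injective J₁) (c : σ' → K) (i : κ') :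
    cntS J₁ c (X (J₁ i)) = X i := by
  rw [cntS, aeval_X, hJ.extend_apply]

omit [Fintype κ'] [DecidableEq κ'] in
theorem cntS_out {J₁ : κ' → σ'} (c : σ' → K) {l : σ'} (hl : l ∉ Set.range J₁) :
    cntS J₁ c (X l) = C (c l) := by
  rw [cntS, aeval_X, Function.extend_apply' _ _ _ hl]

omit [Fintype κ'] [DecidableEq κ'] in
theorem cntS_C (J₁ : κ' → σ') (c : σ' → K) (a : ℂ) :
    cntS J₁ c (C a) = C (algebraMap ℂ K a) := by
  rw [cntS, aeval_C, MvPolynomial.algebraMap_apply]

omit [Fintype κ'] in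
theorem cntS_pderiv {J₁ : κ' → σ'} (hJ : Function.Injective J₁) (c : σ' → K) (i : κ')
    (G : MvPolynomial σ' ℂ) : pderiv i (cntS J₁ c G) = cntS J₁ c (pderiv (J₁ i) G) := by
  induction G using MvPolynomial.induction_on with
  | C a => rw [cntS_C, pderiv_C, pderiv_C, map_zero]
  | add p q hp hq => rw [map_add, map_add, map_add, map_add, hp, hq]
  | mul_X p l hp =>
    have hx : pderiv i (cntS J₁ c (X l)) = cntS J₁ c (pderiv (J₁ i) (X l)) := by
      by_cases hl : l ∈ Set.range J₁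
      · obtain ⟨j, rfl⟩ := hl
        rw [cntS_in hJ]
        by_cases hij : j = i
        · subst hij
          rw [pderiv_X_self, pderiv_X_self, map_one]
        · rw [pderiv_X_of_ne hij, pderiv_X_of_ne (fun h => hij (hJ h)), map_zero]
      · rw [cntS_out c hl, pderiv_C, pderiv_X_of_ne (fun h => hl ⟨i, h.symm⟩), map_zero]
    rw [map_mul, pderiv_mul, pderiv_mul, map_add, map_mul, map_mul, hp, hx]

theorem cntS_minor {J₁ : κ' → σ'} (hJ : Function.Injective J₁) (c : σ' → K)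
    (φ : κ' → MvPolynomial σ' ℂ) :
    minor (fun i => cntS J₁ c (φ i)) id = cntS J₁ c (minor φ J₁) := by
  unfold minor
  rw [AlgHom.map_det]
  congr 1
  ext1 i k
  simp only [Matrix.of_apply, id, AlgHom.mapMatrix_apply, Matrix.map_apply]
  exact cntS_pderiv hJ c k (φ i)

omit [Fintype κ'] [DecidableEq κ'] in
theorem cntS_deg [Fintype σ'] (J₁ : κ' → σ') (c : σ' → K) (d : σ' → ℕ)
    (hd : ∀ l, (cntS J₁ c (X l)).totalDegree ≤ d l) {G : MvPolynomial σ' ℂ} {t : ℕ}
    (hG : ∀ α ∈ G.support, ∑ l, α l * d l ≤ t) : (cntS J₁ c G).totalDegree ≤ t := by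
  conv_lhs => rw [G.as_sum]
  rw [map_sum]
  refine totalDegree_finsetSum_le fun α hα => ?_
  rw [monomial_eq, map_mul, cntS_C, Finsupp.prod_fintype _ _ (by simp), map_prod]
  refine (totalDegree_mul _ _).trans ?_
  rw [totalDegree_C, zero_add]
  refine (totalDegree_finsetProd _ _).trans (le_trans (Finset.sum_le_sum fun l _ => ?_) (hG α hα))
  rw [map_pow]
  exact (totalDegree_pow _ _).trans (Nat.mul_le_mul_left _ (hd l))

omit [Fintype κ'] [DecidableEq κ'] in
theorem cntS_aeval {L : Type} [Field L] [Algebra ℂ L] [Algebra K L] [IsScalarTower ℂ K L]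
    {J₁ : κ' → σ'} (hJ : Function.Injective J₁) (c : σ' → K) (ζ : σ' → L)
    (hc : ∀ l ∉ Set.range J₁, algebraMap K L (c l) = ζ l) (G : MvPolynomial σ' ℂ) :
    aeval (fun i => ζ (J₁ i)) (cntS J₁ c G) = aeval ζ G := by
  induction G using MvPolynomial.induction_on with
  | C a => rw [cntS_C, aeval_C, aeval_C, ← IsScalarTower.algebraMap_apply]
  | add p q hp hq => rw [map_add, map_add, map_add, hp, hq]
  | mul_X p l hp =>
    rw [map_mul, map_mul, map_mul, hp, aeval_X]
    congr 1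
    by_cases hl : l ∈ Set.range J₁
    · obtain ⟨j, rfl⟩ := hl
      rw [cntS_in hJ, aeval_X]
    · rw [cntS_out c hl, aeval_C, hc l hl]

end Sub

theorem cnt_lift {K L Ω : Type} [Field K] [Field L] [Field Ω] [Algebra K L] [Algebra K Ω]
    [IsAlgClosed Ω] (g : κ' → MvPolynomial κ' K) {t : ℕ} (ht : ∀ i, (g i).totalDegree ≤ t)
    (ξ : κ' → L) (h0 : ∀ i, aeval ξ (g i) = 0) (hJ : aeval ξ (minor g id) ≠ 0) :
    ∃ η : κ' → Ω, ∀ G : MvPolynomial κ' K, aeval η G = 0 ↔ aeval ξ G = 0 := by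
  set E := IntermediateField.adjoin K (Set.range ξ) with hE
  have : FiniteDimensional K E := (finrank_adjoin_le g ht ξ h0 hJ).1
  let ι : E →ₐ[K] Ω := IsAlgClosed.lift
  let ξ' : κ' → E := fun i => ⟨ξ i, IntermediateField.subset_adjoin K _ ⟨i, rfl⟩⟩
  refine ⟨fun i => ι (ξ' i), fun G => ?_⟩
  have h1 : aeval (fun i => ι (ξ' i)) G = ι (aeval ξ' G) := by
    rw [← comp_aeval_apply]
  have h2 : aeval ξ G = E.val (aeval ξ' G) := by
    rw [comp_aeval_apply]
    rfl
  rw [h1, h2, map_eq_zero ι, map_eq_zero E.val]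

theorem cnt_fac {R B L : Type} [CommRing R] [CommRing B] [CommRing L] (π : R →+* B)
    (hs : Function.Surjective π) (g : R →+* L) (h : ∀ x, π x = 0 → g x = 0) :
    ∃ ψ : B →+* L, ∀ x, ψ (π x) = g x :=
  ⟨π.liftOfSurjective hs ⟨g, h⟩, fun x => π.liftOfSurjective_comp_apply hs ⟨g, h⟩ x⟩

/-- The generic base point. -/
noncomputable def cntc {B : Type} [CommRing B] (J' : κ' → τ) (b : σ → B) :
    σ ⊕ τ → MvPolynomial {l : τ // l ∉ Set.range J'} B :=
  Sum.elim (fun s => C (b s)) (fun l => if h : l ∉ Set.range J' then X ⟨l, h⟩ else 0)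

theorem cnt_hom {f : κ → MvPolynomial σ ℂ} {J : κ → σ} {φ : κ' → MvPolynomial (σ ⊕ τ) ℂ}
    {J' : κ' → τ} {p : σ → ℂ} {z : τ → ℂ} (h : Simple (ext f φ) (Sum.map J J') (Sum.elim p z))
    {B : Type} [CommRing B] [IsDomain B] [Algebra ℂ B] (π : MvPolynomial σ ℂ →ₐ[ℂ] B)
    (hπ : Function.Surjective π) (hP : ∀ g, π g = 0 ↔ g ∈ locP f p) {L : Type} [Field L]
    [Algebra ℂ L] (ζ : σ ⊕ τ → L)
    (hζ : ∀ G, aeval ζ G = 0 ↔ G ∈ locP (ext f φ) (Sum.elim p z)) :
    ∃ Ψ : MvPolynomial {l : τ // l ∉ Set.range J'} B →+* L,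
      Function.Injective Ψ ∧ (∀ a : ℂ, Ψ (algebraMap ℂ _ a) = algebraMap ℂ L a) ∧
      ∀ l ∉ Set.range (fun i => (Sum.inr (J' i) : σ ⊕ τ)),
        Ψ (cntc J' (fun s => π (X s)) l) = ζ l := by
  have hf := (ext_simple.1 h).1
  obtain ⟨ψ₀, hψ₀⟩ := cnt_fac π.toRingHom hπ (aeval fun s => ζ (Sum.inl s)).toRingHom
    fun g hg => by
      have := (hζ _).2 ((rename_mem_locP_ext h g).2 ((hP g).1 hg))
      rw [aeval_rename] at this
      exact this
  obtain ⟨ev₀, hev₀⟩ := cnt_fac π.toRingHom hπ (eval p) fun g hg => on_locP hf.1 g ((hP g).1 hg)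
  replace hψ₀ : ∀ g, ψ₀ (π g) = aeval (fun s => ζ (Sum.inl s)) g := hψ₀
  replace hev₀ : ∀ g, ev₀ (π g) = eval p g := hev₀
  let Ψ : MvPolynomial {l : τ // l ∉ Set.range J'} B →+* L :=
    eval₂Hom ψ₀ fun l => ζ (Sum.inr l.1)
  let e : σ ⊕ {l : τ // l ∉ Set.range J'} → σ ⊕ τ := Sum.map id Subtype.val
  have he : Function.Injective e :=
    Function.Injective.sumMap Function.injective_id Subtype.val_injective
  let Θ : MvPolynomial (σ ⊕ {l : τ // l ∉ Set.range J'}) ℂ →ₐ[ℂ]
      MvPolynomial {l : τ // l ∉ Set.range J'} B :=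
    aeval (Sum.elim (fun s => C (π (X s))) X)
  have hΘ1 : ∀ g : MvPolynomial σ ℂ, Θ (rename Sum.inl g) = C (π g) := by
    intro g
    induction g using MvPolynomial.induction_on with
    | C a => rw [rename_C, aeval_C, MvPolynomial.algebraMap_apply, algHom_C]
    | add p q hp hq => rw [map_add, map_add, map_add, map_add, hp, hq]
    | mul_X p l hp => rw [map_mul, map_mul, map_mul, map_mul, hp, rename_X, aeval_X]; rfl
  have hΘs : Function.Surjective Θ := by
    intro G
    induction G using MvPolynomial.induction_on with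
    | C a =>
      obtain ⟨g, rfl⟩ := hπ a
      exact ⟨_, hΘ1 g⟩
    | add p q hp hq =>
      obtain ⟨a, rfl⟩ := hp
      obtain ⟨b, rfl⟩ := hq
      exact ⟨a + b, map_add _ _ _⟩
    | mul_X p l hp =>
      obtain ⟨a, rfl⟩ := hp
      exact ⟨a * X (Sum.inr l), by rw [map_mul, aeval_X]; rfl⟩
  have hΨa : ∀ a : ℂ, Ψ (algebraMap ℂ _ a) = algebraMap ℂ L a := by
    intro a
    rw [MvPolynomial.algebraMap_apply, eval₂Hom_C, ← algHom_C π, hψ₀, aeval_C]
  have hΨ1 : ∀ s, Ψ (C (π (X s))) = ζ (Sum.inl s) := by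
    intro s
    rw [eval₂Hom_C, hψ₀, aeval_X]
  have hΨΘ : ∀ G, Ψ (Θ G) = aeval ζ (rename e G) := by
    intro G
    induction G using MvPolynomial.induction_on with
    | C a => rw [rename_C, aeval_C, aeval_C, hΨa]
    | add p q hp hq => rw [map_add, map_add, map_add, map_add, hp, hq]
    | mul_X p l hp =>
      rw [map_mul, map_mul, map_mul, map_mul, hp, rename_X, aeval_X, aeval_X]
      congr 1
      cases l with
      | inl s => exact hΨ1 s
      | inr l => exact eval₂Hom_X' _ _ l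
  have hext : ext f φ = Sum.elim (fun i => rename e (rename Sum.inl (f i))) φ := by
    funext o
    cases o with
    | inl i => simp only [ext, Sum.elim_inl, rename_rename]; rfl
    | inr i => rfl
  have hmap : Sum.map J J' =
      Sum.elim (fun i => e (Sum.inl (J i))) (fun i => (Sum.inr (J' i) : σ ⊕ τ)) := cnt_map_eq J J'
  have h' := h
  rw [hext, hmap] at h'
  have hc := (comap_locP he (by
    rintro i ⟨o, ho⟩
    cases o with
    | inl s => exact Sum.inl_ne_inr ho
    | inr l => exact l.2 ⟨i, (Sum.inr_injective ho).symm⟩) h').2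
  have hle : locP (fun i => rename Sum.inl (f i)) (fun l => Sum.elim p z (e l)) ≤
      RingHom.ker Θ := by
    refine locP_le (RingHom.ker_isPrime Θ) (fun i => ?_) fun G hG => ?_
    · rw [RingHom.mem_ker, hΘ1, (hP _).2 (mem_locP f p i), map_zero]
    · let ev : MvPolynomial {l : τ // l ∉ Set.range J'} B →+* ℂ := eval₂Hom ev₀ fun l => z l.1
      have : ∀ G, ev (Θ G) = eval (fun l => Sum.elim p z (e l)) G := by
        intro G
        induction G using MvPolynomial.induction_on with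
        | C a =>
          rw [aeval_C, MvPolynomial.algebraMap_apply, eval₂Hom_C, eval_C, ← algHom_C π, hev₀,
            eval_C]
        | add p q hp hq => rw [map_add, map_add, map_add, hp, hq]
        | mul_X q l hp =>
          rw [map_mul, map_mul, map_mul, hp, aeval_X, eval_X]
          congr 1
          cases l with
          | inl s => exact (eval₂Hom_C _ _ _).trans ((hev₀ _).trans (eval_X s))
          | inr l => exact eval₂Hom_X' _ _ l
      rw [← this, RingHom.mem_ker.1 hG, map_zero]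
  refine ⟨Ψ, (injective_iff_map_eq_zero Ψ).2 fun a ha => ?_, hΨa, fun l hl => ?_⟩
  · obtain ⟨G, rfl⟩ := hΘs a
    rw [hΨΘ, hζ, hext] at ha
    exact hle ((hc G).1 ha)
  · cases l with
    | inl s => exact hΨ1 s
    | inr l =>
      have hl' : l ∉ Set.range J' := fun ⟨i, hi⟩ => hl ⟨i, congrArg Sum.inr hi⟩
      simp only [cntc, Sum.elim_inr, dif_pos hl']
      exact eval₂Hom_X' _ _ _

theorem cnt_main {f : κ → MvPolynomial σ ℂ} {J : κ → σ}
    {φ : κ' → MvPolynomial (σ ⊕ τ) ℂ} {J' : κ' → τ} {t M : ℕ} (hφ : ∀ i, BD t M (φ i))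
    {B : Type} [CommRing B] [IsDomain B] [Algebra ℂ B] (π : MvPolynomial σ ℂ →ₐ[ℂ] B)
    (hπ : Function.Surjective π) (hJ' : Function.Injective J')
    (W : Finset ((σ → ℂ) × (τ → ℂ)))
    (hW : ∀ w ∈ W, Simple (ext f φ) (Sum.map J J') (Sum.elim w.1 w.2) ∧
      ∀ g, π g = 0 ↔ g ∈ locP f w.1) :
    (W.image fun w => locP (ext f φ) (Sum.elim w.1 w.2)).card
      ≤ (Fintype.card κ' * t + 1) ^ Fintype.card κ' := by
  have hJ₁ : Function.Injective fun i => (Sum.inr (J' i) : σ ⊕ τ) :=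
    fun i j hij => hJ' (Sum.inr_injective hij)
  let A := MvPolynomial {l : τ // l ∉ Set.range J'} B
  let K := FractionRing A
  let Ω := AlgebraicClosure K
  let c : σ ⊕ τ → K := fun l => algebraMap A K (cntc J' (fun s => π (X s)) l)
  let S := cntS (fun i => (Sum.inr (J' i) : σ ⊕ τ)) c
  have hdeg : ∀ i, (S (φ i)).totalDegree ≤ t := by
    intro i
    refine cntS_deg _ c (Sum.elim (fun _ => 0) fun _ => 1) (fun l => ?_) fun α hα => ?_
    · cases l with
      | inl s => rw [cntS_out c (by simp), totalDegree_C]; rfl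
      | inr l =>
        by_cases hl : (Sum.inr l : σ ⊕ τ) ∈ Set.range fun i => (Sum.inr (J' i) : σ ⊕ τ)
        · obtain ⟨j, hj⟩ := hl
          rw [← hj, cntS_in hJ₁, totalDegree_X]
          rfl
        · rw [cntS_out c hl, totalDegree_C]
          exact Nat.zero_le _
    · rw [Fintype.sum_sum_type]
      simpa using (hφ i α hα).1
  have hmin : minor (fun i => S (φ i)) id = S (minor φ fun i => Sum.inr (J' i)) :=
    cntS_minor hJ₁ c φ
  have hpt : ∀ w ∈ W, ∃ η : κ' → Ω, ∀ G, aeval η (S G) = 0 ↔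
      G ∈ locP (ext f φ) (Sum.elim w.1 w.2) := by
    intro w hw
    obtain ⟨h, hP⟩ := hW w hw
    set Q := locP (ext f φ) (Sum.elim w.1 w.2) with hQ
    have : Q.IsPrime := locP_prime h
    let L := FractionRing (MvPolynomial (σ ⊕ τ) ℂ ⧸ Q)
    let ζ : σ ⊕ τ → L := fun l => algebraMap _ L (Ideal.Quotient.mk Q (X l))
    have hζ0 : ∀ G, aeval ζ G = algebraMap _ L (Ideal.Quotient.mk Q G) := by
      intro G
      induction G using MvPolynomial.induction_on with
      | C a => rw [aeval_C]; rfl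
      | add p q hp hq => rw [map_add, map_add, map_add, hp, hq]
      | mul_X q l hp => rw [map_mul, map_mul, map_mul, hp, aeval_X]
    have hζ : ∀ G, aeval ζ G = 0 ↔ G ∈ Q := fun G => by
      rw [hζ0, map_eq_zero_iff _ (IsFractionRing.injective _ L), Ideal.Quotient.eq_zero_iff_mem]
    obtain ⟨Ψ, hinj, hΨa, hΨc⟩ := cnt_hom h π hπ hP ζ hζ
    letI : Algebra K L := (IsFractionRing.lift (K := K) hinj).toAlgebra
    have hl : ∀ a : A, algebraMap K L (algebraMap A K a) = Ψ a := fun a =>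
      IsFractionRing.lift_algebraMap hinj a
    have : IsScalarTower ℂ K L := IsScalarTower.of_algebraMap_eq fun a => by
      rw [IsScalarTower.algebraMap_apply ℂ A K, hl, hΨa]
    have hS : ∀ G, aeval (fun i => ζ (Sum.inr (J' i))) (S G) = aeval ζ G :=
      cntS_aeval hJ₁ c ζ fun l hl' => (hl _).trans (hΨc l hl')
    obtain ⟨η, hη⟩ := cnt_lift (Ω := Ω) (fun i => S (φ i)) hdeg (fun i => ζ (Sum.inr (J' i)))
      (fun i => by
        rw [hS, hζ]
        exact mem_locP (ext f φ) _ (Sum.inr i))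
      (by
        rw [hmin, hS, Ne, hζ]
        exact fun hm => (ext_simple.1 h).2.2 (on_locP h.1 _ hm))
    exact ⟨η, fun G => by rw [hη, hS, hζ]⟩
  have hQ : ∀ Q : (W.image fun w => locP (ext f φ) (Sum.elim w.1 w.2)), ∃ η : κ' → Ω,
      (∀ G, aeval η (S G) = 0 ↔ G ∈ Q.1) ∧
        Simple (fun i => map (algebraMap K Ω) (S (φ i))) id η := by
    rintro ⟨Q, hQ⟩
    obtain ⟨w, hw, rfl⟩ := Finset.mem_image.1 hQ
    obtain ⟨η, hη⟩ := hpt w hw
    have h := (hW w hw).1
    refine ⟨η, hη, fun i => ?_, ?_⟩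
    · rw [eval_map, ← aeval_def, hη]
      exact mem_locP (ext f φ) _ (Sum.inr i)
    · rw [← map_minor, eval_map, ← aeval_def, hmin, Ne, hη]
      exact fun hm => (ext_simple.1 h).2.2 (on_locP h.1 _ hm)
  choose η hη hsim using hQ
  have hinj : Function.Injective η := by
    intro Q Q' hQ
    refine Subtype.ext (Ideal.ext fun G => ?_)
    rw [← hη, ← hη, hQ]
  have hcard := card_simple_le (fun i => map (algebraMap K Ω) (S (φ i))) (t := t)
    (fun i => (Finset.sup_mono (support_map_subset _ _)).trans (hdeg i)) η hinj hsim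
  rw [Fintype.card_coe] at hcard
  exact hcard

theorem card_components_le {f : κ → MvPolynomial σ ℂ} {J : κ → σ}
    {φ : κ' → MvPolynomial (σ ⊕ τ) ℂ} {J' : κ' → τ} {t M : ℕ} (hφ : ∀ i, BD t M (φ i))
    {P : Ideal (MvPolynomial σ ℂ)} (W : Finset ((σ → ℂ) × (τ → ℂ)))
    (hW : ∀ w ∈ W, Simple (ext f φ) (Sum.map J J') (Sum.elim w.1 w.2) ∧ locP f w.1 = P) :
    (W.image fun w => locP (ext f φ) (Sum.elim w.1 w.2)).card
      ≤ (Fintype.card τ * t + 1) ^ Fintype.card τ := by
  rcases W.eq_empty_or_nonempty with rfl | ⟨w₀, hw₀⟩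
  · simp
  have hs₀ := ext_simple.1 (hW w₀ hw₀).1
  have hPp : P.IsPrime := (hW w₀ hw₀).2 ▸ locP_prime hs₀.1
  have hJ₁ : Function.Injective fun i => (Sum.inr (J' i) : σ ⊕ τ) :=
    inj_of_minor_ne (f := φ) fun h0 => hs₀.2.2 (by rw [h0, map_zero])
  have hJ' : Function.Injective J' := fun i j hij => hJ₁ (congrArg Sum.inr hij)
  have hcard := cnt_main hφ (Ideal.Quotient.mkₐ ℂ P) (Ideal.Quotient.mkₐ_surjective ℂ P) hJ' W
    fun w hw => ⟨(hW w hw).1, fun g => by
      rw [(hW w hw).2]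
      exact Ideal.Quotient.eq_zero_iff_mem⟩
  have hκ : Fintype.card κ' ≤ Fintype.card τ := Fintype.card_le_of_injective J' hJ'
  refine hcard.trans ((Nat.pow_le_pow_left ?_ _).trans (Nat.pow_le_pow_right (by omega) hκ))
  exact Nat.succ_le_succ (Nat.mul_le_mul_right _ hκ)

end Vale.Agent.P054A
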