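import Vale.Agent.P054A.DichA

/-!
Coordinates on isotropic flats.
-/

namespace Vale.Agent.P054A

open MvPolynomial Sum
open scoped Classical

variable {k : ℕ}

theorem coord_fun {τ : Type} (z : τ → ℝ) : ∃ φ : (τ → ℝ) →ₗ[ℝ] ℝ, φ z • z = z := by
  by_cases hz : z = 0
  · exact ⟨0, by rw [hz, smul_zero]⟩
  · obtain ⟨l, hl⟩ := Function.ne_iff.1 hz
    refine ⟨(z l)⁻¹ • LinearMap.proj l, ?_⟩
    have : ((z l)⁻¹ • (LinearMap.proj l : (τ → ℝ) →ₗ[ℝ] ℝ)) z = 1 := inv_mul_cancel₀ hl
    rw [this, one_smul]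

theorem coord_top {a : ℕ} (T : Submodule ℂ (Fin a → ℂ)) (h : ∀ r : Fin a → ℝ, cx r ∈ T) :
    T = ⊤ := by
  refine eq_top_iff.2 fun w _ => ?_
  have e : w = cx (fun i => (w i).re) + Complex.I • cx (fun i => (w i).im) := by
    funext i
    simp only [cx, Pi.add_apply, Pi.smul_apply, smul_eq_mul]
    rw [mul_comm, Complex.re_add_im]
  rw [e]
  exact T.add_mem (h _) (T.smul_mem _ (h _))

theorem coord_indep {a : ℕ} {β : Type} (v : Fin a → β → ℝ)
    (h : ∀ g : Fin a → ℝ, (∀ l, ∑ i, g i * v i l = 0) → ∀ i, g i = 0) :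
    LinearIndependent ℂ fun i => fun l : β => (v i l : ℂ) := by
  rw [Fintype.linearIndependent_iff]
  intro g hg i
  have h1 : ∀ l, ∑ i, g i * (v i l : ℂ) = 0 := fun l => by
    have := congrFun hg l
    rwa [Finset.sum_apply] at this
  refine Complex.ext (h (fun i => (g i).re) (fun l => ?_) i) (h (fun i => (g i).im) (fun l => ?_) i)
  · have := congrArg Complex.re (h1 l)
    rw [Complex.re_sum] at this
    simpa using this
  · have := congrArg Complex.im (h1 l)
    rw [Complex.im_sum] at this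
    simpa using this

/-- Coordinates on an isotropic flat after projection along `z`. -/
theorem caseI_coords {X : Finset (Tx k → ℝ)} {M : ℕ} {F : Finset (Ed k)} (h : CaseI X M F) :
    ∃ (a : ℕ) (o : Tx k → ℝ) (U : Submodule ℝ (Tx k → ℝ)) (z : Tx k → ℝ) (v : Fin a → Tx k → ℝ)
      (co : (Tx k → ℝ) → Fin a → ℝ) (t : (Tx k → ℝ) → ℝ), o ∈ X ∧ Iso U ∧ z ∈ U ∧ z ∈ Rb k ∧
      (∀ e ∈ F, e.1 - o ∈ U ∧ e.2 - o ∈ U) ∧ SepZ X M o U z ∧
      (Module.finrank ℝ U = a ∨ (Module.finrank ℝ U = k + 1 ∧ a = k)) ∧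
      (LinearIndependent ℂ fun i => fun l : Fin (k + 1) => cx (v i) (inl l)) ∧
      (∀ y, y - o ∈ U → ∀ l, y l + t y * z l = o l + ∑ i, co y i * v i l) ∧
      ∀ A : Finset (Tx k → ℝ), A.Nonempty → A ⊆ F.image Prod.fst →
        adim (F.image Prod.fst) ≤ adim A →
          affineSpan ℂ ((fun y => cx (co y)) '' (A : Set (Tx k → ℝ))) = ⊤ := by
  obtain ⟨o, ho, U, z, hI, hF, hR, hz, hS, hsp⟩ := h
  obtain ⟨φ, hφ⟩ := coord_fun z
  have hzZ : z ∈ U ⊓ Rb k := hR ▸ Submodule.mem_span_singleton_self z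
  let P : (Tx k → ℝ) →ₗ[ℝ] (Tx k → ℝ) := LinearMap.id - φ.smulRight z
  have hP : ∀ y, P y = y - φ y • z := fun y => rfl
  have hPz : P z = 0 := by rw [hP, hφ, sub_self]
  let U' : Submodule ℝ (Tx k → ℝ) := U.map P
  have hU' : U' ≤ U := by
    rintro _ ⟨y, hy, rfl⟩
    rw [hP]
    exact U.sub_mem hy (U.smul_mem _ hzZ.1)
  have hdisj : U' ⊓ Submodule.span ℝ {z} = ⊥ := by
    refine eq_bot_iff.2 ?_
    rintro _ ⟨⟨y, -, rfl⟩, h2⟩
    obtain ⟨c, hc⟩ := Submodule.mem_span_singleton.1 h2
    have h3 : φ (P y) • z = 0 := by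
      rw [hP, map_sub, map_smul, sub_smul, smul_eq_mul, mul_smul, hφ, sub_self]
    rw [← hc, map_smul, smul_eq_mul, mul_smul, hφ] at h3
    rw [← hc, h3]
    exact Submodule.zero_mem _
  have hsup : U' ⊔ Submodule.span ℝ {z} = U := by
    refine le_antisymm (sup_le hU' ((Submodule.span_singleton_le_iff_mem _ _).2 hzZ.1))
      fun y hy => ?_
    have e : y = P y + φ y • z := by rw [hP, sub_add_cancel]
    rw [e]
    exact Submodule.add_mem_sup ⟨y, hy, rfl⟩
      (Submodule.smul_mem _ _ (Submodule.mem_span_singleton_self z))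
  have hrk := Submodule.finrank_sup_add_finrank_inf_eq U' (Submodule.span ℝ {z})
  rw [hsup, hdisj, finrank_bot, add_zero] at hrk
  let b := Module.finBasis ℝ U'
  obtain ⟨C, hC⟩ := LinearMap.exists_extend (p := U') b.equivFun.toLinearMap
  have hC' : ∀ u : U', C u = b.equivFun u := fun u => LinearMap.congr_fun hC u
  refine ⟨Module.finrank ℝ U', o, U, z, fun i => b i, fun y => C (P (y - o)),
    fun y => -φ (y - o), ho, hI, hzZ.1, hzZ.2, hF, hS, ?_, ?_, ?_, ?_⟩
  · by_cases h0 : z = 0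
    · left
      rw [hrk, h0, Submodule.span_zero_singleton, finrank_bot, add_zero]
    · right
      rw [finrank_span_singleton h0] at hrk
      exact ⟨hz h0, by have := hz h0; omega⟩
  · refine coord_indep (fun i (l : Fin (k + 1)) => (b i : Tx k → ℝ) (inl l)) fun g hg => ?_
    have h1 : ((∑ i, g i • b i : U') : Tx k → ℝ) ∈ U' ⊓ Submodule.span ℝ {z} := by
      refine ⟨Subtype.prop _, ?_⟩
      rw [← hR]
      refine ⟨hU' (Subtype.prop _), fun l => ?_⟩
      rw [Submodule.coe_sum, Finset.sum_apply]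
      exact hg l
    rw [hdisj, Submodule.mem_bot, Submodule.coe_eq_zero] at h1
    exact Fintype.linearIndependent_iff.1 b.linearIndependent g h1
  · intro y hy l
    have hm : P (y - o) ∈ U' := ⟨y - o, hy, rfl⟩
    have h1 := congrFun (congrArg Subtype.val (b.sum_equivFun ⟨P (y - o), hm⟩)) l
    rw [Submodule.coe_sum, Finset.sum_apply, ← hC'] at h1
    have h2 : ∑ i, C (P (y - o)) i * (b i : Tx k → ℝ) l = y l - o l - φ (y - o) * z l := h1
    rw [h2]
    ring
  · intro A hA hAF hd
    have hne : ((fun y => cx (C (P (y - o)))) '' (A : Set (Tx k → ℝ))).Nonempty :=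
      (Finset.coe_nonempty.2 hA).image _
    rw [AffineSubspace.affineSpan_eq_top_iff_vectorSpan_eq_top_of_nonempty ℂ _ _ hne]
    refine coord_top _ fun r => ?_
    have hD : ∀ d ∈ vectorSpan ℝ (A : Set (Tx k → ℝ)), cx (C (P d)) ∈
        vectorSpan ℂ ((fun y => cx (C (P (y - o)))) '' (A : Set (Tx k → ℝ))) := by
      intro d hd
      rw [vectorSpan_def] at hd
      induction hd using Submodule.span_induction with
      | mem d hd =>
        obtain ⟨y, hy, y', hy', rfl⟩ := hd
        have e : cx (C (P (y -ᵥ y'))) = cx (C (P (y - o))) -ᵥ cx (C (P (y' - o))) := by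
          have e1 : y -ᵥ y' = (y - o) - (y' - o) := by rw [vsub_eq_sub, sub_sub_sub_cancel_right]
          funext i
          rw [e1, map_sub, map_sub]
          exact Complex.ofReal_sub _ _
        change cx (C (P (y -ᵥ y'))) ∈ _
        rw [e]
        exact vsub_mem_vectorSpan ℂ ⟨y, hy, rfl⟩ ⟨y', hy', rfl⟩
      | zero =>
        have e : cx (C (P 0)) = 0 := by
          funext i
          rw [map_zero, map_zero]
          exact Complex.ofReal_zero
        rw [e]
        exact Submodule.zero_mem _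
      | add d d' _ _ h1 h2 =>
        have e : cx (C (P (d + d'))) = cx (C (P d)) + cx (C (P d')) := by
          funext i
          rw [map_add, map_add]
          exact Complex.ofReal_add _ _
        rw [e]
        exact Submodule.add_mem _ h1 h2
      | smul c d _ h1 =>
        have e : cx (C (P (c • d))) = (c : ℂ) • cx (C (P d)) := by
          funext i
          rw [map_smul, map_smul]
          exact Complex.ofReal_mul _ _
        rw [e]
        exact Submodule.smul_mem _ _ h1
    obtain ⟨u, hu, hu'⟩ := (b.equivFun.symm r).prop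
    rw [← hsp, ← vectorSpan_eq_of_adim hAF hd] at hu
    obtain ⟨d, hd, w, hw, rfl⟩ := Submodule.mem_sup.1 hu
    obtain ⟨c, rfl⟩ := Submodule.mem_span_singleton.1 hw
    rw [map_add, map_smul, hPz, smul_zero, add_zero] at hu'
    have h1 := hD d hd
    rwa [hu', hC', LinearEquiv.apply_symm_apply] at h1

end Vale.Agent.P054A
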