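import Vale.Agent.P054A.Fl
import Vale.Agent.P054A.Cmp

/-!
Linear algebra at the generic point of the fibre product.
-/

namespace Vale.Agent.P054A

open MvPolynomial Sum
open scoped Classical

variable {k : ℕ} {L : Type} [Field L] [Algebra ℂ L]

/-- The tangent space of the fibre product. -/
noncomputable def T0 {κ₁ κ₂ : Type} (F₁ : κ₁ → MvPolynomial (Sx k ⊕ Tx k) ℂ)
    (F₂ : κ₂ → MvPolynomial (Sx k ⊕ Tx k) ℂ) (ζ : Sx k → L) (ξ η : Tx k → L) :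
    Submodule L (Sx k ⊕ (Tx k ⊕ Tx k) → L) :=
  (tan F₁ (Sum.elim ζ ξ)).comap (LinearMap.funLeft L L (Sum.map id inl)) ⊓
    (tan F₂ (Sum.elim ζ η)).comap (LinearMap.funLeft L L (Sum.map id inr))

variable {ι : Type} {t j₁ j₂ : ℕ} {E : Finset ι} {x y : ι → Tx k → ℂ} {b : ι → Fin k → ℂ}
  {P₁ P₂ : ι → Ideal (MvPolynomial (Fin k) ℂ)} {c c₁ c₂ : ℕ}
  {f : Fin c → MvPolynomial (Sx k) ℂ} {J : Fin c → Sx k}
  {φ₁ : Fin c₁ → MvPolynomial (Sx k ⊕ Tx k) ℂ} {J₁ : Fin c₁ → Tx k}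
  {φ₂ : Fin c₂ → MvPolynomial (Sx k ⊕ Tx k) ℂ} {J₂ : Fin c₂ → Tx k}
  {Q₁ Q₂ : Ideal (MvPolynomial (Sx k ⊕ Tx k) ℂ)} {ζ : Sx k → L} {ξ η : Tx k → L}

theorem CritA_minor {σ κ : Type} [Fintype σ] [Fintype κ] [DecidableEq κ]
    {F : κ → MvPolynomial σ ℂ} {J' : κ → σ} {p : σ → ℂ} {Q : Ideal (MvPolynomial σ ℂ)}
    (hs : Simple F J' p) (hQ : locP F p = Q) {z : σ → L} (hk : ∀ G, aeval z G = 0 ↔ G ∈ Q) :
    aeval z (minor F J') ≠ 0 := fun h0 => minor_notin_locP hs (hQ ▸ (hk _).1 h0)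

theorem CritA_tan {σ κ : Type} [Fintype σ] [Fintype κ] [DecidableEq κ]
    {F : κ → MvPolynomial σ ℂ} {J' : κ → σ} {p : σ → ℂ} {Q : Ideal (MvPolynomial σ ℂ)}
    (hs : Simple F J' p) (hQ : locP F p = Q) {z : σ → L} (hk : ∀ G, aeval z G = 0 ↔ G ∈ Q)
    {θ : σ → L} (hθ : θ ∈ tan F z) {G : MvPolynomial σ ℂ} (hG : G ∈ Q) :
    ∑ l, aeval z (pderiv l G) * θ l = 0 := by
  subst hQ
  exact tan_lemma (CritA_minor hs rfl hk) (fun l => (hk _).2 (Dk_mem_locP F J' p l hG)) hθ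

theorem CritA_sum_rename {σ τ : Type} [Fintype σ] [Fintype τ] (g : MvPolynomial σ ℂ) (ζ : σ → L)
    (ξ : τ → L) (θ : σ ⊕ τ → L) :
    ∑ l, aeval (Sum.elim ζ ξ) (pderiv l (rename (inl : σ → σ ⊕ τ) g)) * θ l =
      ∑ o, aeval ζ (pderiv o g) * θ (inl o) := by
  rw [Fintype.sum_sum_type]
  have h0 : ∀ l : τ, pderiv (inr l : σ ⊕ τ) (rename (inl : σ → σ ⊕ τ) g) = 0 := fun l => by
    refine pderiv_eq_zero_of_notMem_vars fun hl => ?_
    obtain ⟨o, -, ho⟩ := mem_vars_rename _ _ hl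
    exact inl_ne_inr ho
  simp only [h0, map_zero, zero_mul, Finset.sum_const_zero, add_zero]
  refine Finset.sum_congr rfl fun o _ => ?_
  rw [pderiv_rename inl_injective, aeval_rename]
  rfl

theorem CritA_mem_tan {σ τ κ κ' : Type} [Fintype σ] [Fintype τ] {g : κ → MvPolynomial σ ℂ}
    {φ : κ' → MvPolynomial (σ ⊕ τ) ℂ} {ζ : σ → L} {ξ : τ → L} {θ : σ ⊕ τ → L} :
    θ ∈ tan (ext g φ) (Sum.elim ζ ξ) ↔
      (fun o => θ (inl o)) ∈ tan g ζ ∧ θ ∈ tan φ (Sum.elim ζ ξ) := by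
  constructor
  · intro h
    exact ⟨fun i => (CritA_sum_rename (g i) ζ ξ θ).symm.trans (h (inl i)), fun i => h (inr i)⟩
  · rintro ⟨h1, h2⟩ (i | i)
    · exact (CritA_sum_rename (g i) ζ ξ θ).trans (h1 i)
    · exact h2 i

theorem CritA_block {σ τ κ κ' : Type} [Fintype σ] [Fintype τ] [Fintype κ] [DecidableEq κ]
    [Fintype κ'] [DecidableEq κ'] {g : κ → MvPolynomial σ ℂ} {I : κ → σ}
    {φ : κ' → MvPolynomial (σ ⊕ τ) ℂ} {I' : κ' → τ} {ζ : σ → L} {ξ : τ → L}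
    (h : aeval (Sum.elim ζ ξ) (minor (ext g φ) (Sum.map I I')) ≠ 0) :
    aeval ζ (minor g I) ≠ 0 ∧ aeval (Sum.elim ζ ξ) (minor φ fun i => inr (I' i)) ≠ 0 := by
  have e : minor (ext g φ) (Sum.map I I') = rename inl (minor g I) * minor φ fun i => inr (I' i) :=
    minor_block inl_injective g I φ (fun i => inr (I' i)) fun i ⟨_, h⟩ => inl_ne_inr h
  rw [e, map_mul, aeval_rename] at h
  exact mul_ne_zero_iff.1 h

/-- Extension by zero. -/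
def CritA_ext0 (σ τ : Type) : (σ → L) →ₗ[L] (σ ⊕ τ → L) where
  toFun w := Sum.elim w 0
  map_add' a b := by funext l; rcases l with l | l <;> simp
  map_smul' a b := by funext l; rcases l with l | l <;> simp

/-- The vertical part of the tangent space. -/
noncomputable def CritA_T {κ : Type} (F : κ → MvPolynomial (Sx k ⊕ Tx k) ℂ) (ζ : Sx k → L)
    (ξ : Tx k → L) : Submodule L (Sx k → L) :=
  (tan F (Sum.elim ζ ξ)).comap (CritA_ext0 (Sx k) (Tx k))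

theorem CritA_mem_T {κ : Type} {F : κ → MvPolynomial (Sx k ⊕ Tx k) ℂ} {ζ : Sx k → L}
    {ξ : Tx k → L} {w : Sx k → L} :
    w ∈ CritA_T F ζ ξ ↔ Sum.elim w 0 ∈ tan F (Sum.elim ζ ξ) := Iff.rfl

theorem CritA_le_finrank {κ : Type} [Fintype κ] [DecidableEq κ]
    {F : κ → MvPolynomial (Sx k ⊕ Tx k) ℂ} {ζ : Sx k → L}
    {ξ : Tx k → L} {j n : ℕ} (hn : n + j = 2 * k + 2) (hj : j ≤ k)
    (h : ∀ (ρ : Fin n → κ) (γ : Fin n → Sx k),
      aeval (Sum.elim ζ ξ) (minor (fun i => F (ρ i)) fun i => inl (γ i)) = 0) :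
    j ≤ Module.finrank L (CritA_T F ζ ξ) := by
  obtain ⟨r, rfl⟩ : ∃ r, n = r + 1 := ⟨n - 1, by omega⟩
  obtain ⟨W, hW, h0, hc⟩ := le_finrank_of_minor F (Sum.elim ζ ξ) inl inl_injective r h
  have hle : W ≤ (CritA_T F ζ ξ).map (CritA_ext0 (Sx k) (Tx k)) := by
    intro w hw
    have e : Sum.elim (fun o => w (inl o)) 0 = w := by
      funext l
      rcases l with l | l
      · rfl
      · exact (h0 w hw _ fun ⟨_, h⟩ => inl_ne_inr h).symm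
    exact ⟨fun o => w (inl o), CritA_mem_T.2 (e.symm ▸ hW hw), e⟩
  have h1 := (Submodule.finrank_mono hle).trans (Submodule.finrank_map_le _ _)
  rw [card_Sx] at hc
  omega

theorem CritA_eq_dfl {ζ : Sx k → L} {ξ : Tx k → L} {w : Sx k → L}
    (h : ∀ o, ∑ l, aeval (Sum.elim ζ ξ) (pderiv l (incP o)) * Sum.elim w 0 l = 0) :
    w = dfl ξ fun i => w (some (inl i)) := by
  funext o
  have h1 := h o
  rw [d_incP] at h1
  have h2 : fl0 (fun l => Sum.elim w (0 : Tx k → L) (inr l)) (fun i => ζ (some (inl i))) o = 0 := by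
    rcases o with _ | i | i <;> simp [fl0]
  rw [h2, add_zero, sub_eq_zero] at h1
  exact h1

/-- Tangent vectors annihilate the differentials of all members of the prime. -/
theorem Pack.tan₁ (h : Pack t j₁ j₂ E x y b P₁ P₂ f J φ₁ J₁ φ₂ J₂ Q₁ Q₂)
    (k₁ : ∀ G, aeval (Sum.elim ζ ξ) G = 0 ↔ G ∈ Q₁) {θ : Sx k ⊕ Tx k → L}
    (hθ : θ ∈ tan (ext f φ₁) (Sum.elim ζ ξ)) {G : MvPolynomial (Sx k ⊕ Tx k) ℂ} (hG : G ∈ Q₁) :
    ∑ l, aeval (Sum.elim ζ ξ) (pderiv l G) * θ l = 0 := by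
  obtain ⟨e, he⟩ := h.ne
  exact CritA_tan (h.sim₁ e he).1 (h.sim₁ e he).2 k₁ hθ hG

theorem Pack.tan₂ (h : Pack t j₁ j₂ E x y b P₁ P₂ f J φ₁ J₁ φ₂ J₂ Q₁ Q₂)
    (k₂ : ∀ G, aeval (Sum.elim ζ η) G = 0 ↔ G ∈ Q₂) {θ : Sx k ⊕ Tx k → L}
    (hθ : θ ∈ tan (ext f φ₂) (Sum.elim ζ η)) {G : MvPolynomial (Sx k ⊕ Tx k) ℂ} (hG : G ∈ Q₂) :
    ∑ l, aeval (Sum.elim ζ η) (pderiv l G) * θ l = 0 := by
  obtain ⟨e, he⟩ := h.ne
  exact CritA_tan (h.sim₂ e he).1 (h.sim₂ e he).2 k₂ hθ hG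

theorem Pack.CritA_T_facts (h : Pack t j₁ j₂ E x y b P₁ P₂ f J φ₁ J₁ φ₂ J₂ Q₁ Q₂)
    (k₁ : ∀ G, aeval (Sum.elim ζ ξ) G = 0 ↔ G ∈ Q₁)
    (k₂ : ∀ G, aeval (Sum.elim ζ η) G = 0 ↔ G ∈ Q₂) (h0 : ξ (inl 0) ≠ η (inl 0)) :
    (∀ w ∈ CritA_T (ext f φ₁) ζ ξ, w ∈ CritA_T (ext f φ₂) ζ η → w = 0) ∧
      tan f ζ ≤ CritA_T (ext f φ₁) ζ ξ ⊔ CritA_T (ext f φ₂) ζ η ∧
      j₁ ≤ Module.finrank L (CritA_T (ext f φ₁) ζ ξ) ∧
      Module.finrank L (CritA_T (ext f φ₁) ζ ξ) ≤ j₁ := by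
  obtain ⟨e, he⟩ := h.ne
  have hm := (CritA_block (CritA_minor (h.sim₂ e he).1 (h.sim₂ e he).2 k₂)).1
  have hle₁ := h.le₁
  have hle₂ := h.le₂
  have hc := h.crit
  have hdis : ∀ w ∈ CritA_T (ext f φ₁) ζ ξ, w ∈ CritA_T (ext f φ₂) ζ η → w = 0 := by
    intro w h1 h2
    have e1 := CritA_eq_dfl fun o => h.tan₁ k₁ (CritA_mem_T.1 h1) (h.inc₁ o)
    have e2 := CritA_eq_dfl fun o => h.tan₂ k₂ (CritA_mem_T.1 h2) (h.inc₂ o)
    have e3 := (eq_zero_of_dfl h0 (e1.symm.trans e2)).1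
    rw [e1, e3, ← zero_smul L (0 : Fin k → L), dfl_smul, zero_smul]
  have hl₁ : j₁ ≤ Module.finrank L (CritA_T (ext f φ₁) ζ ξ) :=
    CritA_le_finrank (n := 2 * k + 2 - j₁) (by omega) hle₁ fun ρ γ => (k₁ _).2 (h.rk₁ ρ γ)
  have hl₂ : j₂ ≤ Module.finrank L (CritA_T (ext f φ₂) ζ η) :=
    CritA_le_finrank (n := 2 * k + 2 - j₂) (by omega) hle₂ fun ρ γ => (k₂ _).2 (h.rk₂ ρ γ)
  have hsub : CritA_T (ext f φ₁) ζ ξ ⊔ CritA_T (ext f φ₂) ζ η ≤ tan f ζ :=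
    sup_le (fun w hw => (CritA_mem_tan.1 (CritA_mem_T.1 hw)).1)
      fun w hw => (CritA_mem_tan.1 (CritA_mem_T.1 hw)).1
  have hbot : CritA_T (ext f φ₁) ζ ξ ⊓ CritA_T (ext f φ₂) ζ η = ⊥ :=
    (Submodule.eq_bot_iff _).2 fun w hw => hdis w hw.1 hw.2
  have h1 := Submodule.finrank_sup_add_finrank_inf_eq (CritA_T (ext f φ₁) ζ ξ)
    (CritA_T (ext f φ₂) ζ η)
  rw [hbot, finrank_bot, add_zero] at h1
  have h2 := finrank_tan hm
  rw [card_Sx, Fintype.card_fin] at h2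
  have h3 := Submodule.finrank_mono hsub
  exact ⟨hdis, (Submodule.eq_of_le_of_finrank_le hsub (by omega)).ge, hl₁, by omega⟩

theorem Pack.split (h : Pack t j₁ j₂ E x y b P₁ P₂ f J φ₁ J₁ φ₂ J₂ Q₁ Q₂)
    (k₁ : ∀ G, aeval (Sum.elim ζ ξ) G = 0 ↔ G ∈ Q₁)
    (k₂ : ∀ G, aeval (Sum.elim ζ η) G = 0 ↔ G ∈ Q₂) (h0 : ξ (inl 0) ≠ η (inl 0)) :
    (∀ θ ∈ T0 (ext f φ₁) (ext f φ₂) ζ ξ η, ∃ θ₁ ∈ T0 (ext f φ₁) (ext f φ₂) ζ ξ η,
      (∀ l, θ₁ (inr (inl l)) = 0) ∧ ∀ l, θ₁ (inr (inr l)) = θ (inr (inr l))) ∧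
    (∃ W : Submodule L (Sx k ⊕ (Tx k ⊕ Tx k) → L), W ≤ T0 (ext f φ₁) (ext f φ₂) ζ ξ η ∧
      j₁ ≤ Module.finrank L W ∧ ∀ θ ∈ W, (∀ l, θ (inr (inr l)) = 0) → θ = 0) ∧
    ∀ W : Submodule L (Sx k ⊕ (Tx k ⊕ Tx k) → L), W ≤ T0 (ext f φ₁) (ext f φ₂) ζ ξ η →
      (∀ θ ∈ W, ∀ l, θ (inr (inl l)) = 0) → Module.finrank L W ≤ j₁ + (2 * k + 2 - c₂) := by
  obtain ⟨e, he⟩ := h.ne
  obtain ⟨hm, hm₂⟩ := CritA_block (CritA_minor (h.sim₂ e he).1 (h.sim₂ e he).2 k₂)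
  obtain ⟨hdis, hsup, hlo, hup⟩ := h.CritA_T_facts k₁ k₂ h0
  have hmem : ∀ θ : Sx k ⊕ (Tx k ⊕ Tx k) → L, θ ∈ T0 (ext f φ₁) (ext f φ₂) ζ ξ η ↔
      Sum.elim (fun o => θ (inl o)) (fun l => θ (inr (inl l))) ∈ tan (ext f φ₁) (Sum.elim ζ ξ) ∧
      Sum.elim (fun o => θ (inl o)) (fun l => θ (inr (inr l))) ∈ tan (ext f φ₂) (Sum.elim ζ η) := by
    intro θ
    have e1 : LinearMap.funLeft L L (Sum.map id inl) θ =
        Sum.elim (fun o => θ (inl o)) (fun l => θ (inr (inl l))) := by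
      funext l
      rcases l with l | l <;> rfl
    have e2 : LinearMap.funLeft L L (Sum.map id inr) θ =
        Sum.elim (fun o => θ (inl o)) (fun l => θ (inr (inr l))) := by
      funext l
      rcases l with l | l <;> rfl
    rw [← e1, ← e2]
    rfl
  have hT₁ : ∀ θ ∈ T0 (ext f φ₁) (ext f φ₂) ζ ξ η, (∀ l, θ (inr (inl l)) = 0) →
      (fun o => θ (inl o)) ∈ CritA_T (ext f φ₁) ζ ξ := by
    intro θ hθ hz
    have h1 := ((hmem θ).1 hθ).1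
    rw [show (fun l => θ (inr (inl l))) = 0 from funext hz] at h1
    exact h1
  refine ⟨fun θ hθ => ?_, ?_, fun W hW hz => ?_⟩
  · obtain ⟨h1, h2⟩ := (hmem θ).1 hθ
    obtain ⟨w₁, hw₁, w₂, hw₂, hw⟩ := Submodule.mem_sup.1 (hsup (CritA_mem_tan.1 h1).1)
    refine ⟨Sum.elim w₁ (Sum.elim 0 fun l => θ (inr (inr l))), (hmem _).2 ⟨hw₁, ?_⟩,
      fun _ => rfl, fun _ => rfl⟩
    have h3 := Submodule.sub_mem _ h2 (CritA_mem_T.1 hw₂)
    have e3 : Sum.elim (fun o => θ (inl o)) (fun l => θ (inr (inr l))) - Sum.elim w₂ 0 =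
        Sum.elim w₁ fun l => θ (inr (inr l)) := by
      funext l
      rcases l with l | l
      · exact sub_eq_of_eq_add (congrFun hw l).symm
      · exact sub_zero _
    rw [e3] at h3
    exact h3
  · refine ⟨T0 (ext f φ₁) (ext f φ₂) ζ ξ η ⊓
      LinearMap.ker (LinearMap.funLeft L L fun l => inr (inl l)), inf_le_left, ?_, ?_⟩
    · have hle : CritA_T (ext f φ₁) ζ ξ ≤ (T0 (ext f φ₁) (ext f φ₂) ζ ξ η ⊓
          LinearMap.ker (LinearMap.funLeft L L fun l => inr (inl l))).map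
            (LinearMap.funLeft L L inl) := by
        intro w hw
        obtain ⟨v, hv0, hv⟩ := exists_solve hm₂
          fun i => -∑ l, aeval (Sum.elim ζ η) (pderiv l (φ₂ i)) * Sum.elim w 0 l
        refine ⟨Sum.elim w (Sum.elim 0 fun l => v (inr l)), ⟨(hmem _).2 ⟨hw, ?_⟩, rfl⟩, rfl⟩
        refine CritA_mem_tan.2 ⟨(CritA_mem_tan.1 (CritA_mem_T.1 hw)).1, fun i => ?_⟩
        have e3 : Sum.elim w (fun l => v (inr l)) = Sum.elim w 0 + v := by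
          funext l
          rcases l with l | l
          · have := hv0 (inl l) fun ⟨_, h⟩ => inr_ne_inl h
            simp [this]
          · simp
        change ∑ l, aeval (Sum.elim ζ η) (pderiv l (φ₂ i)) * Sum.elim w (fun l => v (inr l)) l = 0
        simp only [e3, Pi.add_apply, mul_add, Finset.sum_add_distrib, hv i, add_neg_cancel]
      exact hlo.trans ((Submodule.finrank_mono hle).trans (Submodule.finrank_map_le _ _))
    · rintro θ ⟨hθ, hz⟩ hz'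
      have hz1 : ∀ l, θ (inr (inl l)) = 0 := fun l => congrFun hz l
      have h2 := ((hmem θ).1 hθ).2
      rw [show (fun l => θ (inr (inr l))) = 0 from funext hz'] at h2
      have h3 := hdis _ (hT₁ θ hθ hz1) h2
      funext l
      rcases l with l | l | l
      exacts [congrFun h3 l, hz1 l, hz' l]
  · let Φ : W →ₗ[L] CritA_T (ext f φ₁) ζ ξ × ({l // l ∉ Set.range J₂} → L) :=
      { toFun := fun θ => (⟨fun o => θ.1 (inl o), hT₁ θ.1 (hW θ.2) (hz θ.1 θ.2)⟩,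
          fun l => θ.1 (inr (inr l.1)))
        map_add' := fun _ _ => rfl
        map_smul' := fun _ _ => rfl }
    have hinj : Function.Injective Φ := by
      rw [injective_iff_map_eq_zero]
      intro θ hθ
      have h1 : ∀ o, θ.1 (inl o) = 0 := fun o =>
        congrFun (congrArg Subtype.val (congrArg Prod.fst hθ)) o
      have h2 : ∀ l, l ∉ Set.range J₂ → θ.1 (inr (inr l)) = 0 := fun l hl =>
        congrFun (congrArg Prod.snd hθ) ⟨l, hl⟩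
      have h3 := tan_eq_zero hm₂ (CritA_mem_tan.1 ((hmem θ.1).1 (hW θ.2)).2).2 (by
        rintro (l | l) hl
        · exact h1 l
        · exact h2 l fun ⟨i, hi⟩ => hl ⟨i, congrArg inr hi⟩)
      refine Subtype.ext (funext fun l => ?_)
      rcases l with l | l | l
      exacts [h1 l, hz θ.1 θ.2 l, congrFun h3 (inr l)]
    have h4 := LinearMap.finrank_le_finrank_of_injective hinj
    have hJ : Function.Injective J₂ := fun a b hab =>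
      inj_of_minor_ne (f := φ₂) (J := fun i => (inr (J₂ i) : Sx k ⊕ Tx k))
        (fun h => hm₂ (by rw [h, map_zero])) (congrArg inr hab)
    rw [Module.finrank_prod, Module.finrank_fintype_fun_eq_card, Fintype.card_subtype_compl,
      card_Tx, Set.card_range_of_injective hJ, Fintype.card_fin] at h4
    omega

end Vale.Agent.P054A
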