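import Vale.Agent.P054A.CritP

/-!
The generic point of the fibre product.
-/

namespace Vale.Agent.P054A

open MvPolynomial Sum
open scoped Classical

section Aux

variable {L : Type} [Field L] [Algebra ℂ L]

theorem CritB_kill {τ : Type} (D : Derivation ℂ L L) (η : τ → L) (h : ∀ l, D (η l) = 0) {v : L}
    (hv : v ∈ IntermediateField.adjoin ℂ (Set.range η)) : D v = 0 := by
  refine der_eq_zero_of_alg D (S := Set.range η) ?_ ?_
  · rintro _ ⟨l, rfl⟩
    exact h l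
  · exact isAlgebraic_algebraMap (⟨v, hv⟩ : IntermediateField.adjoin ℂ (Set.range η))

theorem CritB_aeval_mem {τ : Type} (η : τ → L) (G : MvPolynomial τ ℂ) :
    aeval η G ∈ IntermediateField.adjoin ℂ (Set.range η) := by
  induction G using MvPolynomial.induction_on with
  | C a =>
    rw [aeval_C]
    exact IntermediateField.algebraMap_mem _ a
  | add p q hp hq =>
    rw [map_add]
    exact add_mem hp hq
  | mul_X p l hp =>
    rw [map_mul, aeval_X]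
    exact mul_mem hp (IntermediateField.subset_adjoin _ _ ⟨l, rfl⟩)

theorem CritB_const {v : L} (hv : IsAlgebraic ℂ v) : ∃ c : ℂ, v = algebraMap ℂ L c := by
  have h1 : (minpoly ℂ v).degree = 1 :=
    IsAlgClosed.degree_eq_one_of_irreducible ℂ (minpoly.irreducible hv.isIntegral)
  obtain ⟨c, hc⟩ := minpoly.mem_range_of_degree_eq_one ℂ v h1
  exact ⟨c, hc.symm⟩

/-- The values of the derivations on a family of elements. -/
def CritB_ev {T : Type} [AddCommGroup T] [Module L T] (Φ : T →ₗ[L] Derivation ℂ L L)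
    {α : Type} (y : α → L) : T →ₗ[L] (α → L) where
  toFun θ i := Φ θ (y i)
  map_add' a b := by
    funext i
    simp
  map_smul' a b := by
    funext i
    simp

theorem CritB_abs {σ τ τ' : Type} [Fintype σ] [Fintype τ] [Fintype τ'] (ζ : σ → L) (ξ : τ → L)
    (η : τ' → L) (T : Submodule L (σ ⊕ (τ ⊕ τ') → L)) (Φ : T →ₗ[L] Derivation ℂ L L)
    (hΦ : ∀ (θ : T) (l : σ ⊕ (τ ⊕ τ')),
      Φ θ (Sum.elim ζ (Sum.elim ξ η) l) = (θ : σ ⊕ (τ ⊕ τ') → L) l)
    (htr : Algebra.trdeg ℂ L = (Module.finrank L T : Cardinal))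
    (s1 : ∀ θ ∈ T, ∃ θ₁ ∈ T,
      (∀ l, θ₁ (inr (inl l)) = 0) ∧ ∀ l, θ₁ (inr (inr l)) = θ (inr (inr l))) :
    (∀ (m : ℕ) (s : Fin m → MvPolynomial τ ℂ) (t : Fin m → MvPolynomial τ' ℂ),
      LinearIndependent ℂ (fun i => aeval η (t i)) →
      ∑ i, aeval ξ (s i) * aeval η (t i) = 0 → ∀ i, aeval ξ (s i) = 0) ∧
    ∃ b : ℕ, Algebra.trdeg ℂ (IntermediateField.adjoin ℂ (Set.range η)) = (b : Cardinal) ∧
      (∀ W : Submodule L (σ ⊕ (τ ⊕ τ') → L), W ≤ T →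
        (∀ θ ∈ W, (∀ l, θ (inr (inr l)) = 0) → θ = 0) → Module.finrank L W ≤ b) ∧
      ∃ W : Submodule L (σ ⊕ (τ ⊕ τ') → L), W ≤ T ∧ (∀ θ ∈ W, ∀ l, θ (inr (inl l)) = 0) ∧
        Module.finrank L W = b := by
  have hinj : Function.Injective Φ := by
    rw [injective_iff_map_eq_zero]
    intro θ hθ
    refine Subtype.ext (funext fun l => ?_)
    rw [← hΦ θ l, hθ]
    rfl
  have hξ : ∀ (θ : T) l, Φ θ (ξ l) = (θ : σ ⊕ (τ ⊕ τ') → L) (inr (inl l)) :=
    fun θ l => hΦ θ (inr (inl l))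
  have hη : ∀ (θ : T) l, Φ θ (η l) = (θ : σ ⊕ (τ ⊕ τ') → L) (inr (inr l)) :=
    fun θ l => hΦ θ (inr (inr l))
  obtain ⟨b, y, hy, hyF, halg, hb⟩ := exists_tr_basis η
  have hD : ∀ a : Fin b, ∃ θ : T, (∀ l, (θ : σ ⊕ (τ ⊕ τ') → L) (inr (inl l)) = 0) ∧
      ∀ i, Φ θ (y i) = (Pi.single a 1 : Fin b → L) i := by
    intro a
    obtain ⟨θ, hθ⟩ := der_surj Φ hinj htr y hy (Pi.single a 1)
    obtain ⟨θ₁, h1, h2, h3⟩ := s1 θ θ.2
    refine ⟨⟨θ₁, h1⟩, h2, fun i => ?_⟩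
    have h4 : Φ (⟨θ₁, h1⟩ - θ) (y i) = 0 := by
      refine CritB_kill _ η (fun l => ?_) (hyF i)
      rw [hη]
      exact sub_eq_zero.2 (h3 l)
    rw [map_sub, Derivation.sub_apply, sub_eq_zero] at h4
    rw [h4, hθ]
  choose θ hθ0 hθ using hD
  have hkill : ∀ D : Derivation ℂ L L, (∀ i, D (y i) = 0) →
      ∀ v ∈ IntermediateField.adjoin ℂ (Set.range η), D v = 0 := by
    intro D hD v hv
    refine der_eq_zero_of_alg D (S := Set.range y) ?_ (halg v hv)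
    rintro _ ⟨i, rfl⟩
    exact hD i
  refine ⟨fun m s t hi hs => ?_, b, hb, fun W hW h0 => ?_, ?_⟩
  · refine lin_disj (IntermediateField.adjoin ℂ (Set.range η)) (fun a => Φ (θ a)) (fun a => ?_)
      (fun v hv h0 => ?_) (fun i => aeval ξ (s i)) (fun i => aeval η (t i)) (fun a i => ?_)
      (fun i => CritB_aeval_mem η _) hi hs
    · refine der_preserve _ _ (S := Set.range y) ?_ halg
      rintro _ ⟨i, rfl⟩
      refine ⟨hyF i, ?_⟩
      rw [hθ, Pi.single_apply]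
      split_ifs
      · exact one_mem _
      · exact zero_mem _
    · refine CritB_const ?_
      by_contra hn
      have hv1 : AlgebraicIndependent ℂ fun _ : Unit => v :=
        algebraicIndependent_unique_type_iff.2 hn
      obtain ⟨θ', hθ'⟩ := der_surj Φ hinj htr _ hv1 fun _ => 1
      have h1 := hkill (Φ (θ' - ∑ a, Φ θ' (y a) • θ a)) (fun i => ?_) v hv
      · have h2 : Φ (θ' - ∑ a, Φ θ' (y a) • θ a) v
            = CritB_ev Φ (fun _ : Unit => v) (θ' - ∑ a, Φ θ' (y a) • θ a) () := rfl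
        rw [h2, map_sub, map_sum, Pi.sub_apply, Finset.sum_apply] at h1
        have h3 : ∀ a, CritB_ev Φ (fun _ : Unit => v) (Φ θ' (y a) • θ a) () = 0 := fun a => by
          rw [map_smul, Pi.smul_apply]
          change Φ θ' (y a) • Φ (θ a) v = 0
          rw [h0 a, smul_zero]
        have h4 : CritB_ev Φ (fun _ : Unit => v) θ' () = 1 := hθ' ()
        simp only [h3, h4, Finset.sum_const_zero, sub_zero] at h1
        exact one_ne_zero h1
      · have h2 : Φ (θ' - ∑ a, Φ θ' (y a) • θ a) (y i)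
            = CritB_ev Φ y (θ' - ∑ a, Φ θ' (y a) • θ a) i := rfl
        rw [h2, map_sub, map_sum, Pi.sub_apply, Finset.sum_apply]
        have h3 : ∀ a, CritB_ev Φ y (Φ θ' (y a) • θ a) i
            = if i = a then Φ θ' (y a) else 0 := fun a => by
          rw [map_smul, Pi.smul_apply]
          change Φ θ' (y a) • Φ (θ a) (y i) = _
          rw [hθ, Pi.single_apply, smul_eq_mul, mul_ite, mul_one, mul_zero]
        simp only [h3, Finset.sum_ite_eq, Finset.mem_univ, if_true]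
        exact sub_self _
    · rw [der_aeval]
      refine Finset.sum_eq_zero fun l _ => ?_
      rw [hξ, hθ0, mul_zero]
  · have hi : Function.Injective ((CritB_ev Φ y).comp (Submodule.inclusion hW)) := by
      rw [injective_iff_map_eq_zero]
      intro w hw
      refine Subtype.ext (h0 w w.2 fun l => ?_)
      have h1 := hkill (Φ (Submodule.inclusion hW w)) (fun i => congrFun hw i) (η l)
        (IntermediateField.subset_adjoin _ _ ⟨l, rfl⟩)
      rw [hη] at h1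
      exact h1
    have h1 := LinearMap.finrank_le_finrank_of_injective hi
    rwa [Module.finrank_fin_fun] at h1
  · have hl : LinearIndependent L θ := by
      refine LinearIndependent.of_comp (CritB_ev Φ y) ?_
      have e : CritB_ev Φ y ∘ θ = Pi.basisFun L (Fin b) := by
        funext a i
        rw [Pi.basisFun_apply]
        exact hθ a i
      rw [e]
      exact (Pi.basisFun L (Fin b)).linearIndependent
    have hl' := hl.map' T.subtype T.ker_subtype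
    refine ⟨Submodule.span L (Set.range (T.subtype ∘ θ)), ?_, fun w hw l => ?_, ?_⟩
    · rw [Submodule.span_le]
      rintro _ ⟨a, rfl⟩
      exact (θ a).2
    · induction hw using Submodule.span_induction with
      | mem w hw =>
        obtain ⟨a, rfl⟩ := hw
        exact hθ0 a l
      | zero => rfl
      | add u v _ _ hu hv => rw [Pi.add_apply, hu, hv, add_zero]
      | smul r u _ hu => rw [Pi.smul_apply, hu, smul_zero]
    · rw [finrank_span_eq_card hl', Fintype.card_fin]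

theorem CritB_on {σ τ κ : Type} {F : κ → MvPolynomial (σ ⊕ τ) ℂ} {p : σ → ℂ} {x : τ → ℂ}
    (h : ∀ i, eval (Sum.elim p x) (F i) = 0) {ζ : σ → L} {ξ : τ → L}
    (hk : ∀ G, aeval (Sum.elim ζ ξ) G = 0 → G ∈ locP F (Sum.elim p x)) (G : MvPolynomial τ ℂ)
    (hG : aeval ξ G = 0) : eval x G = 0 := by
  have h1 : aeval (Sum.elim ζ ξ) (rename (inr : τ → σ ⊕ τ) G) = 0 := by
    rw [aeval_rename]
    exact hG
  have h2 := on_locP h _ (hk _ h1)
  rw [eval_rename] at h2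
  exact h2

/-- The nullity polynomial. -/
noncomputable def CritB_N (k : ℕ) : MvPolynomial (Tx k ⊕ Tx k) ℂ :=
  bil (fun l => X (inl l) - X (inr l)) fun l => X (inl l) - X (inr l)

theorem CritB_aeval_N {k : ℕ} {A : Type} [CommRing A] [Algebra ℂ A] (ξ η : Tx k → A) :
    aeval (Sum.elim ξ η) (CritB_N k) = bil (ξ - η) (ξ - η) := by
  simp [CritB_N, bil]

end Aux

variable {k : ℕ} {ι : Type} {t j₁ j₂ : ℕ} {E : Finset ι} {x y : ι → Tx k → ℂ}
  {b : ι → Fin k → ℂ} {P₁ P₂ : ι → Ideal (MvPolynomial (Fin k) ℂ)} {c c₁ c₂ : ℕ}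
  {f : Fin c → MvPolynomial (Sx k) ℂ} {J : Fin c → Sx k}
  {φ₁ : Fin c₁ → MvPolynomial (Sx k ⊕ Tx k) ℂ} {J₁ : Fin c₁ → Tx k}
  {φ₂ : Fin c₂ → MvPolynomial (Sx k ⊕ Tx k) ℂ} {J₂ : Fin c₂ → Tx k}
  {Q₁ Q₂ : Ideal (MvPolynomial (Sx k ⊕ Tx k) ℂ)}

theorem Pack.gen (h : Pack t j₁ j₂ E x y b P₁ P₂ f J φ₁ J₁ φ₂ J₂ Q₁ Q₂) :
    ∃ (L : Type) (_ : Field L) (_ : Algebra ℂ L) (ζ : Sx k → L) (ξ η : Tx k → L),
      Gen j₁ c₂ Q₁ Q₂ ζ ξ η := by
  obtain ⟨L, _, _, ζ, ξ, η, k₁, k₂, h0, htop, hT, htr⟩ := h.exists_point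
  obtain ⟨s1, ⟨W, hW, hj, hW0⟩, s3⟩ := h.split k₁ k₂ h0
  obtain ⟨Φ, hΦ⟩ := exists_der _ htop _ hT
  obtain ⟨hd, n, hn, hlow, W', hW', hW0', hup⟩ := CritB_abs ζ ξ η _ Φ hΦ htr s1
  refine ⟨L, inferInstance, inferInstance, ζ, ξ, η, k₁, k₂, h0,
    fun G hG x₀ hx => dom_of_lin_disj ξ η hd G hG x₀ hx, ?_, ?_⟩
  · rw [hn]
    exact Nat.cast_le.2 (hj.trans (hlow W hW hW0))
  · rw [hn]
    exact Nat.cast_le.2 (hup ▸ s3 W' hW' hW0')

theorem Pack.on₁ (h : Pack t j₁ j₂ E x y b P₁ P₂ f J φ₁ J₁ φ₂ J₂ Q₁ Q₂) {L : Type} [Field L]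
    [Algebra ℂ L] {ζ : Sx k → L} {ξ η : Tx k → L} (g : Gen j₁ c₂ Q₁ Q₂ ζ ξ η) {e : ι}
    (he : e ∈ E) (G : MvPolynomial (Tx k) ℂ) (hG : aeval ξ G = 0) : eval (x e) G = 0 :=
  CritB_on (h.sim₁ e he).1.1 (fun G hG => (h.sim₁ e he).2 ▸ (g.ker₁ G).1 hG) G hG

theorem Pack.on₂ (h : Pack t j₁ j₂ E x y b P₁ P₂ f J φ₁ J₁ φ₂ J₂ Q₁ Q₂) {L : Type} [Field L]
    [Algebra ℂ L] {ζ : Sx k → L} {ξ η : Tx k → L} (g : Gen j₁ c₂ Q₁ Q₂ ζ ξ η) {e : ι}
    (he : e ∈ E) (G : MvPolynomial (Tx k) ℂ) (hG : aeval η G = 0) : eval (y e) G = 0 :=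
  CritB_on (h.sim₂ e he).1.1 (fun G hG => (h.sim₂ e he).2 ▸ (g.ker₂ G).1 hG) G hG

/-- The critical piece is complete bipartite. -/
theorem Pack.bip (h : Pack t j₁ j₂ E x y b P₁ P₂ f J φ₁ J₁ φ₂ J₂ Q₁ Q₂) :
    ∀ e ∈ E, ∀ e' ∈ E, nul (x e) (y e') := by
  intro e he e' he'
  obtain ⟨L, _, _, ζ, ξ, η, g⟩ := h.gen
  have h1 : fl η (fun i => ζ (some (inl i))) = fl ξ fun i => ζ (some (inl i)) := by
    funext o
    have a1 := (g.ker₁ _).2 (h.inc₁ o)
    have a2 := (g.ker₂ _).2 (h.inc₂ o)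
    rw [aeval_incP, sub_eq_zero] at a1 a2
    rw [← a1, ← a2]
  have h2 : aeval (Sum.elim ξ η) (CritB_N k) = 0 := by
    rw [CritB_aeval_N]
    exact nul_of_fl h1
  have h3 := g.dom _ h2 (x e) (h.on₁ g he)
  have h4 : aeval η (aeval (Sum.elim (fun l => C (x e l)) X : Tx k ⊕ Tx k → MvPolynomial (Tx k) ℂ)
      (CritB_N k)) = 0 := by
    rw [← h3, CritB_aeval_N, CritB_aeval_N]
    simp [bil]
  have h5 := h.on₂ g he' _ h4
  rw [CritB_aeval_N] at h5
  simpa [nul, bil] using h5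

end Vale.Agent.P054A
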