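import Vale.Agent.P054A.DerA

/-!
Derivations of function fields.
-/

namespace Vale.Agent.P054A

open MvPolynomial
open scoped Classical

variable {L : Type} [Field L] [Algebra ℂ L]

theorem der_const_indep {α γ : Type} (F : IntermediateField ℂ L) (D : α → Derivation ℂ L L)
    (hF : ∀ a, ∀ v ∈ F, D a v ∈ F)
    (hc : ∀ v ∈ F, (∀ a, D a v = 0) → ∃ c : ℂ, v = algebraMap ℂ L c) (u : γ → L)
    (hu : ∀ a k, D a (u k) = 0) (hi : LinearIndependent ℂ u) (S : Finset γ) :
    ∀ f : γ → L, (∀ k, f k ∈ F) → ∑ k ∈ S, u k * f k = 0 → ∀ k ∈ S, f k = 0 := by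
  induction S using Finset.induction_on with
  | empty => intro f _ _ k hk; simp at hk
  | insert j S hj ih =>
    intro f hf h
    have hfj : f j = 0 := by
      by_contra hne
      have hg : ∀ k, f k / f j ∈ F := fun k => F.div_mem (hf k) (hf j)
      have h1 : ∑ k ∈ insert j S, u k * (f k / f j) = 0 := by
        simp_rw [← mul_div_assoc]
        rw [← Finset.sum_div, h, zero_div]
      have h2 : ∀ k ∈ S, ∀ a, D a (f k / f j) = 0 := by
        intro k hk a
        refine ih (fun k => D a (f k / f j)) (fun k => hF a _ (hg k)) ?_ k hk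
        have h3 := congrArg (D a) h1
        rw [Finset.sum_insert hj, div_self hne, mul_one, map_add, hu, zero_add, map_sum,
          map_zero] at h3
        rw [← h3]
        refine Finset.sum_congr rfl fun k _ => ?_
        rw [Derivation.leibniz, hu, smul_zero, add_zero, smul_eq_mul]
      have h4 : ∀ k, ∃ c : ℂ, k ∈ insert j S → f k / f j = algebraMap ℂ L c := by
        intro k
        by_cases hk : k ∈ S
        · obtain ⟨c, hc'⟩ := hc _ (hg k) (h2 k hk)
          exact ⟨c, fun _ => hc'⟩
        · refine ⟨1, fun hk' => ?_⟩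
          rcases Finset.mem_insert.1 hk' with rfl | hk'
          · rw [div_self hne, map_one]
          · exact absurd hk' hk
      choose c hc' using h4
      have h5 : ∑ k ∈ insert j S, c k • u k = 0 := by
        rw [← h1]
        refine Finset.sum_congr rfl fun k hk => ?_
        rw [hc' k hk, Algebra.smul_def, mul_comm]
      have h6 := linearIndependent_iff'.1 hi _ c h5 j (Finset.mem_insert_self _ _)
      have h7 := hc' j (Finset.mem_insert_self _ _)
      rw [div_self hne, h6, map_zero] at h7
      exact one_ne_zero h7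
    rw [Finset.sum_insert hj, hfj, mul_zero, zero_add] at h
    intro k hk
    rcases Finset.mem_insert.1 hk with rfl | hk
    · exact hfj
    · exact ih f hf h k hk

/-- A basis of the span of a finite family. -/
theorem der_basis {β : Type} [Fintype β] (s : β → L) :
    ∃ (m : ℕ) (u : Fin m → L) (c : β → Fin m → ℂ), LinearIndependent ℂ u ∧
      (∀ k, u k ∈ Submodule.span ℂ (Set.range s)) ∧ ∀ i, s i = ∑ k, c i k • u k := by
  let V := Submodule.span ℂ (Set.range s)
  have : FiniteDimensional ℂ V := FiniteDimensional.span_of_finite ℂ (Set.finite_range s)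
  let b := Module.finBasis ℂ V
  refine ⟨_, fun k => (b k : L), fun i k => b.repr ⟨s i, Submodule.subset_span ⟨i, rfl⟩⟩ k,
    b.linearIndependent.map' V.subtype (Submodule.ker_subtype V), fun k => (b k).2, fun i => ?_⟩
  have := congrArg (fun v : V => (v : L)) (b.sum_repr ⟨s i, Submodule.subset_span ⟨i, rfl⟩⟩)
  simp only [Submodule.coe_sum, Submodule.coe_smul] at this
  exact this.symm

/-- Linear disjointness from the constants. -/
theorem lin_disj {α β : Type} [Fintype β] (F : IntermediateField ℂ L) (D : α → Derivation ℂ L L)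
    (hF : ∀ a, ∀ v ∈ F, D a v ∈ F)
    (hc : ∀ v ∈ F, (∀ a, D a v = 0) → ∃ c : ℂ, v = algebraMap ℂ L c) (s t : β → L)
    (hs : ∀ a i, D a (s i) = 0) (ht : ∀ i, t i ∈ F) (hi : LinearIndependent ℂ t)
    (h : ∑ i, s i * t i = 0) : ∀ i, s i = 0 := by
  obtain ⟨m, u, c, hu, hum, hsu⟩ := der_basis s
  have hu0 : ∀ a k, D a (u k) = 0 := by
    intro a k
    have : Submodule.span ℂ (Set.range s) ≤ LinearMap.ker (D a).toLinearMap := by
      rw [Submodule.span_le]
      rintro _ ⟨i, rfl⟩
      exact hs a i
    exact this (hum k)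
  have h1 : ∑ k, u k * ∑ i, c i k • t i = 0 := by
    rw [← h]
    simp_rw [Finset.mul_sum]
    rw [Finset.sum_comm]
    refine Finset.sum_congr rfl fun i _ => ?_
    rw [hsu i, Finset.sum_mul]
    refine Finset.sum_congr rfl fun k _ => ?_
    rw [mul_smul_comm, smul_mul_assoc]
  have h2 := der_const_indep F D hF hc u hu0 hu Finset.univ (fun k => ∑ i, c i k • t i)
    (fun k => F.sum_mem fun i _ => F.smul_mem (ht i)) h1
  intro i
  rw [hsu i]
  refine Finset.sum_eq_zero fun k _ => ?_
  rw [Fintype.linearIndependent_iff.1 hi (fun i => c i k) (h2 k (Finset.mem_univ _)) i, zero_smul]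

theorem der_split {τ τ' : Type} (G : MvPolynomial (τ ⊕ τ') ℂ) :
    ∃ (ι : Type) (_ : Fintype ι) (a : ι → MvPolynomial τ ℂ) (b : ι → MvPolynomial τ' ℂ),
      ∀ (ζ : τ → L) (η : τ' → L),
        aeval (Sum.elim ζ η) G = ∑ k, aeval ζ (a k) * aeval η (b k) := by
  induction G using MvPolynomial.induction_on with
  | C c => exact ⟨Unit, inferInstance, fun _ => C c, fun _ => 1, fun ζ η => by simp⟩
  | add p q hp hq =>
    obtain ⟨ι, _, a, b, h⟩ := hp
    obtain ⟨ι', _, a', b', h'⟩ := hq
    exact ⟨ι ⊕ ι', inferInstance, Sum.elim a a', Sum.elim b b', fun ζ η => by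
      rw [map_add, h, h', Fintype.sum_sum_type]
      simp⟩
  | mul_X p n hp =>
    obtain ⟨ι, _, a, b, h⟩ := hp
    rcases n with l | l
    · refine ⟨ι, inferInstance, fun k => a k * X l, b, fun ζ η => ?_⟩
      rw [map_mul, h, Finset.sum_mul]
      refine Finset.sum_congr rfl fun k _ => ?_
      simp only [aeval_X, Sum.elim_inl, map_mul]
      ring
    · refine ⟨ι, inferInstance, a, fun k => b k * X l, fun ζ η => ?_⟩
      rw [map_mul, h, Finset.sum_mul]
      refine Finset.sum_congr rfl fun k _ => ?_
      simp only [aeval_X, Sum.elim_inr, map_mul]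
      ring

/-- Specialisation of the first group of variables. -/
theorem dom_of_lin_disj {τ τ' : Type} (ξ : τ → L) (η : τ' → L)
    (h : ∀ (m : ℕ) (s : Fin m → MvPolynomial τ ℂ) (t : Fin m → MvPolynomial τ' ℂ),
      LinearIndependent ℂ (fun i => aeval η (t i)) →
      ∑ i, aeval ξ (s i) * aeval η (t i) = 0 → ∀ i, aeval ξ (s i) = 0)
    (G : MvPolynomial (τ ⊕ τ') ℂ) (hG : aeval (Sum.elim ξ η) G = 0) (x₀ : τ → ℂ)
    (hx : ∀ g : MvPolynomial τ ℂ, aeval ξ g = 0 → eval x₀ g = 0) :
    aeval (Sum.elim (fun l => algebraMap ℂ L (x₀ l)) η) G = 0 := by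
  obtain ⟨ι, _, a, b, hab⟩ := der_split (L := L) G
  obtain ⟨m, u, c, hu, hum, hsu⟩ := der_basis (fun k => aeval η (b k))
  have hex : ∀ k, ∃ t : MvPolynomial τ' ℂ, aeval η t = u k := by
    intro k
    have : Submodule.span ℂ (Set.range fun k => aeval η (b k)) ≤
        LinearMap.range (aeval η : MvPolynomial τ' ℂ →ₐ[ℂ] L).toLinearMap := by
      rw [Submodule.span_le]
      rintro _ ⟨i, rfl⟩
      exact ⟨b i, rfl⟩
    exact this (hum k)
  choose t ht using hex
  have key : ∀ ζ : τ → L, aeval (Sum.elim ζ η) G =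
      ∑ i, aeval ζ (∑ k, c k i • a k) * aeval η (t i) := by
    intro ζ
    rw [hab]
    simp_rw [map_sum, Finset.sum_mul]
    rw [Finset.sum_comm]
    refine Finset.sum_congr rfl fun k _ => ?_
    rw [hsu k, Finset.mul_sum]
    refine Finset.sum_congr rfl fun i _ => ?_
    rw [ht, map_smul, mul_smul_comm, smul_mul_assoc]
  have h0 := h m (fun i => ∑ k, c k i • a k) t (by simpa only [ht] using hu) (by rw [← key, hG])
  rw [key]
  refine Finset.sum_eq_zero fun i _ => ?_
  have h1 := hx _ (h0 i)
  have h2 := MvPolynomial.aeval_algebraMap_apply L x₀ (∑ k, c k i • a k)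
  rw [aeval_eq_eval, h1, map_zero] at h2
  exact mul_eq_zero_of_left h2 _

/-- A finite transcendence basis of a finitely generated subfield. -/
theorem exists_tr_basis {τ : Type} [Fintype τ] (η : τ → L) :
    ∃ (b : ℕ) (y : Fin b → L), AlgebraicIndependent ℂ y ∧
      (∀ i, y i ∈ IntermediateField.adjoin ℂ (Set.range η)) ∧
      (∀ v ∈ IntermediateField.adjoin ℂ (Set.range η),
        IsAlgebraic (IntermediateField.adjoin ℂ (Set.range y)) v) ∧
      Algebra.trdeg ℂ (IntermediateField.adjoin ℂ (Set.range η)) = (b : Cardinal) := by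
  set F := IntermediateField.adjoin ℂ (Set.range η) with hFdef
  have : Algebra.EssFiniteType ℂ F :=
    IntermediateField.essFiniteType_iff.2
      (IntermediateField.fg_adjoin_of_finite (Set.finite_range η))
  obtain ⟨s, hs⟩ := exists_finset_isTranscendenceBasis ℂ F
  have hx := hs.comp_equiv s.equivFin.symm
  set x : Fin s.card → F := ((↑) : s → F) ∘ s.equivFin.symm with hxdef
  refine ⟨s.card, fun i => (x i : L), hx.1.map' (f := F.val) F.val.injective, fun i => (x i).2,
    fun v hv => ?_, ?_⟩
  · rw [IntermediateField.isAlgebraic_adjoin_iff]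
    have h1 : IsAlgebraic (Algebra.adjoin ℂ (Set.range x)) (⟨v, hv⟩ : F) :=
      hx.isAlgebraic.isAlgebraic _
    have hle : ∀ w ∈ Algebra.adjoin ℂ (Set.range x),
        (w : L) ∈ Algebra.adjoin ℂ (Set.range fun i => (x i : L)) := by
      intro w hw
      have h2 : (w : L) ∈ (Algebra.adjoin ℂ (Set.range x)).map F.val := ⟨w, hw, rfl⟩
      rw [AlgHom.map_adjoin, ← Set.range_comp] at h2
      exact h2
    let f : Algebra.adjoin ℂ (Set.range x) →+* Algebra.adjoin ℂ (Set.range fun i => (x i : L)) :=
      (F.val.toRingHom.comp (Algebra.adjoin ℂ (Set.range x)).val.toRingHom).codRestrict _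
        (fun w => hle w.1 w.2)
    have hf : Function.Injective f := by
      intro w w' hw
      have h4 : (f w).1 = (f w').1 := congrArg Subtype.val hw
      have h3 : ((w : F) : L) = ((w' : F) : L) := h4
      exact Subtype.ext (Subtype.ext h3)
    exact h1.ringHom_of_comp_eq f F.val.toRingHom hf (RingHom.ext fun _ => rfl)
  · rw [← hx.cardinalMk_eq_trdeg, Cardinal.mk_fin]

/-- A prime ideal closed under all coordinate derivatives is zero. -/
theorem algInd_of_pderiv {τ : Type} (η : τ → L)
    (h : ∀ G : MvPolynomial τ ℂ, aeval η G = 0 → ∀ l, aeval η (pderiv l G) = 0) :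
    AlgebraicIndependent ℂ η := by
  rw [algebraicIndependent_iff]
  have key : ∀ (n : ℕ) (G : MvPolynomial τ ℂ), (∀ d ∈ G.support, d.degree < n) →
      aeval η G = 0 → G = 0 := by
    intro n
    induction n with
    | zero =>
      intro G hd _
      by_contra hne
      obtain ⟨d, hd'⟩ := support_nonempty.2 hne
      exact absurd (hd d hd') (Nat.not_lt_zero _)
    | succ n ih =>
      intro G hd hG
      have h1 : ∀ l, pderiv l G = 0 := by
        intro l
        refine ih _ (fun d hd' => ?_) (h G hG l)
        rw [mem_support_iff, coeff_pderiv] at hd'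
        have h2 := hd _ (mem_support_iff.2 (left_ne_zero_of_mul hd'))
        rw [map_add, Finsupp.degree_single] at h2
        omega
      have h2 : G = C (coeff 0 G) := by
        ext d
        rw [coeff_C]
        split_ifs with h0
        · rw [← h0]
        · obtain ⟨l, hl⟩ := Finsupp.ne_iff.1 h0
          have hl' : d l ≠ 0 := fun h => hl (by simp [h])
          have h3 := coeff_pderiv (i := l) G (d - Finsupp.single l 1)
          rw [h1, coeff_zero, tsub_add_cancel_of_le
            (Finsupp.single_le_iff.2 (Nat.one_le_iff_ne_zero.2 hl'))] at h3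
          exact (mul_eq_zero.1 h3.symm).resolve_right (Nat.cast_add_one_ne_zero _)
      rw [h2, aeval_C] at hG
      rw [h2, (algebraMap ℂ L).injective (hG.trans (map_zero _).symm), C_0]
  intro G hG
  refine key (G.totalDegree + 1) G (fun d hd => Nat.lt_succ_of_le ?_) hG
  exact le_totalDegree hd

end Vale.Agent.P054A
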