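import Vale.Agent.P054A.CritA
import Vale.Agent.P054A.Cnt
import Vale.Agent.P054A.Der

/-!
The generic point of the fibre product.
-/

namespace Vale.Agent.P054A

open MvPolynomial Sum
open scoped Classical

variable {k : ℕ} {ι : Type} {t j₁ j₂ : ℕ} {E : Finset ι} {x y : ι → Tx k → ℂ}
  {b : ι → Fin k → ℂ} {P₁ P₂ : ι → Ideal (MvPolynomial (Fin k) ℂ)} {c c₁ c₂ : ℕ}
  {f : Fin c → MvPolynomial (Sx k) ℂ} {J : Fin c → Sx k}
  {φ₁ : Fin c₁ → MvPolynomial (Sx k ⊕ Tx k) ℂ} {J₁ : Fin c₁ → Tx k}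
  {φ₂ : Fin c₂ → MvPolynomial (Sx k ⊕ Tx k) ℂ} {J₂ : Fin c₂ → Tx k}
  {Q₁ Q₂ : Ideal (MvPolynomial (Sx k ⊕ Tx k) ℂ)}

theorem CritP_sum_rename {σ σ' L : Type} [Fintype σ] [Fintype σ'] [Field L] [Algebra ℂ L]
    {e : σ → σ'} (he : Function.Injective e) (g : MvPolynomial σ ℂ) (Z θ : σ' → L) :
    ∑ l, aeval Z (pderiv l (rename e g)) * θ l =
      ∑ o, aeval (fun o => Z (e o)) (pderiv o g) * θ (e o) := by
  symm
  refine Fintype.sum_of_injective e he _ _ (fun l hl => ?_) fun o => ?_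
  · have h0 : pderiv l (rename e g) = 0 := by
      refine pderiv_eq_zero_of_notMem_vars fun h => ?_
      obtain ⟨o, -, ho⟩ := mem_vars_rename _ _ h
      exact hl ⟨o, ho⟩
    rw [h0, map_zero, zero_mul]
  · rw [pderiv_rename he, aeval_rename]
    rfl

theorem CritP_simple {σ₁ σ₂ σ' κ₁ κ₂ : Type} [Fintype κ₁] [DecidableEq κ₁] [Fintype κ₂]
    [DecidableEq κ₂] {e₁ : σ₁ → σ'} {e₂ : σ₂ → σ'} (h₁ : Function.Injective e₁)
    (h₂ : Function.Injective e₂) {g₁ : κ₁ → MvPolynomial σ₁ ℂ} {I₁ : κ₁ → σ₁}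
    {g₂ : κ₂ → MvPolynomial σ₂ ℂ} {I₂ : κ₂ → σ₂} (hI : ∀ i, e₂ (I₂ i) ∉ Set.range e₁)
    {p : σ' → ℂ} (s₁ : Simple g₁ I₁ fun l => p (e₁ l)) (s₂ : Simple g₂ I₂ fun l => p (e₂ l)) :
    Simple (Sum.elim (fun i => rename e₁ (g₁ i)) fun i => rename e₂ (g₂ i))
      (Sum.elim (fun i => e₁ (I₁ i)) fun i => e₂ (I₂ i)) p := by
  constructor
  · rintro (i | i)
    · exact (eval_rename _ _ _).trans (s₁.1 i)
    · exact (eval_rename _ _ _).trans (s₂.1 i)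
  · rw [minor_block h₁ g₁ I₁ _ _ hI, minor_rename h₂, map_mul, eval_rename, eval_rename]
    exact mul_ne_zero s₁.2 s₂.2

theorem CritP_generic {σ : Type} (Q : Ideal (MvPolynomial σ ℂ)) (hQ : Q.IsPrime) :
    ∃ (L : Type) (_ : Field L) (_ : Algebra ℂ L) (Z : σ → L),
      (∀ G, aeval Z G = 0 ↔ G ∈ Q) ∧ IntermediateField.adjoin ℂ (Set.range Z) = ⊤ := by
  let L := FractionRing (MvPolynomial σ ℂ ⧸ Q)
  let ψ : MvPolynomial σ ℂ →ₐ[ℂ] L :=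
    (IsScalarTower.toAlgHom ℂ (MvPolynomial σ ℂ ⧸ Q) L).comp (Ideal.Quotient.mkₐ ℂ Q)
  have hψ : ∀ G, aeval (fun l => ψ (X l)) G = ψ G := fun G =>
    (DFunLike.congr_fun (aeval_unique ψ) G).symm
  have hψ' : ∀ G, ψ G = algebraMap (MvPolynomial σ ℂ ⧸ Q) L (Ideal.Quotient.mk Q G) :=
    fun _ => rfl
  refine ⟨L, inferInstance, inferInstance, fun l => ψ (X l), fun G => ?_, ?_⟩
  · rw [hψ, hψ', IsFractionRing.to_map_eq_zero_iff, Ideal.Quotient.eq_zero_iff_mem]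
  · refine eq_top_iff.2 fun z _ => ?_
    obtain ⟨a, b, -, rfl⟩ := IsFractionRing.div_surjective (A := MvPolynomial σ ℂ ⧸ Q) z
    have hm : ∀ a : MvPolynomial σ ℂ ⧸ Q, algebraMap _ L a ∈
        IntermediateField.adjoin ℂ (Set.range fun l => ψ (X l)) := by
      intro a
      obtain ⟨G, rfl⟩ := Ideal.Quotient.mk_surjective a
      rw [← hψ', ← hψ]
      refine IntermediateField.algebra_adjoin_le_adjoin _ _ ?_
      rw [Algebra.adjoin_range_eq_range_aeval]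
      exact ⟨G, rfl⟩
    exact div_mem (hm a) (hm b)

theorem Pack.exists_point (h : Pack t j₁ j₂ E x y b P₁ P₂ f J φ₁ J₁ φ₂ J₂ Q₁ Q₂) :
    ∃ (L : Type) (_ : Field L) (_ : Algebra ℂ L) (ζ : Sx k → L) (ξ η : Tx k → L),
      (∀ G, aeval (Sum.elim ζ ξ) G = 0 ↔ G ∈ Q₁) ∧ (∀ G, aeval (Sum.elim ζ η) G = 0 ↔ G ∈ Q₂) ∧
      ξ (inl 0) ≠ η (inl 0) ∧
      IntermediateField.adjoin ℂ (Set.range (Sum.elim ζ (Sum.elim ξ η))) = ⊤ ∧
      (∀ θ ∈ T0 (ext f φ₁) (ext f φ₂) ζ ξ η, ∀ G : MvPolynomial (Sx k ⊕ (Tx k ⊕ Tx k)) ℂ,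
        aeval (Sum.elim ζ (Sum.elim ξ η)) G = 0 →
          ∑ l, aeval (Sum.elim ζ (Sum.elim ξ η)) (pderiv l G) * θ l = 0) ∧
      Algebra.trdeg ℂ L = (Module.finrank L (T0 (ext f φ₁) (ext f φ₂) ζ ξ η) : Cardinal) := by
  obtain ⟨e, he⟩ := h.ne
  let e₁ : Sx k ⊕ Tx k → Sx k ⊕ (Tx k ⊕ Tx k) := Sum.map id inl
  let e₂ : Sx k ⊕ Tx k → Sx k ⊕ (Tx k ⊕ Tx k) := Sum.map id inr
  have i₁ : Function.Injective e₁ := Function.injective_id.sumMap inl_injective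
  have i₂ : Function.Injective e₂ := Function.injective_id.sumMap inr_injective
  have n₁ : ∀ l, e₂ (inr l) ∉ Set.range e₁ := by
    rintro l ⟨o | o, ho⟩ <;> simp [e₁, e₂] at ho
  have n₂ : ∀ l, e₁ (inr l) ∉ Set.range e₂ := by
    rintro l ⟨o | o, ho⟩ <;> simp [e₁, e₂] at ho
  let p : Sx k ⊕ (Tx k ⊕ Tx k) → ℂ := Sum.elim (fl (x e) (b e)) (Sum.elim (x e) (y e))
  have p₁ : (fun l => p (e₁ l)) = Sum.elim (fl (x e) (b e)) (x e) := by
    funext l; rcases l with l | l <;> rfl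
  have p₂ : (fun l => p (e₂ l)) = Sum.elim (fl (x e) (b e)) (y e) := by
    funext l; rcases l with l | l <;> rfl
  obtain ⟨s₁, q₁⟩ := h.sim₁ e he
  obtain ⟨s₂, q₂⟩ := h.sim₂ e he
  have S₁ := CritP_simple i₁ i₂ (g₁ := ext f φ₁) (I₁ := Sum.map J J₁) (g₂ := φ₂)
    (I₂ := fun i => inr (J₂ i)) (fun i => n₁ _) (p := p) (p₁ ▸ s₁) (p₂ ▸ (ext_simple.1 s₂).2)
  have S₂ := CritP_simple i₂ i₁ (g₁ := ext f φ₂) (I₁ := Sum.map J J₂) (g₂ := φ₁)
    (I₂ := fun i => inr (J₁ i)) (fun i => n₂ _) (p := p) (p₂ ▸ s₂) (p₁ ▸ (ext_simple.1 s₁).2)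
  have hr : ∀ i, rename e₂ (ext f φ₂ (inl i)) = rename e₁ (ext f φ₁ (inl i)) := fun i => by
    simp only [ext, Sum.elim_inl, rename_rename]
    rfl
  have hc : locP (Sum.elim (fun i => rename e₂ (ext f φ₂ i)) fun i => rename e₁ (φ₁ i)) p =
      locP (Sum.elim (fun i => rename e₁ (ext f φ₁ i)) fun i => rename e₂ (φ₂ i)) p := by
    refine locP_congr (Set.Subset.antisymm ?_ ?_) p
    · rintro _ ⟨(i | i) | i, rfl⟩
      · exact ⟨inl (inl i), (hr i).symm⟩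
      · exact ⟨inr i, rfl⟩
      · exact ⟨inl (inr i), rfl⟩
    · rintro _ ⟨(i | i) | i, rfl⟩
      · exact ⟨inl (inl i), hr i⟩
      · exact ⟨inr i, rfl⟩
      · exact ⟨inl (inr i), rfl⟩
  have c₁ := (comap_locP i₁ (fun i => n₁ _) S₁).2
  have c₂ := (comap_locP i₂ (fun i => n₂ _) S₂).2
  rw [p₁, q₁] at c₁
  rw [p₂, q₂, hc] at c₂
  obtain ⟨L, iF, iA, Z, hk, ht⟩ := CritP_generic _ (locP_prime S₁)
  have z₀ : Sum.elim (fun l => Z (inl l))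
      (Sum.elim (fun l => Z (inr (inl l))) fun l => Z (inr (inr l))) = Z := by
    funext l; rcases l with l | l | l <;> rfl
  have z₁ : Sum.elim (fun l => Z (inl l)) (fun l => Z (inr (inl l))) = fun l => Z (e₁ l) := by
    funext l; rcases l with l | l <;> rfl
  have z₂ : Sum.elim (fun l => Z (inl l)) (fun l => Z (inr (inr l))) = fun l => Z (e₂ l) := by
    funext l; rcases l with l | l <;> rfl
  have hT : T0 (ext f φ₁) (ext f φ₂) (fun l => Z (inl l)) (fun l => Z (inr (inl l)))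
      (fun l => Z (inr (inr l))) =
      tan (Sum.elim (fun i => rename e₁ (ext f φ₁ i)) fun i => rename e₂ (φ₂ i)) Z := by
    ext θ
    rw [T0, z₁, z₂]
    constructor
    · rintro ⟨a₁, a₂⟩ (i | i)
      · exact (CritP_sum_rename i₁ _ Z θ).trans (a₁ i)
      · exact (CritP_sum_rename i₂ _ Z θ).trans (a₂ (inr i))
    · intro a
      refine ⟨fun i => (CritP_sum_rename i₁ _ Z θ).symm.trans (a (inl i)), ?_⟩
      rintro (i | i)
      · refine (CritP_sum_rename i₂ _ Z θ).symm.trans ?_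
        rw [hr]
        exact a (inl (inl i))
      · exact (CritP_sum_rename i₂ _ Z θ).symm.trans (a (inr i))
  refine ⟨L, iF, iA, fun l => Z (inl l), fun l => Z (inr (inl l)), fun l => Z (inr (inr l)),
    fun G => ?_, fun G => ?_, fun h0 => ?_, ?_, ?_, ?_⟩
  · rw [z₁, ← c₁, ← hk, aeval_rename]
    rfl
  · rw [z₂, ← c₂, ← hk, aeval_rename]
    rfl
  · have a₁ : aeval Z (X (inr (inl (inl 0))) - X (inr (inr (inl 0))) :
        MvPolynomial (Sx k ⊕ (Tx k ⊕ Tx k)) ℂ) = 0 := by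
      rw [map_sub, aeval_X, aeval_X]
      exact sub_eq_zero.2 h0
    have a₂ := on_locP S₁.1 _ ((hk _).1 a₁)
    rw [map_sub, eval_X, eval_X, sub_eq_zero] at a₂
    exact (h.inc e he).2 a₂
  · rw [z₀]
    exact ht
  · rw [hT, z₀]
    exact fun θ hθ G hG => CritA_tan S₁ rfl hk hθ ((hk G).1 hG)
  · have a₁ := trdeg_loc S₁ Z hk
    have a₂ := finrank_tan (CritA_minor S₁ rfl hk)
    rw [ht, (IntermediateField.topEquiv (F := ℂ) (E := L)).trdeg_eq] at a₁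
    rw [hT, a₁, ← a₂, Nat.add_sub_cancel]

end Vale.Agent.P054A
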