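import Mathlib

/-!
Definitions for distinct distances in all dimensions.
-/

namespace Vale.Agent.P054A

open MvPolynomial Filter
open scoped Classical

noncomputable section

section Ring

variable {A : Type} [CommRing A] {σ κ : Type}

/-- The minor of the Jacobian matrix of `f` with columns `J`. -/
def minor [Fintype κ] [DecidableEq κ] (f : κ → MvPolynomial σ A) (J : κ → σ) :
    MvPolynomial σ A :=
  (Matrix.of fun i k => pderiv (J k) (f i)).det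

/-- The cofactor vector field in direction `k`, applied to `g`. -/
def Dk [Fintype κ] [DecidableEq κ] (f : κ → MvPolynomial σ A) (J : κ → σ) (k : σ)
    (g : MvPolynomial σ A) : MvPolynomial σ A :=
  minor (fun o : Option κ => o.elim g f) (fun o : Option κ => o.elim k J)

/-- A constant combination of the cofactor fields. -/
def Dl [Fintype σ] [Fintype κ] [DecidableEq κ] (f : κ → MvPolynomial σ A) (J : κ → σ)
    (lam : σ → A) (g : MvPolynomial σ A) : MvPolynomial σ A :=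
  ∑ k, lam k • Dk f J k g

/-- A system in the variables `σ` extended by equations in the variables `σ ⊕ τ`. -/
def ext {τ κ' : Type} (f : κ → MvPolynomial σ A) (φ : κ' → MvPolynomial (σ ⊕ τ) A) :
    κ ⊕ κ' → MvPolynomial (σ ⊕ τ) A :=
  Sum.elim (fun i => rename Sum.inl (f i)) φ

/-- Degree at most `t` in the second and at most `M` in the first group of variables. -/
def BD {τ : Type} [Fintype σ] [Fintype τ] (t M : ℕ) (G : MvPolynomial (σ ⊕ τ) A) : Prop :=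
  ∀ α ∈ G.support, ∑ i, α (Sum.inr i) ≤ t ∧ ∑ i, α (Sum.inl i) ≤ M

/-- The first `i` members of a sequence. -/
def pre {α : Type} (f : ℕ → α) (i : ℕ) : Fin i → α := fun k => f k

end Ring

section Alg

variable {K : Type} [Field K] {σ κ : Type}

/-- The affine Hilbert function. -/
def H (I : Ideal (MvPolynomial σ K)) (M : ℕ) : ℕ :=
  Module.finrank K ((restrictTotalDegree σ K M).map (Ideal.Quotient.mkₐ K I).toLinearMap)

/-- A substitute for the degree of an ideal of dimension `v`. -/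
def dg (v : ℕ) (I : Ideal (MvPolynomial σ K)) : ℕ :=
  sInf {k | ∀ M, H I M ≤ k * (M + 1) ^ v}

/-- The point `p` lies on the zero set of `I`. -/
def On (p : σ → K) (I : Ideal (MvPolynomial σ K)) : Prop := ∀ g ∈ I, eval p g = 0

/-- The vanishing ideal of a set of points. -/
def vanI (W : Set (σ → K)) : Ideal (MvPolynomial σ K) where
  carrier := {g | ∀ p ∈ W, eval p g = 0}
  add_mem' := fun {a b} ha hb p hp => by rw [map_add, ha p hp, hb p hp, add_zero]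
  zero_mem' := fun p _ => map_zero _
  smul_mem' := fun c a ha p hp => by rw [smul_eq_mul, map_mul, ha p hp, mul_zero]

/-- `p` is a simple zero of the system `f`, certified by the minor with columns `J`. -/
def Simple [Fintype κ] [DecidableEq κ] (f : κ → MvPolynomial σ K) (J : κ → σ) (p : σ → K) :
    Prop :=
  (∀ i, eval p (f i) = 0) ∧ eval p (minor f J) ≠ 0

/-- The local ideal of the system `f` at `p`. -/
def locP (f : κ → MvPolynomial σ K) (p : σ → K) : Ideal (MvPolynomial σ K) where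
  carrier := {g | ∃ q, eval p q ≠ 0 ∧ q * g ∈ Ideal.span (Set.range f)}
  add_mem' := by
    rintro a b ⟨q, hq, ha⟩ ⟨q', hq', hb⟩
    refine ⟨q * q', by rw [map_mul]; exact mul_ne_zero hq hq', ?_⟩
    have e : q * q' * (a + b) = q' * (q * a) + q * (q' * b) := by ring
    rw [e]
    exact Ideal.add_mem _ (Ideal.mul_mem_left _ _ ha) (Ideal.mul_mem_left _ _ hb)
  zero_mem' := ⟨1, by simp, by simp⟩
  smul_mem' := by
    rintro c a ⟨q, hq, ha⟩
    refine ⟨q, hq, ?_⟩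
    have e : q * (c • a) = c * (q * a) := by rw [smul_eq_mul]; ring
    rw [e]
    exact Ideal.mul_mem_left _ _ ha

/-- `P` is a simple component of codimension `c` through `p`. -/
def IsComp (c : ℕ) (p : σ → K) (P : Ideal (MvPolynomial σ K)) : Prop :=
  ∃ (g : Fin c → MvPolynomial σ K) (J : Fin c → σ), Simple g J p ∧ locP g p = P

/-- The tangent space of the system `f` at a point with coordinates in an extension. -/
def tan [Fintype σ] {L : Type} [Field L] [Algebra K L] (f : κ → MvPolynomial σ K) (ζ : σ → L) :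
    Submodule L (σ → L) where
  carrier := {w | ∀ i, ∑ l, aeval ζ (pderiv l (f i)) * w l = 0}
  add_mem' := fun {a b} ha hb i => by
    simp only [Pi.add_apply, mul_add, Finset.sum_add_distrib]
    rw [ha i, hb i, add_zero]
  zero_mem' := fun i => by simp
  smul_mem' := fun c a ha i => by
    have e : ∑ l, aeval ζ (pderiv l (f i)) * (c • a) l
        = c * ∑ l, aeval ζ (pderiv l (f i)) * a l := by
      rw [Finset.mul_sum]
      exact Finset.sum_congr rfl fun l _ => by rw [Pi.smul_apply, smul_eq_mul]; ring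
    rw [e, ha i, mul_zero]

end Alg

/-- A free ultrafilter on the naturals. -/
structure UF where
  U : Ultrafilter ℕ
  le : (U : Filter ℕ) ≤ atTop

/-- Holds for most `n`. -/
def UF.ev (u : UF) (P : ℕ → Prop) : Prop := ∀ᶠ n in (u.U : Filter ℕ), P n

/-- At most, up to a factor `n ^ o(1)`. -/
def UF.LE (u : UF) (a b : ℕ → ℝ) : Prop :=
  ∀ κ : ℝ, 0 < κ → u.ev fun n => a n ≤ (n : ℝ) ^ κ * b n

/-- Smaller by a power of `n`. -/
def UF.LL (u : UF) (a b : ℕ → ℝ) : Prop :=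
  ∃ κ : ℝ, 0 < κ ∧ u.ev fun n => (n : ℝ) ^ κ * a n ≤ b n

/-- The power sequence. -/
def pw (μ : ℝ) : ℕ → ℝ := fun n => (n : ℝ) ^ μ

/-- A sequence of naturals as a sequence of reals. -/
def nr (a : ℕ → ℕ) : ℕ → ℝ := fun n => (a n : ℝ)

/-- The sequence of cardinalities. -/
def cd {ι : Type} (E : ℕ → Finset ι) : ℕ → ℝ := fun n => ((E n).card : ℝ)

/-- `F` is a full part of `E`. -/
def UF.Full (u : UF) {ι : Type} (F E : ℕ → Finset ι) : Prop :=
  (u.ev fun n => F n ⊆ E n) ∧ u.LE (cd E) (cd F)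

section Tree

variable {ι R σ : Type}

/-- All of `F` is captured by polynomials of degree at most `M`, one for each node. -/
structure Cap (F : Finset ι) (r : ι → R) (π : ι → σ → ℂ) (P : ι → Ideal (MvPolynomial σ ℂ))
    (M : ℕ) (g : ι → MvPolynomial σ ℂ) : Prop where
  cons : ∀ e ∈ F, ∀ e' ∈ F, r e = r e' → P e = P e' → g e = g e'
  notin : ∀ e ∈ F, g e ∉ P e
  deg : ∀ e ∈ F, (g e).totalDegree ≤ M
  zero : ∀ e ∈ F, eval (π e) (g e) = 0

/-- Captured parts in degree `M` are negligible. -/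
def RobAt (u : UF) (E : ℕ → Finset ι) (r : ℕ → ι → R) (π : ℕ → ι → σ → ℂ)
    (P : ℕ → ι → Ideal (MvPolynomial σ ℂ)) (M : ℕ → ℕ) : Prop :=
  ∀ (F : ℕ → Finset ι) (g : ℕ → ι → MvPolynomial σ ℂ),
    (u.ev fun n => F n ⊆ E n ∧ Cap (F n) (r n) (π n) (P n) (M n) (g n)) → u.LL (cd F) (cd E)

/-- Robust at all scales below `ν`. -/
def RobBelow (u : UF) (E : ℕ → Finset ι) (r : ℕ → ι → R) (π : ℕ → ι → σ → ℂ)
    (P : ℕ → ι → Ideal (MvPolynomial σ ℂ)) (ν : ℝ) : Prop :=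
  ∀ M : ℕ → ℕ, u.LL (nr M) (pw ν) → RobAt u E r π P M

/-- A full part is captured at scale `ν`. -/
def CapAt (u : UF) (E : ℕ → Finset ι) (r : ℕ → ι → R) (π : ℕ → ι → σ → ℂ)
    (P : ℕ → ι → Ideal (MvPolynomial σ ℂ)) (ν : ℝ) : Prop :=
  ∃ (F : ℕ → Finset ι) (g : ℕ → ι → MvPolynomial σ ℂ) (M : ℕ → ℕ),
    u.LE (nr M) (pw ν) ∧ u.Full F E ∧ u.ev fun n => Cap (F n) (r n) (π n) (P n) (M n) (g n)

/-- The node of level `i`. -/
def lev (f : ι → ℕ → MvPolynomial σ ℂ) (π : ι → σ → ℂ) (i : ℕ) (e : ι) :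
    Ideal (MvPolynomial σ ℂ) :=
  locP (pre (f e) i) (π e)

/-- A chain of simple systems of length `c`; the next equation depends only on the node. -/
structure Chain (E : Finset ι) (r : ι → R) (π : ι → σ → ℂ) (c : ℕ) (J : ℕ → σ)
    (f : ι → ℕ → MvPolynomial σ ℂ) : Prop where
  simple : ∀ e ∈ E, ∀ i ≤ c, Simple (pre (f e) i) (pre J i) (π e)
  cons : ∀ e ∈ E, ∀ e' ∈ E, r e = r e' → ∀ i < c, lev f π i e = lev f π i e' → f e i = f e' i

/-- The sum of the degrees of the nodes meeting `E`. -/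
def sdg (v : ℕ) (E : Finset ι) (r : ι → R) (P : ι → Ideal (MvPolynomial σ ℂ)) : ℕ :=
  ∑ z ∈ E.image fun e => (r e, P e), dg v z.2

/-- The state of a tree at scale `μ`: level `cU` is mature, levels up to `c` are newborn. -/
structure TS [Fintype σ] (u : UF) (E : ℕ → Finset ι) (r : ℕ → ι → R) (π : ℕ → ι → σ → ℂ)
    (c : ℕ) (J : ℕ → σ) (f : ℕ → ι → ℕ → MvPolynomial σ ℂ) (cU : ℕ) (μ θ : ℝ) : Prop where
  le : cU ≤ c
  mu0 : 0 ≤ μ
  thle : θ ≤ cU * μ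
  pos : u.ev fun n => (E n).Nonempty
  chain : u.ev fun n => Chain (E n) (r n) (π n) c J (f n)
  degU : ∃ s : ℕ → ℕ, u.LL (nr s) (pw μ) ∧
    u.ev fun n => ∀ e ∈ E n, ∀ i < cU, (f n e i).totalDegree ≤ s n
  degV : ∃ s : ℕ → ℕ, u.LE (nr s) (pw μ) ∧
    u.ev fun n => ∀ e ∈ E n, ∀ i < c, (f n e i).totalDegree ≤ s n
  rob : RobBelow u E r π (fun n => lev (f n) (π n) cU) μ
  up : ∃ T : ℕ → ℝ, u.LE T (pw θ) ∧ u.ev fun n => ∀ ρ : R,
    (sdg (Fintype.card σ - cU) ((E n).filter fun e => r n e = ρ) (r n) (lev (f n) (π n) cU) : ℝ)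
      ≤ T n
  low : ∀ F, u.Full F E → u.LE (pw θ)
    (nr fun n => sdg (Fintype.card σ - cU) (F n) (r n) (lev (f n) (π n) cU))
  ext : ∃ B : ℕ → ℝ, u.LE B (pw (μ * ((c - cU : ℕ) : ℝ))) ∧ u.ev fun n => ∀ e₀ ∈ E n,
    (sdg (Fintype.card σ - c) ((E n).filter fun e => r n e = r n e₀ ∧
        lev (f n) (π n) cU e = lev (f n) (π n) cU e₀) (r n) (lev (f n) (π n) c) : ℝ)
      ≤ B n * dg (Fintype.card σ - cU) (lev (f n) (π n) cU e₀)

end Tree

section Model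

open Sum

/-- Coordinates of the space of flats: `none` is `c`, `some (inl i)` is `b i`, and
`some (inr i)` is `a i`. -/
abbrev Sx (k : ℕ) : Type := Option (Fin k ⊕ Fin k)

/-- Coordinates of pairs of points: `inl` is `s` and `inr` is `w`. -/
abbrev Tx (k : ℕ) : Type := Fin (k + 1) ⊕ Fin (k + 1)

variable {k : ℕ} {A : Type} [CommRing A]

/-- The flat of `x`, parametrised by `b`. -/
def fl (x : Tx k → A) (b : Fin k → A) : Sx k → A
  | none => x (inr 0) + ∑ i, x (inr i.succ) * b i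
  | some (inl i) => b i
  | some (inr i) => x (inl i.succ) - x (inl 0) * b i

/-- The symmetric bilinear form. -/
def bil (x y : Tx k → A) : A := ∑ i, (x (inl i) * y (inr i) + y (inl i) * x (inr i))

/-- Null pairs. -/
def nul (x y : Tx k → A) : Prop := bil (x - y) (x - y) = 0

/-- The parameter of the common point of two flats. -/
def bb {F : Type} [Field F] (x y : Tx k → F) : Fin k → F :=
  fun i => (x (inl i.succ) - y (inl i.succ)) / (x (inl 0) - y (inl 0))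

/-- Restriction to the flat of `x` of a polynomial in a point and in `x`. -/
def resx (x : Tx k → ℂ) : MvPolynomial (Sx k ⊕ Tx k) ℂ →ₐ[ℂ] MvPolynomial (Fin k) ℂ :=
  aeval (Sum.elim (fl (fun l => C (x l)) X) fun l => C (x l))

/-- The incidence equations. -/
def incP (o : Sx k) : MvPolynomial (Sx k ⊕ Tx k) ℂ :=
  X (inl o) - fl (fun l => X (inr l)) (fun i => X (inl (some (inl i)))) o

/-- Real points as complex points. -/
def cx {τ : Type} (x : τ → ℝ) : τ → ℂ := fun l => (x l : ℂ)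

/-- The data of a localised configuration. -/
structure LD (k : ℕ) (ι R₁ R₂ : Type) where
  x : ℕ → ι → Tx k → ℂ
  y : ℕ → ι → Tx k → ℂ
  b : ℕ → ι → Fin k → ℂ
  r₁ : ℕ → ι → R₁
  r₂ : ℕ → ι → R₂
  P₁ : ℕ → ι → Ideal (MvPolynomial (Fin k) ℂ)
  P₂ : ℕ → ι → Ideal (MvPolynomial (Fin k) ℂ)
  c : ℕ
  j₁ : ℕ
  j₂ : ℕ
  m : ℕ → ℕ
  f : ℕ → Fin c → MvPolynomial (Sx k) ℂ
  J : Fin c → Sx k
  P : ℕ → Ideal (MvPolynomial (Sx k) ℂ)

/-- Exchange of the two sides. -/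
def LD.swap {ι R₁ R₂ : Type} (D : LD k ι R₁ R₂) : LD k ι R₂ R₁ :=
  ⟨D.y, D.x, D.b, D.r₂, D.r₁, D.P₂, D.P₁, D.c, D.j₂, D.j₁, D.m, D.f, D.J, D.P⟩

/-- The point of an edge. -/
def LD.p {ι R₁ R₂ : Type} (D : LD k ι R₁ R₂) (n : ℕ) (e : ι) : Sx k → ℂ :=
  fl (D.x n e) (D.b n e)

/-- A robust configuration inside one node. -/
structure Loc (u : UF) {ι R₁ R₂ : Type} (D : LD k ι R₁ R₂) (E : ℕ → Finset ι) : Prop where
  pos : u.ev fun n => (E n).Nonempty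
  one_le : ∀ n, 1 ≤ D.m n
  le₁ : D.j₁ ≤ k
  le₂ : D.j₂ ≤ k
  inc : u.ev fun n => ∀ e ∈ E n, fl (D.y n e) (D.b n e) = fl (D.x n e) (D.b n e) ∧
    D.x n e (inl 0) ≠ D.y n e (inl 0)
  root₁ : u.ev fun n => ∀ e ∈ E n, ∀ e' ∈ E n, D.r₁ n e = D.r₁ n e' → D.x n e = D.x n e'
  root₂ : u.ev fun n => ∀ e ∈ E n, ∀ e' ∈ E n, D.r₂ n e = D.r₂ n e' → D.y n e = D.y n e'
  inj : u.ev fun n => ∀ e ∈ E n, ∀ e' ∈ E n,
    D.r₁ n e = D.r₁ n e' → D.r₂ n e = D.r₂ n e' → e = e'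
  sv : u.ev fun n => (∀ i, (D.f n i).totalDegree ≤ D.m n) ∧
    ∀ e ∈ E n, Simple (D.f n) D.J (D.p n e) ∧ locP (D.f n) (D.p n e) = D.P n
  s₁ : u.ev fun n => ∀ e ∈ E n, IsComp (k - D.j₁) (D.b n e) (D.P₁ n e)
  s₂ : u.ev fun n => ∀ e ∈ E n, IsComp (k - D.j₂) (D.b n e) (D.P₂ n e)
  robV : ∀ M : ℕ → ℕ, u.LE (nr M) (nr D.m) →
    RobAt u E (fun _ _ => ()) D.p (fun n _ => D.P n) M
  rob₁ : ∀ M : ℕ → ℕ, u.LE (nr M) (nr D.m) → RobAt u E D.r₁ D.b D.P₁ M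
  rob₂ : ∀ M : ℕ → ℕ, u.LE (nr M) (nr D.m) → RobAt u E D.r₂ D.b D.P₂ M

/-- The finite package extracted from a critical configuration. -/
structure Pack {ι : Type} (t j₁ j₂ : ℕ) (E : Finset ι) (x y : ι → Tx k → ℂ) (b : ι → Fin k → ℂ)
    (P₁ P₂ : ι → Ideal (MvPolynomial (Fin k) ℂ)) {c c₁ c₂ : ℕ}
    (f : Fin c → MvPolynomial (Sx k) ℂ) (J : Fin c → Sx k)
    (φ₁ : Fin c₁ → MvPolynomial (Sx k ⊕ Tx k) ℂ) (J₁ : Fin c₁ → Tx k)
    (φ₂ : Fin c₂ → MvPolynomial (Sx k ⊕ Tx k) ℂ) (J₂ : Fin c₂ → Tx k)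
    (Q₁ Q₂ : Ideal (MvPolynomial (Sx k ⊕ Tx k) ℂ)) : Prop where
  ne : E.Nonempty
  le₁ : j₁ ≤ k
  le₂ : j₂ ≤ k
  crit : 2 * k + 1 ≤ c + j₁ + j₂
  inc : ∀ e ∈ E, fl (y e) (b e) = fl (x e) (b e) ∧ x e (inl 0) ≠ y e (inl 0)
  sim₁ : ∀ e ∈ E, Simple (ext f φ₁) (Sum.map J J₁) (Sum.elim (fl (x e) (b e)) (x e)) ∧
    locP (ext f φ₁) (Sum.elim (fl (x e) (b e)) (x e)) = Q₁
  sim₂ : ∀ e ∈ E, Simple (ext f φ₂) (Sum.map J J₂) (Sum.elim (fl (x e) (b e)) (y e)) ∧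
    locP (ext f φ₂) (Sum.elim (fl (x e) (b e)) (y e)) = Q₂
  bd₂ : ∃ M, ∀ i, BD t M (φ₂ i)
  inc₁ : ∀ o, incP o ∈ Q₁
  inc₂ : ∀ o, incP o ∈ Q₂
  rk₁ : ∀ (ρ : Fin (2 * k + 2 - j₁) → Fin c ⊕ Fin c₁) (γ : Fin (2 * k + 2 - j₁) → Sx k),
    minor (fun i => ext f φ₁ (ρ i)) (fun i => inl (γ i)) ∈ Q₁
  rk₂ : ∀ (ρ : Fin (2 * k + 2 - j₂) → Fin c ⊕ Fin c₂) (γ : Fin (2 * k + 2 - j₂) → Sx k),
    minor (fun i => ext f φ₂ (ρ i)) (fun i => inl (γ i)) ∈ Q₂
  yc₁ : ∀ e ∈ E, IsComp (k - j₁) (b e) (P₁ e) ∧ ∀ i, resx (x e) (ext f φ₁ i) ∈ P₁ e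
  yc₂ : ∀ e ∈ E, IsComp (k - j₂) (b e) (P₂ e) ∧ ∀ i, resx (y e) (ext f φ₂ i) ∈ P₂ e

/-- A generic point of the fibre product. -/
structure Gen (j₁ c₂ : ℕ) (Q₁ Q₂ : Ideal (MvPolynomial (Sx k ⊕ Tx k) ℂ)) {L : Type} [Field L]
    [Algebra ℂ L] (ζ : Sx k → L) (ξ η : Tx k → L) : Prop where
  ker₁ : ∀ G, aeval (Sum.elim ζ ξ) G = 0 ↔ G ∈ Q₁
  ker₂ : ∀ G, aeval (Sum.elim ζ η) G = 0 ↔ G ∈ Q₂
  ne0 : ξ (inl 0) ≠ η (inl 0)
  dom : ∀ G : MvPolynomial (Tx k ⊕ Tx k) ℂ, aeval (Sum.elim ξ η) G = 0 →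
    ∀ x₀ : Tx k → ℂ, (∀ g : MvPolynomial (Tx k) ℂ, aeval ξ g = 0 → eval x₀ g = 0) →
      aeval (Sum.elim (fun l => algebraMap ℂ L (x₀ l)) η) G = 0
  trlow : (j₁ : Cardinal) ≤ Algebra.trdeg ℂ (IntermediateField.adjoin ℂ (Set.range η))
  trup : Algebra.trdeg ℂ (IntermediateField.adjoin ℂ (Set.range η))
    ≤ ((j₁ + (2 * k + 2 - c₂) : ℕ) : Cardinal)

/-- The fixed maximal isotropic subspace. -/
def Rb (k : ℕ) : Submodule ℝ (Tx k → ℝ) where
  carrier := {z | ∀ i, z (inl i) = 0}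
  add_mem' := fun {a b} ha hb i => by rw [Pi.add_apply, ha i, hb i, add_zero]
  zero_mem' := fun _ => rfl
  smul_mem' := fun c a ha i => by rw [Pi.smul_apply, ha i, smul_zero]

/-- The orthogonal complement of a vector. -/
def perp (z : Tx k → ℝ) : Submodule ℝ (Tx k → ℝ) where
  carrier := {v | bil v z = 0}
  add_mem' := fun {a b} ha hb => by
    have e : bil (a + b) z = bil a z + bil b z := by
      simp only [bil, Pi.add_apply, ← Finset.sum_add_distrib]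
      exact Finset.sum_congr rfl fun i _ => by ring
    change bil (a + b) z = 0
    rw [e, ha, hb, add_zero]
  zero_mem' := by simp [bil]
  smul_mem' := fun c a ha => by
    have e : bil (c • a) z = c * bil a z := by
      simp only [bil, Pi.smul_apply, smul_eq_mul, Finset.mul_sum]
      exact Finset.sum_congr rfl fun i _ => by ring
    change bil (c • a) z = 0
    rw [e, ha, mul_zero]

/-- The span of the differences `y - x`, `y ∈ B`. -/
def spd {τ : Type} (B : Finset (τ → ℝ)) (x : τ → ℝ) : Submodule ℝ (τ → ℝ) :=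
  Submodule.span ℝ ((fun y => y - x) '' (B : Set (τ → ℝ)))

/-- Isotropic subspaces. -/
def Iso (U : Submodule ℝ (Tx k → ℝ)) : Prop := ∀ v ∈ U, ∀ w ∈ U, bil v w = 0

/-- Separators of degree `M` for the points of `X` in `x + U`, invariant along `z`. -/
def SepZ {τ : Type} (X : Finset (τ → ℝ)) (M : ℕ) (x : τ → ℝ) (U : Submodule ℝ (τ → ℝ))
    (z : τ → ℝ) : Prop :=
  ∀ y₀ ∈ X, y₀ - x ∈ U → ∃ g : MvPolynomial τ ℂ, g.totalDegree ≤ M ∧
    (∀ (a : τ → ℂ) (t : ℂ), eval (a + t • cx z) g = eval a g) ∧ eval (cx y₀) g ≠ 0 ∧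
    ∀ y ∈ X, y - x ∈ U → y ≠ y₀ → eval (cx y) g = 0

/-- Edges. -/
abbrev Ed (k : ℕ) : Type := (Tx k → ℝ) × (Tx k → ℝ)

/-- The finite model. -/
structure Mod (X : Finset (Tx k → ℝ)) (E : Finset (Ed k)) (M : ℕ) (K : ℕ → ℕ) : Prop where
  mem : ∀ e ∈ E, e.1 ∈ X ∧ e.2 ∈ X ∧ nul e.1 e.2 ∧ e.1 (inl 0) ≠ e.2 (inl 0)
  sep : SepZ X M 0 ⊤ 0
  gen : ∀ B ⊆ X, ∀ x ∈ X, ∀ y ∈ X,
    Module.finrank ℝ ↥(spd B x ⊓ perp (y - x)) ≤ k + 1 →
      (spd B x ⊓ perp (y - x)) ⊓ Rb k = ⊥ ∨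
      (Iso (spd B x ⊓ perp (y - x)) ∧ Module.finrank ℝ ↥(spd B x ⊓ perp (y - x)) = k + 1 ∧
        ∃ z, z ≠ 0 ∧ (spd B x ⊓ perp (y - x)) ⊓ Rb k = Submodule.span ℝ {z} ∧
          SepZ X M x (spd B x ⊓ perp (y - x)) z)
  cnt : ∀ x ∈ X, ∀ U : Submodule ℝ (Tx k → ℝ), Iso U → 2 ≤ Module.finrank ℝ U →
    (X.filter fun y => y - x ∈ U).card ≤ K (Module.finrank ℝ U)
  line₁ : ∀ e ∈ E, (X.filter fun y => y - e.1 ∈ Submodule.span ℝ {e.2 - e.1}).card ≤ K 1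

/-- The dimension of the affine span. -/
def adim {τ : Type} (B : Finset (τ → ℝ)) : ℕ :=
  Module.finrank ℝ (vectorSpan ℝ (B : Set (τ → ℝ)))

/-- The sum of the dimensions of the two sides. -/
def sdim (E : Finset (Ed k)) : ℕ := adim (E.image Prod.fst) + adim (E.image Prod.snd)

/-- The second end point is a rational function of the point of the edge. -/
def CaseX (E F : Finset (Ed k)) : Prop :=
  ∀ e ∈ F, e.1 ∉ affineSpan ℝ ((E.image Prod.snd : Finset (Tx k → ℝ)) : Set (Tx k → ℝ)) ∧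
    (spd (E.image Prod.snd) e.1 ⊓ perp (e.2 - e.1)) ⊓ Rb k = ⊥

/-- All end points lie in an isotropic flat spanned by the first end points (up to `z`). -/
def CaseI (X : Finset (Tx k → ℝ)) (M : ℕ) (F : Finset (Ed k)) : Prop :=
  ∃ o ∈ X, ∃ (U : Submodule ℝ (Tx k → ℝ)) (z : Tx k → ℝ), Iso U ∧
    (∀ e ∈ F, e.1 - o ∈ U ∧ e.2 - o ∈ U) ∧ U ⊓ Rb k = Submodule.span ℝ {z} ∧
    (z ≠ 0 → Module.finrank ℝ U = k + 1) ∧ SepZ X M o U z ∧
    vectorSpan ℝ ((F.image Prod.fst : Finset (Tx k → ℝ)) : Set (Tx k → ℝ))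
      ⊔ Submodule.span ℝ {z} = U

end Model

/-- The number of distinct distances. -/
def nd {d : ℕ} (P : Finset (EuclideanSpace ℝ (Fin d))) : ℕ :=
  Set.ncard {r : ℝ | ∃ p ∈ P, ∃ q ∈ P, p ≠ q ∧ r = dist p q}

/-- The statement in dimension `d`. -/
def Thm (d : ℕ) : Prop :=
  ∀ ε : ℝ, 0 < ε → ∃ n₀ : ℕ, ∀ P : Finset (EuclideanSpace ℝ (Fin d)), n₀ ≤ P.card →
    (P.card : ℝ) ^ (2 / (d : ℝ) - ε) ≤ (nd P : ℝ)

end

end Vale.Agent.P054A
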