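import Vale.Agent.P054A.DegH
import Vale.Agent.P271.FInt

/-!
Auxiliary results for the degree lemma.
-/

namespace Vale.Agent.P054A

open MvPolynomial
open scoped Classical

section Aux

variable {L : Type} [Field L] [Algebra ℂ L]

/-- Homogenisation of a relation between ratios. -/
theorem deg_hom {ι κ : Type} [Fintype κ] (ε : κ → ι) (hε : Function.Injective ε) (l : ι)
    (hl : ∀ o, ε o ≠ l) (u : ι → L) (hu : u l ≠ 0) (F : MvPolynomial κ ℂ) (hF : F ≠ 0)
    (h : aeval (fun o => u (ε o) / u l) F = 0) (o₀ : κ) :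
    ∃ (G : MvPolynomial ι ℂ) (g : ℕ), G ≠ 0 ∧ G.IsHomogeneous g ∧
      G.degreeOf (ε o₀) ≤ F.degreeOf o₀ ∧ aeval u G = 0 := by
  have hd : ∀ α ∈ F.support, F.totalDegree - α.degree + α.degree = F.totalDegree :=
    fun α hα => Nat.sub_add_cancel (le_totalDegree hα)
  refine ⟨∑ α ∈ F.support, X l ^ (F.totalDegree - α.degree) * rename ε (monomial α (coeff α F)),
    F.totalDegree, fun h0 => hF ?_, IsHomogeneous.sum _ _ _ fun α hα => ?_, ?_, ?_⟩
  · have h1 := congrArg (aeval (Function.extend ε (X : κ → MvPolynomial κ ℂ) fun _ => 1)) h0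
    rw [map_sum, map_zero] at h1
    rw [← h1]
    conv_lhs => rw [F.as_sum]
    refine Finset.sum_congr rfl fun α _ => ?_
    rw [map_mul, map_pow, aeval_X, Function.extend_apply' _ _ _ (not_exists.2 hl), one_pow,
      one_mul, aeval_rename, Function.extend_comp hε, aeval_X_left_apply]
  · rw [← hd α hα]
    refine IsHomogeneous.mul ?_ (isHomogeneous_monomial _ rfl).rename_isHomogeneous
    rw [hd α hα]
    exact isHomogeneous_X_pow _ _
  · refine (degreeOf_sum_le _ _ _).trans (Finset.sup_le fun α hα => ?_)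
    refine (degreeOf_mul_le _ _ _).trans ?_
    rw [degreeOf_X_pow_of_ne _ (hl o₀), zero_add, degreeOf_rename_of_injective hε,
      degreeOf_monomial_eq _ _ (mem_support_iff.1 hα)]
    exact monomial_le_degreeOf o₀ hα
  · have h1 : u l ^ F.totalDegree * aeval (fun o => u (ε o) / u l) F = 0 := by rw [h, mul_zero]
    rw [← h1, map_sum]
    conv_rhs => enter [2, 2]; rw [F.as_sum]
    rw [map_sum, Finset.mul_sum]
    refine Finset.sum_congr rfl fun α hα => ?_
    rw [map_mul, map_pow, aeval_X, aeval_rename, aeval_monomial, aeval_monomial]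
    conv_rhs => rw [← hd α hα, pow_add, mul_assoc]
    congr 1
    rw [mul_left_comm, Finsupp.prod, Finsupp.prod, Finsupp.degree_apply,
      ← Finset.prod_pow_eq_pow_sum, ← Finset.prod_mul_distrib]
    congr 1
    refine Finset.prod_congr rfl fun o _ => ?_
    rw [← mul_pow, mul_div_cancel₀ _ hu]
    rfl

/-- Every element satisfies an equation of small degree over the ratios. -/
theorem deg_eq {τ : Type} [Fintype τ] (β : τ → L) {j δ T : ℕ}
    (hH : ∀ M, H (RingHom.ker (aeval β : MvPolynomial τ ℂ →ₐ[ℂ] L)) M ≤ δ * (M + 1) ^ j)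
    (hf : FiniteDimensional (IntermediateField.adjoin ℂ (Set.range β)) L)
    (hT : Module.finrank (IntermediateField.adjoin ℂ (Set.range β)) L ≤ T)
    (A : Fin j → MvPolynomial τ ℂ) (B : MvPolynomial τ ℂ) (hA : ∀ i, (A i).totalDegree ≤ 1)
    (hB : B.totalDegree ≤ 1) (hB0 : aeval β B ≠ 0) (x : L) :
    ∃ F : MvPolynomial (Option (Fin j)) ℂ, F ≠ 0 ∧ F.degreeOf none ≤ δ * (j + 1) ^ j * T ∧
      aeval (fun o => o.elim x fun i => aeval β (A i) / aeval β B) F = 0 := by
  set t : Fin j → L := fun i => aeval β (A i) / aeval β B with ht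
  suffices h : ∃ P : Polynomial (MvPolynomial (Fin j) ℂ), P ≠ 0 ∧
      P.natDegree ≤ δ * (j + 1) ^ j * T ∧
      Polynomial.aevalTower (aeval t : MvPolynomial (Fin j) ℂ →ₐ[ℂ] L) x P = 0 by
    obtain ⟨P, h1, h2, h3⟩ := h
    refine ⟨(optionEquivLeft ℂ _).symm P, by simpa using h1, ?_, ?_⟩
    · rw [← natDegree_optionEquivLeft, AlgEquiv.apply_symm_apply]
      exact h2
    · have e : (aeval (fun o : Option (Fin j) => o.elim x t) : _ →ₐ[ℂ] L) =
          (Polynomial.aevalTower (aeval t : MvPolynomial (Fin j) ℂ →ₐ[ℂ] L) x).comp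
            (optionEquivLeft ℂ (Fin j)).toAlgHom := by
        refine MvPolynomial.algHom_ext fun o => ?_
        rcases o with _ | o <;> simp
      rw [e]
      simpa using h3
  by_cases hi : AlgebraicIndependent ℂ t
  swap
  · rw [algebraicIndependent_iff] at hi
    push Not at hi
    obtain ⟨F, h1, h2⟩ := hi
    exact ⟨Polynomial.C F, by simpa using h2, by simp, by simpa using h1⟩
  have hle : IntermediateField.adjoin ℂ (Set.range t) ≤ IntermediateField.adjoin ℂ (Set.range β) := by
    rw [IntermediateField.adjoin_le_iff]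
    rintro _ ⟨i, rfl⟩
    exact (IntermediateField.mem_adjoin_range_iff ℂ β _).2 ⟨A i, B, rfl⟩
  have h1 : Module.rank (IntermediateField.adjoin ℂ (Set.range t))
      (IntermediateField.extendScalars hle) ≤ (δ * (j + 1) ^ j : ℕ) := by
    refine rank_le fun s hs => ?_
    exact finrank_le_of_H β hH A B hA hB hB0 hi s.card
      (fun i => ((s.equivFin.symm i : IntermediateField.extendScalars hle) : L))
      (fun i => (s.equivFin.symm i : IntermediateField.extendScalars hle).2)
      ((hs.comp _ s.equivFin.symm.injective).map'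
        (IntermediateField.extendScalars hle).val.toLinearMap
        (LinearMap.ker_eq_bot.2 Subtype.val_injective))
  have h2 : Module.rank (IntermediateField.adjoin ℂ (Set.range t)) L
      ≤ (δ * (j + 1) ^ j * T : ℕ) := by
    rw [← IntermediateField.relrank_mul_rank_top hle, IntermediateField.relrank_eq_rank_of_le hle,
      Nat.cast_mul]
    refine mul_le_mul' h1 ?_
    rw [← Module.finrank_eq_rank]
    exact Nat.cast_le.2 hT
  have h3 : ¬ LinearIndependent (IntermediateField.adjoin ℂ (Set.range t))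
      fun n : Fin (δ * (j + 1) ^ j * T + 1) => x ^ (n : ℕ) := fun h => by
    have h4 := h.cardinal_le_rank.trans h2
    rw [Cardinal.mk_fin, Nat.cast_le] at h4
    omega
  obtain ⟨c, hc, n₀, hn₀⟩ := Fintype.not_linearIndependent_iff.1 h3
  obtain ⟨N, d, hd, hN⟩ := degh_den t (fun n => (c n : L)) fun n => (c n).2
  refine ⟨∑ n, Polynomial.C (N n) * Polynomial.X ^ (n : ℕ), fun h0 => hn₀ ?_, ?_, ?_⟩
  · have h5 := congrArg (fun p => p.coeff n₀) h0
    simp only [Polynomial.finsetSum_coeff, Polynomial.coeff_C_mul_X_pow, Fin.val_inj,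
      Finset.sum_ite_eq, Finset.mem_univ, if_true, Polynomial.coeff_zero] at h5
    have h6 := hN n₀
    rw [h5, map_zero] at h6
    exact Subtype.ext ((mul_eq_zero.1 h6.symm).resolve_right hd)
  · refine Polynomial.natDegree_sum_le_of_forall_le _ _ fun n _ => ?_
    exact (Polynomial.natDegree_C_mul_X_pow_le _ _).trans (Nat.lt_succ_iff.1 n.2)
  · rw [map_sum, ← zero_mul (aeval t d), ← hc, Finset.sum_mul]
    refine Finset.sum_congr rfl fun n _ => ?_
    rw [map_mul, map_pow, Polynomial.aevalTower_C, Polynomial.aevalTower_X, hN,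
      IntermediateField.smul_def, smul_eq_mul]
    ring

theorem deg_top {d : ℕ} {y : Fin d → L} {w : L} {a : ℕ} {υ : Fin a → L}
    (hy : AlgebraicIndependent ℂ y) (hL : IntermediateField.adjoin ℂ (Set.range υ) = ⊤)
    {Q : Polynomial (MvPolynomial (Fin d) ℂ)} (hQ : Q.Monic) (h0 : P271.evP y w Q = 0)
    (h : ∀ i, ∃ E : MvPolynomial (Fin d) ℂ, E ≠ 0 ∧ ∃ P, aeval y E * υ i = P271.evP y w P) :
    FiniteDimensional (IntermediateField.adjoin ℂ (Set.range y)) L ∧
      Module.finrank (IntermediateField.adjoin ℂ (Set.range y)) L ≤ Q.natDegree := by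
  set K := IntermediateField.adjoin ℂ (Set.range y) with hK
  have hm : ∀ E : MvPolynomial (Fin d) ℂ, aeval y E ∈ K := fun E =>
    (IntermediateField.mem_adjoin_range_iff ℂ y _).2 ⟨E, 1, by simp⟩
  let φ : MvPolynomial (Fin d) ℂ →+* K := (aeval y).toRingHom.codRestrict K hm
  have hφ : ∀ P, Polynomial.aeval w (P.map φ) = P271.evP y w P := fun P => by
    rw [Polynomial.aeval_def, Polynomial.eval₂_map]
    rfl
  have hi : IsIntegral K w := ⟨Q.map φ, hQ.map φ, by rw [← Polynomial.aeval_def, hφ, h0]⟩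
  have ht : IntermediateField.adjoin K {w} = ⊤ := by
    rw [← IntermediateField.restrictScalars_eq_top_iff (K := ℂ), eq_top_iff, ← hL,
      IntermediateField.adjoin_le_iff]
    rintro _ ⟨i, rfl⟩
    obtain ⟨E, hE, P, hP⟩ := h i
    have h1 : aeval y E ≠ 0 := fun h1 => hE (hy.eq_zero_of_aeval_eq_zero E h1)
    have h2 : υ i = Polynomial.aeval w (P.map φ) / algebraMap K L (φ E) := by
      rw [hφ, ← hP]
      exact (mul_div_cancel_left₀ _ h1).symm
    rw [h2]
    change _ ∈ IntermediateField.adjoin K {w}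
    exact div_mem (IntermediateField.algebra_adjoin_le_adjoin K _
      (Polynomial.aeval_mem_adjoin_singleton K w)) (IntermediateField.algebraMap_mem _ _)
  have hf := IntermediateField.adjoin.finiteDimensional hi
  have hr := IntermediateField.adjoin.finrank hi
  rw [ht] at hf hr
  refine ⟨IntermediateField.topEquiv.toLinearEquiv.finiteDimensional, ?_⟩
  rw [← IntermediateField.finrank_top', hr, ← hQ.natDegree_map φ]
  exact Polynomial.natDegree_le_natDegree (minpoly.min K w (hQ.map φ) (by rw [hφ, h0]))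

theorem deg_trdeg {d : ℕ} {y : Fin d → L} (hy : AlgebraicIndependent ℂ y)
    (hf : FiniteDimensional (IntermediateField.adjoin ℂ (Set.range y)) L) :
    (d : Cardinal) = Algebra.trdeg ℂ L := by
  have h1 : IsTranscendenceBasis ℂ y := hy.isTranscendenceBasis_iff_isAlgebraic.2
    (IntermediateField.isAlgebraic_adjoin_iff_top.1 inferInstance)
  rw [← h1.cardinalMk_eq_trdeg, Cardinal.mk_fin]

theorem deg_rel {j : ℕ} {y : Fin j → L} {w : L} {Q : Polynomial (MvPolynomial (Fin j) ℂ)}
    (h2 : 2 ≤ Q.natDegree) (hk : ∀ P, P271.evP y w P = 0 ↔ Q ∣ P) (c : ℂ)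
    (μ : Option (Fin j) → ℂ)
    (h : algebraMap ℂ L c + ∑ o, o.elim w y * algebraMap ℂ L (μ o) = 0) : c = 0 ∧ μ = 0 := by
  have h1 := (hk (Polynomial.C (C (μ none)) * Polynomial.X
    + Polynomial.C (C c + ∑ i, C (μ (some i)) * X i))).1 (by
      rw [← h, Fintype.sum_option]
      simp only [P271.evP, map_add, map_mul, map_sum, Polynomial.aevalTower_C,
        Polynomial.aevalTower_X, aeval_C, aeval_X, Option.elim, mul_comm]
      ring)
  have h3 := Polynomial.eq_zero_of_dvd_of_natDegree_lt h1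
    (lt_of_le_of_lt Polynomial.natDegree_linear_le h2)
  have h4 := congrArg (fun p => p.coeff 1) h3
  have h5 := congrArg (fun p => p.coeff 0) h3
  simp only [Polynomial.coeff_add, Polynomial.coeff_C_mul, Polynomial.coeff_X_one, mul_one,
    Polynomial.coeff_C_succ, add_zero, Polynomial.coeff_zero, Polynomial.coeff_X_zero, mul_zero,
    Polynomial.coeff_C_zero, zero_add, C_eq_zero] at h4 h5
  have h6 : c = 0 := by simpa using congrArg (eval 0) h5
  refine ⟨h6, funext fun o => ?_⟩
  rcases o with _ | i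
  · exact h4
  · simpa [h6, Pi.single_apply] using congrArg (eval (Pi.single i 1)) h5

theorem deg_coord {κ : Type} [Fintype κ] [DecidableEq κ] (f : (κ → ℂ) →ᵃ[ℂ] ℂ) (p : κ → ℂ) :
    f p = f 0 + ∑ o, p o * (f (Pi.single o 1) - f 0) := by
  have h1 : ∀ q, f q = f.linear q + f 0 := fun q => by
    simpa using f.map_vadd 0 q
  rw [h1 p, add_comm, LinearMap.pi_apply_eq_sum_univ]
  congr 1
  refine Finset.sum_congr rfl fun o _ => ?_
  rw [h1 (Pi.single o 1), add_sub_cancel_right, smul_eq_mul]
  congr 2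
  funext i
  simp [Pi.single_apply, eq_comm]

end Aux

end Vale.Agent.P054A
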