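import Vale.Agent.P054A.Msz
import Vale.Agent.P054A.Hil
import Vale.Agent.P271.Prim
import Vale.Agent.P271.FN

/-!
The uniform upper bound for the Hilbert function of a prime ideal.
-/

namespace Vale.Agent.P054A

open MvPolynomial Vale.Agent.P271
open scoped Classical

/-- A monic equation with weighted degree bounds. -/
theorem Up_poly {L : Type} [Field L] [Algebra ℂ L] {v : ℕ} {y : Fin v → L} {M : ℕ} {f : L}
    (hf : FInt (lin y) M f) : ∃ P : Polynomial (MvPolynomial (Fin v) ℂ), P.Monic ∧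
      Polynomial.eval₂ (aeval y : MvPolynomial (Fin v) ℂ →ₐ[ℂ] L).toRingHom f P = 0 ∧
      ∀ i, i ≤ P.natDegree → (P.coeff i).totalDegree ≤ (P.natDegree - i) * M := by
  obtain ⟨N, a, _, ha, h⟩ := hf
  choose p hp hpa using fun i => mem_lin_pow_iff.1 (ha i)
  obtain ⟨R, hR⟩ : ∃ R : Polynomial (MvPolynomial (Fin v) ℂ),
      R = ∑ i ∈ Finset.range N, Polynomial.C (p (i + 1)) * Polynomial.X ^ (N - (i + 1)) := ⟨_, rfl⟩
  have hd : R.degree < N := by
    rw [hR]
    refine (Polynomial.degree_sum_le _ _).trans_lt ?_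
    refine (Finset.sup_lt_iff (WithBot.bot_lt_coe N)).2 fun i hi => ?_
    refine (Polynomial.degree_C_mul_X_pow_le _ _).trans_lt ?_
    have := Finset.mem_range.1 hi
    exact WithBot.coe_lt_coe.2 (by omega : N - (i + 1) < N)
  have hn : (Polynomial.X ^ N + R).natDegree = N := by
    rw [Polynomial.natDegree_add_eq_left_of_degree_lt (by rwa [Polynomial.degree_X_pow]),
      Polynomial.natDegree_X_pow]
  refine ⟨Polynomial.X ^ N + R, Polynomial.monic_X_pow_add hd, ?_, fun i hi => ?_⟩
  · rw [← h, hR, Polynomial.eval₂_add, Polynomial.eval₂_X_pow, Polynomial.eval₂_finsetSum]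
    congr 1
    refine Finset.sum_congr rfl fun i _ => ?_
    rw [Polynomial.eval₂_mul, Polynomial.eval₂_C, Polynomial.eval₂_X_pow, ← hpa]
    rfl
  · rw [hn] at hi ⊢
    rw [Polynomial.coeff_add]
    refine (totalDegree_add _ _).trans (max_le ?_ ?_)
    · rw [Polynomial.coeff_X_pow]
      split_ifs <;> simp
    · rw [hR, Polynomial.finsetSum_coeff]
      refine totalDegree_finsetSum_le fun j hj => ?_
      rw [Polynomial.coeff_C_mul_X_pow]
      split_ifs with h1
      · have := Finset.mem_range.1 hj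
        have h2 : N - i = j + 1 := by omega
        rw [h2]
        exact hp _
      · simp

section Abs

variable {v : ℕ} {K L : Type} [Field K] [Field L] [Algebra (MvPolynomial (Fin v) ℂ) K]
  [IsFractionRing (MvPolynomial (Fin v) ℂ) K] [Algebra K L] [Algebra (MvPolynomial (Fin v) ℂ) L]
  [IsScalarTower (MvPolynomial (Fin v) ℂ) K L] [FiniteDimensional K L]

/-- The norm is a polynomial of controlled degree. -/
theorem Up_norm {M : ℕ} {f : L} {P : Polynomial (MvPolynomial (Fin v) ℂ)} (hP : P.Monic)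
    (h0 : Polynomial.aeval f P = 0)
    (hd : ∀ i, i ≤ P.natDegree → (P.coeff i).totalDegree ≤ (P.natDegree - i) * M) :
    ∃ F : MvPolynomial (Fin v) ℂ, F.totalDegree ≤ Module.finrank K L * M ∧
      algebraMap _ K F = Algebra.norm K f := by
  have hinj : Function.Injective (algebraMap (MvPolynomial (Fin v) ℂ) L) := by
    rw [IsScalarTower.algebraMap_eq (MvPolynomial (Fin v) ℂ) K L]
    exact (algebraMap K L).injective.comp (IsFractionRing.injective _ K)
  have : FaithfulSMul (MvPolynomial (Fin v) ℂ) L :=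
    (faithfulSMul_iff_algebraMap_injective _ _).2 hinj
  have hI : IsIntegral (MvPolynomial (Fin v) ℂ) f := ⟨P, hP, h0⟩
  have hK : IsIntegral K f := hI.tower_top
  have hQ := deg_coeff_zero_le hP (minpoly.monic hI) (minpoly.isIntegrallyClosed_dvd hI h0) hd
  have hm := minpoly.isIntegrallyClosed_eq_field_fractions' K hI
  have hn : (minpoly K f).natDegree = (minpoly (MvPolynomial (Fin v) ℂ) f).natDegree := by
    rw [hm, (minpoly.monic hI).natDegree_map]
  have h1 : Algebra.norm K (IntermediateField.AdjoinSimple.gen K f) =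
      (-1) ^ (minpoly K f).natDegree * (minpoly K f).coeff 0 := by
    have := Algebra.PowerBasis.norm_gen_eq_coeff_zero_minpoly
      (IntermediateField.adjoin.powerBasis hK)
    rwa [IntermediateField.adjoin.powerBasis_gen, IntermediateField.adjoin.powerBasis_dim,
      IntermediateField.minpoly_gen] at this
  have h2 := Module.finrank_mul_finrank K (IntermediateField.adjoin K {f}) L
  rw [IntermediateField.adjoin.finrank hK, hn] at h2
  refine ⟨((-1) ^ (minpoly K f).natDegree * (minpoly (MvPolynomial (Fin v) ℂ) f).coeff 0) ^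
    Module.finrank (IntermediateField.adjoin K {f}) L, ?_, ?_⟩
  · refine (totalDegree_pow _ _).trans ?_
    rw [← h2, mul_comm (minpoly _ f).natDegree, mul_assoc]
    refine Nat.mul_le_mul_left _ ((totalDegree_mul _ _).trans ?_)
    have h3 : ((-1 : MvPolynomial (Fin v) ℂ) ^ (minpoly K f).natDegree).totalDegree = 0 := by
      refine Nat.le_zero.1 ((totalDegree_pow _ _).trans ?_)
      simp
    rw [h3, zero_add]
    exact hQ
  · rw [Algebra.norm_eq_norm_adjoin, h1, map_pow, map_mul, map_pow, map_neg, map_one, hm,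
      Polynomial.coeff_map]

/-- An element whose coordinates vanish on a grid is zero. -/
theorem Up_zero {M δ : ℕ} (b : Module.Basis (Fin δ) K L) {f : L}
    {P : Polynomial (MvPolynomial (Fin v) ℂ)} (hP : P.Monic) (h0 : Polynomial.aeval f P = 0)
    (hd : ∀ i, i ≤ P.natDegree → (P.coeff i).totalDegree ≤ (P.natDegree - i) * M)
    {E : MvPolynomial (Fin v) ℂ} (γ : Fin δ → Matrix (Fin δ) (Fin δ) (MvPolynomial (Fin v) ℂ))
    (hγ : ∀ i j k, algebraMap _ K (γ i j k) = algebraMap _ K E * Algebra.leftMulMatrix b (b i) j k)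
    (c : Fin δ → MvPolynomial (Fin v) ℂ)
    (hc : ∀ i, algebraMap _ K (c i) = algebraMap _ K E * b.repr f i)
    (S : Fin v → Finset ℂ) (hS : ∀ i, (S i).card = v * M + 1)
    (hE : ∀ a : Fin v → ℂ, (∀ i, a i ∈ S i) → eval a E ≠ 0)
    (hz : ∀ a : Fin v → ℂ, (∀ i, a i ∈ S i) → ∀ i, eval a (c i) = 0) : f = 0 := by
  have hδ : Module.finrank K L = δ := by simpa using Module.finrank_eq_card_basis b
  obtain ⟨F, hF, hN⟩ := Up_norm (K := K) hP h0 hd
  rw [hδ] at hF
  have h1 : 1 ≤ δ := hδ ▸ Module.finrank_pos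
  obtain ⟨G, hG⟩ : ∃ G : Matrix (Fin δ) (Fin δ) (MvPolynomial (Fin v) ℂ),
      G = ∑ i, c i • γ i := ⟨_, rfl⟩
  have h2 : (algebraMap _ K).mapMatrix G =
      algebraMap _ K (E ^ 2) • Algebra.leftMulMatrix b f := by
    ext j k
    conv_rhs => rw [← b.sum_repr f]
    simp only [hG, RingHom.mapMatrix_apply, Matrix.map_apply, Matrix.sum_apply, Matrix.smul_apply,
      smul_eq_mul, map_sum, map_mul, map_smul, hγ, hc, Finset.mul_sum, map_pow]
    exact Finset.sum_congr rfl fun i _ => by ring
  have h3 : (E ^ 2) ^ δ * F = G.det := by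
    apply IsFractionRing.injective (MvPolynomial (Fin v) ℂ) K
    rw [RingHom.map_det, h2, Matrix.det_smul, map_mul, hN, Algebra.norm_eq_matrix_det b,
      map_pow _ _ δ, Fintype.card_fin]
  have h4 : F = 0 := by
    refine msz h1 S hS (E ^ 2) F hF fun a ha => ⟨?_, ?_⟩
    · rw [map_pow]
      exact pow_ne_zero _ (hE a ha)
    · rw [h3, Matrix.det_apply']
      refine Ideal.sum_mem _ fun s _ => Ideal.mul_mem_left _ _ ?_
      have h5 : ∀ j k, G j k ∈ vanI {a} := by
        intro j k p hp
        rw [Set.mem_singleton_iff.1 hp, hG]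
        simp [Matrix.sum_apply, hz a ha]
      have h6 := Ideal.prod_mem_prod (s := Finset.univ) (I := fun _ : Fin δ => vanI {a})
        (x := fun i => G (s i) i) fun i _ => h5 _ _
      simpa using h6
  rw [h4, map_zero] at hN
  exact Algebra.norm_eq_zero_iff.1 hN.symm

theorem Up_abs [Algebra ℂ L] [IsScalarTower ℂ (MvPolynomial (Fin v) ℂ) L] {M : ℕ}
    (V : Submodule ℂ L) [FiniteDimensional ℂ V]
    (hV : ∀ f ∈ V, ∃ P : Polynomial (MvPolynomial (Fin v) ℂ), P.Monic ∧
      Polynomial.aeval f P = 0 ∧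
      ∀ i, i ≤ P.natDegree → (P.coeff i).totalDegree ≤ (P.natDegree - i) * M) :
    Module.finrank ℂ V ≤ Module.finrank K L * (v * M + 1) ^ v := by
  obtain ⟨δ, hδ⟩ : ∃ δ, δ = Module.finrank K L := ⟨_, rfl⟩
  obtain ⟨n, hn⟩ : ∃ n, n = Module.finrank ℂ V := ⟨_, rfl⟩
  have b : Module.Basis (Fin δ) K L := Module.finBasisOfFinrankEq K L hδ.symm
  have e : Module.Basis (Fin n) ℂ V := Module.finBasisOfFinrankEq ℂ V hn.symm
  rw [← hδ, ← hn]
  obtain ⟨E, hE⟩ := IsLocalization.exist_integer_multiples_of_finite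
    (nonZeroDivisors (MvPolynomial (Fin v) ℂ)) (S := K)
    (Sum.elim (fun q : Fin δ × Fin δ × Fin δ => Algebra.leftMulMatrix b (b q.1) q.2.1 q.2.2)
      (fun q : Fin n × Fin δ => b.repr (e q.1) q.2))
  choose w hw using hE
  have hw' : ∀ q, algebraMap _ K (w q) = algebraMap _ K (E : MvPolynomial (Fin v) ℂ) *
      Sum.elim (fun q : Fin δ × Fin δ × Fin δ => Algebra.leftMulMatrix b (b q.1) q.2.1 q.2.2)
      (fun q : Fin n × Fin δ => b.repr (e q.1) q.2) q := fun q => by
    rw [hw, Algebra.smul_def]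
  obtain ⟨S, hS, hSE⟩ := exists_grid (v * M + 1) (nonZeroDivisors.ne_zero E.2)
  have hli : LinearIndependent ℂ fun (j : Fin n) (q : Fin δ × Fintype.piFinset S) =>
      eval q.2.1 (w (Sum.inr (j, q.1))) := by
    rw [Fintype.linearIndependent_iff]
    intro lam hlam
    obtain ⟨P, hP, h0, hd⟩ := hV _ (∑ j, lam j • e j).2
    have h1 : ((∑ j, lam j • e j : V) : L) = 0 := by
      refine Up_zero b hP h0 hd (E := E) (fun i => Matrix.of fun j k => w (Sum.inl (i, j, k)))
        (fun i j k => hw' _) (fun i => ∑ j, C (lam j) * w (Sum.inr (j, i))) (fun i => ?_) S hS hSE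
        fun a ha i => ?_
      · have h2 : ((∑ j, lam j • e j : V) : L) =
            ∑ j, algebraMap (MvPolynomial (Fin v) ℂ) K (C (lam j)) • (e j : L) := by
          rw [Submodule.coe_sum]
          refine Finset.sum_congr rfl fun j _ => ?_
          rw [Submodule.coe_smul, algebraMap_smul, ← algebraMap_eq, algebraMap_smul]
        rw [h2]
        simp only [map_sum, map_mul, hw', Sum.elim_inr, map_smul, Finsupp.coe_finsetSum,
          Finset.sum_apply, Finsupp.smul_apply, smul_eq_mul, Finset.mul_sum]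
        exact Finset.sum_congr rfl fun j _ => by ring
      · have h2 := congrFun hlam (i, ⟨a, Fintype.mem_piFinset.2 ha⟩)
        simpa using h2
    exact Fintype.linearIndependent_iff.1 e.linearIndependent lam (Subtype.ext h1)
  have h2 := hli.fintype_card_le_finrank
  simpa [hS] using h2

end Abs

theorem Up_fin {σ τ K L : Type} [Fintype σ] [Field K] [Field L] [Algebra ℂ L] [Algebra ℂ K]
    [Algebra K L] [IsScalarTower ℂ K L] (x : σ → L) (y : τ → L) (hI : ∀ l, IsIntegral K (x l))
    (hy : ∀ i, ∃ k, algebraMap K L k = y i)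
    (hL : IntermediateField.adjoin ℂ (Set.range x ∪ Set.range y) = ⊤) : FiniteDimensional K L := by
  have htop : IntermediateField.adjoin K (Set.range x) = ⊤ := by
    have h1 : IntermediateField.adjoin ℂ (Set.range x ∪ Set.range y) ≤
        (IntermediateField.adjoin K (Set.range x)).restrictScalars ℂ := by
      rw [IntermediateField.adjoin_le_iff]
      rintro z (hz | ⟨i, rfl⟩)
      · exact IntermediateField.subset_adjoin K _ hz
      · obtain ⟨k, hk⟩ := hy i
        rw [← hk]
        exact IntermediateField.algebraMap_mem (IntermediateField.adjoin K (Set.range x)) _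
    rw [hL] at h1
    exact eq_top_iff.2 fun z _ => h1 IntermediateField.mem_top
  have h1 : FiniteDimensional K (IntermediateField.adjoin K (Set.range x)) :=
    IntermediateField.finiteDimensional_adjoin (by rintro _ ⟨l, rfl⟩; exact hI l)
  rw [htop] at h1
  exact IntermediateField.topEquiv.toLinearEquiv.finiteDimensional

theorem Up_H {σ L : Type} [Field L] [Algebra ℂ L] (φ : MvPolynomial σ ℂ →ₐ[ℂ] L) (M : ℕ) :
    H (RingHom.ker φ) M = Module.finrank ℂ ((restrictTotalDegree σ ℂ M).map φ.toLinearMap) := by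
  have h1 : (restrictTotalDegree σ ℂ M).map φ.toLinearMap =
      ((restrictTotalDegree σ ℂ M).map (Ideal.Quotient.mkₐ ℂ (RingHom.ker φ)).toLinearMap).map
      (Ideal.kerLiftAlg φ).toLinearMap := by
    rw [← Submodule.map_comp]
    rfl
  have h2 : Function.Injective (Ideal.kerLiftAlg φ).toLinearMap := Ideal.kerLiftAlg_injective φ
  rw [h1]
  exact (Submodule.equivMapOfInjective (Ideal.kerLiftAlg φ).toLinearMap h2 _).finrank_eq

theorem Up_V {σ τ L : Type} [Fintype σ] [Field L] [Algebra ℂ L] (x : σ → L) (y : τ → L)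
    (hx : ∀ l, FInt (lin y) 1 (x l)) (M : ℕ) : ∃ V : Submodule ℂ L, FiniteDimensional ℂ V ∧
      H (RingHom.ker (aeval x : MvPolynomial σ ℂ →ₐ[ℂ] L)) M = Module.finrank ℂ V ∧
      ∀ f ∈ V, FInt (lin y) M f := by
  refine ⟨(restrictTotalDegree σ ℂ M).map (aeval x : MvPolynomial σ ℂ →ₐ[ℂ] L).toLinearMap,
    inferInstance, ?_, ?_⟩
  · exact Up_H _ M
  · have hlin : ∀ z ∈ lin x, FInt (lin y) 1 z := fun z hz => by
      refine FInt.of_mem_span (S := insert 1 (Set.range x)) ?_ hz
      rintro _ (rfl | ⟨l, rfl⟩)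
      · exact FInt.of_mem (by rw [pow_one]; exact FInt_one_mem_lin y)
      · exact hx l
    rintro _ ⟨g, hg, rfl⟩
    exact FInt.trans hlin (FInt.of_mem (mem_lin_pow_iff.2
      ⟨g, (mem_restrictTotalDegree _ _ _).1 hg, rfl⟩))

/-- Upper bound in terms of the degree over a filtered normalisation. -/
theorem H_le_of_norm {σ L : Type} [Fintype σ] [Field L] [Algebra ℂ L] (x : σ → L) {v : ℕ}
    (y : Fin v → L) (hy : AlgebraicIndependent ℂ y) (hx : ∀ l, FInt (lin y) 1 (x l))
    (hL : IntermediateField.adjoin ℂ (Set.range x ∪ Set.range y) = ⊤) {δ : ℕ}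
    (hδ : Module.finrank (IntermediateField.adjoin ℂ (Set.range y)) L = δ) (M : ℕ) :
    H (RingHom.ker (aeval x : MvPolynomial σ ℂ →ₐ[ℂ] L)) M ≤ (v + 1) ^ v * δ * (M + 1) ^ v := by
  let _ : Algebra (MvPolynomial (Fin v) ℂ) L := (aeval y).toRingHom.toAlgebra
  have ham : ∀ E, algebraMap (MvPolynomial (Fin v) ℂ) L E = aeval y E := fun _ => rfl
  have : FaithfulSMul (MvPolynomial (Fin v) ℂ) L :=
    (faithfulSMul_iff_algebraMap_injective _ _).2 hy
  let _ : Algebra (FractionRing (MvPolynomial (Fin v) ℂ)) L := FractionRing.liftAlgebra _ _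
  have : IsScalarTower (MvPolynomial (Fin v) ℂ) (FractionRing (MvPolynomial (Fin v) ℂ)) L :=
    FractionRing.isScalarTower_liftAlgebra _ _
  have : IsScalarTower ℂ (MvPolynomial (Fin v) ℂ) L :=
    IsScalarTower.of_algebraMap_eq fun c => by rw [ham, AlgHom.commutes]
  have : IsScalarTower ℂ (FractionRing (MvPolynomial (Fin v) ℂ)) L :=
    IsScalarTower.of_algebraMap_eq fun c => by
      rw [IsScalarTower.algebraMap_apply ℂ (MvPolynomial (Fin v) ℂ) (FractionRing _),
        ← IsScalarTower.algebraMap_apply, ham, AlgHom.commutes]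
  have hI : ∀ l, IsIntegral (FractionRing (MvPolynomial (Fin v) ℂ)) (x l) := fun l => by
    obtain ⟨P, hP, h0, _⟩ := Up_poly (hx l)
    have h1 : IsIntegral (MvPolynomial (Fin v) ℂ) (x l) := ⟨P, hP, h0⟩
    exact h1.tower_top
  have hfin : FiniteDimensional (FractionRing (MvPolynomial (Fin v) ℂ)) L :=
    Up_fin x y hI (fun i => ⟨algebraMap (MvPolynomial (Fin v) ℂ) _ (X i), by
      rw [← IsScalarTower.algebraMap_apply, ham, aeval_X]⟩) hL
  have hδ' : Module.finrank (FractionRing (MvPolynomial (Fin v) ℂ)) L = δ := by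
    rw [← hδ]
    refine Algebra.finrank_eq_of_equiv_equiv hy.aevalEquivField.toRingEquiv (RingEquiv.refl L) ?_
    refine IsLocalization.ringHom_ext (nonZeroDivisors (MvPolynomial (Fin v) ℂ)) ?_
    refine RingHom.ext fun E => ?_
    have h1 := hy.aevalEquivField_algebraMap_apply_coe E
    have h2 := IsScalarTower.algebraMap_apply (MvPolynomial (Fin v) ℂ)
      (FractionRing (MvPolynomial (Fin v) ℂ)) L E
    exact h1.trans h2
  obtain ⟨V, hV, hH, hf⟩ := Up_V x y hx M
  have h1 := Up_abs (K := FractionRing (MvPolynomial (Fin v) ℂ)) (M := M) V fun f h =>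
    Up_poly (hf f h)
  rw [hH]
  refine h1.trans ?_
  rw [hδ', mul_comm _ δ, mul_assoc, ← mul_pow]
  exact Nat.mul_le_mul_left _ (Nat.pow_le_pow_left (by nlinarith) _)

end Vale.Agent.P054A
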