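import Vale.Agent.P054A.DegA
import Vale.Agent.P054A.Up
import Vale.Agent.P054A.DegX

/-!
The degree of a variety in terms of its cones over a frame.
-/

namespace Vale.Agent.P054A

open MvPolynomial
open scoped Classical

theorem deg_lemma {L : Type} [Field L] [Algebra ℂ L] {a j δ T : ℕ} (hj : j + 1 ≤ a) (hδ : 1 ≤ δ)
    (hT : 1 ≤ T) (υ : Fin a → L) (hL : IntermediateField.adjoin ℂ (Set.range υ) = ⊤)
    (htr : (j : Cardinal) ≤ Algebra.trdeg ℂ L) (S : Set (Fin a → ℂ))
    (hS : affineSpan ℂ S = ⊤) {τ : Type} [Fintype τ]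
    (h : ∀ s ∈ S, ∃ (β : τ → L) (ρ : L) (A : Fin a → MvPolynomial τ ℂ),
      (∀ M, H (RingHom.ker (aeval β : MvPolynomial τ ℂ →ₐ[ℂ] L)) M ≤ δ * (M + 1) ^ j) ∧
      FiniteDimensional (IntermediateField.adjoin ℂ (Set.range β)) L ∧
      Module.finrank (IntermediateField.adjoin ℂ (Set.range β)) L ≤ T ∧
      (∀ i, (A i).totalDegree ≤ 1) ∧ ∀ i, υ i - algebraMap ℂ L (s i) = ρ * aeval β (A i))
    (M : ℕ) :
    H (RingHom.ker (aeval υ : MvPolynomial (Fin a) ℂ →ₐ[ℂ] L)) M
      ≤ (j + 2) ^ (2 * j + 1) * T * δ * (M + 1) ^ j := by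
  obtain ⟨d, y, -, hy, hys, hint⟩ := P271.fn υ
  have hfd : FiniteDimensional ℂ (Submodule.span ℂ (Set.range υ)) :=
    FiniteDimensional.span_of_finite ℂ (Set.finite_range υ)
  obtain ⟨w, hw, Q, hQ, hQ0, hk, hp⟩ := P271.prim hy (Submodule.span ℂ (Set.range υ))
    fun v hv => (hint v (Submodule.span_mono (Set.subset_insert _ _) hv)).isIntegral
  obtain ⟨hf, hr⟩ := deg_top hy hL hQ ((hk Q).2 dvd_rfl) fun i =>
    hp _ (Algebra.subset_adjoin (Or.inr (Submodule.subset_span ⟨i, rfl⟩)))
  obtain rfl : d = j := by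
    obtain ⟨s, hs⟩ := AffineSubspace.nonempty_of_affineSpan_eq_top ℂ (Fin a → ℂ) (Fin a → ℂ) hS
    obtain ⟨β, -, -, h1, h2, -⟩ := h s hs
    have h3 := trdeg_le_of_H β h1
    have h4 := trdeg_add_eq ℂ (IntermediateField.adjoin ℂ (Set.range β)) (A := L)
    rw [trdeg_eq_zero (A := L), add_zero] at h4
    rw [h4, ← deg_trdeg hy hf] at h3
    rw [← deg_trdeg hy hf] at htr
    exact Nat.cast_injective (le_antisymm h3 htr)
  have key : Q.natDegree ≤ (d + 2) * (δ * (d + 1) ^ d * T) := by
    by_cases h2 : Q.natDegree < 2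
    · have h3 : 0 < (d + 2) * (δ * (d + 1) ^ d * T) := by positivity
      omega
    have hz : ∀ o : Option (Fin d), ∃ c : Fin a → ℂ, ∑ l, c l • υ l = o.elim w y := fun o => by
      rw [← Submodule.mem_span_range_iff_exists_fun]
      rcases o with _ | i
      · exact hw
      · exact hys i
    choose lam hlam using hz
    have hsurj : Function.Surjective (Matrix.mulVecLin (Matrix.of lam)) := by
      have h3 : LinearIndependent ℂ (Matrix.of lam).row := by
        refine Fintype.linearIndependent_iff.2 fun μ hμ => congrFun ?_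
        refine (deg_rel (not_lt.1 h2) hk 0 μ ?_).2
        have h4 : ∀ l, ∑ o, μ o * lam o l = 0 := fun l => by
          simpa using congrFun hμ l
        rw [map_zero, zero_add]
        calc ∑ o : Option (Fin d), o.elim w y * algebraMap ℂ L (μ o)
            = ∑ o, ∑ l, (μ o * lam o l) • υ l := Finset.sum_congr rfl fun o _ => by
              rw [← hlam, mul_comm, ← Algebra.smul_def, Finset.smul_sum]
              exact Finset.sum_congr rfl fun l _ => smul_smul _ _ _
          _ = 0 := by
            rw [Finset.sum_comm]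
            exact Finset.sum_eq_zero fun l _ => by rw [← Finset.sum_smul, h4, zero_smul]
      rw [← LinearMap.range_eq_top]
      refine Submodule.eq_top_of_finrank_eq ?_
      rw [Module.finrank_fintype_fun_eq_card]
      exact h3.rank_matrix
    obtain ⟨s, hs, b₀, hb₀⟩ := AffineBasis.exists_affine_subbasis
      ((Matrix.mulVecLin (Matrix.of lam)).toAffineMap.span_eq_top_of_surjective hsurj hS)
    lift s to Finset (Option (Fin d) → ℂ) using b₀.finite_set
    have hc : Fintype.card (s : Set (Option (Fin d) → ℂ)) = Fintype.card (Fin (d + 2)) := by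
      rw [b₀.card_eq_finrank_add_one]
      simp
    set b := b₀.reindex (Fintype.equivOfCardEq hc) with hb
    have hbS : ∀ i, ∃ p ∈ S, (Matrix.of lam).mulVec p = b i := fun i => by
      rw [hb, AffineBasis.reindex_apply, hb₀]
      exact hs ((Fintype.equivOfCardEq hc).symm i).2
    set m : Fin (d + 2) → Option (Fin d) → ℂ :=
      fun i o => b.coord i (Pi.single o 1) - b.coord i 0 with hm
    set u : Fin (d + 2) → L :=
      fun i => algebraMap ℂ L (b.coord i 0) + ∑ o, o.elim w y * algebraMap ℂ L (m i o) with hu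
    have hu0 : ∀ i, u i ≠ 0 := fun i h0 => by
      obtain ⟨h3, h4⟩ := deg_rel (not_lt.1 h2) hk _ _ h0
      have h5 := deg_coord (b.coord i) (b i)
      rw [b.coord_apply_eq, Finset.sum_eq_zero fun o _ => by
        rw [show b.coord i (Pi.single o 1) - b.coord i 0 = 0 from congrFun h4 o, mul_zero], h3,
        add_zero] at h5
      exact one_ne_zero h5
    refine deg_le_of_forms y w Q hQ hk b b.ind u ?_ (fun o => ?_) fun i => ?_
    · simp only [hu, hm, Finset.sum_add_distrib]
      rw [← map_sum, b.sum_coord_apply_eq_one, map_one, Finset.sum_comm, add_eq_left]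
      refine Finset.sum_eq_zero fun o _ => ?_
      rw [← Finset.mul_sum, ← map_sum, Finset.sum_sub_distrib, b.sum_coord_apply_eq_one,
        b.sum_coord_apply_eq_one, sub_self, map_zero, mul_zero]
    · have h3 : ∀ q : Option (Fin d) → ℂ, ∑ i, b.coord i q * b i o = q o := fun q => by
        simpa using congrFun (b.linear_combination_coord_eq_self q) o
      simp only [hu, hm, add_mul, Finset.sum_add_distrib, Finset.sum_mul, mul_assoc, ← map_mul]
      rw [← map_sum, h3, Pi.zero_apply, map_zero, zero_add, Finset.sum_comm]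
      simp only [← Finset.mul_sum, ← map_sum, sub_mul, Finset.sum_sub_distrib, h3]
      simp [Pi.single_apply]
    · obtain ⟨p, hp1, hp2⟩ := hbS i
      obtain ⟨β, ρ, A, h3, h4, h5, h6, h7⟩ := h p hp1
      set B : Fin (d + 2) → MvPolynomial τ ℂ := fun k => ∑ o, m k o • ∑ l, lam o l • A l with hB
      have hB1 : ∀ k, (B k).totalDegree ≤ 1 := fun k =>
        totalDegree_finsetSum_le fun o _ => (totalDegree_smul_le _ _).trans
          (totalDegree_finsetSum_le fun l _ => (totalDegree_smul_le _ _).trans (h6 l))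
      have hB2 : ∀ k, k ≠ i → u k = ρ * aeval β (B k) := fun k hki => by
        have h8 := deg_coord (b.coord k) (b i)
        rw [b.coord_apply_ne hki] at h8
        have h9 : ∀ o, ρ * aeval β (∑ l, lam o l • A l) = o.elim w y - algebraMap ℂ L (b i o) :=
          fun o => by
            rw [← hlam, ← hp2, Matrix.mulVec, dotProduct, map_sum, map_sum, Finset.mul_sum,
              ← Finset.sum_sub_distrib]
            refine Finset.sum_congr rfl fun l _ => ?_
            rw [map_smul, mul_smul_comm, ← h7, smul_sub, map_mul, ← Algebra.smul_def]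
            rfl
        rw [hB, map_sum, Finset.mul_sum]
        simp only [map_smul, mul_smul_comm, h9]
        simp only [hu, Algebra.smul_def, mul_sub, Finset.sum_sub_distrib, ← map_mul]
        rw [← map_sum, eq_neg_of_add_eq_zero_left h8.symm, map_neg, neg_add_eq_sub]
        simp only [hm, mul_comm]
      have hρ : ρ ≠ 0 := fun h0 => hu0 _ (by rw [hB2 _ (i.succAbove_ne 0), h0, zero_mul])
      have hB0 : aeval β (B (i.succAbove 0)) ≠ 0 := fun h0 =>
        hu0 _ (by rw [hB2 _ (i.succAbove_ne 0), h0, mul_zero])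
      obtain ⟨F, hF1, hF2, hF3⟩ := deg_eq β h3 h4 h5 (fun k => B (i.succAbove k.succ))
        (B (i.succAbove 0)) (fun k => hB1 _) (hB1 _) hB0 (u i / u (i.succAbove 0))
      obtain ⟨G, g, hG1, hG2, hG3, hG4⟩ := deg_hom
        (fun o : Option (Fin d) => o.elim i fun k => i.succAbove k.succ) (by
          rintro (_ | k) (_ | k') hk
          · rfl
          · exact absurd hk.symm (i.succAbove_ne _)
          · exact absurd hk (i.succAbove_ne _)
          · exact congrArg some (Fin.succ_injective _ (Fin.succAbove_right_injective hk)))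
        (i.succAbove 0) (by
          rintro (_ | k) hk
          · exact absurd hk.symm (i.succAbove_ne _)
          · exact Fin.succ_ne_zero _ (Fin.succAbove_right_injective hk))
        u (hu0 _) F hF1 (by
          rw [← hF3]
          congr 2
          funext o
          rcases o with _ | k
          · rfl
          · simp only [Option.elim]
            rw [hB2 _ (i.succAbove_ne _), hB2 _ (i.succAbove_ne _), mul_div_mul_left _ _ hρ]) none
      exact ⟨G, g, hG1, hG2, hG3.trans hF2, hG4⟩
  refine (H_le_of_norm υ y hy (fun l => hint _ (P271.fn_mem υ l)) ?_ rfl M).trans ?_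
  · rw [eq_top_iff, ← hL]
    exact IntermediateField.adjoin.mono _ _ _ Set.subset_union_left
  · refine Nat.mul_le_mul_right _ ((Nat.mul_le_mul_left _ (hr.trans key)).trans ?_)
    have h1 : (d + 1) ^ d ≤ (d + 2) ^ d := Nat.pow_le_pow_left (Nat.le_succ _) _
    calc (d + 1) ^ d * ((d + 2) * (δ * (d + 1) ^ d * T))
        ≤ (d + 2) ^ d * ((d + 2) * (δ * (d + 2) ^ d * T)) := by gcongr
      _ = _ := by ring

end Vale.Agent.P054A
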