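import Vale.Agent.P054A.DegH

/-!
Degree of a hypersurface in terms of its projections from a frame.
-/

namespace Vale.Agent.P054A

open MvPolynomial
open scoped Classical

variable {L : Type} [Field L] [Algebra ℂ L]

theorem dega_mat {σ ι : Type} [Fintype σ] [Fintype ι] (a : ι → σ → ℂ) (ha : AffineIndependent ℂ a)
    (hc : Fintype.card ι = Fintype.card σ + 1) :
    ∃ B : Matrix ι (Option σ) ℂ,
      B * (Matrix.of fun (p : Option σ) (i : ι) => p.elim 1 (a i)) = 1 ∧
        (Matrix.of fun (p : Option σ) (i : ι) => p.elim 1 (a i)) * B = 1 := by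
  set T : Matrix (Option σ) ι ℂ := Matrix.of fun (p : Option σ) (i : ι) => p.elim 1 (a i) with hT
  have hinj : LinearMap.ker (Matrix.toLin' T) = ⊥ := by
    refine LinearMap.ker_eq_bot'.2 fun w hw => ?_
    have h0 : ∀ p, ∑ i, T p i * w i = 0 := fun p => congrFun hw p
    funext i
    refine affineIndependent_iff.1 ha Finset.univ w ?_ ?_ i (Finset.mem_univ i)
    · have := h0 none
      simpa [hT] using this
    · funext o
      have := h0 (some o)
      rw [Finset.sum_apply]
      refine Eq.trans (Finset.sum_congr rfl fun k _ => ?_) this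
      exact mul_comm _ _
  obtain ⟨g, hg⟩ := LinearMap.exists_leftInverse_of_injective _ hinj
  have h1 : LinearMap.toMatrix' g * T = 1 := by
    rw [← LinearMap.toMatrix'_toLin' T, ← LinearMap.toMatrix'_comp, hg, LinearMap.toMatrix'_id]
  exact ⟨_, h1, (Matrix.mul_eq_one_comm_of_card_eq _ _ _ (by rw [hc, Fintype.card_option])).1 h1⟩

theorem dega_frame {σ ι : Type} [Fintype σ] [Fintype ι] (a : ι → σ → ℂ)
    (ha : AffineIndependent ℂ a) (hc : Fintype.card ι = Fintype.card σ + 1) :
    ∃ U : ι → MvPolynomial σ ℂ, (∀ i, (U i).totalDegree ≤ 1) ∧ ∑ i, U i = 1 ∧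
      (∀ o, ∑ i, U i * C (a i o) = X o) ∧
      ∀ (A : Type) [CommRing A] [Algebra ℂ A] (u : ι → A), ∑ i, u i = 1 → ∀ i,
        aeval (fun o => ∑ k, u k * algebraMap ℂ A (a k o)) (U i) = u i := by
  obtain ⟨B, h1, h2⟩ := dega_mat a ha hc
  have key : ∀ q : Option σ, ∑ i, (∑ p : Option σ, C (B i p) * p.elim 1 X) * C (q.elim 1 (a i)) =
      (q.elim 1 X : MvPolynomial σ ℂ) := by
    intro q
    have h3 : ∀ p : Option σ, ∑ i, q.elim 1 (a i) * B i p = if q = p then 1 else 0 := fun p => by
      rw [← Matrix.one_apply]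
      exact congrFun (congrFun h2 q) p
    simp only [Finset.sum_mul]
    rw [Finset.sum_comm]
    have h4 : ∀ p : Option σ, ∑ i, C (B i p) * p.elim 1 X * C (q.elim 1 (a i)) =
        if q = p then (p.elim 1 X : MvPolynomial σ ℂ) else 0 := fun p => by
      have h5 : ∑ i, C (B i p) * p.elim 1 X * C (q.elim 1 (a i)) =
          C (∑ i, q.elim 1 (a i) * B i p) * (p.elim 1 X : MvPolynomial σ ℂ) := by
        rw [map_sum, Finset.sum_mul]
        exact Finset.sum_congr rfl fun i _ => by rw [map_mul]; ring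
      rw [h5, h3]
      split_ifs
      · rw [map_one, one_mul]
      · rw [map_zero, zero_mul]
    rw [Finset.sum_congr rfl fun p _ => h4 p, Finset.sum_ite_eq, if_pos (Finset.mem_univ q)]
  refine ⟨fun i => ∑ p : Option σ, C (B i p) * p.elim 1 X, fun i => ?_, ?_, fun o => key (some o),
    fun A _ _ u hu i => ?_⟩
  · refine totalDegree_finsetSum_le fun p _ => (totalDegree_mul _ _).trans ?_
    rw [totalDegree_C, zero_add]
    cases p with
    | none => exact totalDegree_one.le.trans zero_le_one
    | some o => exact (totalDegree_X o).le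
  · have := key none
    simpa only [Option.elim_none, map_one, mul_one] using this
  · have h3 : ∀ k, ∑ p : Option σ, B i p * p.elim 1 (a k) = if i = k then 1 else 0 := fun k => by
      rw [← Matrix.one_apply]
      exact congrFun (congrFun h1 i) k
    have h4 : ∀ p : Option σ, aeval (fun o => ∑ k, u k * algebraMap ℂ A (a k o))
        (C (B i p) * p.elim 1 X : MvPolynomial σ ℂ) =
          ∑ k, u k * algebraMap ℂ A (B i p * p.elim 1 (a k)) := fun p => by
      rw [map_mul, aeval_C]
      cases p with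
      | none =>
        simp only [Option.elim_none, map_one, mul_one]
        rw [← Finset.sum_mul, hu, one_mul]
      | some o =>
        simp only [Option.elim_some, aeval_X, map_mul]
        rw [Finset.mul_sum]
        exact Finset.sum_congr rfl fun k _ => by ring
    rw [map_sum, Finset.sum_congr rfl fun p _ => h4 p, Finset.sum_comm]
    have h5 : ∀ k, ∑ p : Option σ, u k * algebraMap ℂ A (B i p * p.elim 1 (a k)) =
        if i = k then u k else 0 := fun k => by
      rw [← Finset.mul_sum, ← map_sum, h3]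
      split_ifs
      · rw [map_one, mul_one]
      · rw [map_zero, mul_zero]
    rw [Finset.sum_congr rfl fun k _ => h5 k, Finset.sum_ite_eq, if_pos (Finset.mem_univ i)]

theorem dega_scale {ι A : Type} [Fintype ι] [CommRing A] [Algebra ℂ A] {G : MvPolynomial ι ℂ}
    {g : ℕ} (hG : G.IsHomogeneous g) (c : A) (p : ι → A) :
    aeval (fun i => c * p i) G = c ^ g * aeval p G := by
  rw [aeval_def, aeval_def, eval₂_eq', eval₂_eq', Finset.mul_sum]
  refine Finset.sum_congr rfl fun d hd => ?_
  have h1 : ∑ i, d i = g := by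
    rw [← Finsupp.degree_eq_sum]
    by_contra h
    exact mem_support_iff.1 hd (hG.coeff_eq_zero h)
  simp only [mul_pow]
  rw [Finset.prod_mul_distrib, Finset.prod_pow_eq_pow_sum, h1]
  ring

theorem dega_inj {σ ι : Type} [Fintype ι] (a : ι → σ → ℂ) (U : ι → MvPolynomial σ ℂ)
    (h1 : ∑ i, U i = 1)
    (hU : ∀ (A : Type) [CommRing A] [Algebra ℂ A] (u : ι → A), ∑ i, u i = 1 → ∀ i,
        aeval (fun o => ∑ k, u k * algebraMap ℂ A (a k o)) (U i) = u i)
    {G : MvPolynomial ι ℂ} {g : ℕ} (hG : G.IsHomogeneous g) (h0 : aeval U G = 0) : G = 0 := by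
  let K := FractionRing (MvPolynomial ι ℂ)
  have hinj := IsFractionRing.injective (MvPolynomial ι ℂ) K
  have hS : (∑ i, X i : MvPolynomial ι ℂ) ≠ 0 := fun h => by
    have := congrArg (aeval U) h
    simp only [map_sum, aeval_X, map_zero] at this
    exact one_ne_zero (h1.symm.trans this)
  set S : K := algebraMap (MvPolynomial ι ℂ) K (∑ i, X i) with hSd
  have hS' : S ≠ 0 := fun h => hS (hinj (h.trans (map_zero _).symm))
  let p : ι → K := fun i => algebraMap (MvPolynomial ι ℂ) K (X i) / S
  have hp : ∑ i, p i = 1 := by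
    simp only [p]
    rw [← Finset.sum_div, ← map_sum]
    exact div_self hS'
  have h2 : aeval p G = 0 := by
    have h3 := congrArg (aeval fun o => ∑ k, p k * algebraMap ℂ K (a k o)) h0
    rw [map_zero, ← AlgHom.comp_apply, comp_aeval] at h3
    rw [← h3]
    exact congrArg (fun f => aeval f G) (funext fun i => (hU K p hp i).symm)
  have h4 := dega_scale hG S p
  have h5 : (fun i => S * p i) = algebraMap (MvPolynomial ι ℂ) K ∘ X :=
    funext fun i => mul_div_cancel₀ _ hS'
  rw [h2, mul_zero, h5, aeval_algebraMap_apply, aeval_X_left_apply] at h4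
  exact hinj (h4.trans (map_zero _).symm)

theorem dega_hom {σ ι : Type} [Fintype ι] (a : ι → σ → ℂ) (U : ι → MvPolynomial σ ℂ)
    (h1 : ∑ i, U i = 1) (h2 : ∀ o, ∑ i, U i * C (a i o) = X o) (P : MvPolynomial σ ℂ) {e : ℕ}
    (he : P.totalDegree ≤ e) : ∃ G : MvPolynomial ι ℂ, G.IsHomogeneous e ∧ aeval U G = P := by
  let V : σ → MvPolynomial ι ℂ := fun o => ∑ i, C (a i o) * X i
  have hV : ∀ o, (V o).IsHomogeneous 1 := fun o =>
    IsHomogeneous.sum _ _ _ fun i _ => isHomogeneous_C_mul_X _ _
  have hS : (∑ i, X i : MvPolynomial ι ℂ).IsHomogeneous 1 :=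
    IsHomogeneous.sum _ _ _ fun i _ => isHomogeneous_X _ _
  have hUV : ∀ Q : MvPolynomial σ ℂ, aeval U (aeval V Q) = Q := fun Q => by
    rw [← AlgHom.comp_apply, comp_aeval]
    have e1 : (fun o => aeval U (V o)) = X := funext fun o => by
      rw [← h2 o, map_sum]
      exact Finset.sum_congr rfl fun i _ => by rw [map_mul, aeval_X, algHom_C, algebraMap_eq, mul_comm]
    rw [e1, aeval_X_left_apply]
  refine ⟨∑ d ∈ Finset.range (P.totalDegree + 1),
    (∑ i, X i) ^ (e - d) * aeval V (homogeneousComponent d P), ?_, ?_⟩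
  · refine IsHomogeneous.sum _ _ _ fun d hd => ?_
    have h3 := (hS.pow (e - d)).mul ((homogeneousComponent_isHomogeneous d P).aeval V hV)
    have h4 : 1 * (e - d) + 1 * d = e := by
      have := Finset.mem_range.1 hd
      omega
    rwa [h4] at h3
  · rw [map_sum]
    refine Eq.trans (Finset.sum_congr rfl fun d _ => ?_) (sum_homogeneousComponent P)
    rw [map_mul, map_pow, map_sum, hUV]
    simp only [aeval_X]
    rw [h1, one_pow, one_mul]

theorem dega_deg {ι : Type} [Fintype ι] (G : MvPolynomial ι ℂ) {r : ℕ}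
    (h : ∀ i, G.degreeOf i ≤ r) : G.totalDegree ≤ Fintype.card ι * r := by
  refine Finset.sup_le fun d hd => ?_
  rw [Finsupp.sum_fintype _ _ fun _ => rfl, ← Finset.card_univ, ← smul_eq_mul]
  exact Finset.sum_le_card_nsmul _ _ _ fun i _ => (monomial_le_degreeOf i hd).trans (h i)

/-- Let `u` be barycentric coordinates of the generic point of a hypersurface of degree `e`. If
for each `i` some nonzero form of degree at most `r` in `u i` vanishes, then `e` is small. -/
theorem deg_le_of_forms {j : ℕ} (y : Fin j → L) (w : L)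
    (Q : Polynomial (MvPolynomial (Fin j) ℂ)) (hQ : Q.Monic)
    (hk : ∀ P : Polynomial (MvPolynomial (Fin j) ℂ),
      Polynomial.aevalTower (aeval y : MvPolynomial (Fin j) ℂ →ₐ[ℂ] L) w P = 0 ↔ Q ∣ P)
    (a : Fin (j + 2) → Option (Fin j) → ℂ) (ha : AffineIndependent ℂ a) (u : Fin (j + 2) → L)
    (hu : ∑ i, u i = 1)
    (hu' : ∀ o : Option (Fin j), ∑ i, u i * algebraMap ℂ L (a i o) = o.elim w y) {r : ℕ}
    (hG : ∀ i, ∃ (G : MvPolynomial (Fin (j + 2)) ℂ) (g : ℕ), G ≠ 0 ∧ G.IsHomogeneous g ∧
      G.degreeOf i ≤ r ∧ aeval u G = 0) : Q.natDegree ≤ (j + 2) * r := by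
  obtain ⟨U, hU1, hU2, hU3, hU4⟩ := dega_frame a ha (by simp)
  set Qt := (optionEquivLeft ℂ (Fin j)).symm Q with hQt
  have hQ1 : optionEquivLeft ℂ (Fin j) Qt = Q := AlgEquiv.apply_symm_apply _ _
  have hQ0 : Qt ≠ 0 := fun h => hQ.ne_zero (by rw [← hQ1, h, map_zero])
  have hev : ∀ P : MvPolynomial (Option (Fin j)) ℂ,
      Polynomial.aevalTower (aeval y : MvPolynomial (Fin j) ℂ →ₐ[ℂ] L) w
        (optionEquivLeft ℂ (Fin j) P) = aeval (fun o => Option.elim o w y) P := fun P => by
    have e : (Polynomial.aevalTower (aeval y : MvPolynomial (Fin j) ℂ →ₐ[ℂ] L) w).comp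
        (optionEquivLeft ℂ (Fin j)).toAlgHom = aeval (fun o => Option.elim o w y) := by
      refine algHom_ext fun o => ?_
      cases o with
      | none =>
        rw [aeval_X]
        change Polynomial.aevalTower _ w (optionEquivLeft ℂ (Fin j) (X none)) = _
        rw [optionEquivLeft_X_none, Polynomial.aevalTower_X]
        rfl
      | some l =>
        rw [aeval_X]
        change Polynomial.aevalTower _ w (optionEquivLeft ℂ (Fin j) (X (some l))) = _
        rw [optionEquivLeft_X_some, Polynomial.aevalTower_C, aeval_X]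
        rfl
    exact AlgHom.congr_fun e P
  obtain ⟨Qh, hQh, hQh'⟩ := dega_hom a U hU2 hU3 Qt le_rfl
  have hQh0 : Qh ≠ 0 := fun h => hQ0 (by rw [← hQh', h, map_zero])
  have hdeg : ∀ i, Qh.degreeOf i ≤ r := fun i => by
    obtain ⟨G, g, hG0, hGh, hGr, hGu⟩ := hG i
    have h1 : aeval (fun o => Option.elim o w y) (aeval U G) = 0 := by
      rw [← AlgHom.comp_apply, comp_aeval, ← hGu, ← funext hu']
      exact congrArg (fun f => aeval f G) (funext fun k => hU4 L u hu k)
    obtain ⟨R', hR'⟩ := (hk _).1 ((hev _).trans h1)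
    set R := (optionEquivLeft ℂ (Fin j)).symm R' with hR
    have h2 : aeval U G = Qt * R := by
      rw [hQt, hR, ← map_mul, ← hR', AlgEquiv.symm_apply_apply]
    have h3 : aeval U G ≠ 0 := fun h => hG0 (dega_inj a U hU2 hU4 hGh h)
    have hR0 : R ≠ 0 := fun h => h3 (by rw [h2, h, mul_zero])
    have h4 : Qt.totalDegree + R.totalDegree ≤ g := by
      rw [← totalDegree_mul_of_isDomain hQ0 hR0, ← h2]
      have := totalDegree_aeval_le U hU1 G
      rw [one_mul] at this
      exact this.trans hGh.totalDegree_le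
    obtain ⟨Rh, hRh, hRh'⟩ := dega_hom a U hU2 hU3 R (e := g - Qt.totalDegree) (by omega)
    have hRh0 : Rh ≠ 0 := fun h => hR0 (by rw [← hRh', h, map_zero])
    have h5 := hQh.mul hRh
    rw [show Qt.totalDegree + (g - Qt.totalDegree) = g by omega] at h5
    have h6 : G - Qh * Rh = 0 := dega_inj a U hU2 hU4 (hGh.sub h5)
      (by rw [map_sub, map_mul, hQh', hRh', h2, sub_self])
    rw [sub_eq_zero.1 h6, degreeOf_mul_eq hQh0 hRh0] at hGr
    omega
  have h7 := dega_deg Qh hdeg
  rw [hQh.totalDegree hQh0, Fintype.card_fin] at h7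
  rw [← hQ1, natDegree_optionEquivLeft]
  exact (degreeOf_le_totalDegree _ _).trans h7

end Vale.Agent.P054A
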