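import Vale.Agent.P054A.Hil
import Vale.Agent.P054A.Der

/-!
Degree of a hypersurface in terms of its projections from a frame.
-/

namespace Vale.Agent.P054A

open MvPolynomial
open scoped Classical

variable {L : Type} [Field L] [Algebra ℂ L]

theorem degh_den {τ ι : Type} [Fintype ι] (β : τ → L) (x : ι → L)
    (hx : ∀ i, x i ∈ IntermediateField.adjoin ℂ (Set.range β)) :
    ∃ (n : ι → MvPolynomial τ ℂ) (d : MvPolynomial τ ℂ), aeval β d ≠ 0 ∧
      ∀ i, aeval β (n i) = x i * aeval β d := by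
  have h : ∀ i, ∃ p q : MvPolynomial τ ℂ, aeval β q ≠ 0 ∧ aeval β p = x i * aeval β q := fun i => by
    obtain ⟨p, q, h⟩ := (IntermediateField.mem_adjoin_range_iff ℂ β (x i)).1 (hx i)
    by_cases h0 : aeval β q = 0
    · exact ⟨0, 1, by simp, by simp [h, h0]⟩
    · exact ⟨p, q, h0, by rw [h, div_mul_cancel₀ _ h0]⟩
  choose p q h0 h1 using h
  refine ⟨fun i => p i * ∏ k ∈ Finset.univ.erase i, q k, ∏ k, q k, ?_, fun i => ?_⟩
  · rw [map_prod]
    exact Finset.prod_ne_zero_iff.2 fun k _ => h0 k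
  · rw [← Finset.mul_prod_erase _ q (Finset.mem_univ i), map_mul, map_mul, h1, mul_assoc]

theorem degh_mon {j : ℕ} {y : Fin j → L} (hi : AlgebraicIndependent ℂ y) (M : ℕ) :
    LinearIndependent ℂ fun a : Fin j → Fin (M + 1) => ∏ l, y l ^ (a l : ℕ) := by
  have h1 : Function.Injective fun a : Fin j → Fin (M + 1) =>
      (Finsupp.equivFunOnFinite.symm fun l => (a l : ℕ) : Fin j →₀ ℕ) := fun a b h =>
    funext fun l => Fin.ext (congrFun (Finsupp.equivFunOnFinite.symm.injective h) l)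
  have h2 := ((basisMonomials (Fin j) ℂ).linearIndependent.comp _ h1).map'
    (aeval y : MvPolynomial (Fin j) ℂ →ₐ[ℂ] L).toLinearMap (LinearMap.ker_eq_bot.2 hi)
  have e : (fun a : Fin j → Fin (M + 1) => ∏ l, y l ^ (a l : ℕ)) =
      (aeval y : MvPolynomial (Fin j) ℂ →ₐ[ℂ] L).toLinearMap ∘ basisMonomials (Fin j) ℂ ∘
        fun a : Fin j → Fin (M + 1) =>
          (Finsupp.equivFunOnFinite.symm fun l => (a l : ℕ) : Fin j →₀ ℕ) := by
    funext a
    simp [aeval_monomial, Finsupp.prod_fintype]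
  rw [e]
  exact h2

theorem degh_core {τ : Type} [Fintype τ] (β : τ → L) {j s : ℕ} (y : Fin j → L)
    (A : Fin j → MvPolynomial τ ℂ) (B : MvPolynomial τ ℂ) (hA : ∀ i, (A i).totalDegree ≤ s)
    (hB : B.totalDegree ≤ s) (hB0 : aeval β B ≠ 0) (hy : ∀ i, aeval β (A i) = y i * aeval β B)
    (hi : AlgebraicIndependent ℂ y) (r : ℕ) (e : Fin r → L)
    (he : ∀ i, e i ∈ IntermediateField.adjoin ℂ (Set.range β))
    (hl : LinearIndependent (IntermediateField.adjoin ℂ (Set.range y)) e) : ∃ c : ℕ, ∀ M,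
      r * (M + 1) ^ j ≤
        H (RingHom.ker (aeval β : MvPolynomial τ ℂ →ₐ[ℂ] L)) (j * s * M + c) := by
  obtain ⟨n, d, hd, hn⟩ := degh_den β e he
  refine ⟨Finset.univ.sup fun i => (n i).totalDegree, fun M => ?_⟩
  have h := card_le_H_of_indep (I := RingHom.ker (aeval β : MvPolynomial τ ℂ →ₐ[ℂ] L))
    (M := j * s * M + Finset.univ.sup fun i => (n i).totalDegree)
    (fun a : Fin r × (Fin j → Fin (M + 1)) =>
      (∏ l, A l ^ (a.2 l : ℕ) * B ^ (M - a.2 l)) * n a.1) ?_ ?_
  · simpa using h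
  · rintro ⟨i, a⟩
    refine (totalDegree_mul _ _).trans (add_le_add ((totalDegree_finsetProd _ _).trans ?_)
      (Finset.le_sup (f := fun i => (n i).totalDegree) (Finset.mem_univ i)))
    refine (Finset.sum_le_card_nsmul _ _ (s * M) fun l _ => ?_).trans (by simp [mul_assoc])
    have h1 : (a l : ℕ) + (M - a l) = M := by have := (a l).2; omega
    refine (totalDegree_mul _ _).trans ((add_le_add ((totalDegree_pow _ _).trans
      (Nat.mul_le_mul_left _ (hA l))) ((totalDegree_pow _ _).trans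
        (Nat.mul_le_mul_left _ hB))).trans ?_)
    rw [← add_mul, h1, mul_comm]
  · intro c hc
    rw [RingHom.mem_ker, map_sum, Fintype.sum_prod_type] at hc
    have h1 : ∀ a : Fin j → Fin (M + 1), aeval β (∏ l, A l ^ (a l : ℕ) * B ^ (M - a l)) =
        (∏ l, y l ^ (a l : ℕ)) * (aeval β B ^ M) ^ j := fun a => by
      rw [map_prod, ← Fin.prod_const, ← Finset.prod_mul_distrib]
      refine Finset.prod_congr rfl fun l _ => ?_
      have h1 : (a l : ℕ) + (M - a l) = M := by have := (a l).2; omega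
      rw [map_mul, map_pow, map_pow, hy, mul_pow, mul_assoc, ← pow_add, h1]
    have hm : ∀ i, ∑ a, c (i, a) • ∏ l, y l ^ (a l : ℕ) ∈
        IntermediateField.adjoin ℂ (Set.range y) := fun i =>
      sum_mem fun a _ => IntermediateField.smul_mem _ (prod_mem fun l _ =>
        pow_mem (IntermediateField.subset_adjoin _ _ (Set.mem_range_self l)) _)
    have h2 : (∑ i, (∑ a, c (i, a) • ∏ l, y l ^ (a l : ℕ)) * e i) *
        ((aeval β B ^ M) ^ j * aeval β d) = 0 := by
      rw [← hc, Finset.sum_mul]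
      refine Finset.sum_congr rfl fun i _ => ?_
      rw [Finset.sum_mul, Finset.sum_mul]
      refine Finset.sum_congr rfl fun a _ => ?_
      rw [map_smul, map_mul, h1, hn, smul_mul_assoc, smul_mul_assoc]
      congr 1
      ring
    have h3 := (mul_eq_zero.1 h2).resolve_right
      (mul_ne_zero (pow_ne_zero _ (pow_ne_zero _ hB0)) hd)
    have h4 := Fintype.linearIndependent_iff.1 hl (fun i => ⟨_, hm i⟩) h3
    funext ⟨i, a⟩
    exact Fintype.linearIndependent_iff.1 (degh_mon hi M) (fun a => c (i, a))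
      (congrArg Subtype.val (h4 i)) a

/-- The degree of a function field over a purely transcendental subfield generated by affine
ratios is bounded by the growth of the Hilbert function. -/
theorem finrank_le_of_H {τ : Type} [Fintype τ] (β : τ → L) {j δ : ℕ}
    (hH : ∀ M, H (RingHom.ker (aeval β : MvPolynomial τ ℂ →ₐ[ℂ] L)) M ≤ δ * (M + 1) ^ j)
    (A : Fin j → MvPolynomial τ ℂ) (B : MvPolynomial τ ℂ) (hA : ∀ i, (A i).totalDegree ≤ 1)
    (hB : B.totalDegree ≤ 1) (hB0 : aeval β B ≠ 0)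
    (hi : AlgebraicIndependent ℂ fun i => aeval β (A i) / aeval β B) (r : ℕ) (e : Fin r → L)
    (he : ∀ i, e i ∈ IntermediateField.adjoin ℂ (Set.range β))
    (hl : LinearIndependent
      (IntermediateField.adjoin ℂ (Set.range fun i => aeval β (A i) / aeval β B)) e) :
    r ≤ δ * (j + 1) ^ j := by
  obtain ⟨c, hc⟩ := degh_core β _ A B hA hB hB0 (fun i => (div_mul_cancel₀ _ hB0).symm) hi r e he hl
  refine le_of_growth_coeff (e := c) fun M => (hc M).trans ?_
  rw [mul_one]
  exact hH _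

/-- Growth bounds the transcendence degree. -/
theorem trdeg_le_of_H {τ : Type} [Fintype τ] (β : τ → L) {j δ : ℕ}
    (hH : ∀ M, H (RingHom.ker (aeval β : MvPolynomial τ ℂ →ₐ[ℂ] L)) M ≤ δ * (M + 1) ^ j) :
    Algebra.trdeg ℂ (IntermediateField.adjoin ℂ (Set.range β)) ≤ (j : Cardinal) := by
  obtain ⟨b, y, hi, hm, -, ht⟩ := exists_tr_basis β
  obtain ⟨A, B, hB, hy⟩ := degh_den β y hm
  obtain ⟨c, hc⟩ := degh_core β y A B
    (s := max (Finset.univ.sup fun i => (A i).totalDegree) B.totalDegree)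
    (fun i => (Finset.le_sup (f := fun i => (A i).totalDegree) (Finset.mem_univ i)).trans
      (le_max_left _ _)) (le_max_right _ _) hB hy hi 1 (fun _ => 1) (fun _ => one_mem _)
    (linearIndependent_unique_iff.2 one_ne_zero)
  rw [ht, Nat.cast_le]
  exact le_of_growth (C := 1) fun M =>
    ((one_mul _).ge.trans ((hc M).trans (hH _))).trans (one_mul _).ge

end Vale.Agent.P054A
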