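import Vale.Agent.P054A.Defs

/-!
Derivations of function fields.
-/

namespace Vale.Agent.P054A

open MvPolynomial
open scoped Classical

variable {L : Type} [Field L] [Algebra ℂ L]

theorem der_aeval {σ : Type} [Fintype σ] (D : Derivation ℂ L L) (ζ : σ → L)
    (G : MvPolynomial σ ℂ) : D (aeval ζ G) = ∑ l, aeval ζ (pderiv l G) * D (ζ l) := by
  induction G using MvPolynomial.induction_on with
  | C a => simp
  | add p q hp hq => simp only [map_add, hp, hq, add_mul, Finset.sum_add_distrib]
  | mul_X p i hp =>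
    simp only [map_mul, aeval_X, Derivation.leibniz, hp, smul_eq_mul, map_add, add_mul,
      Finset.sum_add_distrib, Finset.mul_sum]
    congr 1
    · rw [Finset.sum_eq_single i]
      · simp
      · intro b _ hb
        simp [pderiv_X, Pi.single_eq_of_ne hb.symm]
      · simp
    · exact Finset.sum_congr rfl fun l _ => by ring

theorem dera_gen (D : Derivation ℂ L L) (F : IntermediateField ℂ L) (Q : L → Prop) (h0 : Q 0)
    (hadd : ∀ a b, Q a → Q b → Q (a + b)) (hmul : ∀ f ∈ F, ∀ a, Q a → Q (f * a)) {S : Set L}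
    (hS : ∀ v ∈ S, v ∈ F ∧ Q (D v)) {v : L} (hvF : v ∈ F)
    (hv : IsAlgebraic (IntermediateField.adjoin ℂ S) v) : Q (D v) := by
  have hle : IntermediateField.adjoin ℂ S ≤ F :=
    IntermediateField.adjoin_le_iff.2 fun x hx => (hS x hx).1
  have hK : ∀ x ∈ IntermediateField.adjoin ℂ S, Q (D x) := by
    intro x hx
    induction hx using IntermediateField.adjoin_induction with
    | mem x hx => exact (hS x hx).2
    | algebraMap c => simpa using h0
    | add x y _ _ h1 h2 => rw [map_add]; exact hadd _ _ h1 h2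
    | inv x hx h1 =>
      rw [Derivation.leibniz_inv, smul_eq_mul]
      exact hmul _ (neg_mem (pow_mem (inv_mem (hle hx)) 2)) _ h1
    | mul x y hx hy h1 h2 =>
      rw [Derivation.leibniz, smul_eq_mul, smul_eq_mul]
      exact hadd _ _ (hmul _ (hle hx) _ h2) (hmul _ (hle hy) _ h1)
  have hP : ∀ p : Polynomial (IntermediateField.adjoin ℂ S),
      Q (D (Polynomial.aeval v p) - Polynomial.aeval v (Polynomial.derivative p) * D v) := by
    intro p
    induction p using Polynomial.induction_on' with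
    | add p q h1 h2 =>
      have := hadd _ _ h1 h2
      simp only [map_add]
      rwa [add_mul, add_sub_add_comm]
    | monomial n c =>
      have e : D (Polynomial.aeval v (Polynomial.monomial n c)) -
          Polynomial.aeval v (Polynomial.derivative (Polynomial.monomial n c)) * D v =
          v ^ n * D (c : L) := by
        rw [Polynomial.derivative_monomial, Polynomial.aeval_monomial, Polynomial.aeval_monomial,
          Derivation.leibniz, Derivation.leibniz_pow]
        simp only [smul_eq_mul, nsmul_eq_mul, map_mul, map_natCast,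
          IntermediateField.algebraMap_apply]
        ring
      rw [e]
      exact hmul _ (pow_mem hvF n) _ (hK _ c.2)
  have hF : ∀ p : Polynomial (IntermediateField.adjoin ℂ S), Polynomial.aeval v p ∈ F := by
    intro p
    induction p using Polynomial.induction_on' with
    | add p q h1 h2 => rw [map_add]; exact add_mem h1 h2
    | monomial n c =>
      rw [Polynomial.aeval_monomial]
      exact mul_mem (hle c.2) (pow_mem hvF n)
  have : CharZero L := charZero_of_injective_algebraMap (algebraMap ℂ L).injective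
  have hi := hv.isIntegral
  have hne := (minpoly.irreducible hi).separable.aeval_derivative_ne_zero (minpoly.aeval _ v)
  have h1 := hP (minpoly (IntermediateField.adjoin ℂ S) v)
  rw [minpoly.aeval, map_zero, zero_sub] at h1
  have h2 := hmul _ (neg_mem (inv_mem (hF (Polynomial.derivative
    (minpoly (IntermediateField.adjoin ℂ S) v))))) _ h1
  rwa [neg_mul_neg, ← mul_assoc, inv_mul_cancel₀ hne, one_mul] at h2

theorem der_eq_zero_of_alg (D : Derivation ℂ L L) {S : Set L} (hS : ∀ v ∈ S, D v = 0) {v : L}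
    (hv : IsAlgebraic (IntermediateField.adjoin ℂ S) v) : D v = 0 :=
  dera_gen D ⊤ (fun a => a = 0) rfl (fun a b ha hb => by rw [ha, hb, add_zero])
    (fun f _ a ha => by rw [ha, mul_zero]) (fun w hw => ⟨trivial, hS w hw⟩) trivial hv

theorem der_preserve (D : Derivation ℂ L L) (F : IntermediateField ℂ L) {S : Set L}
    (hS : ∀ v ∈ S, v ∈ F ∧ D v ∈ F)
    (hF : ∀ v ∈ F, IsAlgebraic (IntermediateField.adjoin ℂ S) v) : ∀ v ∈ F, D v ∈ F :=
  fun v hv => dera_gen D F (fun a => a ∈ F) (zero_mem F) (fun _ _ ha hb => add_mem ha hb)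
    (fun _ hf _ ha => mul_mem hf ha) hS hv (hF v hv)

theorem dera_ext {σ : Type} {ζ : σ → L} (hL : IntermediateField.adjoin ℂ (Set.range ζ) = ⊤)
    {D D' : Derivation ℂ L L} (h : ∀ l, D (ζ l) = D' (ζ l)) : D = D' := by
  ext v
  have hv : v ∈ IntermediateField.adjoin ℂ (Set.range ζ) := by rw [hL]; trivial
  have := der_eq_zero_of_alg (D - D') (S := Set.range ζ)
    (by rintro _ ⟨l, rfl⟩; simp [h l]) (isAlgebraic_algebraMap (⟨v, hv⟩ :
      IntermediateField.adjoin ℂ (Set.range ζ)))
  simpa [sub_eq_zero] using this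

theorem dera_one {σ : Type} [Fintype σ] (ζ : σ → L)
    (hL : IntermediateField.adjoin ℂ (Set.range ζ) = ⊤) (θ : σ → L)
    (hT : ∀ G : MvPolynomial σ ℂ, aeval ζ G = 0 → ∑ l, aeval ζ (pderiv l G) * θ l = 0) :
    ∃ D : Derivation ℂ L L, ∀ l, D (ζ l) = θ l := by
  let φ : MvPolynomial σ ℂ →ₐ[ℂ] TrivSqZeroExt L L :=
    aeval fun l => TrivSqZeroExt.inl (ζ l) + TrivSqZeroExt.inr (θ l)
  have hφ : ∀ G, (φ G).fst = aeval ζ G ∧ (φ G).snd = ∑ l, aeval ζ (pderiv l G) * θ l := by
    intro G
    induction G using MvPolynomial.induction_on with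
    | C a => simp [φ, TrivSqZeroExt.algebraMap_eq_inl']
    | add p q hp hq =>
      simp only [map_add, TrivSqZeroExt.fst_add, TrivSqZeroExt.snd_add, hp.1, hq.1, hp.2, hq.2,
        add_mul, Finset.sum_add_distrib, and_self]
    | mul_X p i hp =>
      have e : φ (X i) = TrivSqZeroExt.inl (ζ i) + TrivSqZeroExt.inr (θ i) := by simp [φ]
      refine ⟨by simp [e, hp.1], ?_⟩
      simp only [map_mul, e, TrivSqZeroExt.snd_mul, hp.1, hp.2, Derivation.leibniz, smul_eq_mul,
        map_add, add_mul, Finset.sum_add_distrib, aeval_X, TrivSqZeroExt.snd_add,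
        TrivSqZeroExt.fst_add, TrivSqZeroExt.snd_inl, TrivSqZeroExt.snd_inr, TrivSqZeroExt.fst_inl,
        TrivSqZeroExt.fst_inr, zero_add, add_zero, MulOpposite.smul_eq_mul_unop,
        MulOpposite.unop_op, Finset.sum_mul]
      congr 1
      · rw [Finset.sum_eq_single i]
        · simp
        · intro b _ hb
          simp [pderiv_X, Pi.single_eq_of_ne hb.symm]
        · simp
      · exact Finset.sum_congr rfl fun l _ => by ring
  let A : Subalgebra ℂ L := (aeval ζ : MvPolynomial σ ℂ →ₐ[ℂ] L).range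
  let ρ : MvPolynomial σ ℂ →ₐ[ℂ] A := (aeval ζ : MvPolynomial σ ℂ →ₐ[ℂ] L).rangeRestrict
  have hρ : Function.Surjective ρ := AlgHom.rangeRestrict_surjective _
  have hker : RingHom.ker ρ.toRingHom ≤ RingHom.ker φ.toRingHom := by
    intro G hG
    have h1 : aeval ζ G = 0 := congrArg Subtype.val (RingHom.mem_ker.1 hG)
    exact TrivSqZeroExt.ext ((hφ G).1.trans h1) ((hφ G).2.trans (hT G h1))
  let ψ : A →ₐ[ℂ] TrivSqZeroExt L L := AlgHom.liftOfSurjective ρ hρ φ hker
  have hψ : ∀ G, ψ (ρ G) = φ G := fun G => AlgHom.liftOfSurjective_apply _ _ _ _ _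
  have hψ1 : ∀ a : A, (ψ a).fst = a := by
    intro a
    obtain ⟨G, rfl⟩ := hρ a
    rw [hψ, (hφ G).1]
    rfl
  have : IsFractionRing A L := by
    refine IsFractionRing.of_field A L fun z => ?_
    have hz : z ∈ IntermediateField.adjoin ℂ (Set.range ζ) := by rw [hL]; trivial
    obtain ⟨r, s, h⟩ := (IntermediateField.mem_adjoin_range_iff ℂ ζ z).1 hz
    exact ⟨ρ r, ρ s, h⟩
  have hu : ∀ y : nonZeroDivisors A, IsUnit (ψ y) := by
    intro y
    rw [TrivSqZeroExt.isUnit_iff_isUnit_fst, hψ1, isUnit_iff_ne_zero]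
    exact fun h => nonZeroDivisors.ne_zero y.2 (Subtype.ext h)
  let Ψ : L →ₐ[ℂ] TrivSqZeroExt L L := IsLocalization.liftAlgHom hu
  have hΨ : ∀ a : A, Ψ a = ψ a := fun a => IsLocalization.lift_eq hu a
  have hΨ1 : ∀ x, (Ψ x).fst = x := by
    have : ((TrivSqZeroExt.fstHom ℂ L L).comp Ψ).toRingHom = RingHom.id L := by
      refine IsLocalization.ringHom_ext (nonZeroDivisors A) (RingHom.ext fun a => ?_)
      exact (congrArg TrivSqZeroExt.fst (hΨ a)).trans (hψ1 a)
    exact fun x => congrArg (fun f : L →+* L => f x) this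
  let D0 : L →ₗ[ℂ] L := ((TrivSqZeroExt.sndHom L L).restrictScalars ℂ).comp Ψ.toLinearMap
  have hD0 : ∀ x, D0 x = (Ψ x).snd := fun _ => rfl
  refine ⟨Derivation.mk' D0 fun a b => ?_, fun l => ?_⟩
  · simp only [hD0, map_mul, TrivSqZeroExt.snd_mul, hΨ1, smul_eq_mul,
      MulOpposite.smul_eq_mul_unop, MulOpposite.unop_op]
    ring
  · have e : ζ l = ((ρ (X l) : A) : L) := by simp [ρ]
    rw [Derivation.coe_mk', hD0, e, hΨ, hψ]
    simp [φ]

/-- Tangent vectors at the generic point give derivations. -/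
theorem exists_der {σ : Type} [Fintype σ] (ζ : σ → L)
    (hL : IntermediateField.adjoin ℂ (Set.range ζ) = ⊤) (T : Submodule L (σ → L))
    (hT : ∀ θ ∈ T, ∀ G : MvPolynomial σ ℂ, aeval ζ G = 0 →
      ∑ l, aeval ζ (pderiv l G) * θ l = 0) :
    ∃ Φ : T →ₗ[L] Derivation ℂ L L, ∀ (θ : T) (l : σ), Φ θ (ζ l) = (θ : σ → L) l := by
  choose D hD using fun θ : T => dera_one ζ hL θ (hT θ θ.2)
  refine ⟨⟨⟨D, fun a b => dera_ext hL fun l => ?_⟩, fun c a => dera_ext hL fun l => ?_⟩, hD⟩
  · simp [hD]
  · simp [hD]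

/-- The Jacobian criterion. -/
theorem der_surj {T : Type} [AddCommGroup T] [Module L T] [FiniteDimensional L T]
    (Φ : T →ₗ[L] Derivation ℂ L L) (hΦ : Function.Injective Φ)
    (h : Algebra.trdeg ℂ L = (Module.finrank L T : Cardinal)) {α : Type} [Fintype α] (y : α → L)
    (hy : AlgebraicIndependent ℂ y) (a : α → L) : ∃ θ, ∀ i, Φ θ (y i) = a i := by
  obtain ⟨t, ht, hb⟩ := exists_isTranscendenceBasis_superset (R := ℂ) (s := Set.range y)
    hy.to_subtype_range
  have hc : Cardinal.mk t = (Module.finrank L T : Cardinal) := hb.cardinalMk_eq_trdeg.trans h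
  have hfin : Finite t := by
    rw [← Cardinal.lt_aleph0_iff_finite, hc]
    exact Cardinal.natCast_lt_aleph0
  have : Fintype t := Fintype.ofFinite t
  let Ψ : T →ₗ[L] (t → L) :=
    { toFun := fun θ v => Φ θ v
      map_add' := fun a b => by ext v; simp
      map_smul' := fun c a => by ext v; simp }
  have hinj : Function.Injective Ψ := by
    rw [injective_iff_map_eq_zero]
    intro θ hθ
    apply hΦ
    rw [map_zero]
    ext v
    have := hb.isAlgebraic_field
    refine der_eq_zero_of_alg (Φ θ) (S := Set.range ((↑) : t → L)) ?_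
      (Algebra.IsAlgebraic.isAlgebraic v)
    rintro _ ⟨w, rfl⟩
    exact congrFun hθ w
  have hfr : Module.finrank L T = Module.finrank L (t → L) := by
    rw [Module.finrank_fintype_fun_eq_card]
    rw [Cardinal.mk_fintype] at hc
    exact_mod_cast hc.symm
  obtain ⟨θ, hθ⟩ := (LinearMap.injective_iff_surjective_of_finrank_eq_finrank hfr).1 hinj
    fun v => Function.extend y a 0 v
  refine ⟨θ, fun i => ?_⟩
  have := congrFun hθ ⟨y i, ht ⟨i, rfl⟩⟩
  exact this.trans (hy.injective.extend_apply a 0 i)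

end Vale.Agent.P054A
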