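import Vale.Agent.P054A.DichA

/-!
The case distinction for complete bipartite null graphs.
-/

namespace Vale.Agent.P054A

open Sum Module
open scoped Classical

variable {k : ℕ} {X : Finset (Tx k → ℝ)} {E : Finset (Ed k)} {M : ℕ} {K : ℕ → ℕ}

/-- The direction of the first side. -/
abbrev dichA (E : Finset (Ed k)) : Submodule ℝ (Tx k → ℝ) :=
  vectorSpan ℝ ((E.image Prod.fst : Finset (Tx k → ℝ)) : Set (Tx k → ℝ))

/-- The direction of the second side. -/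
abbrev dichB (E : Finset (Ed k)) : Submodule ℝ (Tx k → ℝ) :=
  vectorSpan ℝ ((E.image Prod.snd : Finset (Tx k → ℝ)) : Set (Tx k → ℝ))

theorem dich_half {α : Type} (F : Finset α) (p : α → Prop) :
    (∃ G ⊆ F, F.card ≤ 2 * G.card ∧ ∀ e ∈ G, p e) ∨
      ∃ G ⊆ F, F.card ≤ 2 * G.card ∧ ∀ e ∈ G, ¬ p e := by
  have h := Finset.card_filter_add_card_filter_not (s := F) p
  by_cases hc : F.card ≤ 2 * (F.filter p).card
  · exact Or.inl ⟨_, Finset.filter_subset _ _, hc, fun e he => (Finset.mem_filter.1 he).2⟩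
  · exact Or.inr ⟨F.filter fun e => ¬ p e, Finset.filter_subset _ _, by omega,
      fun e he => (Finset.mem_filter.1 he).2⟩

theorem dich_ne {α : Type} {E F : Finset α} {c : ℕ} (hE : E.Nonempty) (h : E.card ≤ c * F.card) :
    F.Nonempty := by
  have h1 := hE.card_pos
  rw [← Finset.card_pos]
  rcases Nat.eq_zero_or_pos F.card with h0 | h0
  · rw [h0] at h; omega
  · exact h0

theorem dich_add_right (x y z : Tx k → ℝ) : bil x (y + z) = bil x y + bil x z := by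
  rw [bil_comm, bil_add_left, bil_comm y, bil_comm z]

theorem dich_sub_right (x y z : Tx k → ℝ) : bil x (y - z) = bil x y - bil x z := by
  rw [bil_comm, bil_sub_left, bil_comm y, bil_comm z]

theorem dich_smul_right (c : ℝ) (x y : Tx k → ℝ) : bil x (c • y) = c * bil x y := by
  rw [bil_comm, bil_smul_left, bil_comm y]

theorem dich_perp {v z : Tx k → ℝ} : v ∈ perp z ↔ bil v z = 0 := Iff.rfl

theorem dichA_le {F : Finset (Ed k)} {S : Submodule ℝ (Tx k → ℝ)}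
    (h : ∀ e ∈ F, ∀ e' ∈ F, e.1 - e'.1 ∈ S) : dichA F ≤ S := by
  rw [dichA, vectorSpan_def, Submodule.span_le]
  rintro _ ⟨a, ha, b, hb, rfl⟩
  obtain ⟨e, he, rfl⟩ := Finset.mem_image.1 (Finset.mem_coe.1 ha)
  obtain ⟨e', he', rfl⟩ := Finset.mem_image.1 (Finset.mem_coe.1 hb)
  exact h e he e' he'

theorem dichB_le {F : Finset (Ed k)} {S : Submodule ℝ (Tx k → ℝ)}
    (h : ∀ e ∈ F, ∀ e' ∈ F, e.2 - e'.2 ∈ S) : dichB F ≤ S := by
  rw [dichB, vectorSpan_def, Submodule.span_le]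
  rintro _ ⟨a, ha, b, hb, rfl⟩
  obtain ⟨e, he, rfl⟩ := Finset.mem_image.1 (Finset.mem_coe.1 ha)
  obtain ⟨e', he', rfl⟩ := Finset.mem_image.1 (Finset.mem_coe.1 hb)
  exact h e he e' he'

theorem dichA_mem {e e' : Ed k} (he : e ∈ E) (he' : e' ∈ E) : e.1 - e'.1 ∈ dichA E :=
  vsub_mem_vectorSpan ℝ (Finset.mem_coe.2 (Finset.mem_image_of_mem _ he))
    (Finset.mem_coe.2 (Finset.mem_image_of_mem _ he'))

theorem dichB_mem {e e' : Ed k} (he : e ∈ E) (he' : e' ∈ E) : e.2 - e'.2 ∈ dichB E :=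
  vsub_mem_vectorSpan ℝ (Finset.mem_coe.2 (Finset.mem_image_of_mem _ he))
    (Finset.mem_coe.2 (Finset.mem_image_of_mem _ he'))

theorem dich_dropA {F : Finset (Ed k)} (hF : F ⊆ E) (h : dichA F ≠ dichA E) : sdim F < sdim E := by
  have h1 := adim_mono (Finset.image_subset_image (f := Prod.snd) hF)
  have h2 : adim (F.image Prod.fst) < adim (E.image Prod.fst) := by
    by_contra hc
    exact h (vectorSpan_eq_of_adim (Finset.image_subset_image hF) (not_lt.1 hc))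
  unfold sdim
  omega

theorem dich_dropB {F : Finset (Ed k)} (hF : F ⊆ E) (h : dichB F ≠ dichB E) : sdim F < sdim E := by
  have h1 := adim_mono (Finset.image_subset_image (f := Prod.fst) hF)
  have h2 : adim (F.image Prod.snd) < adim (E.image Prod.snd) := by
    by_contra hc
    exact h (vectorSpan_eq_of_adim (Finset.image_subset_image hF) (not_lt.1 hc))
  unfold sdim
  omega

theorem dich_AB (hb : ∀ e ∈ E, ∀ e' ∈ E, nul e.1 e'.2) :
    ∀ v ∈ dichA E, ∀ w ∈ dichB E, bil v w = 0 := by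
  refine dir_orth fun x hx y hy => ?_
  obtain ⟨e, he, rfl⟩ := Finset.mem_image.1 hx
  obtain ⟨e', he', rfl⟩ := Finset.mem_image.1 hy
  exact hb e he e' he'

theorem dich_nul (hb : ∀ e ∈ E, ∀ e' ∈ E, nul e.1 e'.2) {e e' : Ed k} (he : e ∈ E)
    (he' : e' ∈ E) : bil (e'.2 - e.1) (e'.2 - e.1) = 0 :=
  nul_comm.1 (hb e he e' he')

theorem dich_aff {x : Tx k → ℝ} {e : Ed k} (he : e ∈ E)
    (hx : x ∈ affineSpan ℝ ((E.image Prod.snd : Finset (Tx k → ℝ)) : Set (Tx k → ℝ))) :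
    e.2 - x ∈ dichB E := by
  have h1 := AffineSubspace.vsub_mem_direction
    (mem_affineSpan ℝ (Finset.mem_coe.2 (Finset.mem_image_of_mem Prod.snd he))) hx
  rwa [direction_affineSpan] at h1

theorem dich_aff' {x x' : Tx k → ℝ}
    (hx : x ∈ affineSpan ℝ ((E.image Prod.snd : Finset (Tx k → ℝ)) : Set (Tx k → ℝ)))
    (hx' : x' ∈ affineSpan ℝ ((E.image Prod.snd : Finset (Tx k → ℝ)) : Set (Tx k → ℝ))) :
    x - x' ∈ dichB E := by
  have h1 := AffineSubspace.vsub_mem_direction hx hx'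
  rwa [direction_affineSpan] at h1

theorem dich_spd {e : Ed k} (he : e ∈ E) (x : Tx k → ℝ) :
    spd (E.image Prod.snd) x = dichB E ⊔ Submodule.span ℝ {e.2 - x} :=
  spd_eq (Finset.mem_image_of_mem _ he) x

theorem dich_subA (h : Mod X E M K) {F : Finset (Ed k)} (hF : F ⊆ E) : F.image Prod.fst ⊆ X := by
  intro x hx
  obtain ⟨e, he, rfl⟩ := Finset.mem_image.1 hx
  exact (h.mem e (hF he)).1

theorem dich_subB (h : Mod X E M K) : E.image Prod.snd ⊆ X := by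
  intro x hx
  obtain ⟨e, he, rfl⟩ := Finset.mem_image.1 hx
  exact (h.mem e he).2.1

theorem dich_gen (h : Mod X E M K) {B : Finset (Tx k → ℝ)} (hB : B ⊆ X) {x y : Tx k → ℝ}
    (hx : x ∈ X) (hy : y ∈ X) {U : Submodule ℝ (Tx k → ℝ)} (hU : spd B x ⊓ perp (y - x) = U)
    (hr : finrank ℝ U ≤ k + 1) : U ⊓ Rb k = ⊥ ∨ (Iso U ∧ finrank ℝ U = k + 1 ∧
      ∃ z, z ≠ 0 ∧ U ⊓ Rb k = Submodule.span ℝ {z} ∧ SepZ X M x U z) := by
  subst hU
  exact h.gen B hB x hx y hy hr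

theorem dich_gen0 (h : Mod X E M K) {B : Finset (Tx k → ℝ)} (hB : B ⊆ X) (hn : B.Nonempty)
    (hr : adim B ≤ k) : vectorSpan ℝ (B : Set (Tx k → ℝ)) ⊓ Rb k = ⊥ := by
  obtain ⟨y, hy⟩ := hn
  have h1 : spd B y ⊓ perp (y - y) = vectorSpan ℝ (B : Set (Tx k → ℝ)) := by
    rw [spd_eq hy, sub_self, Submodule.span_zero_singleton, sup_bot_eq, inf_eq_left]
    intro v _
    rw [dich_perp, ← zero_smul ℝ (0 : Tx k → ℝ), dich_smul_right, zero_mul]
  unfold adim at hr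
  rcases dich_gen h hB (hB hy) (hB hy) h1 (by omega) with h2 | h2
  · exact h2
  · have := h2.2.1
    omega

theorem dich_sup_eq {N U : Submodule ℝ (Tx k → ℝ)} {z : Tx k → ℝ} (hN : N ≤ U) (hz : z ∈ U)
    (hzN : z ∉ N) (hd : finrank ℝ U ≤ finrank ℝ N + 1) : N ⊔ Submodule.span ℝ {z} = U := by
  refine Submodule.eq_of_le_of_finrank_le
    (sup_le hN ((Submodule.span_singleton_le_iff_mem _ _).2 hz)) ?_
  rwa [Submodule.finrank_sup_span_singleton hzN]

theorem dich_iso_sup {N : Submodule ℝ (Tx k → ℝ)} {w : Tx k → ℝ} (hN : Iso N)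
    (hw : ∀ v ∈ N, bil v w = 0) (h0 : bil w w = 0) : Iso (N ⊔ Submodule.span ℝ {w}) := by
  intro a ha b hb
  obtain ⟨a₁, ha₁, a₂, ha₂, rfl⟩ := Submodule.mem_sup.1 ha
  obtain ⟨b₁, hb₁, b₂, hb₂, rfl⟩ := Submodule.mem_sup.1 hb
  obtain ⟨s, rfl⟩ := Submodule.mem_span_singleton.1 ha₂
  obtain ⟨t, rfl⟩ := Submodule.mem_span_singleton.1 hb₂
  rw [bil_add_left, dich_add_right, dich_add_right, dich_smul_right, bil_smul_left,
    bil_smul_left, dich_smul_right, hN a₁ ha₁ b₁ hb₁, hw a₁ ha₁, bil_comm w b₁, hw b₁ hb₁, h0]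
  ring

theorem dich_isoB (hb : ∀ e ∈ E, ∀ e' ∈ E, nul e.1 e'.2) {F : Finset (Ed k)} (hF : F ⊆ E)
    {N : Submodule ℝ (Tx k → ℝ)} (hN : N ≤ dichB E)
    (ho : ∀ e ∈ F, ∀ v ∈ N, bil v (e.2 - e.1) = 0) : ∀ w ∈ dichB F, ∀ v ∈ N, bil w v = 0 := by
  have h1 : dichB F ≤ orth N := dichB_le fun e he e' he' => mem_orth.2 fun v hv => by
    have e1 : e.2 - e'.2 = (e.2 - e.1) - (e'.2 - e'.1) + (e.1 - e'.1) := by abel
    rw [e1, bil_add_left, bil_sub_left, bil_comm _ v, bil_comm _ v, ho e he v hv, ho e' he' v hv,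
      dich_AB hb _ (dichA_mem (hF he) (hF he')) v (hN hv)]
    ring
  exact fun w hw => mem_orth.1 (h1 hw)

theorem dich_iso4 (h : Mod X E M K) (hE : E.Nonempty) (hb : ∀ e ∈ E, ∀ e' ∈ E, nul e.1 e'.2)
    (hd : adim (E.image Prod.snd) ≤ adim (E.image Prod.fst))
    (ho : ∀ e ∈ E, ∀ v ∈ dichB E, bil v (e.2 - e.1) = 0) :
    ∃ F ⊆ E, E.card ≤ 4 * F.card ∧ (sdim F < sdim E ∨ CaseX E F ∨ CaseI X M F) := by
  have hN : Iso (dichB E) := dich_isoB hb subset_rfl le_rfl ho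
  have hU : ∀ e ∈ E, Iso (spd (E.image Prod.snd) e.1) := fun e he => by
    rw [dich_spd he]
    exact dich_iso_sup hN (ho e he) (dich_nul hb he he)
  have hmem : ∀ e ∈ E, ∀ x, e.2 - x ∈ spd (E.image Prod.snd) x := fun e he x => by
    rw [dich_spd he]
    exact Submodule.mem_sup_right (Submodule.mem_span_singleton_self _)
  have hle : ∀ x, dichB E ≤ spd (E.image Prod.snd) x := fun x => by
    obtain ⟨e, he⟩ := hE
    rw [dich_spd he]
    exact le_sup_left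
  have hinf : ∀ e ∈ E, spd (E.image Prod.snd) e.1 ⊓ perp (e.2 - e.1) =
      spd (E.image Prod.snd) e.1 := fun e he =>
    inf_eq_left.2 fun v hv => hU e he v hv _ (hmem e he _)
  have hg := fun e (he : e ∈ E) => dich_gen h (dich_subB h) (h.mem e he).1 (h.mem e he).2.1
    (hinf e he) (hU e he).finrank_le
  rcases dich_half E fun e => e.1 ∈
      affineSpan ℝ ((E.image Prod.snd : Finset (Tx k → ℝ)) : Set (Tx k → ℝ)) with
    ⟨F, hF, hc, hp⟩ | ⟨F₁, hF₁, hc₁, hp₁⟩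
  · refine ⟨F, hF, by omega, ?_⟩
    by_cases hA : dichA F = dichA E
    swap
    · exact Or.inl (dich_dropA hF hA)
    obtain ⟨e₀, he₀⟩ := dich_ne hE hc
    have h1 : dichA F = dichB E := by
      refine Submodule.eq_of_le_of_finrank_le
        (dichA_le fun e he e' he' => dich_aff' (hp e he) (hp e' he')) ?_
      rw [hA]
      exact hd
    have h2 : spd (E.image Prod.snd) e₀.1 = dichB E := by
      rw [dich_spd (hF he₀), sup_eq_left, Submodule.span_singleton_le_iff_mem]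
      exact dich_aff (hF he₀) (hp e₀ he₀)
    have h3 : ∀ e ∈ F, e.1 - e₀.1 ∈ dichB E ∧ e.2 - e₀.1 ∈ dichB E := fun e he =>
      ⟨dich_aff' (hp e he) (hp e₀ he₀), dich_aff (hF he) (hp e₀ he₀)⟩
    have h4 := hg e₀ (hF he₀)
    rw [h2] at h4
    refine Or.inr (Or.inr ⟨e₀.1, (h.mem e₀ (hF he₀)).1, dichB E, ?_⟩)
    rcases h4 with h4 | ⟨-, h5, z, hz, h6, h7⟩
    · refine ⟨0, hN, h3, by rw [h4, Submodule.span_zero_singleton], fun h0 => absurd rfl h0,
        h.sep.mono _ _, ?_⟩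
      rw [Submodule.span_zero_singleton, sup_bot_eq]
      exact h1
    · refine ⟨z, hN, h3, h6, fun _ => h5, h7, ?_⟩
      have h8 : Submodule.span ℝ {z} ≤ dichB E := h6 ▸ inf_le_left
      exact (congrArg (· ⊔ Submodule.span ℝ {z}) h1).trans (sup_eq_left.2 h8)
  rcases dich_half F₁ fun e => spd (E.image Prod.snd) e.1 ⊓ Rb k = ⊥ with
    ⟨F, hF, hc, hp⟩ | ⟨F, hF, hc, hp⟩
  · refine ⟨F, hF.trans hF₁, by omega, Or.inr (Or.inl fun e he => ⟨hp₁ e (hF he), ?_⟩)⟩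
    rw [hinf e (hF₁ (hF he))]
    exact hp e he
  have hFE := hF.trans hF₁
  refine ⟨F, hFE, by omega, ?_⟩
  by_cases hA : dichA F = dichA E
  swap
  · exact Or.inl (dich_dropA hFE hA)
  have hFn : F.Nonempty := dich_ne (c := 4) hE (by omega)
  obtain ⟨e₀, he₀⟩ := hFn
  have hg' := fun e (he : e ∈ F) => (hg e (hFE he)).resolve_left (hp e he)
  have hβ : adim (E.image Prod.snd) = k := by
    have h1 := finrank_spd (hE.image Prod.snd) (hp₁ e₀ (hF he₀))
    have h2 := (hg' e₀ he₀).2.1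
    omega
  have hN0 : dichB E ⊓ Rb k = ⊥ := dich_gen0 h (dich_subB h) (hE.image _) hβ.le
  have hZ := finrank_Rb_orth hβ hN0
  have hcom : ∀ e ∈ F, spd (E.image Prod.snd) e.1 = dichB E ⊔ (Rb k ⊓ orth (dichB E)) := by
    intro e he
    obtain ⟨h1, h2, z, hz, h3, -⟩ := hg' e he
    have h4 : z ∈ spd (E.image Prod.snd) e.1 ⊓ Rb k := h3 ▸ Submodule.mem_span_singleton_self z
    have h5 : Submodule.span ℝ {z} = Rb k ⊓ orth (dichB E) := by
      refine Submodule.eq_of_le_of_finrank_le ((Submodule.span_singleton_le_iff_mem _ _).2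
        ⟨h4.2, mem_orth.2 fun v hv => h1 z h4.1 v (hle _ hv)⟩) ?_
      rw [hZ, finrank_span_singleton hz]
    rw [← h5]
    refine (dich_sup_eq (hle _) h4.1 (fun h6 => hz ?_) ?_).symm
    · have h7 : z ∈ dichB E ⊓ Rb k := ⟨h6, h4.2⟩
      rwa [hN0, Submodule.mem_bot] at h7
    · rw [h2]
      exact (congrArg (· + 1) hβ).ge
  obtain ⟨h1, h2, z, hz, h3, h4⟩ := hg' e₀ he₀
  have h5 : ∀ e ∈ F, e.1 - e₀.1 ∈ spd (E.image Prod.snd) e₀.1 ∧
      e.2 - e₀.1 ∈ spd (E.image Prod.snd) e₀.1 := by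
    intro e he
    have a1 := hmem e (hFE he) e₀.1
    have a2 := hmem e (hFE he) e.1
    rw [hcom e he, ← hcom e₀ he₀] at a2
    refine ⟨?_, a1⟩
    have e1 : e.1 - e₀.1 = (e.2 - e₀.1) - (e.2 - e.1) := by abel
    rw [e1]
    exact Submodule.sub_mem _ a1 a2
  have h6 : z ∈ spd (E.image Prod.snd) e₀.1 ⊓ Rb k := h3 ▸ Submodule.mem_span_singleton_self z
  have h7 : dichA F ≤ spd (E.image Prod.snd) e₀.1 := dichA_le fun e he e' he' => by
    have e1 : e.1 - e'.1 = (e.1 - e₀.1) - (e'.1 - e₀.1) := by abel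
    rw [e1]
    exact Submodule.sub_mem _ (h5 e he).1 (h5 e' he').1
  refine Or.inr (Or.inr ⟨e₀.1, (h.mem e₀ (hFE he₀)).1, _, z, h1, h5, h3, fun _ => h2, h4, ?_⟩)
  have h8 : k ≤ finrank ℝ (dichA F) := by
    rw [hA]
    exact hβ.ge.trans hd
  rcases h8.eq_or_lt with h8 | h8
  · refine dich_sup_eq h7 h6.1 (fun h9 => hz ?_) (by rw [h2, ← h8])
    have h10 : z ∈ dichA F ⊓ Rb k := ⟨h9, h6.2⟩
    rwa [dich_gen0 h (dich_subA h hFE) (Finset.Nonempty.image ⟨e₀, he₀⟩ _) h8.ge,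
      Submodule.mem_bot] at h10
  · have h9 : dichA F = spd (E.image Prod.snd) e₀.1 :=
      Submodule.eq_of_le_of_finrank_le h7 (by omega)
    exact (congrArg (· ⊔ Submodule.span ℝ {z}) h9).trans
      (sup_eq_left.2 ((Submodule.span_singleton_le_iff_mem _ _).2 h6.1))

/-- The case where the second side is orthogonal to all edges. -/
theorem dich_iso (h : Mod X E M K) (hE : E.Nonempty) (hb : ∀ e ∈ E, ∀ e' ∈ E, nul e.1 e'.2)
    (hd : adim (E.image Prod.snd) ≤ adim (E.image Prod.fst))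
    (ho : ∀ e ∈ E, ∀ v ∈ vectorSpan ℝ ((E.image Prod.snd : Finset (Tx k → ℝ)) : Set (Tx k → ℝ)),
      bil v (e.2 - e.1) = 0) :
    ∃ F ⊆ E, E.card ≤ 16 * F.card ∧ (sdim F < sdim E ∨ CaseX E F ∨ CaseI X M F) := by
  obtain ⟨F, hF, hc, hr⟩ := dich_iso4 h hE hb hd ho
  exact ⟨F, hF, by omega, hr⟩

theorem dich_hyp {N : Submodule ℝ (Tx k → ℝ)} {v w : Tx k → ℝ} (hv : v ∈ N) (h0 : bil v w ≠ 0) :
    (∀ u ∈ N, u - (bil u w / bil v w) • v ∈ N ⊓ perp w) ∧
      finrank ℝ ↥(N ⊓ perp w) + 1 = finrank ℝ N := by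
  have h1 : ∀ u ∈ N, u - (bil u w / bil v w) • v ∈ N ⊓ perp w := fun u hu =>
    ⟨N.sub_mem hu (N.smul_mem _ hv), by
      change bil _ w = 0
      rw [bil_sub_left, bil_smul_left, div_mul_cancel₀ _ h0, sub_self]⟩
  refine ⟨h1, ?_⟩
  have h2 : (N ⊓ perp w) ⊔ Submodule.span ℝ {v} = N := by
    refine le_antisymm (sup_le inf_le_left ((Submodule.span_singleton_le_iff_mem _ _).2 hv))
      fun u hu => ?_
    rw [← sub_add_cancel u ((bil u w / bil v w) • v)]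
    exact Submodule.add_mem_sup (h1 u hu)
      (Submodule.smul_mem _ _ (Submodule.mem_span_singleton_self v))
  rw [← Submodule.finrank_sup_span_singleton (p := N ⊓ perp w) (v := v) fun h => h0 h.2, h2]

/-- If the hyperplane is the radical, the second side lies in two hyperplanes. -/
theorem dich_rad (hb : ∀ e ∈ E, ∀ e' ∈ E, nul e.1 e'.2) {e₁ : Ed k} (he₁ : e₁ ∈ E)
    {v : Tx k → ℝ} (hv : v ∈ dichB E) (h0 : bil v (e₁.2 - e₁.1) ≠ 0)
    (hr : ∀ a ∈ dichB E, ∀ n ∈ dichB E ⊓ perp (e₁.2 - e₁.1), bil a n = 0) :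
    ∃ F ⊆ E, E.card ≤ 2 * F.card ∧ sdim F < sdim E := by
  obtain ⟨w, hw⟩ : ∃ w, w = e₁.2 - e₁.1 := ⟨_, rfl⟩
  have hww : bil w w = 0 := hw ▸ dich_nul hb he₁ he₁
  rw [← hw] at h0 hr
  have key : ∀ e ∈ E, bil (e.2 - e₁.2) w ≠ 0 →
      bil (e.2 - e₁.2) w = -2 * bil v w ^ 2 / bil v v := by
    intro e he hne
    have h1 := dich_nul hb he₁ he
    have hu := dichB_mem he he₁
    obtain ⟨u, hu'⟩ : ∃ u, u = e.2 - e₁.2 := ⟨_, rfl⟩
    have e1 : e.2 - e₁.1 = u + w := by rw [hu', hw]; abel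
    rw [← hu'] at hu hne ⊢
    have h2 := (dich_hyp hv h0).1 u hu
    have h3 := hr u hu _ h2
    have h4 := hr v hv _ h2
    rw [dich_sub_right, dich_smul_right] at h3 h4
    rw [e1, bil_add_left, dich_add_right, dich_add_right, hww, bil_comm w u] at h1
    rw [bil_comm v u] at h4
    obtain ⟨t, ht⟩ : ∃ t, t = bil u w / bil v w := ⟨_, rfl⟩
    have h5 : bil u w = t * bil v w := by rw [ht, div_mul_cancel₀ _ h0]
    rw [← ht] at h3 h4
    have ht0 : t ≠ 0 := fun e => hne (by rw [h5, e, zero_mul])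
    have h6 : t * bil v v = -2 * bil v w := by
      refine mul_left_cancel₀ ht0 ?_
      linear_combination h1 - h3 - t * h4 - 2 * h5
    have h7 : bil v v ≠ 0 := fun e => h0 (by rw [e] at h6; linarith)
    rw [eq_div_iff h7, h5]
    linear_combination bil v w * h6
  have fin : ∀ F ⊆ E, ∀ s, (∀ e ∈ F, bil (e.2 - e₁.2) w = s) → sdim F < sdim E := by
    intro F hF s hs
    refine dich_dropB hF fun he => h0 ?_
    have h1 : dichB F ≤ perp w := dichB_le fun e he e' he' => by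
      have e1 : e.2 - e'.2 = (e.2 - e₁.2) - (e'.2 - e₁.2) := by abel
      rw [dich_perp, e1, bil_sub_left, hs e he, hs e' he', sub_self]
    exact h1 (he ▸ hv)
  rcases dich_half E fun e => bil (e.2 - e₁.2) w = 0 with ⟨F, hF, hc, hp⟩ | ⟨F, hF, hc, hp⟩
  · exact ⟨F, hF, hc, fin F hF 0 hp⟩
  · exact ⟨F, hF, hc, fin F hF _ fun e he => key e (hF he) (hp e he)⟩

theorem dich (h : Mod X E M K) (hE : E.Nonempty) (hb : ∀ e ∈ E, ∀ e' ∈ E, nul e.1 e'.2)
    (hd : adim (E.image Prod.snd) ≤ adim (E.image Prod.fst)) :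
    ∃ F ⊆ E, E.card ≤ 64 * F.card ∧ (sdim F < sdim E ∨ CaseX E F ∨ CaseI X M F) := by
  have hAB := dich_AB hb
  by_cases hN : Iso (dichB E)
  · have ho : ∀ e ∈ E, ∀ v ∈ dichB E, bil v (e.2 - e.1) = 0 := by
      intro e he v hv
      have h1 : dichB E ≤ perp (e.2 - e.1) := by
        rw [dichB, vectorSpan_eq_span_vsub_set_right ℝ
          (Finset.mem_coe.2 (Finset.mem_image_of_mem Prod.snd he)), Submodule.span_le]
        rintro _ ⟨y, hy, rfl⟩
        obtain ⟨e', he', rfl⟩ := Finset.mem_image.1 (Finset.mem_coe.1 hy)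
        have a1 := dich_nul hb he he'
        have a2 := dich_nul hb he he
        have a3 := hN _ (dichB_mem he' he) _ (dichB_mem he' he)
        have e1 : e'.2 - e.1 = (e'.2 - e.2) + (e.2 - e.1) := by abel
        rw [e1, bil_add_left, dich_add_right, dich_add_right, a2, a3,
          bil_comm (e.2 - e.1)] at a1
        change bil (e'.2 - e.2) (e.2 - e.1) = 0
        linarith
      exact h1 hv
    obtain ⟨F, hF, hc, hr⟩ := dich_iso4 h hE hb hd ho
    exact ⟨F, hF, by omega, hr⟩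
  rcases dich_half E fun e => ∀ v ∈ dichB E, bil v (e.2 - e.1) = 0 with
    ⟨F, hF, hc, hp⟩ | ⟨F₁, hF₁, hc₁, hp₁⟩
  · refine ⟨F, hF, by omega, Or.inl (dich_dropB hF fun he => hN ?_)⟩
    have h1 := dich_isoB hb hF le_rfl hp
    rwa [he] at h1
  rcases dich_half F₁ fun e => e.1 ∈
      affineSpan ℝ ((E.image Prod.snd : Finset (Tx k → ℝ)) : Set (Tx k → ℝ)) with
    ⟨F, hF, hc, hp⟩ | ⟨F₂, hF₂, hc₂, hp₂⟩
  · refine ⟨F, hF.trans hF₁, by omega, Or.inl (dich_dropA (hF.trans hF₁) fun he => hN ?_)⟩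
    have h1 : dichA F = dichB E := by
      refine Submodule.eq_of_le_of_finrank_le
        (dichA_le fun e he e' he' => dich_aff' (hp e he) (hp e' he')) ?_
      rw [he]
      exact hd
    rw [he] at h1
    rw [h1] at hAB
    exact hAB
  rcases dich_half F₂ fun e => (spd (E.image Prod.snd) e.1 ⊓ perp (e.2 - e.1)) ⊓ Rb k = ⊥ with
    ⟨F, hF, hc, hp⟩ | ⟨F₃, hF₃, hc₃, hp₃⟩
  · exact ⟨F, (hF.trans hF₂).trans hF₁, by omega,
      Or.inr (Or.inl fun e he => ⟨hp₂ e (hF he), hp e he⟩)⟩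
  have h3E : F₃ ⊆ E := (hF₃.trans hF₂).trans hF₁
  have hβ : adim (E.image Prod.snd) ≤ k + 1 := by
    have h1 := finrank_orth (dichA E)
    have h2 : dichB E ≤ orth (dichA E) := fun v hv => mem_orth.2 fun z hz => by
      rw [bil_comm]; exact hAB z hz v hv
    have h3 := Submodule.finrank_mono h2
    unfold adim at hd ⊢
    unfold dichA at h1 h3
    unfold dichB at h3
    omega
  have hv : ∀ e ∈ F₃, ∃ v ∈ dichB E, bil v (e.2 - e.1) ≠ 0 := by
    intro e he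
    have h1 := hp₁ e (hF₂ (hF₃ he))
    push Not at h1
    exact h1
  have hI : ∀ e ∈ F₃, Iso (dichB E ⊓ perp (e.2 - e.1)) ∧
      finrank ℝ ↥(dichB E ⊓ perp (e.2 - e.1)) + 1 = finrank ℝ (dichB E) := by
    intro e he
    obtain ⟨v, hv, h0⟩ := hv e he
    have hle : dichB E ≤ spd (E.image Prod.snd) e.1 := by
      rw [dich_spd (h3E he)]
      exact le_sup_left
    have h1 := (dich_hyp (hle hv) h0).2
    have h2 := finrank_spd (hE.image Prod.snd) (hp₂ e (hF₃ he))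
    have h3 := (dich_gen h (dich_subB h) (h.mem e (h3E he)).1 (h.mem e (h3E he)).2.1 rfl
      (by omega)).resolve_left (hp₃ e he)
    exact ⟨fun a ha b hb => h3.1 a ⟨hle ha.1, ha.2⟩ b ⟨hle hb.1, hb.2⟩, (dich_hyp hv h0).2⟩
  obtain ⟨F, hF, hc, e₁, he₁, hp⟩ : ∃ F ⊆ F₃, F₃.card ≤ 2 * F.card ∧ ∃ e₁ ∈ F, ∀ e ∈ F,
      dichB E ⊓ perp (e.2 - e.1) = dichB E ⊓ perp (e₁.2 - e₁.1) := by
    have hn : F₃.Nonempty := dich_ne (c := 8) hE (by omega)
    obtain ⟨e₀, he₀⟩ := id hn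
    rcases dich_half F₃ fun e => dichB E ⊓ perp (e₀.2 - e₀.1) = dichB E ⊓ perp (e.2 - e.1) with
      ⟨F, hF, hc, hp⟩ | ⟨F, hF, hc, hp⟩
    · obtain ⟨e₁, he₁⟩ := dich_ne hn hc
      exact ⟨F, hF, hc, e₁, he₁, fun e he => (hp e he).symm.trans (hp e₁ he₁)⟩
    · obtain ⟨e₁, he₁⟩ := dich_ne hn hc
      refine ⟨F, hF, hc, e₁, he₁, fun e he => ?_⟩
      rcases iso_hyper hN inf_le_left inf_le_left inf_le_left (hI e₀ he₀).1 (hI e (hF he)).1
        (hI e₁ (hF he₁)).1 (hI e₀ he₀).2 (hI e (hF he)).2 (hI e₁ (hF he₁)).2 with a | a | a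
      · exact absurd a (hp e he)
      · exact absurd a (hp e₁ he₁)
      · exact a
  have hFE := hF.trans h3E
  by_cases hB : dichB F = dichB E
  swap
  · exact ⟨F, hFE, by omega, Or.inl (dich_dropB hFE hB)⟩
  have h1 := dich_isoB hb hFE (N := dichB E ⊓ perp (e₁.2 - e₁.1)) inf_le_left
    fun e he v hv => ((hp e he).ge hv).2
  rw [hB] at h1
  obtain ⟨v, hv', h0⟩ := hv e₁ (hF he₁)
  obtain ⟨G, hG, hc', hr⟩ := dich_rad hb (hFE he₁) hv' h0 h1
  exact ⟨G, hG, by omega, Or.inl hr⟩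

end Vale.Agent.P054A
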