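import Vale.Agent.P054A.DichL

/-!
Linear algebra of the split quadratic form.
-/

namespace Vale.Agent.P054A

open Sum Module
open scoped Classical

variable {k : ℕ}

theorem spd_eq {τ : Type} {B : Finset (τ → ℝ)} {y : τ → ℝ} (hy : y ∈ B) (x : τ → ℝ) :
    spd B x = vectorSpan ℝ (B : Set (τ → ℝ)) ⊔ Submodule.span ℝ {y - x} := by
  have hmem : ∀ z ∈ B, z - x ∈ spd B x := fun z hz =>
    Submodule.subset_span ⟨z, Finset.mem_coe.2 hz, rfl⟩
  apply le_antisymm
  · refine Submodule.span_le.2 ?_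
    rintro _ ⟨z, hz, rfl⟩
    have e : z - x = (z - y) + (y - x) := by ring
    change z - x ∈ _
    rw [e]
    exact Submodule.add_mem_sup (vsub_mem_vectorSpan ℝ hz (Finset.mem_coe.2 hy))
      (Submodule.mem_span_singleton_self _)
  · refine sup_le ?_ (Submodule.span_le.2 ?_)
    · rw [vectorSpan_def]
      refine Submodule.span_le.2 ?_
      rintro _ ⟨a, ha, b, hb, rfl⟩
      have e : a - b = (a - x) - (b - x) := by ring
      change a - b ∈ spd B x
      rw [e]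
      exact Submodule.sub_mem _ (hmem a ha) (hmem b hb)
    · rintro _ rfl
      exact hmem y hy

theorem finrank_sup_span {V : Type*} [AddCommGroup V] [Module ℝ V] [FiniteDimensional ℝ V]
    {N : Submodule ℝ V} {v : V} (hv : v ∉ N) :
    finrank ℝ ↥(N ⊔ Submodule.span ℝ {v}) = finrank ℝ N + 1 := by
  have h0 : v ≠ 0 := fun h => hv (h ▸ N.zero_mem)
  have h1 := Submodule.finrank_sup_add_finrank_inf_eq N (Submodule.span ℝ {v})
  have h2 : N ⊓ Submodule.span ℝ {v} = ⊥ :=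
    disjoint_iff.1 ((Submodule.disjoint_span_singleton' h0).2 hv)
  rw [h2, finrank_bot, finrank_span_singleton h0] at h1
  omega

theorem finrank_spd {τ : Type} [Fintype τ] {B : Finset (τ → ℝ)} (hB : B.Nonempty) {x : τ → ℝ}
    (hx : x ∉ affineSpan ℝ (B : Set (τ → ℝ))) : finrank ℝ (spd B x) = adim B + 1 := by
  obtain ⟨y, hy⟩ := hB
  rw [spd_eq hy]
  refine finrank_sup_span fun h => hx ?_
  have h1 : -(y - x) ∈ (affineSpan ℝ (B : Set (τ → ℝ))).direction := by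
    rw [direction_affineSpan]
    exact Submodule.neg_mem _ h
  have h2 := AffineSubspace.vadd_mem_of_mem_direction h1
    (subset_affineSpan ℝ _ (Finset.mem_coe.2 hy))
  have e : -(y - x) +ᵥ y = x := by
    rw [vadd_eq_add]
    ring
  rwa [e] at h2

theorem adim_mono {τ : Type} [Fintype τ] {A B : Finset (τ → ℝ)} (h : A ⊆ B) :
    adim A ≤ adim B :=
  Submodule.finrank_mono (vectorSpan_mono ℝ (Finset.coe_subset.2 h))

theorem vectorSpan_eq_of_adim {τ : Type} [Fintype τ] {A B : Finset (τ → ℝ)} (h : A ⊆ B)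
    (hd : adim B ≤ adim A) :
    vectorSpan ℝ (A : Set (τ → ℝ)) = vectorSpan ℝ (B : Set (τ → ℝ)) :=
  Submodule.eq_of_le_of_finrank_le (vectorSpan_mono ℝ (Finset.coe_subset.2 h)) hd

/-- A part lying in an affine subspace which misses a point of the whole has smaller dimension. -/
theorem adim_lt {τ : Type} [Fintype τ] {A B : Finset (τ → ℝ)} (h : A ⊆ B) (hA : A.Nonempty)
    (S : AffineSubspace ℝ (τ → ℝ)) (hS : ∀ x ∈ A, x ∈ S) {y : τ → ℝ} (hy : y ∈ B)
    (hyS : y ∉ S) : adim A < adim B := by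
  by_contra hn
  have e := vectorSpan_eq_of_adim h (not_lt.1 hn)
  obtain ⟨a, ha⟩ := hA
  have h1 : y -ᵥ a ∈ vectorSpan ℝ (A : Set (τ → ℝ)) := by
    rw [e]
    exact vsub_mem_vectorSpan ℝ (Finset.mem_coe.2 hy) (Finset.mem_coe.2 (h ha))
  have h2 : vectorSpan ℝ (A : Set (τ → ℝ)) ≤ S.direction := by
    rw [← direction_affineSpan]
    exact AffineSubspace.direction_le (affineSpan_le.2 fun z hz => hS z hz)
  have h3 := AffineSubspace.vadd_mem_of_mem_direction (h2 h1) (hS a ha)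
  rw [vsub_vadd] at h3
  exact hyS h3

theorem sdim_le (E : Finset (Ed k)) : sdim E ≤ 4 * k + 4 := by
  have h : ∀ B : Finset (Tx k → ℝ), adim B ≤ 2 * k + 2 := fun B => by
    refine (Submodule.finrank_le _).trans (le_of_eq ?_)
    rw [Module.finrank_fintype_fun_eq_card, Fintype.card_sum, Fintype.card_fin]
    ring
  have h1 := h (E.image Prod.fst)
  have h2 := h (E.image Prod.snd)
  unfold sdim
  omega

theorem hyper_sup {V : Type*} [AddCommGroup V] [Module ℝ V] [FiniteDimensional ℝ V]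
    {U N : Submodule ℝ V} (h : N ≤ U) (d : finrank ℝ N + 1 = finrank ℝ U) {v : V} (hU : v ∈ U)
    (hv : v ∉ N) : ∀ u ∈ U, ∃ n ∈ N, ∃ t : ℝ, u = n + t • v := by
  have e : N ⊔ Submodule.span ℝ {v} = U :=
    Submodule.eq_of_le_of_finrank_eq (sup_le h ((Submodule.span_singleton_le_iff_mem _ _).2 hU))
      ((finrank_sup_span hv).trans d)
  intro u hu
  rw [← e] at hu
  obtain ⟨n, hn, z, hz, rfl⟩ := Submodule.mem_sup.1 hu
  obtain ⟨t, rfl⟩ := Submodule.mem_span_singleton.1 hz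
  exact ⟨n, hn, t, rfl⟩

theorem exists_not_mem {V : Type*} [AddCommGroup V] [Module ℝ V] [FiniteDimensional ℝ V]
    {N N' : Submodule ℝ V} (h : N ≠ N') (d : finrank ℝ N' = finrank ℝ N) : ∃ v ∈ N', v ∉ N := by
  by_contra hn
  push Not at hn
  exact h (Submodule.eq_of_le_of_finrank_eq hn d).symm

theorem bil_expand (n n' v : Tx k → ℝ) (t t' : ℝ) :
    bil (n + t • v) (n' + t' • v) =
      bil n n' + t' * bil n v + t * bil n' v + t * t' * bil v v := by
  simp only [bil, Pi.add_apply, Pi.smul_apply, smul_eq_mul, Finset.mul_sum,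
    ← Finset.sum_add_distrib]
  exact Finset.sum_congr rfl fun i _ => by ring

/-- A non-isotropic space has at most two isotropic hyperplanes. -/
theorem iso_hyper {U N₁ N₂ N₃ : Submodule ℝ (Tx k → ℝ)} (hU : ¬ Iso U) (h₁ : N₁ ≤ U)
    (h₂ : N₂ ≤ U) (h₃ : N₃ ≤ U) (i₁ : Iso N₁) (i₂ : Iso N₂) (i₃ : Iso N₃)
    (d₁ : finrank ℝ N₁ + 1 = finrank ℝ U) (d₂ : finrank ℝ N₂ + 1 = finrank ℝ U)
    (d₃ : finrank ℝ N₃ + 1 = finrank ℝ U) : N₁ = N₂ ∨ N₁ = N₃ ∨ N₂ = N₃ := by
  by_contra hn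
  push Not at hn
  obtain ⟨n12, n13, n23⟩ := hn
  obtain ⟨v, hv, hv1⟩ := exists_not_mem n12 (by omega)
  obtain ⟨w, hw, hw1⟩ := exists_not_mem n13 (by omega)
  obtain ⟨z, hz, hz2⟩ := exists_not_mem n23 (by omega)
  have dec := hyper_sup h₁ d₁ (h₂ hv) hv1
  have hvv : bil v v = 0 := i₂ v hv v hv
  have key : ∀ u ∈ N₃, u ∉ N₁ → u ∈ perp v := by
    intro u hu hu1
    obtain ⟨n, hn, t, rfl⟩ := dec u (h₃ hu)
    have ht : t ≠ 0 := by
      rintro rfl
      exact hu1 (by simpa using hn)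
    have e := i₃ _ hu _ hu
    rw [bil_expand, i₁ n hn n hn, hvv] at e
    have e2 : bil n v = 0 := by
      have : t * (2 * bil n v) = 0 := by linarith
      have := (mul_eq_zero.1 this).resolve_left ht
      linarith
    change bil (n + t • v) v = 0
    rw [bil_add_left, bil_smul_left, e2, hvv]
    ring
  have hzv : z ∈ perp v := by
    by_cases hz1 : z ∈ N₁
    · have h1 : z + w ∉ N₁ := fun h => hw1 (by simpa using N₁.sub_mem h hz1)
      simpa using (perp v).sub_mem (key _ (N₃.add_mem hz hw) h1) (key w hw hw1)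
    · exact key z hz hz1
  have hall : ∀ u ∈ U, bil u v = 0 := by
    intro u hu
    obtain ⟨n, hn, t, rfl⟩ := hyper_sup h₂ d₂ (h₃ hz) hz2 u hu
    exact (perp v).add_mem (i₂ n hn v hv) ((perp v).smul_mem t hzv)
  refine hU fun a ha b hb => ?_
  obtain ⟨n, hn, t, rfl⟩ := dec a ha
  obtain ⟨n', hn', t', rfl⟩ := dec b hb
  rw [bil_expand, i₁ n hn n' hn', hall n (h₁ hn), hall n' (h₁ hn'), hvv]
  ring

theorem SepZ.mono {τ : Type} {X : Finset (τ → ℝ)} {M : ℕ} (h : SepZ X M 0 ⊤ 0) (x : τ → ℝ)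
    (U : Submodule ℝ (τ → ℝ)) : SepZ X M x U 0 := by
  intro y₀ hy₀ _
  obtain ⟨g, h1, h2, h3, h4⟩ := h y₀ hy₀ Submodule.mem_top
  exact ⟨g, h1, h2, h3, fun y hy _ => h4 y hy Submodule.mem_top⟩

theorem SepZ.congr {τ : Type} {X : Finset (τ → ℝ)} {M : ℕ} {x x' z : τ → ℝ}
    {U : Submodule ℝ (τ → ℝ)} (h : SepZ X M x U z) (hx : x' - x ∈ U) : SepZ X M x' U z := by
  have e : ∀ y, y - x' ∈ U → y - x ∈ U := fun y hy => by
    simpa using U.add_mem hy hx
  intro y₀ hy₀ h0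
  obtain ⟨g, h1, h2, h3, h4⟩ := h y₀ hy₀ (e _ h0)
  exact ⟨g, h1, h2, h3, fun y hy hy' => h4 y hy (e _ hy')⟩

theorem Mod.mono {X : Finset (Tx k → ℝ)} {E F : Finset (Ed k)} {M : ℕ} {K : ℕ → ℕ}
    (h : Mod X E M K) (hF : F ⊆ E) : Mod X F M K :=
  ⟨fun e he => h.mem e (hF he), h.sep, h.gen, h.cnt, fun e he => h.line₁ e (hF he)⟩

theorem Mod.swap {X : Finset (Tx k → ℝ)} {E : Finset (Ed k)} {M : ℕ} {K : ℕ → ℕ}
    (h : Mod X E M K) : Mod X (E.image Prod.swap) M K := by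
  refine ⟨fun e he => ?_, h.sep, h.gen, h.cnt, fun e he => ?_⟩
  · obtain ⟨e, he', rfl⟩ := Finset.mem_image.1 he
    obtain ⟨h1, h2, h3, h4⟩ := h.mem e he'
    exact ⟨h2, h1, nul_comm.1 h3, h4.symm⟩
  · obtain ⟨e, he', rfl⟩ := Finset.mem_image.1 he
    refine le_trans (Finset.card_le_card fun y hy => ?_) (h.line₁ e he')
    obtain ⟨hy1, hy2⟩ := Finset.mem_filter.1 hy
    refine Finset.mem_filter.2 ⟨hy1, ?_⟩
    obtain ⟨t, ht⟩ := Submodule.mem_span_singleton.1 hy2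
    refine Submodule.mem_span_singleton.2 ⟨1 - t, ?_⟩
    change t • (e.1 - e.2) = y - e.2 at ht
    rw [eq_sub_iff_add_eq] at ht
    rw [← ht]
    module

end Vale.Agent.P054A
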