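import Vale.Agent.P054A.Fl

/-!
Linear algebra of the split quadratic form.
-/

namespace Vale.Agent.P054A

open Sum Module
open scoped Classical

variable {k : ℕ}

/-- The orthogonal complement of a subspace. -/
def orth (U : Submodule ℝ (Tx k → ℝ)) : Submodule ℝ (Tx k → ℝ) := ⨅ z ∈ U, perp z

theorem mem_orth {U : Submodule ℝ (Tx k → ℝ)} {v : Tx k → ℝ} :
    v ∈ orth U ↔ ∀ z ∈ U, bil v z = 0 := by
  simp only [orth, Submodule.mem_iInf]
  rfl

/-- The form `bil` as a bilinear form. -/
def DichL_B (k : ℕ) : LinearMap.BilinForm ℝ (Tx k → ℝ) :=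
  LinearMap.mk₂ ℝ bil bil_add_left (fun c x y => bil_smul_left c x y)
    (fun x y z => by rw [bil_comm, bil_add_left, bil_comm y, bil_comm z])
    (fun c x y => by rw [bil_comm, bil_smul_left, bil_comm y, smul_eq_mul])

theorem DichL_apply (x y : Tx k → ℝ) : DichL_B k x y = bil x y := rfl

theorem DichL_ker : LinearMap.ker (DichL_B k) = ⊥ := by
  rw [LinearMap.ker_eq_bot']
  intro v hv
  have h : ∀ z, bil v z = 0 := fun z => by rw [← DichL_apply, hv, LinearMap.zero_apply]
  funext l
  rcases l with i | i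
  · simpa [bil, Pi.single_apply] using h (Pi.single (inr i) 1)
  · simpa [bil, Pi.single_apply] using h (Pi.single (inl i) 1)

theorem DichL_orth (U : Submodule ℝ (Tx k → ℝ)) : orth U = (DichL_B k).orthogonal U := by
  ext v
  rw [mem_orth, LinearMap.BilinForm.mem_orthogonal_iff]
  refine forall₂_congr fun z _ => ?_
  rw [bil_comm]
  rfl

theorem DichL_dim (k : ℕ) : finrank ℝ (Tx k → ℝ) = 2 * k + 2 := by
  rw [finrank_fintype_fun_eq_card, card_Tx]

theorem finrank_orth (U : Submodule ℝ (Tx k → ℝ)) :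
    finrank ℝ U + finrank ℝ (orth U) = 2 * k + 2 := by
  rw [DichL_orth, LinearMap.BilinForm.finrank_add_finrank_orthogonal', DichL_ker, inf_bot_eq,
    finrank_bot, add_zero, DichL_dim]

theorem Iso.finrank_le {U : Submodule ℝ (Tx k → ℝ)} (h : Iso U) : finrank ℝ U ≤ k + 1 := by
  have h1 : U ≤ orth U := fun v hv => mem_orth.2 (h v hv)
  have h2 := Submodule.finrank_mono h1
  have h3 := finrank_orth U
  omega

theorem iso_Rb : Iso (Rb k) ∧ finrank ℝ (Rb k) = k + 1 := by
  refine ⟨fun v hv w hw => ?_, ?_⟩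
  · refine Finset.sum_eq_zero fun i _ => ?_
    rw [hv i, hw i, zero_mul, zero_mul, add_zero]
  · have h1 : Rb k = LinearMap.ker (LinearMap.funLeft ℝ ℝ (inl : Fin (k + 1) → Tx k)) := by
      ext v
      rw [LinearMap.mem_ker, funext_iff]
      rfl
    have h2 := LinearMap.finrank_range_add_finrank_ker
      (LinearMap.funLeft ℝ ℝ (inl : Fin (k + 1) → Tx k))
    rw [LinearMap.range_eq_top.2 (LinearMap.funLeft_surjective_of_injective ℝ ℝ _ inl_injective),
      finrank_top, finrank_fintype_fun_eq_card, Fintype.card_fin, DichL_dim] at h2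
    rw [h1]
    exact Nat.add_left_cancel (h2.trans (by omega))

theorem finrank_Rb_orth {N : Submodule ℝ (Tx k → ℝ)} (hN : finrank ℝ N = k)
    (h0 : N ⊓ Rb k = ⊥) : finrank ℝ ↥(Rb k ⊓ orth N) = 1 := by
  obtain ⟨h1, h2⟩ := iso_Rb (k := k)
  have h3 : Rb k = orth (Rb k) := by
    refine Submodule.eq_of_le_of_finrank_eq (fun v hv => mem_orth.2 (h1 v hv)) ?_
    have := finrank_orth (Rb k)
    omega
  have h4 : Rb k ⊓ orth N = orth (N ⊔ Rb k) := by
    ext v
    rw [Submodule.mem_inf, mem_orth, mem_orth]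
    constructor
    · rintro ⟨h5, h6⟩ z hz
      obtain ⟨a, ha, b, hb, rfl⟩ := Submodule.mem_sup.1 hz
      rw [bil_comm, bil_add_left, bil_comm a, bil_comm b, h6 a ha, h1 v h5 b hb, add_zero]
    · intro h5
      refine ⟨?_, fun z hz => h5 z (Submodule.mem_sup_left hz)⟩
      rw [h3]
      exact mem_orth.2 fun z hz => h5 z (Submodule.mem_sup_right hz)
  have h5 := Submodule.finrank_sup_add_finrank_inf_eq N (Rb k)
  have h6 := finrank_orth (N ⊔ Rb k)
  rw [h0, finrank_bot] at h5
  rw [h4]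
  omega

/-- The directions of the two sides of a complete bipartite null graph are orthogonal. -/
theorem dir_orth {A B : Finset (Tx k → ℝ)} (h : ∀ x ∈ A, ∀ y ∈ B, nul x y) :
    ∀ v ∈ vectorSpan ℝ (A : Set (Tx k → ℝ)), ∀ w ∈ vectorSpan ℝ (B : Set (Tx k → ℝ)),
      bil v w = 0 := by
  have e : ∀ x x' y y' : Tx k → ℝ, 2 * bil (x - x') (y - y') =
      bil (x' - y) (x' - y) + bil (x - y') (x - y') - bil (x - y) (x - y)
        - bil (x' - y') (x' - y') := by
    intro x x' y y'
    simp only [bil, Pi.sub_apply, Finset.mul_sum, ← Finset.sum_add_distrib,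
      ← Finset.sum_sub_distrib]
    exact Finset.sum_congr rfl fun i _ => by ring
  have h1 : vectorSpan ℝ (A : Set (Tx k → ℝ)) ≤ orth (vectorSpan ℝ (B : Set (Tx k → ℝ))) := by
    rw [vectorSpan_def, Submodule.span_le]
    rintro _ ⟨x, hx, x', hx', rfl⟩
    have h2 : vectorSpan ℝ (B : Set (Tx k → ℝ)) ≤ perp (x - x') := by
      rw [vectorSpan_def, Submodule.span_le]
      rintro _ ⟨y, hy, y', hy', rfl⟩
      have h3 := e x x' y y'
      rw [h x' hx' y hy, h x hx y' hy', h x hx y hy, h x' hx' y' hy'] at h3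
      change bil (y - y') (x - x') = 0
      rw [bil_comm]
      linarith
    refine mem_orth.2 fun z hz => ?_
    rw [bil_comm]
    exact h2 hz
  exact fun v hv => mem_orth.1 (h1 hv)

end Vale.Agent.P054A
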