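import Vale.Agent.P054A.LocL

/-!
The local ideal at a simple zero.
-/

namespace Vale.Agent.P054A

open MvPolynomial
open scoped Classical

variable {K : Type} [Field K] {σ κ : Type} [Fintype σ] [Fintype κ] [DecidableEq κ]

omit [Fintype σ] in
theorem locb_mem {p : σ → K} {g : MvPolynomial σ K} : g ∈ vanI {p} ↔ eval p g = 0 :=
  ⟨fun h => h p rfl, fun h q hq => by rw [Set.mem_singleton_iff.1 hq]; exact h⟩

omit [Fintype σ] in
theorem locb_X (p : σ → K) (l : σ) : X l - C (p l) ∈ vanI {p} := locb_mem.2 (by simp)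

theorem locb_taylor (p : σ → K) (h : MvPolynomial σ K) :
    h - C (eval p h) - ∑ l, C (eval p (pderiv l h)) * (X l - C (p l)) ∈ vanI {p} ^ 2 := by
  induction h using MvPolynomial.induction_on with
  | C a => simp
  | add a b ha hb =>
    have e : a + b - C (eval p (a + b)) -
        ∑ l, C (eval p (pderiv l (a + b))) * (X l - C (p l)) =
        (a - C (eval p a) - ∑ l, C (eval p (pderiv l a)) * (X l - C (p l))) +
        (b - C (eval p b) - ∑ l, C (eval p (pderiv l b)) * (X l - C (p l))) := by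
      simp only [map_add, add_mul, Finset.sum_add_distrib]
      ring
    rw [e]
    exact Ideal.add_mem _ ha hb
  | mul_X a i ha =>
    have e1 : ∑ l, C (eval p (pderiv l (a * X i))) * (X l - C (p l)) =
        C (p i) * ∑ l, C (eval p (pderiv l a)) * (X l - C (p l)) +
          C (eval p a) * (X i - C (p i) : MvPolynomial σ K) := by
      have e2 : ∀ l, C (eval p (pderiv l (a * X i))) * (X l - C (p l)) =
          C (p i) * (C (eval p (pderiv l a)) * (X l - C (p l))) +
            if l = i then C (eval p a) * (X i - C (p i) : MvPolynomial σ K) else 0 := by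
        intro l
        rw [Derivation.leibniz, smul_eq_mul, smul_eq_mul, pderiv_X]
        by_cases h : l = i
        · subst h
          simp only [Pi.single_eq_same, mul_one, map_add, map_mul, eval_X, if_true]
          ring
        · rw [Pi.single_eq_of_ne (Ne.symm h), if_neg h]
          simp only [mul_zero, zero_add, map_mul, eval_X, add_zero]
          ring
      rw [Finset.sum_congr rfl fun l _ => e2 l, Finset.sum_add_distrib, Finset.mul_sum]
      simp
    have e : a * X i - C (eval p (a * X i)) -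
        ∑ l, C (eval p (pderiv l (a * X i))) * (X l - C (p l)) =
        X i * (a - C (eval p a) - ∑ l, C (eval p (pderiv l a)) * (X l - C (p l))) +
          (∑ l, C (eval p (pderiv l a)) * (X l - C (p l))) * (X i - C (p i)) := by
      rw [e1, map_mul, eval_X, C_mul]
      ring
    rw [e]
    refine Ideal.add_mem _ (Ideal.mul_mem_left _ _ ha) ?_
    rw [pow_two]
    exact Ideal.mul_mem_mul (Ideal.sum_mem _ fun l _ => Ideal.mul_mem_left _ _ (locb_X p l))
      (locb_X p i)

/-- Forms of degree `i` in the free variables. -/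
def FreeForm (J : κ → σ) (i : ℕ) (F : MvPolynomial σ K) : Prop :=
  F.IsHomogeneous i ∧ ∀ l ∈ F.vars, l ∉ Set.range J

omit [Fintype σ] [Fintype κ] [DecidableEq κ] in
theorem FreeForm.zero (J : κ → σ) (i : ℕ) : FreeForm J i (0 : MvPolynomial σ K) :=
  ⟨isHomogeneous_zero _ _ _, by simp⟩

omit [Fintype σ] [Fintype κ] [DecidableEq κ] in
theorem FreeForm.add {J : κ → σ} {i : ℕ} {F G : MvPolynomial σ K} (hF : FreeForm J i F)
    (hG : FreeForm J i G) : FreeForm J i (F + G) :=
  ⟨hF.1.add hG.1, fun l hl =>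
    (Finset.mem_union.1 (vars_add_subset _ _ hl)).elim (hF.2 l) (hG.2 l)⟩

omit [Fintype σ] [Fintype κ] [DecidableEq κ] in
theorem FreeForm.mul {J : κ → σ} {i j : ℕ} {F G : MvPolynomial σ K} (hF : FreeForm J i F)
    (hG : FreeForm J j G) : FreeForm J (i + j) (F * G) :=
  ⟨hF.1.mul hG.1, fun l hl => (Finset.mem_union.1 (vars_mul _ _ hl)).elim (hF.2 l) (hG.2 l)⟩

theorem locb_lin {f : κ → MvPolynomial σ K} {J : κ → σ} {p : σ → K} (h : Simple f J p)
    {g : MvPolynomial σ K} (hg : g ∈ vanI {p}) :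
    ∃ L : MvPolynomial σ K, FreeForm J 1 L ∧
      g - aeval (fun l => X l - C (p l)) L ∈ vanI {p} ^ 2 ⊔ Ideal.span (Set.range f) := by
  let A : Matrix κ κ K := Matrix.of fun i k => eval p (pderiv (J k) (f i))
  have hA : IsUnit A.det := by
    have h2 := h.2
    rw [minor, RingHom.map_det] at h2
    exact isUnit_iff_ne_zero.2 h2
  let c : κ → K := Matrix.vecMul (fun k => eval p (pderiv (J k) g)) A⁻¹
  have hc : Matrix.vecMul c A = fun k => eval p (pderiv (J k) g) := by
    simp only [c, Matrix.vecMul_vecMul, Matrix.nonsing_inv_mul A hA, Matrix.vecMul_one]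
  let g' := g - ∑ i, C (c i) * f i
  have h0 : eval p g' = 0 := by
    simp only [g', map_sub, map_sum, map_mul, h.1, mul_zero, Finset.sum_const_zero,
      locb_mem.1 hg, sub_zero]
  have h1 : ∀ k, eval p (pderiv (J k) g') = 0 := fun k => by
    have h3 := congrFun hc k
    simp only [Matrix.vecMul, dotProduct, A, Matrix.of_apply] at h3
    simp only [g', map_sub, map_sum, pderiv_C_mul, map_mul, eval_C, h3, sub_self]
  refine ⟨∑ l, C (eval p (pderiv l g')) * X l, ?_, ?_⟩
  · refine Finset.sum_induction _ (FreeForm J 1) (fun _ _ => FreeForm.add) (FreeForm.zero J 1)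
      fun l _ => ?_
    by_cases hl : l ∈ Set.range J
    · obtain ⟨k, rfl⟩ := hl
      rw [h1, C_0, zero_mul]
      exact FreeForm.zero J 1
    · have h4 : FreeForm J 0 (C (eval p (pderiv l g')) : MvPolynomial σ K) :=
        ⟨isHomogeneous_C _ _, by simp⟩
      have h5 : FreeForm J 1 (X l : MvPolynomial σ K) :=
        ⟨isHomogeneous_X _ _, fun l' hl' => by
          rw [vars_X, Finset.mem_singleton] at hl'
          rwa [hl']⟩
      exact h4.mul h5
  · have h6 := locb_taylor p g'
    rw [h0, C_0, sub_zero] at h6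
    have e : g - aeval (fun l => X l - C (p l)) (∑ l, C (eval p (pderiv l g')) * X l) =
        (g' - ∑ l, C (eval p (pderiv l g')) * (X l - C (p l))) + ∑ i, C (c i) * f i := by
      simp only [map_sum, map_mul, aeval_C, aeval_X, algebraMap_eq]
      simp only [g']
      ring
    rw [e]
    exact Submodule.add_mem_sup h6 (Ideal.sum_mem _ fun i _ =>
      Ideal.mul_mem_left _ _ (Ideal.subset_span ⟨i, rfl⟩))

omit [Fintype σ] [Fintype κ] [DecidableEq κ] in
theorem locb_mul {m I : Ideal (MvPolynomial σ K)} {i j : ℕ} {a b : MvPolynomial σ K}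
    (ha : a ∈ m ^ i ⊔ I) (hb : b ∈ m ^ j ⊔ I) : a * b ∈ m ^ (i + j) ⊔ I := by
  obtain ⟨x, hx, y, hy, rfl⟩ := Submodule.mem_sup.1 ha
  obtain ⟨z, hz, w, hw, rfl⟩ := Submodule.mem_sup.1 hb
  have e : (x + y) * (z + w) = x * z + (x * w + (z + w) * y) := by ring
  rw [e, pow_add]
  exact Submodule.add_mem_sup (Ideal.mul_mem_mul hx hz)
    (I.add_mem (I.mul_mem_left _ hw) (I.mul_mem_left _ hy))

omit [Fintype σ] [Fintype κ] [DecidableEq κ] in
theorem locb_mul_lead {m I : Ideal (MvPolynomial σ K)} {i j : ℕ} {a b a' b' : MvPolynomial σ K}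
    (ha : a ∈ m ^ i ⊔ I) (hb : b ∈ m ^ j ⊔ I) (ha' : a - a' ∈ m ^ (i + 1) ⊔ I)
    (hb' : b - b' ∈ m ^ (j + 1) ⊔ I) : a * b - a' * b' ∈ m ^ (i + j + 1) ⊔ I := by
  have h1 : a' ∈ m ^ i ⊔ I := by
    have h2 : m ^ (i + 1) ⊔ I ≤ m ^ i ⊔ I :=
      sup_le_sup_right (Ideal.pow_le_pow_right (Nat.le_succ i)) I
    have h3 := Ideal.sub_mem _ ha (h2 ha')
    rwa [sub_sub_cancel] at h3
  have e : a * b - a' * b' = (a - a') * b + a' * (b - b') := by ring
  rw [e]
  refine Ideal.add_mem _ ?_ (locb_mul (j := j + 1) h1 hb')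
  have h4 := locb_mul ha' hb
  rwa [Nat.add_right_comm] at h4

theorem locb_form {f : κ → MvPolynomial σ K} {J : κ → σ} {p : σ → K} (h : Simple f J p) (i : ℕ) :
    ∀ g ∈ vanI {p} ^ i ⊔ Ideal.span (Set.range f), ∃ F : MvPolynomial σ K, FreeForm J i F ∧
      g - aeval (fun l => X l - C (p l)) F ∈ vanI {p} ^ (i + 1) ⊔ Ideal.span (Set.range f) := by
  have key : ∀ g ∈ vanI {p} ^ i, ∃ F : MvPolynomial σ K, FreeForm J i F ∧
      g - aeval (fun l => X l - C (p l)) F ∈ vanI {p} ^ (i + 1) ⊔ Ideal.span (Set.range f) := by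
    induction i with
    | zero =>
      intro g _
      refine ⟨C (eval p g), ⟨isHomogeneous_C _ _, by simp⟩, Ideal.mem_sup_left ?_⟩
      rw [zero_add, pow_one, locb_mem]
      simp
    | succ i ih =>
      intro g hg
      rw [pow_succ] at hg
      refine Submodule.mul_induction_on hg (fun a ha b hb => ?_) fun x y hx hy => ?_
      · obtain ⟨F, hF, h1⟩ := ih a ha
        obtain ⟨L, hL, h2⟩ := locb_lin h hb
        refine ⟨F * L, hF.mul hL, ?_⟩
        rw [map_mul]
        exact locb_mul_lead (j := 1) (Ideal.mem_sup_left ha)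
          (Ideal.mem_sup_left (by rwa [pow_one])) h1 h2
      · obtain ⟨F, hF, h1⟩ := hx
        obtain ⟨G, hG, h2⟩ := hy
        refine ⟨F + G, hF.add hG, ?_⟩
        rw [map_add, add_sub_add_comm]
        exact Ideal.add_mem _ h1 h2
  intro g hg
  obtain ⟨x, hx, y, hy, rfl⟩ := Submodule.mem_sup.1 hg
  obtain ⟨F, hF, h1⟩ := key x hx
  refine ⟨F, hF, ?_⟩
  rw [add_sub_right_comm]
  exact Ideal.add_mem _ h1 (Ideal.mem_sup_right hy)

omit [Fintype κ] [DecidableEq κ] in
theorem locb_krull {f : κ → MvPolynomial σ K} {p : σ → K} {g : MvPolynomial σ K}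
    (hg : ∀ i, g ∈ vanI {p} ^ i ⊔ Ideal.span (Set.range f)) : g ∈ locP f p := by
  let I : Ideal (MvPolynomial σ K) := Ideal.span (Set.range f)
  have h1 : Ideal.Quotient.mk I g ∈ (⨅ i : ℕ, vanI {p} ^ i • ⊤ :
      Submodule (MvPolynomial σ K) (MvPolynomial σ K ⧸ I)) := by
    rw [Submodule.mem_iInf]
    intro i
    obtain ⟨x, hx, y, hy, rfl⟩ := Submodule.mem_sup.1 (hg i)
    rw [map_add, Ideal.Quotient.eq_zero_iff_mem.2 hy, add_zero]
    have e : Ideal.Quotient.mk I x = x • (1 : MvPolynomial σ K ⧸ I) := by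
      change _ = Ideal.Quotient.mk I (x * 1)
      rw [mul_one]
    rw [e]
    exact Submodule.smul_mem_smul hx Submodule.mem_top
  obtain ⟨r, hr⟩ := (Ideal.mem_iInf_smul_pow_eq_bot_iff _ _).1 h1
  refine ⟨1 - r, ?_, ?_⟩
  · rw [map_sub, locb_mem.1 r.2, map_one, sub_zero]
    exact one_ne_zero
  · rw [← Ideal.Quotient.eq_zero_iff_mem, sub_mul, one_mul, map_sub, map_mul, sub_eq_zero]
    exact hr.symm

theorem locb_lead {f : κ → MvPolynomial σ K} {J : κ → σ} {p : σ → K} (h : Simple f J p)
    {g : MvPolynomial σ K} (hg : g ∉ locP f p) :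
    ∃ (i : ℕ) (F : MvPolynomial σ K), F ≠ 0 ∧ FreeForm J i F ∧
      g ∈ vanI {p} ^ i ⊔ Ideal.span (Set.range f) ∧
      g - aeval (fun l => X l - C (p l)) F ∈ vanI {p} ^ (i + 1) ⊔ Ideal.span (Set.range f) := by
  by_contra hc
  refine hg (locb_krull fun i => ?_)
  induction i with
  | zero => simp
  | succ i ih =>
    obtain ⟨F, hF, h1⟩ := locb_form h i g ih
    by_cases h0 : F = 0
    · rwa [h0, map_zero, sub_zero] at h1
    · exact absurd ⟨i, F, h0, hF, ih, h1⟩ hc

theorem locb_eval {f : κ → MvPolynomial σ K} {J : κ → σ} {p : σ → K} (h : Simple f J p)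
    {g F : MvPolynomial σ K} {i : ℕ} (hF : FreeForm J i F)
    (hg : g - aeval (fun l => X l - C (p l)) F ∈ vanI {p} ^ (i + 1) ⊔ Ideal.span (Set.range f))
    (lam : σ → K) : eval p ((Dl f J lam)^[i] g) =
      (i.factorial : K) * eval p (minor f J) ^ i * eval lam F := by
  obtain ⟨D, hD⟩ := exists_der_Dl f J lam
  have hD' : Dl f J lam = D := funext fun g => (hD g).symm
  obtain ⟨x, hx, y, hy, hxy⟩ := Submodule.mem_sup.1 hg
  have e : g = x + y + 1 * aeval (fun l => X l - C (p l)) F := by rw [hxy]; ring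
  have h1 := Dl_iter_pow_ideal f J p lam hx i (Nat.lt_succ_self i)
  have h2 : eval p ((Dl f J lam)^[i] y) = 0 :=
    on_locP h.1 _ (Dl_iter_mem_locP f J p lam i ⟨1, by simp, by rwa [one_mul]⟩)
  have h3 := Dl_iter_lead f J p lam hF.1 hF.2 1
  rw [hD'] at h1 h2 h3 ⊢
  rw [e, iterate_map_add, iterate_map_add, map_add, map_add, h1, h2, h3]
  simp

variable [CharZero K]

/-- Finitely many nonzero polynomials have a common nonzero. -/
theorem exists_common_ne {α τ : Type} (s : Finset α) (F : α → MvPolynomial τ K)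
    (h : ∀ a ∈ s, F a ≠ 0) : ∃ lam : τ → K, ∀ a ∈ s, eval lam (F a) ≠ 0 := by
  by_contra hc
  refine Finset.prod_ne_zero_iff.2 h (MvPolynomial.funext fun lam => ?_)
  rw [map_prod, map_zero]
  by_contra h1
  exact hc ⟨lam, Finset.prod_ne_zero_iff.1 h1⟩

theorem locb_zero {f : κ → MvPolynomial σ K} {J : κ → σ} {p : σ → K} (h : Simple f J p)
    {g F : MvPolynomial σ K} {i : ℕ} (hF : FreeForm J i F)
    (hg : g - aeval (fun l => X l - C (p l)) F ∈ vanI {p} ^ (i + 1) ⊔ Ideal.span (Set.range f))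
    (h0 : ∀ lam, eval p ((Dl f J lam)^[i] g) = 0) : F = 0 := by
  refine MvPolynomial.funext fun lam => ?_
  have h1 := h0 lam
  rw [locb_eval h hF hg lam] at h1
  rw [map_zero]
  exact (mul_eq_zero.1 h1).resolve_left
    (mul_ne_zero (Nat.cast_ne_zero.2 i.factorial_ne_zero) (pow_ne_zero _ h.2))

/-- Krull intersection: infinite order of vanishing means membership in the local ideal. -/
theorem mem_locP_iff {f : κ → MvPolynomial σ K} {J : κ → σ} {p : σ → K} (h : Simple f J p)
    (g : MvPolynomial σ K) :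
    g ∈ locP f p ↔ ∀ (lam : σ → K) (i : ℕ), eval p ((Dl f J lam)^[i] g) = 0 := by
  refine ⟨fun hg lam i => on_locP h.1 _ (Dl_iter_mem_locP f J p lam i hg), fun hg => ?_⟩
  by_contra hc
  obtain ⟨i, F, h0, hF, -, h1⟩ := locb_lead h hc
  exact h0 (locb_zero h hF h1 fun lam => hg lam i)

theorem locP_prime {f : κ → MvPolynomial σ K} {J : κ → σ} {p : σ → K} (h : Simple f J p) :
    (locP f p).IsPrime := by
  refine ⟨fun ht => ?_, fun {a b} hab => ?_⟩
  · have h1 := on_locP h.1 1 (ht ▸ Submodule.mem_top)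
    rw [map_one] at h1
    exact one_ne_zero h1
  · by_contra hc
    rw [not_or] at hc
    obtain ⟨i, F, h0, hF, ha, ha'⟩ := locb_lead h hc.1
    obtain ⟨j, G, h1, hG, hb, hb'⟩ := locb_lead h hc.2
    have h2 := locb_mul_lead ha hb ha' hb'
    rw [← map_mul] at h2
    exact mul_ne_zero h0 h1
      (locb_zero h (hF.mul hG) h2 fun lam => (mem_locP_iff h _).1 hab lam _)

/-- The free coordinates are algebraically independent modulo the local ideal. -/
theorem eq_zero_of_free {f : κ → MvPolynomial σ K} {J : κ → σ} {p : σ → K} (h : Simple f J p)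
    {G : MvPolynomial σ K} (hv : ∀ l ∈ G.vars, l ∉ Set.range J) (hG : G ∈ locP f p) : G = 0 := by
  let G' : MvPolynomial σ K := aeval (fun l => X l + C (p l)) G
  have hGG : aeval (fun l => X l - C (p l)) G' = G := by
    have e : (aeval fun l => (X l - C (p l) : MvPolynomial σ K)).comp
        (aeval fun l => (X l + C (p l) : MvPolynomial σ K)) = AlgHom.id K _ :=
      MvPolynomial.algHom_ext fun l => by simp
    exact AlgHom.congr_fun e G
  have hv' : ∀ l ∈ G'.vars, l ∉ Set.range J := fun l hl => by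
    obtain ⟨i, hi, hl'⟩ := mem_vars_bind₁ _ _ hl
    have h1 := vars_add_subset _ _ hl'
    rw [vars_C, Finset.union_empty, vars_X, Finset.mem_singleton] at h1
    exact h1 ▸ hv i hi
  have hall : ∀ i, ∀ d : σ →₀ ℕ, d.degree < i → G'.coeff d = 0 := by
    intro i
    induction i with
    | zero => exact fun d hd => absurd hd (Nat.not_lt_zero _)
    | succ i ih =>
      have hF : FreeForm J i (homogeneousComponent i G') := by
        refine ⟨homogeneousComponent_isHomogeneous _ _, fun l hl => hv' l ?_⟩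
        rw [mem_vars_iff_mem_support] at hl ⊢
        obtain ⟨d, hd, hl⟩ := hl
        refine ⟨d, ?_, hl⟩
        rw [mem_support_iff, coeff_homogeneousComponent] at hd
        rw [mem_support_iff]
        exact fun h0 => hd (by rw [h0, ite_self])
      have h1 : G' - homogeneousComponent i G' ∈ idealOfVars σ K ^ (i + 1) := by
        rw [mem_pow_idealOfVars_iff']
        intro d hd
        rw [coeff_sub, coeff_homogeneousComponent]
        by_cases h2 : d.degree = i
        · rw [if_pos h2, sub_self]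
        · rw [if_neg h2, ih d (by omega), sub_self]
      have h2 : (idealOfVars σ K).map (aeval fun l => (X l - C (p l) : MvPolynomial σ K)) ≤
          vanI {p} := by
        rw [Ideal.map_span, Ideal.span_le]
        rintro _ ⟨_, ⟨l, rfl⟩, rfl⟩
        rw [aeval_X]
        exact locb_X p l
      have h3 := Ideal.mem_map_of_mem (aeval fun l => (X l - C (p l) : MvPolynomial σ K)) h1
      rw [Ideal.map_pow, map_sub, hGG] at h3
      have h4 := locb_zero h hF (Ideal.mem_sup_left (Ideal.pow_right_mono h2 _ h3))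
        fun lam => (mem_locP_iff h _).1 hG lam _
      intro d hd
      by_cases h5 : d.degree = i
      · have h6 := congrArg (coeff d) h4
        rwa [coeff_homogeneousComponent, if_pos h5, coeff_zero] at h6
      · exact ih d (by omega)
  have h0 : G' = 0 := MvPolynomial.ext _ _ fun d => by
    rw [coeff_zero]; exact hall _ d (Nat.lt_succ_self _)
  rw [← hGG, h0, map_zero]

omit [Fintype σ] [CharZero K] in
theorem minor_notin_locP {f : κ → MvPolynomial σ K} {J : κ → σ} {p : σ → K} (h : Simple f J p) :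
    minor f J ∉ locP f p := fun hm => h.2 (on_locP h.1 _ hm)

end Vale.Agent.P054A
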