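import Vale.Agent.P054A.Hil
import Vale.Agent.P054A.LocB

/-!
Generic skew matrices.
-/

namespace Vale.Agent.P054A

open MvPolynomial
open scoped Classical

theorem exl_eval {σ τ : Type} (Θ : σ → MvPolynomial τ ℂ) (z : τ → ℂ) (q : MvPolynomial σ ℂ) :
    eval z (aeval Θ q) = eval (fun i => eval z (Θ i)) q :=
  (eval_assoc Θ z q).symm

/-- The image of a hypersurface under a polynomial map lies in a hypersurface. -/
theorem exists_img {σ τ : Type} [Fintype σ] [Fintype τ] (h : Fintype.card τ ≤ Fintype.card σ)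
    (Θ : σ → MvPolynomial τ ℂ) {Ψ : MvPolynomial τ ℂ} (hΨ : Ψ ≠ 0) :
    ∃ Ξ : MvPolynomial σ ℂ, Ξ ≠ 0 ∧ ∀ z : τ → ℂ, eval z Ψ = 0 →
      eval (fun i => eval z (Θ i)) Ξ = 0 := by
  suffices h1 : ∃ Ξ ∈ (⊥ ⊔ Ideal.span {Ψ}).comap (aeval Θ : MvPolynomial σ ℂ →ₐ[ℂ] _),
      Ξ ≠ 0 by
    obtain ⟨Ξ, h1, h2⟩ := h1
    rw [bot_sup_eq, Ideal.mem_comap, Ideal.mem_span_singleton] at h1
    obtain ⟨q, hq⟩ := h1
    refine ⟨Ξ, h2, fun z hz => ?_⟩
    rw [← exl_eval, hq, map_mul, hz, zero_mul]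
  rcases Nat.eq_zero_or_eq_succ_pred (Fintype.card τ) with h0 | h0
  · have := Fintype.card_eq_zero_iff.1 h0
    obtain ⟨c, rfl⟩ : ∃ c, Ψ = C c := ⟨_, eq_C_of_isEmpty Ψ⟩
    refine ⟨1, ?_, one_ne_zero⟩
    rw [bot_sup_eq, Ideal.mem_comap, map_one, Ideal.mem_span_singleton, ← isUnit_iff_dvd_one]
    exact (Ne.isUnit fun h1 => hΨ (by rw [h1, map_zero])).map C
  by_contra h1
  have h2 : (⊥ ⊔ Ideal.span {Ψ}).comap (aeval Θ : MvPolynomial σ ℂ →ₐ[ℂ] _) = ⊥ :=
    eq_bot_iff.2 fun Ξ hΞ => not_not.1 fun h2 => h1 ⟨Ξ, hΞ, h2⟩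
  generalize (Fintype.card τ).pred = v at h0
  have h3 := H_sec (I := (⊥ : Ideal (MvPolynomial τ ℂ))) Ideal.isPrime_bot (v := v) (a := 1)
    (fun M => by rw [one_mul, ← Nat.succ_eq_add_one v, ← h0]; exact H_le_pow _ M) (g := Ψ) hΨ
    (le_max_left _ 1) (le_max_right _ _)
  have h4 := le_of_growth (v := Fintype.card σ) (w := v) (s := 0)
    (C := (Fintype.card σ).factorial) (a := 3 ^ (v + 1) * 1 * max Ψ.totalDegree 1)
    (t := Finset.univ.sup fun i => (Θ i).totalDegree) fun M => by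
      refine (Nat.pow_succ_le_ascFactorial _ _).trans ?_
      rw [Nat.ascFactorial_eq_factorial_mul_choose, ← H_bot (K := ℂ), ← h2]
      refine Nat.mul_le_mul_left _ ((H_comap_le _ (fun i => ?_) _ M).trans (h3 _))
      rw [aeval_X]
      exact Finset.le_sup (f := fun i => (Θ i).totalDegree) (Finset.mem_univ i)
  omega

/-- Finitely many nonzero complex polynomials have a common real nonzero. -/
theorem exists_real_ne {α τ : Type} (s : Finset α) (F : α → MvPolynomial τ ℂ)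
    (h : ∀ a ∈ s, F a ≠ 0) : ∃ z : τ → ℝ, ∀ a ∈ s, eval (cx z) (F a) ≠ 0 := by
  by_contra h1
  refine Finset.prod_ne_zero_iff.2 h (funext_set (fun _ => Set.range ((↑) : ℝ → ℂ))
    (fun _ => Set.infinite_range_of_injective Complex.ofReal_injective) fun x hx => ?_)
  choose z hz using fun i => hx i (Set.mem_univ i)
  obtain rfl : cx z = x := funext hz
  rw [map_zero, map_prod]
  exact not_not.1 fun h2 => h1 ⟨z, Finset.prod_ne_zero_iff.1 h2⟩

/-- The skew matrix with entries `a` above the diagonal. -/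
def skw {d : ℕ} {A : Type} [CommRing A] (a : {p : Fin d × Fin d // p.1 < p.2} → A) :
    Matrix (Fin d) (Fin d) A :=
  fun i j => if h : i < j then a ⟨(i, j), h⟩ else if h' : j < i then - a ⟨(j, i), h'⟩ else 0

theorem skw_transpose {d : ℕ} {A : Type} [CommRing A] (a : {p : Fin d × Fin d // p.1 < p.2} → A) :
    (skw a).transpose = - skw a := by
  ext i j
  simp only [Matrix.transpose_apply, Matrix.neg_apply, skw]
  rcases lt_trichotomy i j with h | rfl | h
  · rw [dif_neg h.not_gt, dif_pos h, dif_pos h]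
  · simp
  · rw [dif_pos h, dif_neg h.not_gt, dif_pos h, neg_neg]

section Rep

variable {d : ℕ} {A B : Type} [CommRing A] [CommRing B] (k : Fin d)
  (a : {p : Fin d × Fin d // p.1 < p.2} → A) (μ : Fin d → A)

theorem exl_map (φ : A →+* B) (i j : Fin d) : φ (skw a i j) = skw (fun p => φ (a p)) i j := by
  unfold skw
  split_ifs <;> simp

/-- Replace the `k`-th column of a skew matrix. -/
def exlRep : {p : Fin d × Fin d // p.1 < p.2} → A :=
  fun p => if p.1.2 = k then μ p.1.1 else if p.1.1 = k then -μ p.1.2 else a p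

theorem exl_col {i : Fin d} (h : i ≠ k) : skw (exlRep k a μ) i k = μ i := by
  rcases lt_or_gt_of_ne h with h1 | h1
  · simp [skw, exlRep, h1]
  · simp [skw, exlRep, h1, h1.not_gt, h]

theorem exl_off {i j : Fin d} (hi : i ≠ k) (hj : j ≠ k) : skw (exlRep k a μ) i j = skw a i j := by
  simp [skw, exlRep, hi, hj]

theorem exl_self (ν : Fin d → A) (h : ∀ i ≠ k, ν i = skw a i k) :
    exlRep k (exlRep k a μ) ν = a := by
  funext ⟨⟨i, j⟩, hij⟩
  simp only [exlRep]
  split_ifs with h1 h2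
  · subst h1
    rw [h i hij.ne, skw, dif_pos hij]
  · subst h2
    rw [h j h1, skw, dif_neg hij.not_gt, dif_pos hij, neg_neg]
  · rfl

end Rep

theorem exl_hom {d g : ℕ} {Ψ : MvPolynomial (Fin d) ℂ} (hΨ : Ψ.IsHomogeneous g) (c : ℂ)
    (x : Fin d → ℂ) : eval (c • x) Ψ = c ^ g * eval x Ψ := by
  rw [eval_eq', eval_eq', Finset.mul_sum]
  refine Finset.sum_congr rfl fun α hα => ?_
  have h1 : ∑ i, α i = g := by
    rw [hΨ.degree_eq_sum_deg_support hα]
    exact (Finset.sum_subset (Finset.subset_univ _) fun i _ hi =>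
      Finsupp.notMem_support_iff.1 hi).symm
  simp only [Pi.smul_apply, smul_eq_mul, mul_pow, Finset.prod_mul_distrib,
    Finset.prod_pow_eq_pow_sum, h1]
  ring

theorem exl_row {d : ℕ} (S W : Matrix (Fin d) (Fin d) ℂ) (Ψ : MvPolynomial (Fin d) ℂ)
    {g : ℕ} (hΨ : Ψ.IsHomogeneous g) (h0 : Ψ ≠ 0) (k : Fin d) :
    ∃ Ξ : MvPolynomial {p : Fin d × Fin d // p.1 < p.2} ℂ, Ξ ≠ 0 ∧
      ∀ a : {p : Fin d × Fin d // p.1 < p.2} → ℂ, eval a Ξ ≠ 0 →
        ∀ lam : Fin d → ℂ, W.mulVec lam k ≠ 0 → S.mulVec lam = (skw a).mulVec (W.mulVec lam) →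
          eval lam Ψ ≠ 0 := by
  by_cases hk : ∀ j, W k j = 0
  · refine ⟨1, one_ne_zero, fun a _ lam h => absurd ?_ h⟩
    simp [Matrix.mulVec, dotProduct, hk]
  obtain ⟨j0, hj⟩ := not_forall.1 hk
  let T : Fin d → MvPolynomial {p : Fin d × Fin d // p.1 < p.2} ℂ := fun j =>
    skw X (Equiv.swap j0 k j) k
  let Λ : Fin d → MvPolynomial {p : Fin d × Fin d // p.1 < p.2} ℂ := fun j =>
    if j = j0 then C (W k j0)⁻¹ * (1 - ∑ l ∈ Finset.univ.erase j0, C (W k l) * T l) else T j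
  let R : Fin d → MvPolynomial {p : Fin d × Fin d // p.1 < p.2} ℂ := fun i =>
    ∑ j, C (S i j) * Λ j - ∑ j ∈ Finset.univ.erase k, skw X i j * ∑ l, C (W j l) * Λ l
  have h1 : ∀ a (lam : Fin d → ℂ), W.mulVec lam k = 1 → ∀ j,
      eval (exlRep k a (lam ∘ Equiv.swap j0 k)) (Λ j) = lam j := by
    intro a lam h
    have h2 : ∀ j ≠ j0, eval (exlRep k a (lam ∘ Equiv.swap j0 k)) (T j) = lam j := fun j hj => by
      rw [exl_map]
      simp only [eval_X]
      rw [exl_col k a _ fun h3 => hj ((Equiv.swap j0 k).injective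
        (h3.trans (Equiv.swap_apply_left _ _).symm))]
      simp
    intro j
    by_cases h3 : j = j0
    · simp only [Λ, if_pos h3, map_mul, map_sub, map_one, map_sum, eval_C]
      rw [Finset.sum_congr rfl fun l hl => by rw [h2 l (Finset.ne_of_mem_erase hl)], ← h,
        Matrix.mulVec, dotProduct, ← Finset.add_sum_erase _ _ (Finset.mem_univ j0),
        add_sub_cancel_right, inv_mul_cancel_left₀ hj, h3]
    · simp only [Λ, if_neg h3, h2 j h3]
  have h2 : ∀ lam : Fin d → ℂ, W.mulVec lam k ≠ 0 →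
      W.mulVec ((W.mulVec lam k)⁻¹ • lam) k = 1 := fun lam h => by
    rw [Matrix.mulVec_smul, Pi.smul_apply, smul_eq_mul, inv_mul_cancel₀ h]
  have h3 : aeval Λ Ψ ≠ 0 := by
    have h4 : (∑ j, C (W k j) * X j : MvPolynomial (Fin d) ℂ) ≠ 0 := fun h4 => hj (by
      simpa [Pi.single_apply] using congrArg (eval (Pi.single j0 1)) h4)
    obtain ⟨lam, h5⟩ : ∃ lam, eval lam (Ψ * ∑ j, C (W k j) * X j) ≠ 0 := not_forall.1 fun h5 =>
      mul_ne_zero h0 h4 (MvPolynomial.funext fun x => (h5 x).trans (map_zero _).symm)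
    rw [map_mul, mul_ne_zero_iff] at h5
    have h6 : W.mulVec lam k ≠ 0 := by simpa [Matrix.mulVec, dotProduct] using h5.2
    intro h7
    have h8 := congrArg (eval (exlRep k 0 (((W.mulVec lam k)⁻¹ • lam) ∘ Equiv.swap j0 k))) h7
    rw [exl_eval, funext (h1 _ _ (h2 lam h6)), exl_hom hΨ, map_zero] at h8
    exact mul_ne_zero (pow_ne_zero _ (inv_ne_zero h6)) h5.1 h8
  obtain ⟨Ξ, h4, h5⟩ := exists_img le_rfl (exlRep k X R) h3
  refine ⟨Ξ, h4, fun a ha lam h6 h7 h8 => ha ?_⟩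
  have h9 := h2 lam h6
  have h10 : eval ((W.mulVec lam k)⁻¹ • lam) Ψ = 0 := by rw [exl_hom hΨ, h8, mul_zero]
  have h11 : S.mulVec ((W.mulVec lam k)⁻¹ • lam) =
      (skw a).mulVec (W.mulVec ((W.mulVec lam k)⁻¹ • lam)) := by
    simp only [Matrix.mulVec_smul, h7]
  generalize (W.mulVec lam k)⁻¹ • lam = μ at h9 h10 h11
  have h12 := h5 (exlRep k a (μ ∘ Equiv.swap j0 k)) (by rw [exl_eval, funext (h1 a μ h9), h10])
  rw [← exl_self k a (μ ∘ Equiv.swap j0 k)
    (fun i => eval (exlRep k a (μ ∘ Equiv.swap j0 k)) (R i)) fun i hi => ?_, ← h12]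
  · refine congrArg (eval · Ξ) (funext fun p => ?_)
    generalize exlRep k a (μ ∘ Equiv.swap j0 k) = z
    simp only [exlRep]
    split_ifs <;> simp only [map_neg, eval_X]
  · have h13 := congrFun h11 i
    simp only [R, map_sub, map_sum, map_mul, eval_C, h1 a μ h9, exl_map, eval_X]
    rw [Finset.sum_congr (s₁ := Finset.univ.erase k) rfl fun j hj => by
      rw [exl_off k a _ hi (Finset.ne_of_mem_erase hj)]]
    rw [Matrix.mulVec, Matrix.mulVec, dotProduct, dotProduct,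
      ← Finset.add_sum_erase _ (fun j => skw a i j * W.mulVec μ j) (Finset.mem_univ k), h9,
      mul_one] at h13
    exact sub_eq_of_eq_add h13

/-- For a generic skew matrix `A`, a vector `(s, w)` of a `d`-dimensional space with `s = A w`
avoids a given cone. -/
theorem exists_skew_poly {d : ℕ} (S W : Matrix (Fin d) (Fin d) ℝ) (Ψ : MvPolynomial (Fin d) ℂ)
    {g : ℕ} (hΨ : Ψ.IsHomogeneous g) (h0 : Ψ ≠ 0) :
    ∃ Ξ : MvPolynomial {p : Fin d × Fin d // p.1 < p.2} ℂ, Ξ ≠ 0 ∧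
      ∀ a : {p : Fin d × Fin d // p.1 < p.2} → ℝ, eval (cx a) Ξ ≠ 0 →
        ∀ lam : Fin d → ℝ, W.mulVec lam ≠ 0 → S.mulVec lam = (skw a).mulVec (W.mulVec lam) →
          eval (cx lam) Ψ ≠ 0 := by
  choose Ξ h1 h2 using exl_row (S.map Complex.ofRealHom) (W.map Complex.ofRealHom) Ψ hΨ h0
  refine ⟨∏ k, Ξ k, Finset.prod_ne_zero_iff.2 fun k _ => h1 k, fun a ha lam h3 h4 => ?_⟩
  obtain ⟨k, hk⟩ := Function.ne_iff.1 h3
  rw [map_prod] at ha
  have h5 : ∀ (V : Matrix (Fin d) (Fin d) ℝ) (x : Fin d → ℝ),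
      (V.map Complex.ofRealHom).mulVec (cx x) = cx (V.mulVec x) := fun V x =>
    funext fun i => (RingHom.map_mulVec Complex.ofRealHom V x i).symm
  refine h2 k _ (Finset.prod_ne_zero_iff.1 ha k (Finset.mem_univ k)) _ ?_ ?_
  · rw [h5]
    exact Complex.ofReal_ne_zero.2 hk
  · rw [h5, h5, h4, ← h5]
    exact congrArg (Matrix.mulVec · _) (Matrix.ext fun i j => exl_map a Complex.ofRealHom i j)

end Vale.Agent.P054A
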