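import Vale.Agent.P054A.Loop

/-!
The joint process terminates in a contradiction.
-/

namespace Vale.Agent.P054A

open MvPolynomial Sum
open scoped Classical

theorem loopB_card (k : ℕ) : Fintype.card (Sx k) = 2 * k + 1 := by
  simp only [Fintype.card_option, Fintype.card_sum, Fintype.card_fin]
  omega

theorem loopB_step {k : ℕ} {u : UF} {γ : ℝ} {X : ℕ → Finset (Tx k → ℝ)} {E₀ : ℕ → Finset (Ed k)}
    {M : ℕ → ℕ} {K : ℕ → ℕ → ℕ} (h : Num u k γ X E₀ M K) (m : ℕ) :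
    ∀ (E : ℕ → Finset (Ed k)) (c c₁ c₂ d d₁ d₂ : ℕ) (J : ℕ → Sx k) (J₁ J₂ : ℕ → Fin k)
      (f : ℕ → Ed k → ℕ → MvPolynomial (Sx k) ℂ) (f₁ f₂ : ℕ → Ed k → ℕ → MvPolynomial (Fin k) ℂ)
      (μ θ θ₁ θ₂ : ℝ), u.Full E E₀ →
      TS u E (fun _ _ => ()) (fun _ e => fl (cx e.1) (bb (cx e.1) (cx e.2))) c J f d μ θ →
      TS u E (fun _ e => e.1) (fun _ e => bb (cx e.1) (cx e.2)) c₁ J₁ f₁ d₁ μ θ₁ →
      TS u E (fun _ e => e.2) (fun _ e => bb (cx e.1) (cx e.2)) c₂ J₂ f₂ d₂ μ θ₂ →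
      μ < 1 + γ / (k + 1) →
      μ + (θ₁ + μ * ((k : ℝ) - d₁)) + (θ₂ + μ * ((k : ℝ) - d₂)) ≤ θ + μ * (2 * k + 1 - d) →
      4 * k + 1 < c + c₁ + c₂ + m → False := by
  induction m with
  | zero =>
    intro E c c₁ c₂ d d₁ d₂ J J₁ J₂ f f₁ f₂ μ θ θ₁ θ₂ _ hV h₁ h₂ _ _ hm
    have a := hV.le_card
    have a₁ := h₁.le_card
    have a₂ := h₂.le_card
    rw [loopB_card] at a
    rw [Fintype.card_fin] at a₁ a₂
    omega
  | succ m ih =>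
    intro E c c₁ c₂ d d₁ d₂ J J₁ J₂ f f₁ f₂ μ θ θ₁ θ₂ hE hV h₁ h₂ hμ hΨ hm
    have a := hV.le_card
    have a₁ := h₁.le_card
    have a₂ := h₂.le_card
    rw [loopB_card] at a
    rw [Fintype.card_fin] at a₁ a₂
    obtain ⟨ν₀, p₀, q₀, r₀, s₀⟩ := scale_dich u E (fun _ _ => ())
      (fun _ e => fl (cx e.1) (bb (cx e.1) (cx e.2)))
      (fun n => lev (f n) (fun e => fl (cx e.1) (bb (cx e.1) (cx e.2))) c) hμ.le
    obtain ⟨ν₁, p₁, q₁, r₁, s₁⟩ := scale_dich u E (fun _ e => e.1)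
      (fun _ e => bb (cx e.1) (cx e.2))
      (fun n => lev (f₁ n) (fun e => bb (cx e.1) (cx e.2)) c₁) hμ.le
    obtain ⟨ν₂, p₂, q₂, r₂, s₂⟩ := scale_dich u E (fun _ e => e.2)
      (fun _ e => bb (cx e.1) (cx e.2))
      (fun n => lev (f₂ n) (fun e => bb (cx e.1) (cx e.2)) c₂) hμ.le
    obtain ⟨ν, hν, n₀, n₁, n₂, hor⟩ : ∃ ν, μ ≤ ν ∧ ν ≤ ν₀ ∧ ν ≤ ν₁ ∧ ν ≤ ν₂ ∧
        (ν = ν₀ ∨ ν = ν₁ ∨ ν = ν₂) := by
      refine ⟨min ν₀ (min ν₁ ν₂), le_min p₀ (le_min p₁ p₂), min_le_left _ _,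
        (min_le_right _ _).trans (min_le_left _ _), (min_le_right _ _).trans (min_le_right _ _), ?_⟩
      rcases min_choice ν₀ (min ν₁ ν₂) with e | e
      · exact Or.inl e
      · exact Or.inr (by rw [e]; exact min_choice ν₁ ν₂)
    obtain ⟨d, d₁, d₂, θ, θ₁, θ₂, hV, h₁, h₂, hlt, hΨ⟩ : ∃ (d d₁ d₂ : ℕ) (θ θ₁ θ₂ : ℝ),
        TS u E (fun _ _ => ()) (fun _ e => fl (cx e.1) (bb (cx e.1) (cx e.2))) c J f d ν θ ∧
        TS u E (fun _ e => e.1) (fun _ e => bb (cx e.1) (cx e.2)) c₁ J₁ f₁ d₁ ν θ₁ ∧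
        TS u E (fun _ e => e.2) (fun _ e => bb (cx e.1) (cx e.2)) c₂ J₂ f₂ d₂ ν θ₂ ∧
        ν < 1 + γ / (k + 1) ∧
        ν + (θ₁ + ν * ((k : ℝ) - d₁)) + (θ₂ + ν * ((k : ℝ) - d₂)) ≤ θ + ν * (2 * k + 1 - d) := by
      rcases hν.eq_or_lt with rfl | hν'
      · exact ⟨d, d₁, d₂, θ, θ₁, θ₂, hV, h₁, h₂, hμ, hΨ⟩
      have gV := hV.advance hν' ((r₀ (hν'.trans_le n₀)).mono n₀)
      have g₁ := h₁.advance hν' ((r₁ (hν'.trans_le n₁)).mono n₁)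
      have g₂ := h₂.advance hν' ((r₂ (hν'.trans_le n₂)).mono n₂)
      have h0 : 0 < ν := hV.mu0.trans_lt hν'
      have b := h.noncrit hE gV g₁ g₂ h0 (n₀.trans q₀)
      have b' : (c : ℝ) + ((k : ℝ) - c₁) + ((k : ℝ) - c₂) ≤ 2 * k := by
        rw [← Nat.cast_sub a₁, ← Nat.cast_sub a₂]
        exact_mod_cast b
      have st := h.star hE gV g₁ g₂ h0
      have key : ν + (θ₁ + μ * ((c₁ - d₁ : ℕ) : ℝ) + ν * ((k : ℝ) - c₁)) +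
          (θ₂ + μ * ((c₂ - d₂ : ℕ) : ℝ) + ν * ((k : ℝ) - c₂)) ≤
          θ + μ * ((c - d : ℕ) : ℝ) + ν * (2 * k + 1 - c) := by
        rw [Nat.cast_sub hV.le, Nat.cast_sub h₁.le, Nat.cast_sub h₂.le]
        nlinarith [mul_nonneg (sub_nonneg.2 hν) (sub_nonneg.2 b')]
      refine ⟨c, c₁, c₂, _, _, _, gV, g₁, g₂, ?_, key⟩
      rw [Nat.cast_sub a, Nat.cast_sub a₁, Nat.cast_sub a₂] at st
      push_cast at st
      have hγ : 0 < γ / (k + 1) := div_pos h.pos (by positivity)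
      linarith
    rcases hor with e | e | e
    · obtain ⟨F, J', f', hF, g⟩ := hV.birth (e ▸ s₀ (e ▸ hlt))
      exact ih F _ _ _ _ _ _ _ _ _ _ _ _ _ _ _ _ (hF.trans hE) g (h₁.restrict hF) (h₂.restrict hF)
        hlt hΨ (by omega)
    · obtain ⟨F, J', f', hF, g⟩ := h₁.birth (e ▸ s₁ (e ▸ hlt))
      exact ih F _ _ _ _ _ _ _ _ _ _ _ _ _ _ _ _ (hF.trans hE) (hV.restrict hF) g (h₂.restrict hF)
        hlt hΨ (by omega)
    · obtain ⟨F, J', f', hF, g⟩ := h₂.birth (e ▸ s₂ (e ▸ hlt))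
      exact ih F _ _ _ _ _ _ _ _ _ _ _ _ _ _ _ _ (hF.trans hE) (hV.restrict hF) (h₁.restrict hF) g
        hlt hΨ (by omega)

theorem Num.false {k : ℕ} {u : UF} {γ : ℝ} {X : ℕ → Finset (Tx k → ℝ)} {E₀ : ℕ → Finset (Ed k)}
    {M : ℕ → ℕ} {K : ℕ → ℕ → ℕ} (h : Num u k γ X E₀ M K) : False := by
  have hk : 0 < k := by have := h.dim; omega
  have hγ : 0 < γ / (k + 1) := div_pos h.pos (by positivity)
  exact loopB_step h (4 * k + 2) E₀ 0 0 0 0 0 0 (fun _ => none) (fun _ => ⟨0, hk⟩)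
    (fun _ => ⟨0, hk⟩) _ _ _ 0 0 0 0 (UF.Full.refl u E₀) (TS.init u h.nonempty _ _ _)
    (TS.init u h.nonempty _ _ _) (TS.init u h.nonempty _ _ _) (by linarith) (by simp) (by omega)

end Vale.Agent.P054A
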