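import Vale.Agent.P054A.Defs

/-!
Elimination along a direction.
-/

namespace Vale.Agent.P054A

open MvPolynomial
open scoped Classical

variable {σ : Type} [Fintype σ]

/-- Invariance under translation along `z`. -/
def Inv (z : σ → ℂ) (c : MvPolynomial σ ℂ) : Prop :=
  ∀ (a : σ → ℂ) (t : ℂ), eval (a + t • z) c = eval a c

omit [Fintype σ] in
theorem projB_aeval_le {σ' : Type} (φ : σ → MvPolynomial σ' ℂ)
    (hφ : ∀ i, (φ i).totalDegree ≤ 1) (g : MvPolynomial σ ℂ) :
    (aeval φ g).totalDegree ≤ g.totalDegree := by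
  conv_lhs => rw [g.as_sum]
  rw [map_sum]
  refine totalDegree_finsetSum_le fun α hα => ?_
  rw [aeval_monomial]
  refine (totalDegree_mul _ _).trans ?_
  rw [algebraMap_eq, totalDegree_C, zero_add]
  refine (totalDegree_finsetProd _ _).trans (le_trans ?_ (le_totalDegree hα))
  refine Finset.sum_le_sum fun i _ => (totalDegree_pow _ _).trans ?_
  simpa using Nat.mul_le_mul_left (α i) (hφ i)

/-- Restriction to the line through `p` with direction `z`. -/
noncomputable def pjLine (z p : σ → ℂ) : MvPolynomial σ ℂ →ₐ[ℂ] Polynomial ℂ :=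
  aeval fun l => Polynomial.C (p l) + Polynomial.C (z l) * Polynomial.X

/-- Restriction to the generic line with direction `z`. -/
noncomputable def pjHat (z : σ → ℂ) : MvPolynomial σ ℂ →ₐ[ℂ] Polynomial (MvPolynomial σ ℂ) :=
  aeval fun l => Polynomial.C (X l) + Polynomial.C (C (z l)) * Polynomial.X

/-- The total degree filtration. -/
def PjFil (d : ℕ) (p : Polynomial (MvPolynomial σ ℂ)) : Prop :=
  ((optionEquivLeft ℂ σ).symm p).totalDegree ≤ d

omit [Fintype σ] in
theorem pjHat_map (z p : σ → ℂ) (G : MvPolynomial σ ℂ) :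
    (pjHat z G).map (eval p) = pjLine z p G := by
  induction G using MvPolynomial.induction_on with
  | C c => simp [pjHat, pjLine]
  | add a b ha hb => rw [map_add, map_add, Polynomial.map_add, ha, hb]
  | mul_X a l ha =>
    rw [map_mul, map_mul, Polynomial.map_mul, ha]
    simp [pjHat, pjLine]

omit [Fintype σ] in
theorem pjLine_eval (z p : σ → ℂ) (t : ℂ) (G : MvPolynomial σ ℂ) :
    (pjLine z p G).eval t = eval (p + t • z) G := by
  induction G using MvPolynomial.induction_on with
  | C c => simp [pjLine]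
  | add a b ha hb => rw [map_add, map_add, Polynomial.eval_add, ha, hb]
  | mul_X a l ha =>
    rw [map_mul, map_mul, Polynomial.eval_mul, ha]
    simp [pjLine, mul_comm t]

theorem pjLine_deriv (z p : σ → ℂ) (t : ℂ) (G : MvPolynomial σ ℂ) :
    (Polynomial.derivative (pjLine z p G)).eval t
      = ∑ l, eval (p + t • z) (pderiv l G) * z l := by
  induction G using MvPolynomial.induction_on with
  | C c => simp [pjLine]
  | add a b ha hb =>
    rw [map_add, map_add, Polynomial.eval_add, ha, hb, ← Finset.sum_add_distrib]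
    exact Finset.sum_congr rfl fun l _ => by rw [map_add, map_add, add_mul]
  | mul_X a i ha =>
    have e : ∀ l, eval (p + t • z) (pderiv l (a * X i)) * z l
        = eval (p + t • z) (pderiv l a) * z l * (p + t • z) i
          + if i = l then eval (p + t • z) a * z l else 0 := fun l => by
      rw [Derivation.leibniz, pderiv_X]
      by_cases h : i = l
      · subst h
        simp only [Pi.single_eq_same, smul_eq_mul, mul_one, map_add, map_mul, eval_X, if_true]
        ring
      · simp only [Pi.single_eq_of_ne h, smul_eq_mul, mul_zero, map_mul, eval_X, if_neg h,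
          zero_add, add_zero]
        ring
    rw [Finset.sum_congr rfl fun l _ => e l, Finset.sum_add_distrib, ← Finset.sum_mul, ← ha,
      Finset.sum_ite_eq, if_pos (Finset.mem_univ _), map_mul, Polynomial.derivative_mul,
      Polynomial.eval_add, Polynomial.eval_mul, Polynomial.eval_mul, pjLine_eval, pjLine_eval]
    simp [pjLine]

omit [Fintype σ] in
theorem pjLine_coeff (z : σ → ℂ) (n : ℕ) (G : MvPolynomial σ ℂ) :
    (pjLine z 0 G).coeff n = eval z (homogeneousComponent n G) := by
  induction G using MvPolynomial.induction_on' with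
  | add a b ha hb => rw [map_add, map_add, map_add, Polynomial.coeff_add, ha, hb]
  | monomial α c =>
    have e : pjLine z 0 (monomial α c)
        = Polynomial.C (eval z (monomial α c)) * Polynomial.X ^ α.degree := by
      rw [pjLine, aeval_monomial, eval_monomial, Finsupp.prod, Finsupp.prod, Finsupp.degree_apply]
      simp [mul_pow, Finset.prod_mul_distrib, Finset.prod_pow_eq_pow_sum, mul_assoc]
    rw [e, Polynomial.coeff_C_mul_X_pow,
      homogeneousComponent_of_mem ((mem_homogeneousSubmodule _ _).2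
        (isHomogeneous_monomial c rfl))]
    split_ifs <;> simp

omit [Fintype σ] in
theorem pjFil_hat (z : σ → ℂ) {G : MvPolynomial σ ℂ} {d : ℕ} (h : G.totalDegree ≤ d) :
    PjFil d (pjHat z G) := by
  have e : ∀ G : MvPolynomial σ ℂ, (optionEquivLeft ℂ σ).symm (pjHat z G)
      = aeval (fun l => X (some l) + C (z l) * X none) G := fun G => by
    induction G using MvPolynomial.induction_on with
    | C c => simp [pjHat]
    | add a b ha hb => rw [map_add, map_add, map_add, ha, hb]
    | mul_X a l ha =>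
      rw [map_mul, map_mul, map_mul, ha]
      simp [pjHat]
  rw [PjFil, e]
  refine (projB_aeval_le _ (fun l => ?_) G).trans h
  refine (totalDegree_add _ _).trans (max_le (totalDegree_X _).le ?_)
  refine (totalDegree_mul _ _).trans ?_
  rw [totalDegree_C, totalDegree_X]

omit [Fintype σ] in
theorem PjFil.mul {a b : ℕ} {p q : Polynomial (MvPolynomial σ ℂ)} (hp : PjFil a p)
    (hq : PjFil b q) : PjFil (a + b) (p * q) := by
  rw [PjFil, map_mul]
  exact (totalDegree_mul _ _).trans (add_le_add hp hq)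

omit [Fintype σ] in
theorem PjFil.sub {a : ℕ} {p q : Polynomial (MvPolynomial σ ℂ)} (hp : PjFil a p)
    (hq : PjFil a q) : PjFil a (p - q) := by
  rw [PjFil, map_sub]
  exact (totalDegree_sub _ _).trans (max_le hp hq)

omit [Fintype σ] in
theorem PjFil.mono {a b : ℕ} {p : Polynomial (MvPolynomial σ ℂ)} (hp : PjFil a p) (h : a ≤ b) :
    PjFil b p := le_trans hp h

omit [Fintype σ] in
theorem pjFil_C (c : MvPolynomial σ ℂ) : PjFil c.totalDegree (Polynomial.C c) := by
  have e : ∀ c : MvPolynomial σ ℂ,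
      (optionEquivLeft ℂ σ).symm (Polynomial.C c) = rename some c := fun c => by
    induction c using MvPolynomial.induction_on with
    | C c => simp
    | add a b ha hb => rw [map_add, map_add, map_add, ha, hb]
    | mul_X a l ha =>
      rw [map_mul, map_mul, map_mul, ha]
      simp
  rw [PjFil, e]
  exact totalDegree_rename_le _ _

omit [Fintype σ] in
theorem pjFil_X_pow (n : ℕ) : PjFil n (Polynomial.X ^ n : Polynomial (MvPolynomial σ ℂ)) := by
  rw [PjFil, map_pow, optionEquivLeft_symm_X]
  exact (totalDegree_X_pow _ _).le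

omit [Fintype σ] in
theorem PjFil.natDegree_le {a : ℕ} {p : Polynomial (MvPolynomial σ ℂ)} (hp : PjFil a p) :
    p.natDegree ≤ a := by
  have h := natDegree_optionEquivLeft ℂ ((optionEquivLeft ℂ σ).symm p)
  rw [AlgEquiv.apply_symm_apply] at h
  rw [h]
  exact (degreeOf_le_totalDegree _ _).trans hp

omit [Fintype σ] in
theorem PjFil.coeff_le {a : ℕ} {p : Polynomial (MvPolynomial σ ℂ)} (hp : PjFil a p) (i : ℕ) :
    (p.coeff i).totalDegree ≤ a - i := by
  by_cases h0 : p.coeff i = 0
  · simp [h0]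
  have h1 := natDegree_optionEquivLeft ℂ ((optionEquivLeft ℂ σ).symm p)
  rw [AlgEquiv.apply_symm_apply] at h1
  have h2 := totalDegree_coeff_optionEquivLeft_add_le ℂ σ ((optionEquivLeft ℂ σ).symm p) i
    ((Polynomial.le_natDegree_of_ne_zero h0).trans (h1.le.trans (degreeOf_le_totalDegree _ _)))
  rw [AlgEquiv.apply_symm_apply] at h2
  have h3 : ((optionEquivLeft ℂ σ).symm p).totalDegree ≤ a := hp
  omega

omit [Fintype σ] in
theorem pj_reduce {e d : ℕ} {m : Polynomial (MvPolynomial σ ℂ)} (hm : m.Monic)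
    (he : m.natDegree = e) (hf : PjFil e m) (n : ℕ) :
    ∀ p : Polynomial (MvPolynomial σ ℂ), p.natDegree ≤ n → PjFil d p →
      ∃ r, PjFil d r ∧ r.degree < e ∧ m ∣ p - r := by
  induction n using Nat.strong_induction_on with
  | _ n ih =>
    intro p hn hp
    by_cases h1 : p.degree < e
    · exact ⟨p, hp, h1, by simp⟩
    have h2 : e ≤ p.natDegree := Polynomial.le_natDegree_of_coe_le_degree (not_lt.1 h1)
    have h0 : p ≠ 0 := by
      rintro rfl
      exact h1 (by simp)
    have h3 := hp.natDegree_le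
    have h4 := hp.coeff_le p.natDegree
    have h5 : PjFil d (Polynomial.C p.leadingCoeff * Polynomial.X ^ (p.natDegree - e) * m) :=
      (((pjFil_C _).mul (pjFil_X_pow _)).mul hf).mono (by
        rw [Polynomial.leadingCoeff]; omega)
    have hl : p.leadingCoeff ≠ 0 := Polynomial.leadingCoeff_ne_zero.2 h0
    have h6 : (p - Polynomial.C p.leadingCoeff * Polynomial.X ^ (p.natDegree - e) * m).degree
        < p.degree := by
      refine Polynomial.degree_sub_lt_left ?_ h0 ?_
      · rw [hm.degree_mul, Polynomial.degree_C_mul_X_pow _ hl, Polynomial.degree_eq_natDegree h0,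
          Polynomial.degree_eq_natDegree hm.ne_zero, he, ← Nat.cast_add, Nat.sub_add_cancel h2]
      · rw [Polynomial.leadingCoeff_mul_monic hm, Polynomial.leadingCoeff_C_mul_X_pow]
    by_cases h7 : p - Polynomial.C p.leadingCoeff * Polynomial.X ^ (p.natDegree - e) * m = 0
    · refine ⟨0, by simp [PjFil], by simp, ?_⟩
      rw [sub_zero, sub_eq_zero.1 h7]
      exact Dvd.intro_left _ rfl
    obtain ⟨r, hr1, hr2, hr3⟩ := ih _
      ((Polynomial.natDegree_lt_natDegree h7 h6).trans_le hn) _ le_rfl (hp.sub h5)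
    refine ⟨r, hr1, hr2, ?_⟩
    have e1 : p - r = (p - Polynomial.C p.leadingCoeff * Polynomial.X ^ (p.natDegree - e) * m - r)
        + Polynomial.C p.leadingCoeff * Polynomial.X ^ (p.natDegree - e) * m := by ring
    rw [e1]
    exact dvd_add hr3 (Dvd.intro_left _ rfl)

omit [Fintype σ] in
/-- Reduction modulo `h` along the generic line. -/
theorem pj_exists_red {h : MvPolynomial σ ℂ} {z : σ → ℂ}
    (hz : eval z (homogeneousComponent h.totalDegree h) ≠ 0) :
    (∀ q, (pjLine z q h).degree = h.totalDegree) ∧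
    ∀ (d : ℕ) (p : Polynomial (MvPolynomial σ ℂ)), PjFil d p →
      ∃ r : Polynomial (MvPolynomial σ ℂ), (∀ i, (r.coeff i).totalDegree ≤ d) ∧
        ∀ q, (r.map (eval q)).degree < h.totalDegree ∧
          pjLine z q h ∣ p.map (eval q) - r.map (eval q) := by
  set lam := eval z (homogeneousComponent h.totalDegree h) with hlam
  have hf : PjFil h.totalDegree (pjHat z h) := pjFil_hat z le_rfl
  have h1 : (pjHat z h).coeff h.totalDegree = C lam := by
    have h2 := hf.coeff_le h.totalDegree
    rw [Nat.sub_self, Nat.le_zero, totalDegree_eq_zero_iff_eq_C] at h2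
    have h3 := congrArg (fun p => p.coeff h.totalDegree) (pjHat_map z 0 h)
    simp only [Polynomial.coeff_map] at h3
    rw [pjLine_coeff, h2, eval_C] at h3
    rw [h2, h3]
  have hm : (Polynomial.C (C lam⁻¹) * pjHat z h).Monic :=
    Polynomial.monic_of_natDegree_le_of_coeff_eq_one h.totalDegree
      ((Polynomial.natDegree_C_mul_le _ _).trans hf.natDegree_le) (by
        rw [Polynomial.coeff_C_mul, h1, ← map_mul, inv_mul_cancel₀ hz, map_one])
  have hd : (Polynomial.C (C lam⁻¹) * pjHat z h).natDegree = h.totalDegree :=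
    Polynomial.natDegree_eq_of_le_of_coeff_ne_zero
      ((Polynomial.natDegree_C_mul_le _ _).trans hf.natDegree_le) (by
        rw [Polynomial.coeff_C_mul, h1, ← map_mul, inv_mul_cancel₀ hz, map_one]
        exact one_ne_zero)
  refine ⟨fun q => ?_, fun d p hp => ?_⟩
  · rw [← pjHat_map]
    refine Polynomial.degree_eq_of_le_of_coeff_ne_zero
      (Polynomial.degree_map_le.trans (Polynomial.degree_le_of_natDegree_le hf.natDegree_le)) ?_
    rw [Polynomial.coeff_map, h1, eval_C]
    exact hz
  · obtain ⟨r, hr1, hr2, hr3⟩ := pj_reduce (d := d) hm hd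
      (((pjFil_C _).mul hf).mono (by rw [totalDegree_C, zero_add])) _ p le_rfl hp
    refine ⟨r, fun i => (hr1.coeff_le i).trans (Nat.sub_le _ _),
      fun q => ⟨Polynomial.degree_map_le.trans_lt hr2, ?_⟩⟩
    rw [← Polynomial.map_sub, ← pjHat_map]
    exact Polynomial.map_dvd _ ((Dvd.intro_left _ rfl).trans hr3)

theorem pj_det_zero {e : ℕ} (h1 : 1 ≤ e) (r : Fin e → Polynomial ℂ) (hr : ∀ j, (r j).degree < e)
    (t : ℂ) (ht : ∀ j, (r j).eval t = 0) :
    (Matrix.of fun i j : Fin e => (r j).coeff i).det = 0 := by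
  rw [← Matrix.exists_vecMul_eq_zero_iff]
  refine ⟨fun i => t ^ (i : ℕ), fun h => ?_, funext fun j => ?_⟩
  · simpa using congrFun h ⟨0, h1⟩
  · have h2 := ht j
    rw [Polynomial.eval_eq_sum_range' (n := e), Finset.sum_range] at h2
    · rw [Pi.zero_apply, ← h2, Matrix.vecMul, dotProduct]
      exact Finset.sum_congr rfl fun i _ => mul_comm _ _
    · by_cases h0 : r j = 0
      · rw [h0, Polynomial.natDegree_zero]; exact h1
      · exact (Polynomial.natDegree_lt_iff_degree_lt h0).2 (hr j)

theorem pj_det_ne {e : ℕ} (r : Fin e → Polynomial ℂ) (hr : ∀ j, (r j).degree < e)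
    (h : ∀ v : Fin e → ℂ, ∑ j, Polynomial.C (v j) * r j = 0 → v = 0) :
    (Matrix.of fun i j : Fin e => (r j).coeff i).det ≠ 0 := by
  intro h0
  obtain ⟨v, hv, h1⟩ := Matrix.exists_mulVec_eq_zero_iff.2 h0
  refine hv (h v (Polynomial.ext fun i => ?_))
  rw [Polynomial.finsetSum_coeff, Polynomial.coeff_zero]
  by_cases hi : i < e
  · have h2 := congrFun h1 ⟨i, hi⟩
    rw [Pi.zero_apply] at h2
    rw [← h2]
    exact Finset.sum_congr rfl fun j _ => by
      rw [Polynomial.coeff_C_mul, mul_comm]; rfl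
  · refine Finset.sum_eq_zero fun j _ => ?_
    rw [Polynomial.coeff_C_mul, Polynomial.coeff_eq_zero_of_degree_lt
      ((hr j).trans_le (Nat.cast_le.2 (not_lt.1 hi))), mul_zero]

omit [Fintype σ] in
theorem pj_det_deg {e : ℕ} (r : Fin e → Polynomial (MvPolynomial σ ℂ)) (d : Fin e → ℕ)
    (h : ∀ j i, ((r j).coeff i).totalDegree ≤ d j) :
    (Matrix.of fun i j : Fin e => (r j).coeff i).det.totalDegree ≤ ∑ j, d j := by
  rw [Matrix.det_apply']
  refine totalDegree_finsetSum_le fun π _ => (totalDegree_mul _ _).trans ?_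
  rw [← map_intCast (C : ℂ →+* MvPolynomial σ ℂ), totalDegree_C, zero_add]
  exact (totalDegree_finsetProd _ _).trans (Finset.sum_le_sum fun j _ => h j _)

omit [Fintype σ] in
theorem pj_det_eval {e : ℕ} (r : Fin e → Polynomial (MvPolynomial σ ℂ)) (q : σ → ℂ) :
    eval q (Matrix.of fun i j : Fin e => (r j).coeff i).det
      = (Matrix.of fun i j : Fin e => ((r j).map (eval q)).coeff i).det := by
  rw [RingHom.map_det]
  congr 1
  ext i j
  simp [Polynomial.coeff_map]

theorem pj_comb {e n : ℕ} (v : Fin e → ℂ) (hv : ∀ j : Fin e, n ≤ j → v j = 0)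
    {V : Polynomial ℂ} (hV : V.degree = n)
    (hd : V ∣ ∑ j, Polynomial.C (v j) * Polynomial.X ^ (j : ℕ)) : v = 0 := by
  have h1 : (∑ j, Polynomial.C (v j) * Polynomial.X ^ (j : ℕ)).degree < V.degree := by
    rw [hV, Polynomial.degree_lt_iff_coeff_zero]
    intro m hm
    rw [Polynomial.finsetSum_coeff]
    refine Finset.sum_eq_zero fun j _ => ?_
    rw [Polynomial.coeff_C_mul_X_pow]
    split_ifs with h
    · exact hv j (h ▸ hm)
    · rfl
  have h2 := Polynomial.eq_zero_of_dvd_of_degree_lt hd h1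
  funext j
  have h3 := congrArg (fun p => p.coeff j) h2
  simp only [Polynomial.finsetSum_coeff, Polynomial.coeff_C_mul_X_pow, Fin.val_inj,
    Finset.sum_ite_eq, Finset.mem_univ, if_true, Polynomial.coeff_zero] at h3
  exact h3

omit [Fintype σ] in
/-- Projection along `z`. -/
theorem pj_proj {h : MvPolynomial σ ℂ} {z : σ → ℂ} (h1 : 1 ≤ h.totalDegree)
    (hz : eval z (homogeneousComponent h.totalDegree h) ≠ 0) :
    ∃ (π : σ → MvPolynomial σ ℂ) (τ : (σ → ℂ) → ℂ) (P : (σ → ℂ) → σ → ℂ),
      (∀ c : MvPolynomial σ ℂ, (aeval π c).totalDegree ≤ c.totalDegree ∧ Inv z (aeval π c) ∧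
        ∀ q, eval q (aeval π c) = eval (P q) c) ∧ ∀ q, P q + τ q • z = q := by
  obtain ⟨i₀, hi⟩ : ∃ i, z i ≠ 0 := by
    by_contra hc
    push Not at hc
    refine hz ?_
    rw [← pjLine_coeff]
    have e : pjLine z 0 h = Polynomial.C (eval 0 h) := by
      refine Polynomial.funext fun t => ?_
      rw [pjLine_eval, Polynomial.eval_C, show z = 0 from funext hc, smul_zero, add_zero]
    rw [e, Polynomial.coeff_C, if_neg (by omega)]
  have he : ∀ (c : MvPolynomial σ ℂ) (q : σ → ℂ),
      eval q (aeval (fun l => X l - C (z l / z i₀) * X i₀) c)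
        = eval (fun l => q l - z l / z i₀ * q i₀) c := fun c q => by
    induction c using MvPolynomial.induction_on with
    | C c => simp
    | add a b ha hb => rw [map_add, map_add, map_add, ha, hb]
    | mul_X a l ha =>
      rw [map_mul, map_mul, map_mul, ha]
      simp
  refine ⟨fun l => X l - C (z l / z i₀) * X i₀, fun q => q i₀ / z i₀,
    fun q l => q l - z l / z i₀ * q i₀, fun c => ⟨projB_aeval_le _ (fun l => ?_) c, fun a t => ?_,
      he c⟩, fun q => funext fun l => ?_⟩
  · refine (totalDegree_sub _ _).trans (max_le (totalDegree_X _).le ?_)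
    refine (totalDegree_mul _ _).trans ?_
    rw [totalDegree_C, totalDegree_X]
  · rw [he, he]
    congr 2
    funext l
    simp only [Pi.add_apply, Pi.smul_apply, smul_eq_mul]
    field_simp
    ring
  · simp only [Pi.add_apply, Pi.smul_apply, smul_eq_mul]
    field_simp
    ring

omit [Fintype σ] in
theorem pj_cols {h g : MvPolynomial σ ℂ} {z : σ → ℂ}
    (hz : eval z (homogeneousComponent h.totalDegree h) ≠ 0) {D : ℕ} (hD : g.totalDegree ≤ D) :
    ∃ r : Fin h.totalDegree → Polynomial (MvPolynomial σ ℂ),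
      (∀ j i, ((r j).coeff i).totalDegree ≤ D + h.totalDegree) ∧
        ∀ q j, ((r j).map (eval q)).degree < h.totalDegree ∧
          pjLine z q h ∣ Polynomial.X ^ (j : ℕ) * pjLine z q g - (r j).map (eval q) := by
  have h2 := fun j : Fin h.totalDegree => (pj_exists_red hz).2 (D + h.totalDegree)
    (Polynomial.X ^ (j : ℕ) * pjHat z g)
    (((pjFil_X_pow _).mul (pjFil_hat z hD)).mono (by have := j.2; omega))
  choose r hr1 hr2 using h2
  refine ⟨r, hr1, fun q j => ⟨(hr2 j q).1, ?_⟩⟩
  have h3 := (hr2 j q).2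
  rwa [Polynomial.map_mul, Polynomial.map_pow, Polynomial.map_X, pjHat_map] at h3

theorem pj_root {a b r : Polynomial ℂ} (h : a ∣ b - r) {t : ℂ} (ha : a.eval t = 0) :
    r.eval t = b.eval t := by
  obtain ⟨c, hc⟩ := h
  have h1 := congrArg (Polynomial.eval t) hc
  rw [Polynomial.eval_sub, Polynomial.eval_mul, ha, zero_mul, sub_eq_zero] at h1
  exact h1.symm

theorem pj_dvd {e : ℕ} {a g : Polynomial ℂ} (v : Fin e → ℂ) (r : Fin e → Polynomial ℂ)
    (hr : ∀ j, v j ≠ 0 → a ∣ Polynomial.X ^ (j : ℕ) * g - r j)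
    (h : ∑ j, Polynomial.C (v j) * r j = 0) :
    a ∣ (∑ j, Polynomial.C (v j) * Polynomial.X ^ (j : ℕ)) * g := by
  rw [← sub_zero (_ * g), ← h, Finset.sum_mul, ← Finset.sum_sub_distrib]
  refine Finset.dvd_sum fun j _ => ?_
  by_cases h0 : v j = 0
  · simp [h0]
  · rw [mul_assoc, ← mul_sub]
    exact (hr j h0).mul_left _

theorem exists_res {h g : MvPolynomial σ ℂ} {z : σ → ℂ} (h1 : 1 ≤ h.totalDegree)
    (hz : eval z (homogeneousComponent h.totalDegree h) ≠ 0) {D : ℕ} (hD : g.totalDegree ≤ D) :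
    ∃ c : MvPolynomial σ ℂ, c.totalDegree ≤ h.totalDegree * (D + h.totalDegree) ∧ Inv z c ∧
      ∀ q : σ → ℂ, eval q c = 0 ↔ ∃ t : ℂ, eval (q + t • z) h = 0 ∧ eval (q + t • z) g = 0 := by
  obtain ⟨π, τ, P, hπ, hP⟩ := pj_proj h1 hz
  obtain ⟨r, hr1, hr2⟩ := pj_cols hz hD
  have key : ∀ q, eval q (Matrix.of fun i j : Fin h.totalDegree => (r j).coeff i).det = 0 ↔
      ∃ t : ℂ, eval (q + t • z) h = 0 ∧ eval (q + t • z) g = 0 := fun q => by
    rw [pj_det_eval]
    constructor
    · intro h0
      by_contra hc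
      refine pj_det_ne _ (fun j => (hr2 q j).1) (fun v hv => ?_) h0
      have hco : IsCoprime (pjLine z q h) (pjLine z q g) := by
        rw [Polynomial.isCoprime_iff_aeval_ne_zero_of_isAlgClosed ℂ ℂ]
        intro t
        rw [Polynomial.coe_aeval_eq_eval, pjLine_eval, pjLine_eval]
        exact not_and_or.1 fun h => hc ⟨t, h⟩
      exact pj_comb v (fun j hj => absurd j.2 (not_lt.2 hj)) ((pj_exists_red hz).1 q)
        (hco.dvd_of_dvd_mul_right (pj_dvd v _ (fun j _ => (hr2 q j).2) hv))
    · rintro ⟨t, ht1, ht2⟩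
      refine pj_det_zero h1 _ (fun j => (hr2 q j).1) t fun j => ?_
      rw [pj_root (hr2 q j).2 (by rwa [pjLine_eval]), Polynomial.eval_mul, pjLine_eval, ht2,
        mul_zero]
  refine ⟨aeval π (Matrix.of fun i j : Fin h.totalDegree => (r j).coeff i).det,
    (hπ _).1.trans ((pj_det_deg r _ hr1).trans (by simp)), (hπ _).2.1, fun q => ?_⟩
  rw [(hπ _).2.2, key]
  constructor
  · rintro ⟨t, ht⟩
    have e : q + (t - τ q) • z = P q + t • z := by
      conv_lhs => rw [← hP q]
      rw [hP q, sub_smul]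
      nth_rewrite 1 [← hP q]
      abel
    exact ⟨t - τ q, by rwa [e]⟩
  · rintro ⟨t, ht⟩
    have e : P q + (τ q + t) • z = q + t • z := by rw [add_smul, ← add_assoc, hP]
    exact ⟨τ q + t, by rwa [e]⟩

theorem exists_subres {h g s : MvPolynomial σ ℂ} {z : σ → ℂ} (h1 : 1 ≤ h.totalDegree)
    (hz : eval z (homogeneousComponent h.totalDegree h) ≠ 0) {D M : ℕ} (hD : g.totalDegree ≤ D)
    (hM : s.totalDegree ≤ M) {q₀ : σ → ℂ} (hh : eval q₀ h = 0) (hg : eval q₀ g = 0)
    (hs : eval q₀ s ≠ 0) (hd : ∑ l, eval q₀ (pderiv l h) * z l ≠ 0)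
    (ho : ∀ t : ℂ, eval (q₀ + t • z) h = 0 → eval (q₀ + t • z) g = 0 → t = 0) :
    ∃ c : MvPolynomial σ ℂ, c.totalDegree ≤ M + h.totalDegree * (D + h.totalDegree) ∧ Inv z c ∧
      eval q₀ c ≠ 0 ∧ ∀ q : σ → ℂ, eval q h = 0 → eval q g = 0 → eval q s = 0 → eval q c = 0 := by
  obtain ⟨π, τ, P, hπ, hP⟩ := pj_proj h1 hz
  obtain ⟨r, hr1, hr2⟩ := pj_cols hz hD
  obtain ⟨u, hu1, hu2⟩ := (pj_exists_red hz).2 M (pjHat z s) (pjFil_hat z hM)
  simp only [pjHat_map] at hu2
  set j₀ : Fin h.totalDegree := ⟨h.totalDegree - 1, by omega⟩ with hj₀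
  have hdeg : ∀ q j, ((Function.update r j₀ u j).map (eval q)).degree < h.totalDegree :=
    fun q j => by
      by_cases hj : j = j₀
      · rw [hj, Function.update_self]; exact (hu2 q).1
      · rw [Function.update_of_ne hj]; exact (hr2 q j).1
  have hrt : ∀ q, eval q h = 0 → eval q g = 0 → ∀ j,
      ((Function.update r j₀ u j).map (eval (P q))).eval (τ q)
        = if j = j₀ then eval q s else 0 := fun q hq1 hq2 j => by
    have h0 : (pjLine z (P q) h).eval (τ q) = 0 := by rw [pjLine_eval, hP, hq1]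
    split_ifs with hj
    · rw [hj, Function.update_self, pj_root (hu2 _).2 h0, pjLine_eval, hP]
    · rw [Function.update_of_ne hj, pj_root (hr2 _ j).2 h0, Polynomial.eval_mul, pjLine_eval, hP,
        hq2, mul_zero]
  refine ⟨aeval π (Matrix.of fun i j : Fin h.totalDegree =>
    (Function.update r j₀ u j).coeff i).det, (hπ _).1.trans ((pj_det_deg _
      (fun j => (if j = j₀ then M else 0) + (D + h.totalDegree)) fun j i => ?_).trans ?_),
    (hπ _).2.1, ?_, fun q hq1 hq2 hq3 => ?_⟩
  · split_ifs with hj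
    · rw [hj, Function.update_self]; exact (hu1 i).trans (Nat.le_add_right _ _)
    · rw [Function.update_of_ne hj, zero_add]; exact hr1 j i
  · simp [Finset.sum_add_distrib]
  · rw [(hπ _).2.2, pj_det_eval]
    refine pj_det_ne _ (hdeg _) fun v hv => ?_
    have h2 := congrArg (Polynomial.eval (τ q₀)) hv
    simp only [Polynomial.eval_finsetSum, Polynomial.eval_mul, Polynomial.eval_C, hrt q₀ hh hg,
      mul_ite, mul_zero, Finset.sum_ite_eq', Finset.mem_univ, if_true, Polynomial.eval_zero] at h2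
    have h3 : v j₀ = 0 := (mul_eq_zero.1 h2).resolve_right hs
    have h4 := pj_dvd (a := pjLine z (P q₀) h) (g := pjLine z (P q₀) g) v _ (fun j hj => by
      have hj' : j ≠ j₀ := fun e => hj (e ▸ h3)
      rw [Function.update_of_ne hj']
      exact (hr2 _ j).2) hv
    obtain ⟨V, hV⟩ : Polynomial.X - Polynomial.C (τ q₀) ∣ pjLine z (P q₀) h :=
      Polynomial.dvd_iff_isRoot.2 (by rw [Polynomial.IsRoot, pjLine_eval, hP, hh])
    obtain ⟨W, hW⟩ : Polynomial.X - Polynomial.C (τ q₀) ∣ pjLine z (P q₀) g :=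
      Polynomial.dvd_iff_isRoot.2 (by rw [Polynomial.IsRoot, pjLine_eval, hP, hg])
    have h5 : V.eval (τ q₀) ≠ 0 := by
      have h6 := pjLine_deriv z (P q₀) (τ q₀) h
      rw [hP, hV] at h6
      rw [← h6] at hd
      simpa using hd
    have hco : IsCoprime V W := by
      rw [Polynomial.isCoprime_iff_aeval_ne_zero_of_isAlgClosed ℂ ℂ]
      intro t
      rw [Polynomial.coe_aeval_eq_eval]
      refine not_and_or.1 fun hc => h5 ?_
      have e : q₀ + (t - τ q₀) • z = P q₀ + t • z := by
        rw [sub_smul]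
        nth_rewrite 1 [← hP q₀]
        abel
      have h7 := ho (t - τ q₀)
        (by rw [e, ← pjLine_eval, hV, Polynomial.eval_mul, hc.1, mul_zero])
        (by rw [e, ← pjLine_eval, hW, Polynomial.eval_mul, hc.2, mul_zero])
      rw [← sub_eq_zero.1 h7]
      exact hc.1
    have h8 : V.degree = (h.totalDegree - 1 : ℕ) := by
      have hV0 : V ≠ 0 := fun e => h5 (by rw [e, Polynomial.eval_zero])
      have h9 := (pj_exists_red hz).1 (P q₀)
      rw [hV, Polynomial.degree_mul, Polynomial.degree_X_sub_C,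
        Polynomial.degree_eq_natDegree hV0] at h9
      have h10 : 1 + V.natDegree = h.totalDegree := by exact_mod_cast h9
      rw [Polynomial.degree_eq_natDegree hV0, ← h10, Nat.add_sub_cancel_left]
    refine pj_comb v (fun j hj => ?_) h8 (hco.dvd_of_dvd_mul_right ?_)
    · have e : j = j₀ := Fin.ext (by have := j.2; simp only [hj₀]; omega)
      rw [e, h3]
    · rw [hV, hW, mul_left_comm] at h4
      exact (mul_dvd_mul_iff_left (Polynomial.X_sub_C_ne_zero _)).1 h4
  · rw [(hπ _).2.2, pj_det_eval]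
    refine pj_det_zero h1 _ (hdeg _) (τ q) fun j => ?_
    rw [hrt q hq1 hq2, hq3, ite_self]

end Vale.Agent.P054A
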