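import Vale.Agent.P054A.TrC

/-!
Trees: birth of a new level.
-/

namespace Vale.Agent.P054A

open MvPolynomial
open scoped Classical

theorem TrD_pre_update {α : Type} (φ : ℕ → α) {c i : ℕ} (hi : i ≤ c) (x : α) :
    pre (Function.update φ c x) i = pre φ i :=
  funext fun k => Function.update_of_ne (by have := k.2; omega) _ _

theorem TrD_lev_update {ι σ : Type} (f : ι → ℕ → MvPolynomial σ ℂ) (π : ι → σ → ℂ) {c i : ℕ}
    (hi : i ≤ c) (g : ι → MvPolynomial σ ℂ) :
    lev (fun e => Function.update (f e) c (g e)) π i = lev f π i :=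
  funext fun e => by rw [lev, lev, TrD_pre_update _ hi]

/-- The degrees of the nodes of the last level against those of the previous level. -/
theorem TrD_children {ι R σ : Type} [Fintype σ] {F G : Finset ι} {r : ι → R} {π : ι → σ → ℂ}
    {c s v : ℕ} {J : ℕ → σ} {f : ι → ℕ → MvPolynomial σ ℂ} (h : Chain F r π (c + 1) J f)
    (hG : G ⊆ F) (h1 : 1 ≤ s) (hs : ∀ e ∈ F, ∀ i < c + 1, (f e i).totalDegree ≤ s)
    (hv : v + (c + 1) = Fintype.card σ) (hn : ∀ e ∈ F, f e c ∉ lev f π c e) :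
    sdg v G r (lev f π (c + 1)) ≤ (3 * v + 3) ^ (3 * v + 3) * s * sdg (v + 1) G r (lev f π c) := by
  refine (sdg_le_sum v G r _ fun e => (r e, lev f π c e)).trans ?_
  rw [sdg, Finset.mul_sum]
  refine (Finset.sum_le_sum (g := fun z : R × Ideal (MvPolynomial σ ℂ) =>
    (3 * v + 3) ^ (3 * v + 3) * s * dg (v + 1) z.2) fun z hz => ?_).trans
    (Finset.sum_le_sum_of_subset fun z hz => by simpa only [Finset.mem_image] using hz)
  obtain ⟨e₀, he₀, rfl⟩ : ∃ e₀ ∈ G, (r e₀, lev f π c e₀) = z := by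
    simpa only [Finset.mem_image] using hz
  obtain ⟨G₀, hG₀, hm⟩ : ∃ G₀ : Finset ι, sdg v (@Finset.filter _
      (fun e => (r e, lev f π c e) = (r e₀, lev f π c e₀)) (fun _ => Classical.propDecidable _) G)
      r (lev f π (c + 1)) = sdg v G₀ r (lev f π (c + 1)) ∧
      ∀ e ∈ G₀, e ∈ F ∧ r e = r e₀ ∧ lev f π c e = lev f π c e₀ := by
    refine ⟨_, rfl, fun e he => ?_⟩
    simp only [Finset.mem_filter, Prod.mk.injEq] at he
    exact ⟨hG he.1, he.2⟩
  rw [hG₀]
  have hpre : ∀ e ∈ G₀, pre (f e) (c + 1) = pre (f e₀) (c + 1) := fun e he => by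
    obtain ⟨a1, a2, a3⟩ := hm e he
    have a4 := (h.eq_of_lev a1 (hG he₀) a2 (Nat.le_succ c) a3).1
    exact funext fun i => h.cons e a1 e₀ (hG he₀) a2 i i.2 (a4 i (Nat.lt_succ_iff.1 i.2))
  have hc := h.isComp (hG he₀) (Nat.le_succ c)
  have key := sum_dg_children (f := pre (f e₀) (c + 1)) (J := pre J (c + 1)) h1
    (fun i => hs e₀ (hG he₀) i i.2) (G₀.image π) (fun p hp => by
      obtain ⟨e, he, rfl⟩ := Finset.mem_image.1 hp
      rw [← hpre e he]
      exact h.simple e (hm e he).1 _ le_rfl) (v := v) (by rw [Fintype.card_fin, hv]) hc.prime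
    (a := dg (v + 1) (lev f π c e₀)) (fun M => by
      have h2 := hc.H_le M
      rwa [show Fintype.card σ - c = v + 1 by omega] at h2) (Fin.last c) (hn e₀ (hG he₀))
    (fun p hp => by
      obtain ⟨e, he, rfl⟩ := Finset.mem_image.1 hp
      rw [← hpre e he, ← (hm e he).2.2]
      exact h.lev_mono (hm e he).1 (Nat.le_succ c) le_rfl)
  rw [mul_right_comm]
  refine le_trans ?_ key
  rw [sdg, ← Finset.sum_image (g := fun Q => (r e₀, Q))
    (f := fun z : R × Ideal (MvPolynomial σ ℂ) => dg v z.2) fun a _ b _ hab => (Prod.mk.inj hab).2]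
  refine Finset.sum_le_sum_of_subset fun z hz => ?_
  obtain ⟨e, he, rfl⟩ := Finset.mem_image.1 hz
  refine Finset.mem_image.2 ⟨_, Finset.mem_image.2 ⟨π e, Finset.mem_image_of_mem _ he, rfl⟩, ?_⟩
  rw [← hpre e he, (hm e he).2.1]
  rfl

variable {ι R σ : Type} [Fintype σ] {u : UF} {E : ℕ → Finset ι} {r : ℕ → ι → R}
  {π : ℕ → ι → σ → ℂ} {c cU : ℕ} {J : ℕ → σ} {f : ℕ → ι → ℕ → MvPolynomial σ ℂ} {μ θ : ℝ}

/-- A capture whose points are simple zeros of the extended system. -/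
theorem TS.exists_simple_cap (h : TS u E r π c J f cU μ θ)
    (hc : CapAt u E r π (fun n => lev (f n) (π n) c) μ) :
    ∃ (F : ℕ → Finset ι) (g : ℕ → ι → MvPolynomial σ ℂ) (M : ℕ → ℕ) (k : σ),
      u.LE (nr M) (pw μ) ∧ u.Full F E ∧
      u.ev fun n => Cap (F n) (r n) (π n) (lev (f n) (π n) c) (M n) (g n) ∧
        ∀ e ∈ F n, eval (π n e) (Dk (pre (f n e) c) (pre J c) k (g n e)) ≠ 0 := by
  haveI : Nonempty σ := Fintype.card_pos_iff.1 (lt_of_le_of_lt (Nat.zero_le c) (h.lt_card hc))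
  obtain ⟨F₀, g₀, M₀, hM₀, hF₀, hcap⟩ := hc
  obtain ⟨s, hs, hdeg⟩ := h.degV
  obtain ⟨D, hD⟩ : ∃ D : ℕ → ι → (σ → ℂ) → ℕ → MvPolynomial σ ℂ,
      ∀ n e lam i, D n e lam i = (Dl (pre (f n e) c) (pre J c) lam)^[i] (g₀ n e) :=
    ⟨_, fun _ _ _ _ => rfl⟩
  obtain ⟨a, ha⟩ : ∃ a : ℕ → ι → ℕ,
      ∀ n e, a n e = sInf {i | ∃ lam, eval (π n e) (D n e lam i) ≠ 0} := ⟨_, fun _ _ => rfl⟩
  have hlt : ∀ n e lam i, i < a n e → eval (π n e) (D n e lam i) = 0 := fun n e lam i hi => by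
    rw [ha] at hi
    by_contra h0
    exact Nat.notMem_of_lt_sInf hi ⟨lam, h0⟩
  have hat : u.ev fun n => ∀ e ∈ F₀ n, ∃ lam, eval (π n e) (D n e lam (a n e)) ≠ 0 := by
    refine ((hcap.and hF₀.1).and h.chain).mono fun n hn e he => ?_
    have h1 : g₀ n e ∉ locP (pre (f n e) c) (π n e) := hn.1.1.notin e he
    rw [mem_locP_iff (hn.2.simple e (hn.1.2 he) c le_rfl)] at h1
    push Not at h1
    obtain ⟨lam, i, hi⟩ := h1
    rw [ha]
    exact Nat.sInf_mem (s := {i | ∃ lam, eval (π n e) (D n e lam i) ≠ 0})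
      ⟨i, lam, by rwa [hD]⟩
  obtain ⟨B, hB, hF₁⟩ := hF₀.slow a fun κ hκ => by
    refine h.mult_small _ g₀ M₀ hM₀ ((hcap.and hF₀.1).mono fun n hn =>
      ⟨(Finset.filter_subset _ _).trans hn.2, hn.1.mono (Finset.filter_subset _ _) le_rfl⟩) hκ
      (u.ev_of_forall fun n e he lam i hi => ?_)
    rw [← hD]
    exact hlt n e lam i (by exact_mod_cast hi.trans_le (Finset.mem_filter.1 he).2)
  have h01 : u.ev fun _ => (0 : ℝ) ≤ 1 := u.ev_of_forall fun _ => zero_le_one
  obtain ⟨b, hF₂⟩ := hF₁.pigeon a ((hB.add (UF.LE.refl h01) h01).mono_left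
    (u.ev_of_forall fun n => by
      have h1 := Finset.card_le_card (s := @Finset.image _ _ (fun _ _ => Classical.propDecidable _)
        (a n) ((F₀ n).filter fun e => a n e ≤ B n)) (t := Finset.range (B n + 1)) fun i hi => by
          simp only [Finset.mem_image, Finset.mem_filter] at hi
          obtain ⟨e, he, rfl⟩ := hi
          exact Finset.mem_range.2 (Nat.lt_succ_of_le he.2)
      rw [Finset.card_range] at h1
      rw [nr]
      exact_mod_cast h1))
  obtain ⟨F₂, hF₂, hm₂⟩ : ∃ F₂ : ℕ → Finset ι, u.Full F₂ E ∧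
      ∀ n, ∀ e ∈ F₂ n, e ∈ F₀ n ∧ a n e ≤ B n ∧ a n e = b n := by
    refine ⟨_, hF₂, fun n e he => ?_⟩
    simp only [Finset.mem_filter] at he
    exact ⟨he.1.1, he.1.2, he.2⟩
  obtain ⟨lam, hlam⟩ := UF.ev.choose (P := fun n (lam : σ → ℂ) =>
      ∀ e ∈ F₂ n, eval (π n e) (D n e lam (b n)) ≠ 0) (hat.mono fun n hn => by
    choose P hP using fun e => Dl_poly (pre (f n e) c) (pre J c) (π n e) (b n) (g₀ n e)
    obtain ⟨lam, hl⟩ := exists_common_ne (F₂ n) P fun e he h0 => by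
      obtain ⟨lam, hl⟩ := hn e (hm₂ n e he).1
      rw [(hm₂ n e he).2.2, hD, hP, h0, map_zero] at hl
      exact hl rfl
    exact ⟨lam, fun e he => by rw [hD, hP]; exact hl e he⟩)
  have hpos : u.ev fun n => ∀ e ∈ F₂ n, 1 ≤ b n := by
    refine (hcap.and hlam).mono fun n hn e he => Nat.one_le_iff_ne_zero.2 fun h0 => ?_
    refine hn.2 e he ?_
    rw [h0, hD]
    exact hn.1.zero e (hm₂ n e he).1
  obtain ⟨col, hcol⟩ : ∃ col : ℕ → ι → σ, ∀ n e, (∃ k, eval (π n e)
      (Dk (pre (f n e) c) (pre J c) k (D n e (lam n) (b n - 1))) ≠ 0) →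
      eval (π n e) (Dk (pre (f n e) c) (pre J c) (col n e) (D n e (lam n) (b n - 1))) ≠ 0 :=
    ⟨fun n e => Classical.epsilon _, fun n e hk => Classical.epsilon_spec hk⟩
  obtain ⟨k, hF₃⟩ := hF₂.pigeon_fin col
  obtain ⟨F₃, hF₃, hm₃⟩ : ∃ F₃ : ℕ → Finset ι, u.Full F₃ E ∧
      ∀ n, ∀ e ∈ F₃ n, e ∈ F₂ n ∧ col n e = k := by
    refine ⟨_, hF₃, fun n e he => ?_⟩
    simpa only [Finset.mem_filter] using he
  refine ⟨F₃, fun n e => D n e (lam n) (b n - 1), fun n => M₀ n + B n * (c * s n), k, ?_, hF₃, ?_⟩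
  · have h1 := (hB.mul (hs.const_mul c (u.ev_of_forall (pw_nonneg μ))
      (u.ev_of_forall (nr_nonneg s))) (u.ev_of_forall (nr_nonneg B))
      (u.ev_of_forall fun n => mul_nonneg (Nat.cast_nonneg c) (nr_nonneg s n))).mono_right
      (b' := pw μ) (u.ev_of_forall fun n => (one_mul _).le)
    refine (hM₀.add h1 (u.ev_of_forall (pw_nonneg μ))).mono_left (u.ev_of_forall fun n => ?_)
    simp only [nr]
    push_cast
    exact le_rfl
  · refine ((((hcap.and hF₀.1).and h.chain).and hdeg).and (hlam.and hpos)).mono ?_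
    rintro n ⟨⟨⟨⟨a1, a2⟩, a3⟩, a4⟩, a5, a6⟩
    have hk : ∀ e ∈ F₃ n, eval (π n e)
        (Dk (pre (f n e) c) (pre J c) k (D n e (lam n) (b n - 1))) ≠ 0 := fun e he => by
      rw [← (hm₃ n e he).2]
      refine hcol n e ?_
      by_contra h0
      push Not at h0
      refine a5 e (hm₃ n e he).1 ?_
      rw [← Nat.sub_add_cancel (a6 e (hm₃ n e he).1), hD, Function.iterate_succ_apply', ← hD, Dl,
        map_sum]
      exact Finset.sum_eq_zero fun l _ => by rw [smul_eval, h0 l, mul_zero]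
    have h0 : ∀ e ∈ F₃ n, e ∈ F₀ n := fun e he => (hm₂ n e (hm₃ n e he).1).1
    refine ⟨⟨fun e he e' he' hr hl => ?_, fun e he hin => ?_, fun e he => ?_, fun e he => ?_⟩, hk⟩
    · have h1 : pre (f n e) c = pre (f n e') c := funext fun i =>
        (a3.eq_of_lev (a2 (h0 e he)) (a2 (h0 e' he')) hr le_rfl hl).2 i i.2
      simp only [hD]
      rw [h1, a1.cons e (h0 e he) e' (h0 e' he') hr hl]
    · exact hk e he (on_locP (a3.simple e (a2 (h0 e he)) c le_rfl).1 _
        (Dk_mem_locP _ _ _ _ hin))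
    · simp only [hD]
      refine (totalDegree_Dl_iter_le (f := pre (f n e) c) (s := s n)
        (fun i => a4 e (a2 (h0 e he)) i i.2) _ _ _ _).trans ?_
      rw [Fintype.card_fin]
      obtain ⟨-, b1, b2⟩ := hm₂ n e (hm₃ n e he).1
      exact add_le_add (a1.deg e (h0 e he)) (Nat.mul_le_mul_right _ (by omega))
    · obtain ⟨-, -, b2⟩ := hm₂ n e (hm₃ n e he).1
      have b3 := a6 e (hm₃ n e he).1
      exact hlt n e _ _ (by omega)

theorem TS.birth (h : TS u E r π c J f cU μ θ)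
    (hc : CapAt u E r π (fun n => lev (f n) (π n) c) μ) :
    ∃ (F : ℕ → Finset ι) (J' : ℕ → σ) (f' : ℕ → ι → ℕ → MvPolynomial σ ℂ),
      u.Full F E ∧ TS u F r π (c + 1) J' f' cU μ θ := by
  have hlt := h.lt_card hc
  obtain ⟨F, g, M, k, hM, hF, hcap⟩ := h.exists_simple_cap hc
  have h' := h.restrict hF
  have hU := h.le
  have hl : ∀ n i, i ≤ c → lev (fun e => Function.update (f n e) c (g n e)) (π n) i
      = lev (f n) (π n) i := fun n i hi => TrD_lev_update _ _ hi _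
  have hch : u.ev fun n => Chain (F n) (r n) (π n) (c + 1) (Function.update J c k)
      fun e => Function.update (f n e) c (g n e) := by
    refine (h'.chain.and hcap).mono fun n ⟨a1, a2, a3⟩ => ⟨fun e he i hi => ?_, ?_⟩
    · rcases Nat.lt_or_eq_of_le hi with hi | rfl
      · rw [TrD_pre_update _ (Nat.lt_succ_iff.1 hi), TrD_pre_update _ (Nat.lt_succ_iff.1 hi)]
        exact a1.simple e he i (Nat.lt_succ_iff.1 hi)
      · refine ⟨fun i => ?_, by rw [minor_snoc]; exact a3 e he⟩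
        rcases Nat.lt_or_eq_of_le (Nat.lt_succ_iff.1 i.2) with h1 | h1
        · rw [pre, Function.update_of_ne h1.ne]
          exact (a1.simple e he c le_rfl).1 ⟨i, h1⟩
        · rw [pre, h1, Function.update_self]
          exact a2.zero e he
    · intro e he e' he' hr i hi hlev
      rw [hl n i (Nat.lt_succ_iff.1 hi)] at hlev
      rcases Nat.lt_or_eq_of_le (Nat.lt_succ_iff.1 hi) with h1 | rfl
      · rw [Function.update_of_ne h1.ne, Function.update_of_ne h1.ne]
        exact a1.cons e he e' he' hr i h1 hlev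
      · rw [Function.update_self, Function.update_self]
        exact a2.cons e he e' he' hr hlev
  obtain ⟨s, hs, hdeg⟩ := h'.degV
  have hp := u.ev_of_forall (pw_nonneg μ)
  have hs' : u.LE (nr fun n => s n + M n + 1) (pw μ) := by
    refine (((hs.add hM hp).add (UF.LE.one_pw u h.mu0) hp)).mono_left (u.ev_of_forall fun n => ?_)
    simp only [nr]
    push_cast
    exact le_rfl
  have hdeg' : u.ev fun n => ∀ e ∈ F n, ∀ i < c + 1,
      (Function.update (f n e) c (g n e) i).totalDegree ≤ s n + M n + 1 := by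
    refine (hdeg.and hcap).mono fun n ⟨a1, a2, _⟩ e he i hi => ?_
    rcases Nat.lt_or_eq_of_le (Nat.lt_succ_iff.1 hi) with h1 | rfl
    · rw [Function.update_of_ne h1.ne]
      have := a1 e he i h1
      omega
    · rw [Function.update_self]
      have := a2.deg e he
      omega
  refine ⟨F, Function.update J c k, fun n e => Function.update (f n e) c (g n e), hF,
    ⟨hU.trans (Nat.le_succ c), h.mu0, h.thle, h'.pos, hch, ?_, ⟨_, hs', hdeg'⟩, ?_, ?_, ?_, ?_⟩⟩
  · obtain ⟨s₀, b1, b2⟩ := h'.degU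
    refine ⟨s₀, b1, b2.mono fun n hn e he i hi => ?_⟩
    rw [Function.update_of_ne (by omega)]
    exact hn e he i hi
  · simp only [hl _ _ hU]
    exact h'.rob
  · simp only [hl _ _ hU]
    exact h'.up
  · simp only [hl _ _ hU]
    exact h'.low
  · obtain ⟨B, hB, hext⟩ := h'.ext
    obtain ⟨v, hv⟩ : ∃ v, v + (c + 1) = Fintype.card σ := ⟨Fintype.card σ - (c + 1), by omega⟩
    have hB' : u.LE (fun n => max (B n) 0) (pw (μ * ((c - cU : ℕ) : ℝ))) := fun κ hκ =>
      (hB κ hκ).mono fun n hn => max_le hn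
        (mul_nonneg (Real.rpow_nonneg (Nat.cast_nonneg n) κ) (pw_nonneg _ n))
    have h0 : ∀ n, 0 ≤ nr (fun n => s n + M n + 1) n * max (B n) 0 := fun n =>
      mul_nonneg (nr_nonneg _ n) (le_max_right _ _)
    have h1 := (hs'.mul hB' (u.ev_of_forall (nr_nonneg _))
      (u.ev_of_forall fun n => le_max_right _ _)).mono_right
      (b' := pw (μ * ((c + 1 - cU : ℕ) : ℝ))) ((u.ev_pw_add _ _).mono fun n hn => by
        rw [hn, Nat.succ_sub hU]
        push_cast
        exact le_of_eq (by ring_nf))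
    refine ⟨_, h1.const_mul (((3 * v + 3) ^ (3 * v + 3) : ℕ) : ℝ) (u.ev_of_forall (pw_nonneg _))
      (u.ev_of_forall h0), (((hch.and hdeg').and hcap).and hext).mono ?_⟩
    rintro n ⟨⟨⟨a1, a2⟩, a3, -⟩, a4⟩ e₀ he₀
    have key := TrD_children (G := (F n).filter fun e => r n e = r n e₀ ∧
      lev (f n) (π n) cU e = lev (f n) (π n) cU e₀) a1 (Finset.filter_subset _ _)
      (Nat.le_add_left 1 _) a2 hv fun e he => by
        rw [hl n c le_rfl]
        simpa only [Function.update_self] using a3.notin e he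
    rw [hl n c le_rfl] at key
    have a5 := a4 e₀ he₀
    rw [show Fintype.card σ - c = v + 1 by omega] at a5
    simp only [hl _ _ hU]
    rw [show Fintype.card σ - (c + 1) = v by omega]
    refine (Nat.cast_le.2 key).trans ?_
    rw [Nat.cast_mul, Nat.cast_mul, mul_assoc, mul_assoc, mul_assoc]
    refine mul_le_mul_of_nonneg_left (mul_le_mul_of_nonneg_left (a5.trans ?_) (Nat.cast_nonneg _))
      (Nat.cast_nonneg _)
    exact mul_le_mul_of_nonneg_right (le_max_left _ _) (Nat.cast_nonneg _)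

end Vale.Agent.P054A
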