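import Vale.Agent.P054A.ProjA
import Vale.Agent.P054A.ProjB
import Vale.Agent.P054A.TrD

/-!
Separators invariant along a generic direction.
-/

namespace Vale.Agent.P054A

open MvPolynomial
open scoped Classical

variable {σ : Type} [Fintype σ]

omit [Fintype σ] in
theorem Proj_smul {Ξ : MvPolynomial σ ℂ} {r : ℕ} (h : Ξ.IsHomogeneous r) (t : ℂ) (z : σ → ℂ) :
    eval (t • z) Ξ = t ^ r * eval z Ξ := by
  rw [eval_eq, eval_eq, Finset.mul_sum]
  refine Finset.sum_congr rfl fun d hd => ?_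
  simp only [Pi.smul_apply, smul_eq_mul, mul_pow]
  rw [Finset.prod_mul_distrib, Finset.prod_pow_eq_pow_sum, ← h.degree_eq_sum_deg_support hd]
  ring

omit [Fintype σ] in
theorem Proj_top {a : MvPolynomial σ ℂ} (h : a ≠ 0) : homogeneousComponent a.totalDegree a ≠ 0 := by
  obtain ⟨d, hd, e⟩ := Finset.exists_mem_eq_sup a.support (support_nonempty.2 h)
    fun s => s.sum fun _ e => e
  intro h0
  have h1 := congrArg (coeff d) h0
  rw [coeff_homogeneousComponent, if_pos (show d.degree = a.totalDegree from e.symm),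
    coeff_zero] at h1
  exact mem_support_iff.1 hd h1

theorem Proj_lin {c : σ → ℂ} (h : ∃ l, c l ≠ 0) : (∑ l, C (c l) * X l : MvPolynomial σ ℂ) ≠ 0 := by
  obtain ⟨l, hl⟩ := h
  intro h0
  have h1 := congrArg (eval (Pi.single l 1)) h0
  simp [Pi.single_apply] at h1
  exact hl h1

omit [Fintype σ] in
theorem Proj_prod {α : Type} (T : Finset α) (Ξ : α → MvPolynomial σ ℂ)
    (h : ∀ a ∈ T, Ξ a ≠ 0 ∧ ∃ r, (Ξ a).IsHomogeneous r) :
    ∏ a ∈ T, Ξ a ≠ 0 ∧ ∃ r, (∏ a ∈ T, Ξ a).IsHomogeneous r := by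
  choose! r hr using fun a ha => (h a ha).2
  exact ⟨Finset.prod_ne_zero_iff.2 fun a ha => (h a ha).1, _, IsHomogeneous.prod T Ξ r hr⟩

theorem Proj_num {v l e n : ℕ} (hv : 1 ≤ v) (hl : 1 ≤ l) (he : 1 ≤ e) :
    v.factorial * n < e * (l + v.factorial * (n / (e * l ^ (v - 1)) + 1) + 1) ^ v := by
  obtain ⟨w, rfl⟩ := Nat.exists_eq_add_of_le' hv
  rw [Nat.add_sub_cancel, pow_succ]
  have h0 : 0 < e * l ^ w := by positivity
  have h1 := Nat.lt_mul_div_succ n h0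
  set k := n / (e * l ^ w) + 1
  set F := (w + 1).factorial
  have hF : 0 < F := Nat.factorial_pos _
  have h2 : l ^ w ≤ (l + F * k + 1) ^ w := Nat.pow_le_pow_left (by omega) w
  calc F * n < F * (e * l ^ w * k) := Nat.mul_lt_mul_of_pos_left h1 hF
    _ = e * (l ^ w * (F * k)) := by ring
    _ ≤ e * ((l + F * k + 1) ^ w * (l + F * k + 1)) :=
      Nat.mul_le_mul_left _ (Nat.mul_le_mul h2 (by omega))

theorem Proj_sum {α : Type} (S : Finset α) (e n : α → ℕ) {v l : ℕ} (hv : 1 ≤ v) (hl : 1 ≤ l)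
    (he : ∑ a ∈ S, e a ≤ l) (hn : ∑ a ∈ S, n a ≤ l ^ (v + 1)) :
    ∑ a ∈ S, e a * (l + v.factorial * (n a / (e a * l ^ (v - 1)) + 1) + e a + e a)
      ≤ 5 * (v + 1).factorial * l ^ 2 := by
  obtain ⟨w, rfl⟩ := Nat.exists_eq_add_of_le' hv
  rw [Nat.add_sub_cancel]
  set F := (w + 1).factorial
  have hF : 1 ≤ F := Nat.factorial_pos _
  have h1 : ∑ a ∈ S, e a * (n a / (e a * l ^ w)) ≤ l ^ 2 := by
    refine Nat.le_of_mul_le_mul_left (c := l ^ w) ?_ (by positivity)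
    rw [Finset.mul_sum, ← pow_add]
    refine (Finset.sum_le_sum fun a _ => ?_).trans hn
    rw [← mul_assoc, mul_comm (l ^ w)]
    exact Nat.mul_div_le _ _
  have h2 : ∑ a ∈ S, e a * (l + F * (n a / (e a * l ^ w) + 1) + e a + e a) ≤
      ∑ a ∈ S, (F * (e a * (n a / (e a * l ^ w))) + (3 * l + F) * e a) := by
    refine Finset.sum_le_sum fun a ha => ?_
    have h3 : e a ≤ l := (Finset.single_le_sum (f := e) (fun _ _ => Nat.zero_le _) ha).trans he
    nlinarith [Nat.mul_le_mul_left (e a) h3]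
  rw [Finset.sum_add_distrib, ← Finset.mul_sum, ← Finset.mul_sum] at h2
  have h4 := Nat.mul_le_mul_left F h1
  have h5 := Nat.mul_le_mul_left (3 * l + F) he
  have h6 : F ≤ (w + 1 + 1).factorial := Nat.factorial_le (by omega)
  have h7 : l ≤ l ^ 2 := by nlinarith
  have h8 := Nat.mul_le_mul_left F h7
  have h9 := Nat.mul_le_mul_right (l ^ 2) hF
  have h10 := Nat.mul_le_mul_right (l ^ 2) h6
  nlinarith

theorem proj_fin (hσ : 2 ≤ Fintype.card σ) (P : Finset (σ → ℝ)) {f : MvPolynomial σ ℂ} {l M : ℕ}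
    (hl : 1 ≤ l) (hf : f.totalDegree ≤ l) (hP : P.card ≤ l ^ Fintype.card σ)
    (hs : ∀ q ∈ P, eval (cx q) f = 0 ∧ ∃ i, eval (cx q) (pderiv i f) ≠ 0)
    (hsep : SepZ P M 0 ⊤ 0) :
    ∃ (Ψ : MvPolynomial σ ℂ) (r : ℕ), Ψ ≠ 0 ∧ Ψ.IsHomogeneous r ∧ ∀ z : σ → ℝ,
      eval (cx z) Ψ ≠ 0 → SepZ P (M + 5 * (Fintype.card σ).factorial * l ^ 2) 0 ⊤ z := by
  obtain ⟨v, hv⟩ : ∃ v, Fintype.card σ = v + 1 := ⟨Fintype.card σ - 1, by omega⟩
  have hv1 : 1 ≤ v := by omega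
  obtain ⟨S, h, hS, hSd, hh⟩ := exists_factors (P.image cx) (f := f) fun q hq => by
    obtain ⟨y, hy, rfl⟩ := Finset.mem_image.1 hq
    exact hs y hy
  set W := P.image (cx (τ := σ)) with hW
  set n : MvPolynomial σ ℂ → ℕ := fun a => (W.filter fun q => h q = a).card with hn
  set D : MvPolynomial σ ℂ → ℕ := fun a =>
    l + v.factorial * (n a / (a.totalDegree * l ^ (v - 1)) + 1) + a.totalDegree with hD
  have hn1 : ∑ a ∈ S, n a ≤ l ^ (v + 1) := by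
    rw [← Finset.card_eq_sum_card_fiberwise fun q hq => (hh q hq).1, ← hv]
    exact Finset.card_image_le.trans hP
  have hsum : ∑ a ∈ S, a.totalDegree * (D a + a.totalDegree) ≤ 5 * (v + 1).factorial * l ^ 2 :=
    Proj_sum S (fun a => a.totalDegree) n hv1 hl (hSd.trans hf) hn1
  choose! g hg1 hg2 hg3 using fun a (ha : a ∈ S) => exists_second (hS a ha).1.ne_zero hv
    (W.filter fun q => h q = a) (Proj_num hv1 hl (hS a ha).2)
  choose! Ξ r hΞ1 hΞ2 hΞ3 using fun (x : MvPolynomial σ ℂ × (σ → ℂ)) (hx : x ∈ S ×ˢ W) =>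
    exists_cone hσ (hS x.1 (Finset.mem_product.1 hx).1).1 (hg1 x.1 (Finset.mem_product.1 hx).1) x.2
  obtain ⟨a1, r1, b1⟩ := Proj_prod S (fun a => homogeneousComponent a.totalDegree a) fun a ha =>
    ⟨Proj_top (hS a ha).1.ne_zero, _, homogeneousComponent_isHomogeneous _ _⟩
  obtain ⟨a2, r2, b2⟩ := Proj_prod W (fun q => ∑ i, C (eval q (pderiv i (h q))) * X i) fun q hq =>
    ⟨Proj_lin (hh q hq).2.2.1, 1, IsHomogeneous.sum _ _ _ fun i _ => isHomogeneous_C_mul_X _ i⟩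
  obtain ⟨a3, r3, b3⟩ := Proj_prod (S ×ˢ W) Ξ fun x hx => ⟨hΞ1 x hx, _, hΞ2 x hx⟩
  refine ⟨_, _, mul_ne_zero a1 (mul_ne_zero a2 a3), b1.mul (b2.mul b3), fun z hz y₀ hy₀ _ => ?_⟩
  simp only [map_mul, map_prod, mul_ne_zero_iff, Finset.prod_ne_zero_iff] at hz
  obtain ⟨z1, z2, z3⟩ := hz
  have hq₀ : cx y₀ ∈ W := Finset.mem_image_of_mem _ hy₀
  have ho : ∀ a ∈ S, ∀ t : ℂ, eval (cx y₀ + t • cx z) a = 0 → eval (cx y₀ + t • cx z) (g a) = 0 →
      t = 0 := fun a ha t e1 e2 => by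
    have hx : (a, cx y₀) ∈ S ×ˢ W := Finset.mem_product.2 ⟨ha, hq₀⟩
    have e3 := hΞ3 _ hx _ e1 e2
    rw [add_sub_cancel_left, Proj_smul (hΞ2 _ hx)] at e3
    exact eq_zero_of_pow_eq_zero ((mul_eq_zero.1 e3).resolve_right (z3 _ hx))
  obtain ⟨s, s1, _, s2, s3⟩ := hsep y₀ hy₀ Submodule.mem_top
  obtain ⟨k1, k2, _, k4⟩ := hh _ hq₀
  have hd : ∑ i, eval (cx y₀) (pderiv i (h (cx y₀))) * cx z i ≠ 0 := by
    simpa only [map_sum, map_mul, eval_C, eval_X] using z2 _ hq₀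
  obtain ⟨c, c1, c2, c3, c4⟩ := exists_subres (hS _ k1).2 (z1 _ k1) (hg2 _ k1) s1 k2
    (hg3 _ k1 _ (Finset.mem_filter.2 ⟨hq₀, rfl⟩)) s2 hd (ho _ k1)
  choose! ρ ρ1 ρ2 ρ3 using fun a (ha : a ∈ S) => exists_res (hS a ha).2 (z1 a ha) (hg2 a ha)
  refine ⟨c * ∏ a ∈ S.erase (h (cx y₀)), ρ a, ?_, fun a t => ?_, ?_, fun y hy _ hne => ?_⟩
  · refine (totalDegree_mul _ _).trans ((add_le_add c1 ((totalDegree_finsetProd _ _).trans
      (Finset.sum_le_sum fun a ha => ρ1 a (Finset.mem_of_mem_erase ha)))).trans ?_)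
    rw [add_assoc, hv]
    refine Nat.add_le_add_left (le_trans (le_of_eq ?_) hsum) _
    exact Finset.add_sum_erase S (fun a => a.totalDegree * (D a + a.totalDegree)) k1
  · rw [map_mul, map_mul, map_prod, map_prod, c2 a t]
    exact congrArg _ (Finset.prod_congr rfl fun b hb => ρ2 b (Finset.mem_of_mem_erase hb) a t)
  · rw [map_mul, map_prod]
    refine mul_ne_zero c3 (Finset.prod_ne_zero_iff.2 fun a ha e => ?_)
    obtain ⟨e1, e2⟩ := Finset.mem_erase.1 ha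
    obtain ⟨t, e3, e4⟩ := (ρ3 a e2 _).1 e
    rw [ho a e2 t e3 e4, zero_smul, add_zero] at e3
    exact k4 a e2 e1 e3
  · have hq : cx y ∈ W := Finset.mem_image_of_mem _ hy
    obtain ⟨m1, m2, _, _⟩ := hh _ hq
    have m3 := hg3 _ m1 _ (Finset.mem_filter.2 ⟨hq, rfl⟩)
    rw [map_mul, map_prod]
    by_cases e : h (cx y) = h (cx y₀)
    · rw [c4 _ (e ▸ m2) (e ▸ m3) (s3 y hy Submodule.mem_top hne), zero_mul]
    · refine mul_eq_zero_of_right _ (Finset.prod_eq_zero (Finset.mem_erase.2 ⟨e, m1⟩) ?_)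
      refine (ρ3 _ m1 _).2 ⟨0, ?_, ?_⟩ <;> rwa [zero_smul, add_zero]

theorem proj_seq [Nonempty σ] (u : UF) (P : ℕ → Finset (σ → ℝ))
    (hne : u.ev fun n => (P n).Nonempty) {μ : ℝ} (hμ : 0 ≤ μ)
    (hP : u.LE (cd P) (pw (μ * Fintype.card σ))) :
    ∃ (P' : ℕ → Finset (σ → ℝ)) (f : ℕ → MvPolynomial σ ℂ) (l : ℕ → ℕ), u.Full P' P ∧
      u.LE (nr l) (pw μ) ∧ u.ev fun n => 1 ≤ l n ∧ (f n).totalDegree ≤ l n ∧
        (P' n).card ≤ l n ^ Fintype.card σ ∧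
        ∀ q ∈ P' n, eval (cx q) (f n) = 0 ∧ ∃ i, eval (cx q) (pderiv i (f n)) ≠ 0 := by
  have hd : 1 ≤ Fintype.card σ := Fintype.card_pos
  have hd' : (0 : ℝ) < Fintype.card σ := by exact_mod_cast hd
  obtain ⟨i₀⟩ := ‹Nonempty σ›
  have h0 := TS.init u hne (fun _ _ => ()) (fun _ q => cx q) fun _ => i₀
  obtain ⟨ν, n1, _, n3, n4⟩ := scale_dich u P (fun _ _ => ()) (fun _ q => cx q)
    (fun n => lev ((fun _ _ _ => (0 : MvPolynomial σ ℂ)) n) ((fun _ q => cx q) n) 0)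
    (μ := 0) (μ' := μ + 1) (by linarith)
  have n5 : ν ≤ μ := by
    by_contra hc
    rw [not_le] at hc
    have k1 : u.LL (nr fun n => ⌊pw ((μ + ν) / 2) n⌋₊) (pw ν) :=
      (UF.LL.pw_pw u (by linarith)).mono_left ((u.floor_pw _).mono fun _ e => e.1)
    have k2 : u.LL (cd P) (pw ((μ + ν) / 2 * Fintype.card σ)) :=
      hP.trans_ll (UF.LL.pw_pw u (mul_lt_mul_of_pos_right (by linarith) hd'))
    have k3 := k2.ev_le (u.ev_of_forall (cd_nonneg P)) ((Fintype.card σ).factorial + 1)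
    have k4 : u.ev fun n => ∃ g : MvPolynomial σ ℂ, g ≠ 0 ∧
        g.totalDegree ≤ ⌊pw ((μ + ν) / 2) n⌋₊ ∧ ∀ q ∈ P n, eval (cx q) g = 0 := by
      refine ((k3.and hne).and ((u.floor_pw ((μ + ν) / 2)).and
        (u.ev_pw_pow ((μ + ν) / 2) (Fintype.card σ)))).mono fun n ⟨⟨e1, e2⟩, e3, e4⟩ => ?_
      have e5 := pow_le_pow_left₀ (pw_nonneg _ _) e3.2 (Fintype.card σ)
      have e6 : ((Fintype.card σ).factorial + 1) * (P n).card ≤
          (⌊pw ((μ + ν) / 2) n⌋₊ + 1) ^ Fintype.card σ := by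
        rw [e4] at e5
        have e9 := e1.trans e5
        simp only [cd] at e9
        exact_mod_cast e9
      have e7 : 0 < (P n).card := Finset.card_pos.2 e2
      have e8 := Nat.mul_le_mul_left (Fintype.card σ).factorial
        (Finset.card_image_le (s := P n) (f := cx))
      obtain ⟨g, g1, g2, g3⟩ := exists_vanish ((P n).image cx) (D := ⌊pw ((μ + ν) / 2) n⌋₊)
        (by nlinarith)
      exact ⟨g, g1, g2, fun q hq => g3 _ (Finset.mem_image_of_mem _ hq)⟩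
    obtain ⟨g, k5⟩ := k4.choose
    refine (UF.Full.refl u P).not_ll hne (n3 (by linarith) _ k1 P (fun n _ => g n)
      (k5.mono fun n e => ⟨subset_rfl, fun _ _ _ _ _ _ => rfl, fun q _ => ?_, fun _ _ => e.2.1,
        e.2.2⟩))
    beta_reduce
    rw [lev_zero, Ideal.mem_bot]
    exact e.1
  have h1 : ∃ θ, TS u P (fun _ _ => ()) (fun _ q => cx q) 0 (fun _ => i₀) (fun _ _ _ => 0) 0 ν θ := by
    rcases n1.eq_or_lt with e | e
    · exact ⟨0, e ▸ h0⟩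
    · exact ⟨_, h0.advance e (n3 e)⟩
  obtain ⟨θ, h1⟩ := h1
  obtain ⟨F, J, f, hF, h2⟩ := h1.birth (n4 (by linarith))
  obtain ⟨s, s1, s2⟩ := h2.degV
  obtain ⟨e₀, he₀⟩ := UF.ev.choose (P := fun n e => e ∈ F n) h2.pos
  have m1 : u.LE (nr fun n => Nat.nthRoot (Fintype.card σ) (P n).card) (pw μ) := fun κ hκ => by
    refine ((hP (κ * Fintype.card σ) (by positivity)).and
      (u.ev_pw_pow μ (Fintype.card σ))).mono fun n ⟨e1, e2⟩ => ?_
    refine le_of_pow_le_pow_left₀ (n := Fintype.card σ) (by omega)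
      (mul_nonneg (by positivity) (pw_nonneg _ _)) ?_
    rw [mul_pow, e2, ← Real.rpow_mul_natCast (Nat.cast_nonneg _)]
    refine le_trans ?_ e1
    simp only [nr, cd]
    exact_mod_cast Nat.pow_nthRoot_le (Or.inl (by omega))
  have hp := u.ev_of_forall (pw_nonneg μ)
  refine ⟨F, fun n => f n (e₀ n) 0,
    fun n => s n + (Nat.nthRoot (Fintype.card σ) (P n).card + 1), hF, ?_, ?_⟩
  · refine ((s1.trans (UF.LE.pw_pw u n5)).add (m1.add (UF.LE.one_pw u hμ) hp) hp).mono_left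
      (u.ev_of_forall fun n => ?_)
    simp [nr]
  refine ((he₀.and s2).and (h2.chain.and hF.1)).mono fun n ⟨⟨e1, e2⟩, e3, e4⟩ =>
    ⟨le_add_left (Nat.le_add_left _ _), (e2 _ e1 0 one_pos).trans (Nat.le_add_right _ _), ?_, fun q hq => ?_⟩
  · refine (Finset.card_le_card e4).trans
      ((Nat.lt_pow_nthRoot_add_one (Nat.one_le_iff_ne_zero.1 hd) _).le.trans ?_)
    exact Nat.pow_le_pow_left (Nat.le_add_left _ _) _
  · have e5 : f n q 0 = f n (e₀ n) 0 := e3.cons q hq _ e1 rfl 0 one_pos (by rw [lev_zero, lev_zero])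
    obtain ⟨e6, e7⟩ := e3.simple q hq 1 le_rfl
    beta_reduce
    rw [← e5]
    refine ⟨e6 0, J 0, ?_⟩
    rwa [minor, Matrix.det_unique] at e7

end Vale.Agent.P054A
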