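import Vale.Agent.P054A.Model
import Vale.Agent.P054A.Proj
import Vale.Agent.P054A.LoopB
import Vale.Agent.P054.Final

/-!
The theorem in all dimensions.
-/

namespace Vale.Agent.P054A

open MvPolynomial Sum Filter
open scoped Classical

/-- The largest number of points on a flat of given dimension. -/
theorem final_K {d : ℕ} (P : Finset (Fin d → ℝ)) : ∃ K : ℕ → ℕ, K 1 = 10 ^ 12 ∧
    (∀ (p : Fin d → ℝ) (U : Submodule ℝ (Fin d → ℝ)), 2 ≤ Module.finrank ℝ U →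
      (P.filter fun q => q - p ∈ U).card ≤ K (Module.finrank ℝ U)) ∧
    ∀ a, 2 ≤ a → K a ≤ P.card ∧ (K a = 0 ∨ ∃ (p : Fin d → ℝ) (U : Submodule ℝ (Fin d → ℝ)),
      Module.finrank ℝ U = a ∧ (P.filter fun q => q - p ∈ U).card = K a) := by
  let T : ℕ → Set ℕ := fun a => {m | ∃ (p : Fin d → ℝ) (U : Submodule ℝ (Fin d → ℝ)),
    Module.finrank ℝ U = a ∧ (P.filter fun q => q - p ∈ U).card = m}
  have hub : ∀ a, P.card ∈ upperBounds (T a) := by
    rintro a m ⟨p, U, -, rfl⟩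
    exact Finset.card_filter_le _ _
  refine ⟨fun a => if a = 1 then 10 ^ 12 else sSup (T a), if_pos rfl, fun p U hU => ?_,
    fun a ha => ?_⟩
  · simp only [if_neg (show Module.finrank ℝ U ≠ 1 by omega)]
    exact le_csSup ⟨_, hub _⟩ ⟨p, U, rfl, rfl⟩
  · simp only [if_neg (show a ≠ 1 by omega)]
    refine ⟨csSup_le' (hub a), ?_⟩
    rcases (T a).eq_empty_or_nonempty with h | h
    · exact Or.inl (by rw [h]; exact csSup_empty)
    · exact Or.inr (Nat.sSup_mem h ⟨_, hub a⟩)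

theorem final_low {d a : ℕ} (ha : 2 ≤ a) (ht : Thm a) (u : UF) (P : ℕ → Finset (Fin d → ℝ))
    (hP : u.ev fun n => nd2 (P n) ≤ n) (K : ℕ → ℕ)
    (hK : ∀ n, K n = 0 ∨ ∃ (p : Fin d → ℝ) (U : Submodule ℝ (Fin d → ℝ)),
      Module.finrank ℝ U = a ∧ ((P n).filter fun q => q - p ∈ U).card = K n) :
    u.LE (nr K) (pw ((a : ℝ) - 1)) := by
  intro κ hκ
  have ha' : (2 : ℝ) ≤ a := by exact_mod_cast ha
  have hβ : (0 : ℝ) < a / 2 + κ := by positivity
  have hε : 0 < 2 / (a : ℝ) - ((a : ℝ) / 2 + κ)⁻¹ := by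
    rw [sub_pos, ← inv_div (a : ℝ) 2]
    exact inv_strictAnti₀ (by positivity) (by linarith)
  obtain ⟨n₀, hn₀⟩ := flat_bound ht hε
  refine ((hP.and (u.ev_pw_ge hκ n₀)).and (u.ev_ge 1)).mono ?_
  rintro n ⟨⟨h1, h2⟩, h3⟩
  have hn : (1 : ℝ) ≤ n := by exact_mod_cast h3
  have hp : 1 ≤ pw ((a : ℝ) - 1) n := Real.one_le_rpow hn (by linarith)
  have hk0 : 0 ≤ (n : ℝ) ^ κ := by positivity
  show (K n : ℝ) ≤ _
  by_cases hs : K n ≤ n₀
  · have : (K n : ℝ) ≤ n₀ := by exact_mod_cast hs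
    nlinarith
  rcases hK n with h0 | ⟨p, U, hU, hc⟩
  · omega
  have h4 := hn₀ d (P n) p U hU (by omega)
  rw [hc, sub_sub_cancel] at h4
  have h5 : (K n : ℝ) ^ ((a : ℝ) / 2 + κ)⁻¹ ≤ n := h4.trans (by exact_mod_cast h1)
  rw [Real.rpow_inv_le_iff_of_pos (by positivity) (by positivity) hβ] at h5
  refine h5.trans ?_
  rw [pw, ← Real.rpow_add (by linarith)]
  exact Real.rpow_le_rpow_of_exponent_le hn (by linarith)

/-- No sequence of counterexamples. -/
theorem seq_false {k : ℕ} (hk : 3 ≤ k) (ih : ∀ a, 2 ≤ a → a ≤ k → Thm a) (u : UF) {γ : ℝ}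
    (hγ : 0 < γ) (hγ1 : γ ≤ 1) (P : ℕ → Finset (Fin (k + 1) → ℝ))
    (h : u.ev fun n => nd2 (P n) ≤ n ∧ pw ((k + 1) / 2 + γ) n ≤ (P n).card ∧
      ((P n).card : ℝ) ≤ pw ((k + 1) / 2 + γ) n + 1) : False := by
  have hk' : (3 : ℝ) ≤ k := by exact_mod_cast hk
  have hν : (0 : ℝ) ≤ (k + 1) / 2 + γ := by positivity
  have hpw : ∀ μ, u.ev fun n => 0 ≤ pw μ n := fun μ => u.ev_of_forall (pw_nonneg μ)
  have hup : u.LE (cd P) (pw ((k + 1) / 2 + γ)) := by
    refine UF.LE.of_const 2 (hpw _) ((h.and (u.ev_ge 1)).mono ?_)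
    rintro n ⟨⟨-, -, h1⟩, h2⟩
    have : 1 ≤ pw ((k + 1) / 2 + γ) n := Real.one_le_rpow (by exact_mod_cast h2) hν
    show ((P n).card : ℝ) ≤ _
    linarith
  have hne : u.ev fun n => (P n).Nonempty := by
    refine (h.and (u.ev_pw_pos ((k + 1) / 2 + γ))).mono ?_
    rintro n ⟨⟨-, h1, -⟩, h2⟩
    exact Finset.card_pos.1 (by exact_mod_cast h2.trans_le h1)
  obtain ⟨P', f, l, hF, hl, hev⟩ := proj_seq u P hne (μ := ((k + 1) / 2 + γ) / (k + 1))
    (by positivity) (by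
      rwa [Fintype.card_fin, Nat.cast_add, Nat.cast_one, div_mul_cancel₀ _ (by positivity)])
  have hnd : u.ev fun n => nd2 (P' n) ≤ n :=
    (h.and hF.1).mono fun n hn => (nd2_mono hn.2).trans hn.1.1
  have hlow : u.LE (pw ((k + 1) / 2 + γ)) (cd P') :=
    (UF.LE.of_ev (u.ev_of_forall (cd_nonneg P)) (h.mono fun n hn => hn.2.1)).trans hF.2
  have hbig : u.ev fun n => 10 ^ 12 * (n + 1) ≤ (P' n).card := by
    have h1 : u.LL (pw 1) (cd P') := (UF.LL.pw_pw u (by linarith)).trans_le hlow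
    refine ((h1.ev_le (hpw 1) (2 * 10 ^ 12)).and (u.ev_ge 1)).mono ?_
    rintro n ⟨h2, h3⟩
    rw [pw, Real.rpow_one, cd] at h2
    have h4 : 2 * 10 ^ 12 * n ≤ (P' n).card := by exact_mod_cast h2
    omega
  choose K hK1 hK2 hK3 using fun n => final_K (P' n)
  have hex : u.ev fun n => ∃ z : Finset (Tx k → ℝ) × Finset (Ed k),
      Mod z.1 z.2 (2 * (2 * n + 5 * (k + 1).factorial * l n ^ 2)) (K n) ∧
        z.1.card = (P' n).card ^ 2 ∧ (P' n).card ^ 4 ≤ 4 * n * z.2.card := by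
    refine ((hev.and hnd).and hbig).mono ?_
    rintro n ⟨⟨⟨h1, h2, h3, h4⟩, h5⟩, h6⟩
    obtain ⟨Ψ, r, h0, hΨ, hs⟩ := proj_fin (by rw [Fintype.card_fin]; omega) (P' n) h1 h2 h3 h4
      (sep_nc (P' n) h5)
    rw [Fintype.card_fin] at hs
    obtain ⟨X, E, h7⟩ := model_fin (by omega) (P' n) h5 h6 (Nat.le_add_right _ _) h0 hΨ hs (K n)
      (hK1 n).ge fun p _ U hU => hK2 n p U hU
    exact ⟨(X, E), h7⟩
  obtain ⟨z, hz⟩ := hex.choose
  refine Num.false (u := u) (k := k) (γ := γ) (X := fun n => (z n).1) (E₀ := fun n => (z n).2)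
    (M := fun n => 2 * (2 * n + 5 * (k + 1).factorial * l n ^ 2)) (K := K)
    ⟨hγ, hγ1, hk, hz.mono fun n hn => hn.1, ?_, ?_, ?_, fun a h1 h2 => ?_, ?_⟩
  · refine ((hlow.pow (hpw _) 2).mono_left ?_).mono_right (hz.mono fun n hn => le_of_eq ?_)
    · refine (u.ev_pw_pow ((k + 1) / 2 + γ) 2).mono fun n hn => le_of_eq ?_
      rw [hn]
      congr 1
      push_cast
      ring
    · simp only [cd, hn.2.1]
      push_cast
      rfl
  · refine UF.LE.of_const 4 (u.ev_of_forall fun n => mul_nonneg (pw_nonneg _ _) (cd_nonneg _ _))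
      (hz.mono fun n hn => ?_)
    have h1 : (((P' n).card ^ 4 : ℕ) : ℝ) ≤ (4 * n * (z n).2.card : ℕ) := Nat.cast_le.2 hn.2.2
    simp only [cd, pw, Real.rpow_one, hn.2.1]
    push_cast at h1 ⊢
    rw [← pow_mul, ← mul_assoc]
    exact h1
  · have h1 : u.LE (fun n => nr l n ^ 2) (pw (1 + 2 * γ / (k + 1))) := by
      refine (hl.pow (u.ev_of_forall (nr_nonneg l)) 2).mono_right
        ((u.ev_pw_pow (((k + 1) / 2 + γ) / (k + 1)) 2).mono fun n hn => le_of_eq ?_)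
      rw [hn]
      congr 1
      push_cast
      field_simp
    have h2 : u.LE (pw 1) (pw (1 + 2 * γ / (k + 1))) :=
      UF.LE.pw_pw u (le_add_of_nonneg_right (by positivity))
    refine ((h2.const_mul 4 (hpw _) (hpw _)).add (h1.const_mul (10 * (k + 1).factorial) (hpw _)
      (u.ev_of_forall fun n => sq_nonneg _)) (hpw _)).mono_left (u.ev_of_forall fun n => le_of_eq ?_)
    simp only [nr, pw, Real.rpow_one]
    push_cast
    ring
  · rcases h1.eq_or_lt with rfl | h1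
    · refine UF.LE.of_const (10 ^ 12) (hpw _) (u.ev_of_forall fun n => le_of_eq ?_)
      simp [nr, pw, hK1]
      norm_num
    · exact final_low h1 (ih a h1 h2) u P' hnd _ fun n => (hK3 n a h1).2
  · refine hup.mono_left (hF.1.mono fun n hn => ?_)
    exact Nat.cast_le.2 ((hK3 n (k + 1) (by omega)).1.trans (Finset.card_le_card hn))

theorem final_card {d τ : ℕ} (P : Finset (Fin d → ℝ)) (h : nd2 P ≤ τ) :
    P.card ≤ (2 * τ + 1) ^ d := by
  have h1 := card_le_H_of_sep P (I := (⊥ : Ideal (MvPolynomial (Fin d) ℂ))) (M := 2 * τ) cx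
    (fun a _ g hg => by rw [Ideal.mem_bot.1 hg, map_zero]) fun a ha => by
      obtain ⟨g, h1, -, h2, h3⟩ := sep_nc P h a ha trivial
      exact ⟨g, h1, h2, fun a' ha' hne => h3 a' ha' trivial hne⟩
  simpa using h1.trans (H_le_pow _ _)

theorem thm_step {k : ℕ} (hk : 3 ≤ k) (ih : ∀ a, 2 ≤ a → a ≤ k → Thm a) : Thm (k + 1) := by
  intro ε hε
  by_contra hcon
  push Not at hcon
  have hk' : (3 : ℝ) ≤ k := by exact_mod_cast hk
  have hγ : 0 < min 1 ε := lt_min one_pos hε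
  have hγ1 : min 1 ε ≤ 1 := min_le_left _ _
  have hγε : min 1 ε ≤ ε := min_le_right _ _
  generalize min 1 ε = γ at hγ hγ1 hγε
  let S : Set ℕ := {τ | ∃ Q : Finset (Fin (k + 1) → ℝ), nd2 Q ≤ τ ∧
    pw ((k + 1) / 2 + γ) τ ≤ Q.card}
  have hfr : ∃ᶠ τ in atTop, τ ∈ S := by
    refine frequently_atTop.2 fun T => ?_
    obtain ⟨P, hP, hlt⟩ := hcon ((2 * T + 1) ^ (k + 1) + 1)
    have hc : (P.image WithLp.ofLp).card = P.card :=
      Finset.card_image_of_injective _ (WithLp.ofLp_injective 2)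
    refine ⟨nd P, ?_, P.image WithLp.ofLp, (nd_eq_nd2 P).ge, ?_⟩
    · by_contra hT
      have := final_card (P.image WithLp.ofLp) (τ := T) (by rw [← nd_eq_nd2]; omega)
      omega
    · have hN : (1 : ℝ) ≤ P.card := by exact_mod_cast (by omega : 1 ≤ P.card)
      rw [hc, pw]
      refine (Real.rpow_le_rpow (Nat.cast_nonneg _) hlt.le (by positivity)).trans ?_
      rw [← Real.rpow_mul (by positivity)]
      refine (Real.rpow_le_rpow_of_exponent_le hN ?_).trans (Real.rpow_one _).le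
      push_cast
      have e : (2 / ((k : ℝ) + 1) - ε) * ((k + 1) / 2 + γ) =
          1 + 2 * γ / (k + 1) - ε * ((k + 1) / 2 + γ) := by
        field_simp
      have h1 : 2 * γ / ((k : ℝ) + 1) ≤ ε := by
        rw [div_le_iff₀ (by positivity)]
        nlinarith
      rw [e]
      nlinarith
  have hnb : (atTop ⊓ Filter.principal S).NeBot := frequently_mem_iff_neBot.1 hfr
  let u : UF := ⟨Ultrafilter.of (atTop ⊓ Filter.principal S),
    (Ultrafilter.of_le _).trans inf_le_left⟩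
  have hS : u.ev fun n => n ∈ S :=
    (Ultrafilter.of_le _).trans inf_le_right (Filter.mem_principal_self S)
  have hex : u.ev fun n => ∃ Q : Finset (Fin (k + 1) → ℝ), nd2 Q ≤ n ∧
      pw ((k + 1) / 2 + γ) n ≤ Q.card ∧ (Q.card : ℝ) ≤ pw ((k + 1) / 2 + γ) n + 1 := by
    refine hS.mono ?_
    rintro n ⟨Q, h1, h2⟩
    obtain ⟨Q', h3, h4⟩ := Finset.exists_subset_card_eq (Nat.ceil_le.2 h2)
    exact ⟨Q', (nd2_mono h3).trans h1, h4 ▸ Nat.le_ceil _,
      h4 ▸ (Nat.ceil_lt_add_one (pw_nonneg _ _)).le⟩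
  obtain ⟨P, hP⟩ := hex.choose
  exact seq_false hk ih u hγ hγ1 P hP

theorem thm_two : Thm 2 := by
  intro ε hε
  obtain ⟨n₀, h⟩ := P041.pinned ε hε
  refine ⟨n₀, fun P hP => ?_⟩
  obtain ⟨x, hx, h1⟩ := h P hP
  rw [show (2 : ℝ) / (2 : ℕ) = 1 by norm_num]
  refine h1.trans (Nat.cast_le.2 (Set.ncard_le_ncard ?_ ?_))
  · rintro r ⟨y, ⟨hy, hyx⟩, rfl⟩
    exact ⟨y, hy, x, hx, hyx, (dist_eq_norm y x).symm⟩
  · refine ((P ×ˢ P).image fun q => dist q.1 q.2).finite_toSet.subset ?_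
    rintro r ⟨p, hp, q, hq, -, rfl⟩
    exact Finset.mem_coe.2 (Finset.mem_image.2 ⟨(p, q), Finset.mem_product.2 ⟨hp, hq⟩, rfl⟩)

theorem thm_three : Thm 3 := by
  intro ε hε
  simpa only [nd, Nat.cast_ofNat] using P054.main' ε hε

theorem thm_all (d : ℕ) (hd : 2 ≤ d) : Thm d := by
  induction d using Nat.strong_induction_on with
  | _ d ih =>
    rcases hd.eq_or_lt with rfl | h2
    · exact thm_two
    rcases (Nat.succ_le_of_lt h2).eq_or_lt with rfl | h3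
    · exact thm_three
    obtain ⟨k, rfl⟩ : ∃ k, d = k + 1 := ⟨d - 1, by omega⟩
    exact thm_step (by omega) fun a h1 h4 => ih a (by omega) h1

end Vale.Agent.P054A
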