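import Vale.Agent.P054A.BDl

/-!
The flats and their tangent spaces.
-/

namespace Vale.Agent.P054A

open MvPolynomial Sum
open scoped Classical

variable {k : ℕ}

section Chain

variable {σ F : Type} [Fintype σ] [CommRing F] [Algebra ℂ F] (p θ : σ → F)

theorem flD_X (j : σ) : ∑ l, aeval p (pderiv l (X j : MvPolynomial σ ℂ)) * θ l = θ j := by
  rw [Finset.sum_eq_single j]
  · simp
  · intro l _ hl
    rw [pderiv_X_of_ne hl.symm, map_zero, zero_mul]
  · simp

theorem flD_C (c : ℂ) : ∑ l, aeval p (pderiv l (C c : MvPolynomial σ ℂ)) * θ l = 0 := by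
  simp

theorem flD_add (G G' : MvPolynomial σ ℂ) : ∑ l, aeval p (pderiv l (G + G')) * θ l
    = ∑ l, aeval p (pderiv l G) * θ l + ∑ l, aeval p (pderiv l G') * θ l := by
  simp only [map_add, add_mul, Finset.sum_add_distrib]

theorem flD_sub (G G' : MvPolynomial σ ℂ) : ∑ l, aeval p (pderiv l (G - G')) * θ l
    = ∑ l, aeval p (pderiv l G) * θ l - ∑ l, aeval p (pderiv l G') * θ l := by
  simp only [map_sub, sub_mul, Finset.sum_sub_distrib]

theorem flD_sum {α : Type} (s : Finset α) (G : α → MvPolynomial σ ℂ) :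
    ∑ l, aeval p (pderiv l (∑ a ∈ s, G a)) * θ l
      = ∑ a ∈ s, ∑ l, aeval p (pderiv l (G a)) * θ l := by
  simp only [map_sum, Finset.sum_mul]
  exact Finset.sum_comm

theorem flD_mul (G G' : MvPolynomial σ ℂ) : ∑ l, aeval p (pderiv l (G * G')) * θ l
    = aeval p G * ∑ l, aeval p (pderiv l G') * θ l
      + aeval p G' * ∑ l, aeval p (pderiv l G) * θ l := by
  simp only [pderiv_mul, map_add, map_mul, Finset.mul_sum, ← Finset.sum_add_distrib]
  exact Finset.sum_congr rfl fun l _ => by ring

theorem fl_chain {τ : Type} [Fintype τ] (a : σ → MvPolynomial τ ℂ) (b w : τ → ℂ)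
    (G : MvPolynomial σ ℂ) : ∑ i, eval b (pderiv i (aeval a G)) * w i
      = ∑ l, eval (fun l => eval b (a l)) (pderiv l G) * ∑ i, eval b (pderiv i (a l)) * w i := by
  simp only [← aeval_eq_eval]
  induction G using MvPolynomial.induction_on with
  | C c => simp
  | add G G' h h' => rw [map_add, flD_add, flD_add, h, h']
  | mul_X G j h =>
    rw [map_mul, flD_mul, flD_mul, h, flD_X, aeval_X, aeval_X, comp_aeval_apply]

end Chain

section Ring

variable {A : Type} [CommRing A]

/-- The differential of `fl x`. -/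
def dfl (x : Tx k → A) (w : Fin k → A) : Sx k → A
  | none => ∑ i, x (inr i.succ) * w i
  | some (inl i) => w i
  | some (inr i) => - (x (inl 0) * w i)

/-- The differential of `fl` in the first argument. -/
def fl0 (x : Tx k → A) (b : Fin k → A) : Sx k → A
  | none => x (inr 0) + ∑ i, x (inr i.succ) * b i
  | some (inl _) => 0
  | some (inr i) => x (inl i.succ) - x (inl 0) * b i

theorem map_fl {B : Type} [CommRing B] (φ : A →+* B) (x : Tx k → A) (b : Fin k → A) (o : Sx k) :
    φ (fl x b o) = fl (fun l => φ (x l)) (fun i => φ (b i)) o := by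
  rcases o with _ | i | i <;> simp [fl]

theorem fl_add (x z : Tx k → A) (b : Fin k → A) : fl (x + z) b = fl x b + fl0 z b := by
  funext o
  rcases o with _ | i | i
  · simp only [fl, fl0, Pi.add_apply, add_mul, Finset.sum_add_distrib]
    ring
  · simp [fl, fl0]
  · simp only [fl, fl0, Pi.add_apply]
    ring

theorem bil_comm (x y : Tx k → A) : bil x y = bil y x := by
  exact Finset.sum_congr rfl fun i _ => add_comm _ _

theorem bil_add_left (x y z : Tx k → A) : bil (x + y) z = bil x z + bil y z := by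
  simp only [bil, ← Finset.sum_add_distrib, Pi.add_apply]
  exact Finset.sum_congr rfl fun i _ => by ring

theorem bil_sub_left (x y z : Tx k → A) : bil (x - y) z = bil x z - bil y z := by
  simp only [bil, ← Finset.sum_sub_distrib, Pi.sub_apply]
  exact Finset.sum_congr rfl fun i _ => by ring

theorem bil_smul_left (c : A) (x z : Tx k → A) : bil (c • x) z = c * bil x z := by
  simp only [bil, Finset.mul_sum, Pi.smul_apply, smul_eq_mul]
  exact Finset.sum_congr rfl fun i _ => by ring

theorem nul_comm {x y : Tx k → A} : nul x y ↔ nul y x := by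
  have e : bil (x - y) (x - y) = bil (y - x) (y - x) :=
    Finset.sum_congr rfl fun i _ => by simp only [Pi.sub_apply]; ring
  rw [nul, nul, e]

theorem nul_of_fl {x y : Tx k → A} {b : Fin k → A} (h : fl y b = fl x b) : nul x y := by
  have h0 := congrFun h none
  have h1 : ∀ i : Fin k, x (inl i.succ) - y (inl i.succ) = (x (inl 0) - y (inl 0)) * b i := by
    intro i
    have := congrFun h (some (inr i))
    simp only [fl] at this
    linear_combination -this
  simp only [fl] at h0
  simp only [nul, bil, Fin.sum_univ_succ, Pi.sub_apply, h1]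
  have e : ∑ i : Fin k, ((x (inl 0) - y (inl 0)) * b i * (x (inr i.succ) - y (inr i.succ))
      + (x (inl 0) - y (inl 0)) * b i * (x (inr i.succ) - y (inr i.succ)))
      = 2 * (x (inl 0) - y (inl 0))
        * (∑ i : Fin k, x (inr i.succ) * b i - ∑ i : Fin k, y (inr i.succ) * b i) := by
    rw [← Finset.sum_sub_distrib, Finset.mul_sum]
    exact Finset.sum_congr rfl fun i _ => by ring
  rw [e]
  linear_combination (-2 * (x (inl 0) - y (inl 0))) * h0

theorem s_sub_of_fl {x y : Tx k → A} {b : Fin k → A} (h : fl y b = fl x b) (i : Fin k) :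
    y (inl i.succ) - x (inl i.succ) = (y (inl 0) - x (inl 0)) * b i := by
  have := congrFun h (some (inr i))
  simp only [fl] at this
  linear_combination this

theorem dfl_add (x : Tx k → A) (w w' : Fin k → A) : dfl x (w + w') = dfl x w + dfl x w' := by
  funext o
  rcases o with _ | i | i
  · simp only [dfl, Pi.add_apply, mul_add, Finset.sum_add_distrib]
  · simp [dfl]
  · simp only [dfl, Pi.add_apply]
    ring

theorem dfl_smul (x : Tx k → A) (c : A) (w : Fin k → A) : dfl x (c • w) = c • dfl x w := by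
  funext o
  rcases o with _ | i | i
  · simp only [dfl, Pi.smul_apply, smul_eq_mul, Finset.mul_sum]
    exact Finset.sum_congr rfl fun i _ => by ring
  · simp [dfl]
  · simp only [dfl, Pi.smul_apply, smul_eq_mul]
    ring

end Ring

section Field

variable {F : Type} [Field F]

theorem bb_of_fl {x y : Tx k → F} {b : Fin k → F} (h : fl y b = fl x b)
    (h0 : x (inl 0) ≠ y (inl 0)) : b = bb x y := by
  funext i
  rw [bb, eq_div_iff (sub_ne_zero.2 h0)]
  linear_combination s_sub_of_fl h i

theorem fl_bb [CharZero F] {x y : Tx k → F} (h : nul x y) (h0 : x (inl 0) ≠ y (inl 0)) :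
    fl y (bb x y) = fl x (bb x y) := by
  have h1 : x (inl 0) - y (inl 0) ≠ 0 := sub_ne_zero.2 h0
  have h2 : ∀ i : Fin k,
      x (inl i.succ) - y (inl i.succ) = (x (inl 0) - y (inl 0)) * bb x y i := by
    intro i
    rw [bb, mul_div_cancel₀ _ h1]
  funext o
  rcases o with _ | i | i
  · simp only [nul, bil, Fin.sum_univ_succ, Pi.sub_apply, h2] at h
    have e : ∑ i : Fin k, ((x (inl 0) - y (inl 0)) * bb x y i * (x (inr i.succ) - y (inr i.succ))
        + (x (inl 0) - y (inl 0)) * bb x y i * (x (inr i.succ) - y (inr i.succ)))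
        = 2 * (x (inl 0) - y (inl 0)) * (∑ i : Fin k, x (inr i.succ) * bb x y i
          - ∑ i : Fin k, y (inr i.succ) * bb x y i) := by
      rw [← Finset.sum_sub_distrib, Finset.mul_sum]
      exact Finset.sum_congr rfl fun i _ => by ring
    rw [e] at h
    simp only [fl]
    refine mul_left_cancel₀ (mul_ne_zero (two_ne_zero (α := F)) h1) ?_
    linear_combination -h
  · rfl
  · simp only [fl]
    linear_combination -h2 i

theorem eq_zero_of_dfl {x y : Tx k → F} (h0 : x (inl 0) ≠ y (inl 0)) {w w' : Fin k → F}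
    (h : dfl x w = dfl y w') : w = 0 ∧ w' = 0 := by
  have h1 : w = w' := funext fun i => congrFun h (some (inl i))
  subst h1
  have h2 : w = 0 := by
    funext i
    have := congrFun h (some (inr i))
    simp only [dfl] at this
    refine mul_left_cancel₀ (sub_ne_zero.2 h0) ?_
    rw [Pi.zero_apply]
    linear_combination -this
  exact ⟨h2, h2⟩

/-- A vector of the isotropic subspace orthogonal to the edge does not move the point. -/
theorem fl0_eq_zero {x y z : Tx k → F} {b : Fin k → F} (h : fl y b = fl x b)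
    (h0 : x (inl 0) ≠ y (inl 0)) (hz : ∀ i, z (inl i) = 0) (hb : bil z (y - x) = 0) :
    fl0 z b = 0 := by
  funext o
  rcases o with _ | i | i
  · simp only [bil, Fin.sum_univ_succ, Pi.sub_apply, hz, zero_mul, zero_add, s_sub_of_fl h] at hb
    refine mul_left_cancel₀ (sub_ne_zero.2 h0.symm) ?_
    simp only [fl0, Pi.zero_apply, mul_zero, mul_add, Finset.mul_sum]
    rw [← hb]
    exact congrArg _ (Finset.sum_congr rfl fun i _ => by ring)
  · rfl
  · simp [fl0, hz]

variable [Algebra ℂ F]

theorem aeval_incP (ζ : Sx k → F) (ξ : Tx k → F) (o : Sx k) :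
    aeval (Sum.elim ζ ξ) (incP o) = ζ o - fl ξ (fun i => ζ (some (inl i))) o := by
  rcases o with _ | i | i <;> simp [incP, fl]

theorem d_incP (ζ : Sx k → F) (ξ : Tx k → F) (θ : Sx k ⊕ Tx k → F) (o : Sx k) :
    ∑ l, aeval (Sum.elim ζ ξ) (pderiv l (incP o)) * θ l = θ (inl o)
      - (dfl ξ (fun i => θ (inl (some (inl i)))) o
        + fl0 (fun l => θ (inr l)) (fun i => ζ (some (inl i))) o) := by
  rcases o with _ | i | i
  · simp only [incP, fl, dfl, fl0]
    rw [flD_sub, flD_add, flD_sum, flD_X, flD_X]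
    simp only [flD_mul, flD_X, aeval_X, Sum.elim_inl, Sum.elim_inr, Finset.sum_add_distrib]
    have e : ∑ i : Fin k, ζ (some (inl i)) * θ (inr (inr i.succ))
        = ∑ i : Fin k, θ (inr (inr i.succ)) * ζ (some (inl i)) :=
      Finset.sum_congr rfl fun i _ => mul_comm _ _
    rw [e]
    ring
  · simp [incP, fl, dfl, fl0]
  · simp only [incP, fl, dfl, fl0]
    rw [flD_sub, flD_sub, flD_mul, flD_X, flD_X, flD_X, flD_X]
    simp only [aeval_X, Sum.elim_inl, Sum.elim_inr]
    ring

theorem aeval_resx (x : Tx k → ℂ) (β : Fin k → F) (G : MvPolynomial (Sx k ⊕ Tx k) ℂ) :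
    aeval β (resx x G) = aeval (Sum.elim (fl (fun l => algebraMap ℂ F (x l)) β)
      fun l => algebraMap ℂ F (x l)) G := by
  have e : (aeval β : MvPolynomial (Fin k) ℂ →ₐ[ℂ] F).comp (resx x)
      = aeval (Sum.elim (fl (fun l => algebraMap ℂ F (x l)) β) fun l => algebraMap ℂ F (x l)) := by
    refine algHom_ext fun l => ?_
    rcases l with (_ | i | i) | l <;> simp [resx, fl]
  exact AlgHom.congr_fun e G

end Field

theorem eval_resx (x : Tx k → ℂ) (b : Fin k → ℂ) (G : MvPolynomial (Sx k ⊕ Tx k) ℂ) :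
    eval b (resx x G) = eval (Sum.elim (fl x b) x) G := by
  simpa [aeval_eq_eval] using aeval_resx x b G

theorem d_resx (x : Tx k → ℂ) (b w : Fin k → ℂ) (G : MvPolynomial (Sx k ⊕ Tx k) ℂ) :
    ∑ i, eval b (pderiv i (resx x G)) * w i
      = ∑ o, eval (Sum.elim (fl x b) x) (pderiv (inl o) G) * dfl x w o := by
  have h1 : (fun l => eval b (Sum.elim (fl (fun l => (C (x l) : MvPolynomial (Fin k) ℂ)) X)
      (fun l => C (x l)) l)) = Sum.elim (fl x b) x := by
    funext l
    rcases l with (_ | i | i) | l <;> simp [fl]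
  rw [resx, fl_chain, h1, Fintype.sum_sum_type]
  simp only [Sum.elim_inl, Sum.elim_inr, pderiv_C, map_zero, zero_mul, Finset.sum_const_zero,
    mul_zero, add_zero]
  refine Finset.sum_congr rfl fun o _ => congrArg _ ?_
  simp only [← aeval_eq_eval]
  rcases o with _ | i | i
  · simp only [fl, dfl]
    rw [flD_add, flD_sum, flD_C, zero_add]
    simp only [flD_mul, flD_X, flD_C, mul_zero, add_zero, aeval_C, Algebra.algebraMap_self_apply]
  · exact flD_X _ _ _
  · simp only [fl, dfl]
    rw [flD_sub, flD_mul, flD_C, flD_C, flD_X]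
    simp

theorem totalDegree_fl_le (x : Tx k → ℂ) (o : Sx k) :
    (fl (fun l => (C (x l) : MvPolynomial (Fin k) ℂ)) X o).totalDegree ≤ 1 := by
  have h : ∀ (c : ℂ) (i : Fin k), (C c * X i : MvPolynomial (Fin k) ℂ).totalDegree ≤ 1 :=
    fun c i => (totalDegree_mul _ _).trans (by simp)
  rcases o with _ | i | i
  · exact (totalDegree_add _ _).trans
      (max_le (by simp) (totalDegree_finsetSum_le fun i _ => h _ _))
  · simp [fl]
  · exact (totalDegree_sub _ _).trans (max_le (by simp) (h _ _))

theorem BD.resx {t M : ℕ} {G : MvPolynomial (Sx k ⊕ Tx k) ℂ} (h : BD t M G) (x : Tx k → ℂ) :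
    (resx x G).totalDegree ≤ M := by
  exact h.totalDegree_aeval _ (totalDegree_fl_le x) x

theorem bd_incP (o : Sx k) : BD 1 1 (incP o) := by
  have h1 : ∀ o : Sx k, BD 0 1 (X (inl o) : MvPolynomial (Sx k ⊕ Tx k) ℂ) := by
    intro o α hα
    rw [support_X, Finset.mem_singleton] at hα
    subst hα
    simp [Finsupp.single_apply]
  have h2 : ∀ l : Tx k, BD 1 0 (X (inr l) : MvPolynomial (Sx k ⊕ Tx k) ℂ) := by
    intro o α hα
    rw [support_X, Finset.mem_singleton] at hα
    subst hα
    simp [Finsupp.single_apply]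
  rw [incP, sub_eq_add_neg]
  refine ((h1 o).mono zero_le_one le_rfl).add (BD.neg ?_)
  rcases o with _ | i | i
  · exact ((h2 _).mono le_rfl zero_le_one).add (BD.sum _ fun i _ => (h2 _).mul (h1 _))
  · exact (h1 _).mono zero_le_one le_rfl
  · simp only [fl]
    rw [sub_eq_add_neg]
    exact ((h2 _).mono le_rfl zero_le_one).add ((h2 _).mul (h1 _)).neg

theorem card_Sx (k : ℕ) : Fintype.card (Sx k) = 2 * k + 1 := by
  simp [two_mul]

theorem card_Tx (k : ℕ) : Fintype.card (Tx k) = 2 * k + 2 := by
  simp only [Fintype.card_sum, Fintype.card_fin]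
  ring

theorem cx_bil (x y : Tx k → ℝ) : bil (cx x) (cx y) = ((bil x y : ℝ) : ℂ) := by
  simp [bil, cx]

theorem cx_nul {x y : Tx k → ℝ} : nul (cx x) (cx y) ↔ nul x y := by
  have e : cx x - cx y = cx (x - y) := by
    funext l
    simp [cx]
  rw [nul, nul, e, cx_bil, Complex.ofReal_eq_zero]

theorem cx_injective {τ : Type} : Function.Injective (cx : (τ → ℝ) → τ → ℂ) := by
  intro x y h
  funext l
  exact Complex.ofReal_injective (congrFun h l)

end Vale.Agent.P054A
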