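import Vale.Agent.P054A.LocB
import Vale.Agent.P054A.BDl

/-!
Generic smoothness.
-/

namespace Vale.Agent.P054A

open MvPolynomial
open scoped Classical

section Desc

variable {K L τ : Type} [Field K] [Field L] [Algebra K L]

/-- Apply a linear functional to the coefficients. -/
noncomputable def gensL (μ : L →ₗ[K] K) (q : MvPolynomial τ L) : MvPolynomial τ K :=
  ∑ α ∈ q.support, monomial α (μ (coeff α q))

theorem gensL_coeff (μ : L →ₗ[K] K) (q : MvPolynomial τ L) (α : τ →₀ ℕ) :
    coeff α (gensL μ q) = μ (coeff α q) := by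
  rw [gensL, coeff_sum]
  simp only [coeff_monomial]
  rw [Finset.sum_ite_eq']
  split_ifs with h
  · rfl
  · rw [notMem_support_iff.1 h, map_zero]

theorem gensL_mul (μ : L →ₗ[K] K) (q : MvPolynomial τ L) (g : MvPolynomial τ K) :
    gensL μ (q * map (algebraMap K L) g) = gensL μ q * g := by
  ext α
  rw [gensL_coeff, coeff_mul, coeff_mul, map_sum]
  refine Finset.sum_congr rfl fun x _ => ?_
  rw [gensL_coeff, coeff_map, mul_comm, ← Algebra.smul_def, map_smul, smul_eq_mul, mul_comm]

theorem gensL_sum {ι : Type} (s : Finset ι) (μ : L →ₗ[K] K) (q : ι → MvPolynomial τ L) :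
    gensL μ (∑ i ∈ s, q i) = ∑ i ∈ s, gensL μ (q i) := by
  ext α
  rw [gensL_coeff, coeff_sum, coeff_sum, map_sum]
  exact Finset.sum_congr rfl fun i _ => (gensL_coeff μ (q i) α).symm

theorem gensL_ne {q : MvPolynomial τ L} {ζ : τ → L} (hq : eval ζ q ≠ 0) :
    ∃ μ : L →ₗ[K] K, eval ζ (map (algebraMap K L) (gensL μ q)) ≠ 0 := by
  by_contra hc
  push Not at hc
  apply hq
  let b := Module.Basis.ofVectorSpace K L
  let S := q.support.biUnion fun α => (b.repr (coeff α q)).support
  have h1 : q = ∑ j ∈ S, C (b j) * map (algebraMap K L) (gensL (b.coord j) q) := by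
    ext α
    rw [coeff_sum]
    simp only [coeff_C_mul, coeff_map, gensL_coeff, Module.Basis.coord_apply]
    by_cases hα : α ∈ q.support
    · conv_lhs => rw [← b.linearCombination_repr (coeff α q)]
      rw [Finsupp.linearCombination_apply, Finsupp.sum_of_support_subset _
        (Finset.subset_biUnion_of_mem (fun α => (b.repr (coeff α q)).support) hα) _ (by simp)]
      exact Finset.sum_congr rfl fun j _ => by rw [Algebra.smul_def, mul_comm]
    · simp [notMem_support_iff.1 hα]
  rw [h1, map_sum]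
  exact Finset.sum_eq_zero fun j _ => by rw [map_mul, hc, mul_zero]

theorem gens_clear {A : Type} [CommRing A] (β : A →+* K)
    (hβ : ∀ x : K, ∃ a b, β b ≠ 0 ∧ β b * x = β a) (g : MvPolynomial τ K) :
    ∃ b g', β b ≠ 0 ∧ C (β b) * g = map β g' := by
  induction g using MvPolynomial.induction_on with
  | C x =>
    obtain ⟨a, b, hb, h⟩ := hβ x
    exact ⟨b, C a, hb, by rw [← map_mul, h, map_C]⟩
  | add p q hp hq =>
    obtain ⟨b, p', hb, h⟩ := hp
    obtain ⟨b', q', hb', h'⟩ := hq
    refine ⟨b * b', C b' * p' + C b * q', by rw [map_mul]; exact mul_ne_zero hb hb', ?_⟩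
    rw [map_add, map_mul, map_mul, map_mul, map_mul, map_C, map_C, ← h, ← h']
    ring
  | mul_X p l hp =>
    obtain ⟨b, p', hb, h⟩ := hp
    exact ⟨b, p' * X l, hb, by rw [map_mul, map_X, ← h, mul_assoc]⟩

theorem gens_clear_span {A κ : Type} [CommRing A] (β : A →+* K)
    (hβ : ∀ x : K, ∃ a b, β b ≠ 0 ∧ β b * x = β a) (φ : κ → MvPolynomial τ A)
    {g : MvPolynomial τ K} (hg : g ∈ Ideal.span (Set.range fun i => map β (φ i))) :
    ∃ b, β b ≠ 0 ∧ ∃ g' ∈ Ideal.span (Set.range φ), C (β b) * g = map β g' := by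
  induction hg using Submodule.span_induction with
  | mem x hx =>
    obtain ⟨i, rfl⟩ := hx
    exact ⟨1, by simp, φ i, Ideal.subset_span ⟨i, rfl⟩, by simp⟩
  | zero => exact ⟨1, by simp, 0, zero_mem _, by simp⟩
  | add p q _ _ hp hq =>
    obtain ⟨b, hb, p', hp', h⟩ := hp
    obtain ⟨b', hb', q', hq', h'⟩ := hq
    refine ⟨b * b', by rw [map_mul]; exact mul_ne_zero hb hb', C b' * p' + C b * q',
      add_mem (Ideal.mul_mem_left _ _ hp') (Ideal.mul_mem_left _ _ hq'), ?_⟩
    rw [map_add, map_mul, map_mul, map_mul, map_mul, map_C, map_C, ← h, ← h']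
    ring
  | smul r p _ hp =>
    obtain ⟨b, hb, p', hp', h⟩ := hp
    obtain ⟨b', r', hb', h'⟩ := gens_clear β hβ r
    refine ⟨b * b', by rw [map_mul]; exact mul_ne_zero hb hb', r' * p',
      Ideal.mul_mem_left _ _ hp', ?_⟩
    rw [map_mul, map_mul, map_mul, ← h, ← h', smul_eq_mul]
    ring

theorem gens_desc {A κ : Type} [CommRing A] [Fintype κ] (β : A →+* K)
    (hβ : ∀ x : K, ∃ a b, β b ≠ 0 ∧ β b * x = β a) (φ : κ → MvPolynomial τ A)
    (G : MvPolynomial τ A) {ζ : τ → L} {q : MvPolynomial τ L} (hq : eval ζ q ≠ 0)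
    (h : q * map (algebraMap K L) (map β G) ∈
      Ideal.span (Set.range fun i => map (algebraMap K L) (map β (φ i)))) :
    ∃ q' : MvPolynomial τ A, eval ζ (map (algebraMap K L) (map β q')) ≠ 0 ∧
      q' * G ∈ Ideal.span (Set.range φ) ⊔ (RingHom.ker β).map C := by
  obtain ⟨μ, hμ⟩ := gensL_ne (K := K) hq
  obtain ⟨r, hr⟩ := Ideal.mem_span_range_iff_exists_fun.1 h
  have h1 : gensL μ q * map β G ∈ Ideal.span (Set.range fun i => map β (φ i)) := by
    rw [← gensL_mul, ← hr, gensL_sum]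
    refine Ideal.sum_mem _ fun i _ => ?_
    rw [gensL_mul]
    exact Ideal.mul_mem_left _ _ (Ideal.subset_span ⟨i, rfl⟩)
  obtain ⟨b, hb, g', hg', h2⟩ := gens_clear_span β hβ φ h1
  obtain ⟨b', q', hb', h3⟩ := gens_clear β hβ (gensL μ q)
  refine ⟨C b * q', ?_, ?_⟩
  · rw [map_mul, ← h3, map_C, map_mul, map_mul, map_mul, map_mul, map_C, map_C, eval_C, eval_C]
    exact mul_ne_zero ((map_ne_zero _).2 hb) (mul_ne_zero ((map_ne_zero _).2 hb') hμ)
  · have h4 : map β (C b * q' * G - C b' * g') = 0 := by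
      rw [map_sub, map_mul, map_mul, map_mul, map_C, map_C, ← h3, ← h2]
      ring
    have h5 : C b * q' * G - C b' * g' ∈ (RingHom.ker β).map (C : A →+* MvPolynomial τ A) := by
      refine mem_map_C_iff.2 fun m => ?_
      rw [RingHom.mem_ker, ← coeff_map, h4, coeff_zero]
    have h6 : C b * q' * G = C b' * g' + (C b * q' * G - C b' * g') := by ring
    rw [h6]
    exact Submodule.add_mem_sup (Ideal.mul_mem_left _ _ hg') h5

end Desc

theorem gens_max {A τ : Type} [CommRing A] [Fintype τ] (I : Ideal (MvPolynomial τ A))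
    (hI : I.IsPrime) :
    ∃ (c : ℕ) (φ : Fin c → MvPolynomial τ A) (J : Fin c → τ), (∀ i, φ i ∈ I) ∧ minor φ J ∉ I ∧
      ∀ G ∈ I, ∀ k, Dk φ J k G ∈ I := by
  let Q : ℕ → Prop := fun c => ∃ (φ : Fin c → MvPolynomial τ A) (J : Fin c → τ),
    (∀ i, φ i ∈ I) ∧ minor φ J ∉ I
  have h0 : Q 0 := ⟨Fin.elim0, Fin.elim0, fun i => i.elim0, by
    rw [minor, Matrix.det_isEmpty]
    exact (Ideal.ne_top_iff_one I).1 hI.ne_top⟩
  have hb : ∀ c, Q c → c ≤ Fintype.card τ := by
    rintro c ⟨φ, J, -, hm⟩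
    have := Fintype.card_le_of_injective J (inj_of_minor_ne (f := φ) fun h => hm (h ▸ zero_mem _))
    simpa using this
  obtain ⟨φ, J, h1, h2⟩ : Q (Nat.findGreatest Q (Fintype.card τ)) :=
    Nat.findGreatest_spec (Nat.zero_le _) h0
  refine ⟨_, φ, J, h1, h2, fun G hG k => ?_⟩
  by_contra hc
  have hQ : Q (Nat.findGreatest Q (Fintype.card τ) + 1) := by
    refine ⟨fun i => (finSuccEquiv _ i).elim G φ, fun i => (finSuccEquiv _ i).elim k J,
      fun i => ?_, ?_⟩
    · beta_reduce
      cases finSuccEquiv _ i with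
      | none => exact hG
      | some j => exact h1 j
    · have := minor_reindex (finSuccEquiv (Nat.findGreatest Q (Fintype.card τ)))
        (fun o : Option _ => o.elim G φ) (fun o : Option _ => o.elim k J)
      rw [this]
      exact hc
  exact Nat.findGreatest_is_greatest (Nat.lt_succ_self _) (hb _ hQ) hQ

theorem gens_loc {A τ L κ : Type} [CommRing A] [Fintype τ] [Field L] [CharZero L] [Fintype κ]
    [DecidableEq κ] {I : Ideal (MvPolynomial τ A)} (α : A →+* L) (ζ : τ → L)
    (hk : ∀ G, eval ζ (map α G) = 0 ↔ G ∈ I) {φ : κ → MvPolynomial τ A} {J : κ → τ}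
    (h1 : ∀ i, φ i ∈ I) (h2 : minor φ J ∉ I) (h3 : ∀ G ∈ I, ∀ k, Dk φ J k G ∈ I)
    {G : MvPolynomial τ A} (hG : G ∈ I) : map α G ∈ locP (fun i => map α (φ i)) ζ := by
  have hs : Simple (fun i => map α (φ i)) J ζ :=
    ⟨fun i => (hk _).2 (h1 i), by rw [← map_minor]; exact fun h => h2 ((hk _).1 h)⟩
  let N : Submodule L (MvPolynomial τ L) := Submodule.span L (map α '' (I : Set _))
  have hN0 : ∀ g ∈ N, eval ζ g = 0 := by
    intro g hg
    induction hg using Submodule.span_induction with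
    | mem x hx =>
      obtain ⟨G, hG, rfl⟩ := hx
      exact (hk G).2 hG
    | zero => exact map_zero _
    | add p q _ _ hp hq => rw [map_add, hp, hq, add_zero]
    | smul r p _ hp => rw [smul_eval, hp, mul_zero]
  have hND : ∀ k, ∀ g ∈ N, Dk (fun i => map α (φ i)) J k g ∈ N := by
    intro k g hg
    induction hg using Submodule.span_induction with
    | mem x hx =>
      obtain ⟨G, hG, rfl⟩ := hx
      rw [← map_Dk]
      exact Submodule.subset_span ⟨_, h3 G hG k, rfl⟩
    | zero =>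
      rw [← C_0, Dk_C]
      exact zero_mem _
    | add p q _ _ hp hq =>
      rw [Dk_add]
      exact add_mem hp hq
    | smul r p _ hp =>
      rw [Dk_smul]
      exact Submodule.smul_mem _ _ hp
  refine (mem_locP_iff hs _).2 fun lam i => hN0 _ ?_
  induction i with
  | zero => exact Submodule.subset_span ⟨G, hG, rfl⟩
  | succ i ih =>
    rw [Function.iterate_succ_apply', Dl]
    exact Submodule.sum_mem _ fun k _ => Submodule.smul_mem _ _ (hND k _ ih)

/-- A prime ideal is generically cut out by a simple system over the base. -/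
theorem exists_generic_system {A τ : Type} [CommRing A] [Algebra ℚ A] [Fintype τ]
    (I : Ideal (MvPolynomial τ A)) (hI : I.IsPrime) :
    ∃ (c : ℕ) (φ : Fin c → MvPolynomial τ A) (J : Fin c → τ), (∀ i, φ i ∈ I) ∧ minor φ J ∉ I ∧
      ∀ G ∈ I, ∃ q, q ∉ I ∧ q * G ∈ Ideal.span (Set.range φ) ⊔ (I.comap C).map C := by
  obtain ⟨c, φ, J, h1, h2, h3⟩ := gens_max I hI
  refine ⟨c, φ, J, h1, h2, fun G hG => ?_⟩
  let L := FractionRing (MvPolynomial τ A ⧸ I)
  let θ : MvPolynomial τ A →+* L := (algebraMap _ L).comp (Ideal.Quotient.mk I)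
  have hθ : ∀ G, θ G = 0 ↔ G ∈ I := fun G => by
    rw [RingHom.comp_apply, map_eq_zero_iff _ (IsFractionRing.injective _ L),
      Ideal.Quotient.eq_zero_iff_mem]
  let α : A →+* L := θ.comp C
  let ζ : τ → L := fun l => θ (X l)
  have hev : ∀ G, eval ζ (map α G) = θ G := by
    intro G
    induction G using MvPolynomial.induction_on with
    | C a => rw [map_C, eval_C]; rfl
    | add p q hp hq => rw [map_add, map_add, map_add, hp, hq]
    | mul_X q l hp => rw [map_mul, map_mul, map_mul, hp, map_X, eval_X]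
  have : CharZero L := charZero_of_injective_ringHom (α.comp (algebraMap ℚ A)).injective
  obtain ⟨q, hq, hqG⟩ := gens_loc α ζ (fun G => by rw [hev, hθ]) h1 h2 h3 hG
  let K : Subfield L := Subfield.closure (α.range : Set L)
  let β : A →+* K := α.codRestrict K fun a => Subfield.subset_closure ⟨a, rfl⟩
  have hβα : (algebraMap K L).comp β = α := RingHom.ext fun _ => rfl
  have hmm : ∀ g : MvPolynomial τ A, map (algebraMap K L) (map β g) = map α g := fun g => by
    rw [map_map, hβα]
  have hβ : ∀ x : K, ∃ a b, β b ≠ 0 ∧ β b * x = β a := by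
    rintro ⟨x, hx⟩
    obtain ⟨y, hy, z, hz, rfl⟩ := Subfield.mem_closure_iff.1 hx
    rw [Subring.closure_eq] at hy hz
    obtain ⟨a, rfl⟩ := hy
    obtain ⟨b, rfl⟩ := hz
    by_cases hb : α b = 0
    · refine ⟨0, 1, by simp, Subtype.ext ?_⟩
      simp [hb]
    · refine ⟨a, b, fun h => hb (congrArg Subtype.val h), Subtype.ext ?_⟩
      change α b * (α a / α b) = α a
      exact mul_div_cancel₀ _ hb
  obtain ⟨q', hq', hm⟩ := gens_desc β hβ φ G hq (by simpa only [hmm] using hqG)
  refine ⟨q', fun h => hq' (by rw [hmm, hev, hθ]; exact h), ?_⟩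
  have hker : RingHom.ker β = I.comap C := by
    ext a
    rw [RingHom.mem_ker, Ideal.mem_comap, ← hθ, Subtype.ext_iff]
    rfl
  rwa [hker] at hm

end Vale.Agent.P054A
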