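import Vale.Agent.P054A.Defs

/-!
Basic properties of the Hilbert function.
-/

namespace Vale.Agent.P054A

open MvPolynomial
open scoped Classical

variable {K : Type} [Field K] {σ : Type} [Fintype σ]

/-- The class map on polynomials of bounded degree. -/
noncomputable def hilAMap (I : Ideal (MvPolynomial σ K)) (M : ℕ) :
    restrictTotalDegree σ K M →ₗ[K] MvPolynomial σ K ⧸ I :=
  (Ideal.Quotient.mkₐ K I).toLinearMap ∘ₗ (restrictTotalDegree σ K M).subtype

omit [Fintype σ] in
theorem hilA_eq (I : Ideal (MvPolynomial σ K)) (M : ℕ) :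
    H I M = Module.finrank K (LinearMap.range (hilAMap I M)) := by
  unfold H hilAMap
  rw [LinearMap.range_comp, Submodule.range_subtype]

omit [Fintype σ] in
theorem hilA_ker (I : Ideal (MvPolynomial σ K)) (M : ℕ) (g : restrictTotalDegree σ K M) :
    g ∈ LinearMap.ker (hilAMap I M) ↔ (g : MvPolynomial σ K) ∈ I := by
  rw [LinearMap.mem_ker]
  exact Ideal.Quotient.eq_zero_iff_mem

theorem hilA_rank {V W W' : Type} [AddCommGroup V] [Module K V] [AddCommGroup W] [Module K W]
    [AddCommGroup W'] [Module K W'] [Module.Finite K V] (f : V →ₗ[K] W) (g : V →ₗ[K] W')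
    (h : LinearMap.ker f ≤ LinearMap.ker g) :
    Module.finrank K (LinearMap.range g) ≤ Module.finrank K (LinearMap.range f) := by
  have h1 := f.finrank_range_add_finrank_ker
  have h2 := g.finrank_range_add_finrank_ker
  have h3 := Submodule.finrank_mono h
  omega

theorem hilA_le {W : Type} [AddCommGroup W] [Module K W] [Module.Finite K W]
    {I : Ideal (MvPolynomial σ K)} {M : ℕ} (f : restrictTotalDegree σ K M →ₗ[K] W)
    (h : ∀ g, f g = 0 → (g : MvPolynomial σ K) ∈ I) : H I M ≤ Module.finrank K W := by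
  rw [hilA_eq]
  refine (hilA_rank f _ fun g hg => ?_).trans (Submodule.finrank_le _)
  exact (hilA_ker I M g).2 (h g hg)

theorem hilA_card (j : ℕ) :
    Nat.card {n : σ →₀ ℕ | (n.sum fun _ e => e) ≤ j}
      = (j + Fintype.card σ).choose (Fintype.card σ) := by
  have hs : ∀ n : σ →₀ ℕ, (n.sum fun _ e => e) = ∑ i, n i := fun n =>
    Finsupp.sum_fintype _ _ fun _ => rfl
  let E : {n : σ →₀ ℕ | (n.sum fun _ e => e) ≤ j} ≃ {P : Option σ → ℕ // ∑ i, P i = j} :=
    { toFun := fun n => ⟨fun o => o.elim (j - ∑ i, n.1 i) n.1, by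
        have h := n.2
        rw [Set.mem_ofPred_eq, hs] at h
        rw [Fintype.sum_option]
        simp only [Option.elim_none, Option.elim_some]
        omega⟩
      invFun := fun P => ⟨Finsupp.equivFunOnFinite.symm fun i => P.1 (some i), by
        have h := P.2
        rw [Fintype.sum_option] at h
        rw [Set.mem_ofPred_eq, hs]
        simp only [Finsupp.coe_equivFunOnFinite_symm]
        omega⟩
      left_inv := fun n => by
        ext i
        simp
      right_inv := fun P => by
        have h := P.2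
        rw [Fintype.sum_option] at h
        ext i
        cases i with
        | none =>
          simp only [Option.elim_none, Finsupp.coe_equivFunOnFinite_symm]
          omega
        | some i => simp }
  rw [Nat.card_congr (E.trans (Sym.equivNatSumOfFintype (Option σ) j).symm),
    Nat.card_eq_fintype_card, Sym.card_sym_eq_choose, Fintype.card_option,
    show Fintype.card σ + 1 + j - 1 = j + Fintype.card σ by omega, Nat.choose_symm_add]

theorem hilA_choose (M d : ℕ) : (M + d).choose d ≤ (M + 1) ^ d := by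
  induction d with
  | zero => simp
  | succ d ih =>
    have h1 := Nat.add_one_mul_choose_eq (M + d) d
    have h2 : (M + (d + 1)).choose (d + 1) * (d + 1) ≤ (M + 1) ^ (d + 1) * (d + 1) := by
      rw [show M + (d + 1) = M + d + 1 from rfl, ← h1, pow_succ]
      calc (M + d + 1) * (M + d).choose d ≤ ((M + 1) * (d + 1)) * (M + 1) ^ d :=
            Nat.mul_le_mul (by nlinarith) ih
        _ = _ := by ring
    exact Nat.le_of_mul_le_mul_right h2 (Nat.succ_pos d)


theorem H_mono (I : Ideal (MvPolynomial σ K)) {M M' : ℕ} (h : M ≤ M') : H I M ≤ H I M' := by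
  unfold H
  refine Submodule.finrank_mono (Submodule.map_mono fun g hg => ?_)
  rw [mem_restrictTotalDegree] at hg ⊢
  exact hg.trans h

theorem H_anti {I J : Ideal (MvPolynomial σ K)} (h : I ≤ J) (M : ℕ) : H J M ≤ H I M := by
  rw [hilA_eq, hilA_eq]
  exact hilA_rank _ _ fun g hg => (hilA_ker J M g).2 (h ((hilA_ker I M g).1 hg))

theorem H_bot (M : ℕ) :
    H (⊥ : Ideal (MvPolynomial σ K)) M = (M + Fintype.card σ).choose (Fintype.card σ) := by
  have h1 := (hilAMap (⊥ : Ideal (MvPolynomial σ K)) M).finrank_range_add_finrank_ker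
  have h2 : LinearMap.ker (hilAMap (⊥ : Ideal (MvPolynomial σ K)) M) = ⊥ := by
    rw [eq_bot_iff]
    intro g hg
    rw [hilA_ker, Ideal.mem_bot] at hg
    exact (Submodule.mem_bot K).2 (Subtype.ext hg)
  rw [h2, finrank_bot, add_zero] at h1
  rw [hilA_eq, h1, ← hilA_card]
  exact Module.finrank_eq_nat_card_basis (basisRestrictSupport K _)

theorem H_le_pow (I : Ideal (MvPolynomial σ K)) (M : ℕ) : H I M ≤ (M + 1) ^ Fintype.card σ := by
  refine (H_anti bot_le M).trans ?_
  rw [H_bot]
  exact hilA_choose _ _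

theorem exists_notin_of_H_lt {I J : Ideal (MvPolynomial σ K)} {M : ℕ} (h : H J M < H I M) :
    ∃ g ∈ J, g ∉ I ∧ g.totalDegree ≤ M := by
  by_contra hc
  refine absurd h (not_lt.2 ?_)
  rw [hilA_eq, hilA_eq]
  refine hilA_rank _ _ fun g hg => (hilA_ker I M g).2 ?_
  by_contra hg'
  exact hc ⟨g, (hilA_ker J M g).1 hg, hg', (mem_restrictTotalDegree _ _ _).1 g.2⟩

theorem H_le_sum {α : Type} (s : Finset α) (I : α → Ideal (MvPolynomial σ K))
    {J : Ideal (MvPolynomial σ K)} (h : ∀ g, (∀ a ∈ s, g ∈ I a) → g ∈ J) (M : ℕ) :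
    H J M ≤ ∑ a ∈ s, H (I a) M := by
  have h1 := hilA_le (W := ∀ a : s, LinearMap.range (hilAMap (I a) M)) (I := J) (M := M)
    (LinearMap.pi fun a : s => (hilAMap (I a) M).rangeRestrict) fun g hg => h _ fun a ha => by
      have h2 := congrFun hg ⟨a, ha⟩
      rw [← hilA_ker, LinearMap.mem_ker]
      exact congrArg Subtype.val h2
  have hf : ∀ a : s, Module.Free K (LinearMap.range (hilAMap (I a) M)) := fun a =>
    Module.Free.of_divisionRing K _
  rw [Module.finrank_pi_fintype] at h1
  refine h1.trans (le_of_eq ?_)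
  rw [← Finset.sum_coe_sort s]
  exact Finset.sum_congr rfl fun a _ => (hilA_eq _ _).symm

theorem card_le_H_of_indep {α : Type} [Fintype α] {I : Ideal (MvPolynomial σ K)} {M : ℕ}
    (g : α → MvPolynomial σ K) (hd : ∀ a, (g a).totalDegree ≤ M)
    (h : ∀ c : α → K, ∑ a, c a • g a ∈ I → c = 0) : Fintype.card α ≤ H I M := by
  rw [hilA_eq]
  let v : α → restrictTotalDegree σ K M := fun a =>
    ⟨g a, (mem_restrictTotalDegree _ _ _).2 (hd a)⟩
  refine LinearIndependent.fintype_card_le_finrank
    (b := fun a => (hilAMap I M).rangeRestrict (v a)) ?_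
  rw [Fintype.linearIndependent_iff]
  intro c hc
  have h1 : (hilAMap I M).rangeRestrict (∑ a, c a • v a) = 0 := by
    rw [map_sum, ← hc]
    exact Finset.sum_congr rfl fun a _ => map_smul _ _ _
  have h2 : ∑ a, c a • v a ∈ LinearMap.ker (hilAMap I M) := by
    rw [LinearMap.mem_ker]
    exact congrArg Subtype.val h1
  rw [hilA_ker] at h2
  have h3 : ((∑ a, c a • v a : restrictTotalDegree σ K M) : MvPolynomial σ K)
      = ∑ a, c a • g a := by
    rw [Submodule.coe_sum]
    rfl
  rw [h3] at h2
  exact congrFun (h c h2)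

theorem card_le_H_of_sep {α : Type} (s : Finset α) {I : Ideal (MvPolynomial σ K)} {M : ℕ}
    (p : α → σ → K) (hp : ∀ a ∈ s, On (p a) I)
    (h : ∀ a ∈ s, ∃ g : MvPolynomial σ K, g.totalDegree ≤ M ∧ eval (p a) g ≠ 0 ∧
      ∀ a' ∈ s, a' ≠ a → eval (p a') g = 0) : s.card ≤ H I M := by
  choose g hg using h
  rw [← Fintype.card_coe]
  refine card_le_H_of_indep (fun a : s => g a a.2) (fun a => (hg a a.2).1) fun c hc => ?_
  funext a
  have h1 := hp a a.2 _ hc
  rw [map_sum, Finset.sum_eq_single a] at h1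
  · rw [smul_eval] at h1
    exact (mul_eq_zero.1 h1).resolve_right (hg a a.2).2.1
  · intro b _ hb
    rw [smul_eval, (hg b b.2).2.2 a a.2 fun e => hb (Subtype.ext e.symm), mul_zero]
  · intro hb
    exact absurd (Finset.mem_univ a) hb

theorem exists_sep (W : Finset (σ → K)) (M : ℕ) :
    ∃ S ⊆ W, S.card = H (vanI (W : Set (σ → K))) M ∧ ∀ p ∈ S, ∃ g : MvPolynomial σ K,
      g.totalDegree ≤ M ∧ eval p g = 1 ∧ ∀ q ∈ S, q ≠ p → eval q g = 0 := by
  obtain ⟨S, hS, hmax⟩ := Finset.exists_max_image
    (W.powerset.filter fun S => ∀ p ∈ S, ∃ g : MvPolynomial σ K,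
      g.totalDegree ≤ M ∧ eval p g = 1 ∧ ∀ q ∈ S, q ≠ p → eval q g = 0) Finset.card
    ⟨∅, by simp⟩
  rw [Finset.mem_filter, Finset.mem_powerset] at hS
  refine ⟨S, hS.1, le_antisymm ?_ ?_, hS.2⟩
  · refine card_le_H_of_sep S id (fun p hp g hg => hg p (hS.1 hp)) fun p hp => ?_
    obtain ⟨g, h1, h2, h3⟩ := hS.2 p hp
    exact ⟨g, h1, by rw [id, h2]; exact one_ne_zero, h3⟩
  · have h1 := hilA_le (I := vanI (W : Set (σ → K))) (M := M)
      (LinearMap.pi fun q : S =>
        (aeval q.1 : MvPolynomial σ K →ₐ[K] K).toLinearMap ∘ₗ (restrictTotalDegree σ K M).subtype)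
      fun g hg p hp => by
        have hz : ∀ q ∈ S, eval q (g : MvPolynomial σ K) = 0 := fun q hq => by
          have h2 := congrFun hg ⟨q, hq⟩
          rw [← coe_aeval_eq_eval]
          exact h2
        have hgd : (g : MvPolynomial σ K).totalDegree ≤ M := (mem_restrictTotalDegree _ _ _).1 g.2
        by_contra hne
        have hpS : p ∉ S := fun hp' => hne (hz p hp')
        have h3 := hmax (insert p S) (by
          rw [Finset.mem_filter, Finset.mem_powerset]
          refine ⟨Finset.insert_subset (Finset.mem_coe.1 hp) hS.1, fun q hq => ?_⟩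
          rcases Finset.mem_insert.1 hq with rfl | hq
          · refine ⟨(eval q (g : MvPolynomial σ K))⁻¹ • (g : MvPolynomial σ K),
              (totalDegree_smul_le _ _).trans hgd, by rw [smul_eval, inv_mul_cancel₀ hne],
              fun q' hq' hne' => ?_⟩
            rw [smul_eval, hz q' ((Finset.mem_insert.1 hq').resolve_left hne'), mul_zero]
          · obtain ⟨g', h4, h5, h6⟩ := hS.2 q hq
            refine ⟨g' - (eval p g' * (eval p (g : MvPolynomial σ K))⁻¹) • (g : MvPolynomial σ K),
              (totalDegree_sub _ _).trans (max_le h4 ((totalDegree_smul_le _ _).trans hgd)),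
              by rw [map_sub, smul_eval, hz q hq, mul_zero, sub_zero, h5],
              fun q' hq' hne' => ?_⟩
            rcases Finset.mem_insert.1 hq' with rfl | hq'
            · rw [map_sub, smul_eval, mul_assoc, inv_mul_cancel₀ hne, mul_one, sub_self]
            · rw [map_sub, smul_eval, hz q' hq', mul_zero, sub_zero, h6 q' hq' hne'])
        rw [Finset.card_insert_of_notMem hpS] at h3
        omega
    rwa [Module.finrank_fintype_fun_eq_card, Fintype.card_coe] at h1

theorem H_vanI_le_card (W : Finset (σ → K)) (M : ℕ) :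
    H (vanI (W : Set (σ → K))) M ≤ W.card := by
  obtain ⟨S, h1, h2, _⟩ := exists_sep W M
  rw [← h2]
  exact Finset.card_le_card h1

theorem one_le_H {p : σ → K} {I : Ideal (MvPolynomial σ K)} (h : On p I) (M : ℕ) :
    1 ≤ H I M := by
  have h1 := card_le_H_of_sep (I := I) (M := M) ({()} : Finset Unit) (fun _ => p)
    (fun _ _ => h) fun a _ => ⟨1, by simp, by simp, fun a' _ ha => absurd rfl ha⟩
  simpa using h1

end Vale.Agent.P054A
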