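import Vale.Agent.P054A.IsoA
import Vale.Agent.P054A.Deg

/-!
The isotropic case.
-/

namespace Vale.Agent.P054A

open MvPolynomial Sum
open scoped Classical

variable {k : ℕ} {ι : Type} {t j₁ j₂ : ℕ} {E : Finset ι} {x y : ι → Tx k → ℂ}
  {b : ι → Fin k → ℂ} {P₁ P₂ : ι → Ideal (MvPolynomial (Fin k) ℂ)} {c c₁ c₂ : ℕ}
  {f : Fin c → MvPolynomial (Sx k) ℂ} {J : Fin c → Sx k}
  {φ₁ : Fin c₁ → MvPolynomial (Sx k ⊕ Tx k) ℂ} {J₁ : Fin c₁ → Tx k}
  {φ₂ : Fin c₂ → MvPolynomial (Sx k ⊕ Tx k) ℂ} {J₂ : Fin c₂ → Tx k}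
  {Q₁ Q₂ : Ideal (MvPolynomial (Sx k ⊕ Tx k) ℂ)}

theorem Pack.restrict (h : Pack t j₁ j₂ E x y b P₁ P₂ f J φ₁ J₁ φ₂ J₂ Q₁ Q₂) {F : Finset ι}
    (hF : F ⊆ E) (hne : F.Nonempty) : Pack t j₁ j₂ F x y b P₁ P₂ f J φ₁ J₁ φ₂ J₂ Q₁ Q₂ := by
  exact ⟨hne, h.le₁, h.le₂, h.crit, fun e he => h.inc e (hF he), fun e he => h.sim₁ e (hF he),
    fun e he => h.sim₂ e (hF he), h.bd₂, h.inc₁, h.inc₂, h.rk₁, h.rk₂,
    fun e he => h.yc₁ e (hF he), fun e he => h.yc₂ e (hF he)⟩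

theorem iso_top {L τ : Type} [Field L] [Algebra ℂ L] (η : τ → L) :
    IntermediateField.adjoin ℂ (Set.range fun l => (⟨η l, IntermediateField.subset_adjoin ℂ _
      (Set.mem_range_self l)⟩ : IntermediateField.adjoin ℂ (Set.range η))) = ⊤ := by
  apply IntermediateField.lift_injective
  rw [IntermediateField.lift_adjoin, IntermediateField.lift_top, ← Set.range_comp]
  rfl

theorem iso_ker {L L' τ : Type} [Field L] [Algebra ℂ L] [Field L'] [Algebra ℂ L']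
    (ψ : L' →ₐ[ℂ] L) {p' : τ → L'} {p : τ → L} (h : ∀ l, ψ (p' l) = p l)
    (G : MvPolynomial τ ℂ) : aeval p' G = 0 ↔ aeval p G = 0 := by
  rw [← map_eq_zero_iff ψ ψ.injective, comp_aeval_apply, funext h]

theorem iso_mem {L : Type} [Field L] [Algebra ℂ L] (F : IntermediateField ℂ L) {z : Tx k → L}
    {β : Fin k → L} (hz : ∀ l, z l ∈ F) (hβ : ∀ i, β i ∈ F) (o : Sx k) : fl z β o ∈ F := by
  rcases o with _ | i | i
  · exact add_mem (hz _) (sum_mem fun i _ => mul_mem (hz _) (hβ i))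
  · exact hβ i
  · exact sub_mem (hz _) (mul_mem (hz _) (hβ i))

theorem iso_fin {L : Type} [Field L] [Algebra ℂ L] (F : IntermediateField ℂ L) {S S' : Set L}
    (hS : IntermediateField.adjoin ℂ S = ⊤) (hS' : S ⊆ S') {T : ℕ}
    (h : FiniteDimensional F (IntermediateField.adjoin F S') ∧
      Module.finrank F (IntermediateField.adjoin F S') ≤ T) :
    FiniteDimensional F L ∧ Module.finrank F L ≤ T := by
  have h6 : IntermediateField.adjoin F S' = ⊤ := by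
    refine eq_top_iff.2 fun z _ => ?_
    have h7 : IntermediateField.adjoin ℂ S ≤ (IntermediateField.adjoin F S').restrictScalars ℂ :=
      IntermediateField.adjoin_le_iff.2 (hS'.trans (IntermediateField.subset_adjoin F S'))
    exact h7 (hS ▸ IntermediateField.mem_top)
  rw [h6, IntermediateField.finrank_top'] at h
  have := h.1
  exact ⟨IntermediateField.topEquiv.toLinearEquiv.finiteDimensional, h.2⟩

theorem iso_edge (h : Pack t j₁ j₂ E x y b P₁ P₂ f J φ₁ J₁ φ₂ J₂ Q₁ Q₂) {L L' : Type} [Field L]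
    [Algebra ℂ L] [Field L'] [Algebra ℂ L'] {ζ : Sx k → L} {ξ η : Tx k → L}
    (g : Gen j₁ c₂ Q₁ Q₂ ζ ξ η) (ψ : L' →ₐ[ℂ] L) {η' : Tx k → L'} (hη : ∀ l, ψ (η' l) = η l)
    (htop : IntermediateField.adjoin ℂ (Set.range η') = ⊤) (hJ : Function.Bijective J₂)
    {e : ι} (he : e ∈ E) : ∃ β : Fin k → L',
      (∀ M, H (RingHom.ker (aeval β : MvPolynomial (Fin k) ℂ →ₐ[ℂ] L')) M ≤
        dg j₁ (P₁ e) * (M + 1) ^ j₁) ∧
      FiniteDimensional (IntermediateField.adjoin ℂ (Set.range β)) L' ∧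
      Module.finrank (IntermediateField.adjoin ℂ (Set.range β)) L' ≤ (c₂ * t + 1) ^ c₂ ∧
      ∀ i, η' (inl i.succ) - algebraMap ℂ L' (x e (inl i.succ)) =
        (η' (inl 0) - algebraMap ℂ L' (x e (inl 0))) * β i := by
  obtain ⟨-, s2, s3, s4, s5⟩ := h.spec g he
  obtain ⟨β, hβ'⟩ : ∃ β : Fin k → L', β = bb (fun l => algebraMap ℂ L' (x e l)) η' := ⟨_, rfl⟩
  have hβ : ∀ i, ψ (β i) = bb (fun l => algebraMap ℂ L (x e l)) η i := fun i => by
    simp only [hβ', bb, map_div₀, map_sub, AlgHom.commutes, hη]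
  have h1 : ∀ o, ψ (fl η' β o) = fl η (bb (fun l => algebraMap ℂ L (x e l)) η) o := fun o => by
    have := map_fl (ψ : L' →+* L) η' β o
    simp only [RingHom.coe_coe, hη, hβ] at this
    exact this
  have h2 : fl η' β = fl (fun l => algebraMap ℂ L' (x e l)) β := by
    funext o
    have := map_fl (ψ : L' →+* L) (fun l => algebraMap ℂ L' (x e l)) β o
    simp only [RingHom.coe_coe, AlgHom.commutes, hβ] at this
    exact ψ.injective (((h1 o).trans (congrFun s2 o)).trans this.symm)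
  have h3 : ∀ l, ψ (Sum.elim (fl η' β) η' l) =
      Sum.elim (fl η (bb (fun l => algebraMap ℂ L (x e l)) η)) η l := fun l => by
    rcases l with l | l
    · exact h1 l
    · exact hη l
  obtain ⟨M₀, hM₀⟩ := h.bd₂
  have h4 := finrank_adjoin_le' φ₂ (fun i => inr (J₂ i)) (t := t)
    (fun i α hα => (hJ.sum_comp fun l => α (inr l)).trans_le (hM₀ i α hα).1)
    (Sum.elim (fl η' β) η')
    (fun i => (iso_ker ψ h3 _).2 (s4 _ ((h.sim₂ e he).2 ▸ mem_locP (ext f φ₂) _ (inr i))))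
    (fun h4 => isoa_minor h he (s5 _ ((iso_ker ψ h3 _).1 h4)))
    (IntermediateField.adjoin ℂ (Set.range β)) fun l hl => by
      rcases l with l | l
      · rw [Sum.elim_inl, h2]
        exact iso_mem _ (fun _ => IntermediateField.algebraMap_mem _ _)
          (fun i => IntermediateField.subset_adjoin ℂ _ (Set.mem_range_self i)) l
      · obtain ⟨i, rfl⟩ := hJ.2 l
        exact absurd ⟨i, rfl⟩ hl
  rw [Fintype.card_fin] at h4
  obtain ⟨h5, h6⟩ := iso_fin _ htop (S' := Set.range (Sum.elim (fl η' β) η'))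
    (fun w ⟨l, hl⟩ => ⟨inr l, hl⟩) h4
  refine ⟨β, fun M => ?_, h5, h6, s_sub_of_fl h2⟩
  have h7 := (h.yc₁ e he).1.H_le M
  rw [Fintype.card_fin, Nat.sub_sub_self h.le₁] at h7
  exact (H_anti (fun G hG => (iso_ker ψ hβ G).2 (s3 G hG)) M).trans h7

theorem iso_main (h : Pack t j₁ j₂ E x y b P₁ P₂ f J φ₁ J₁ φ₂ J₂ Q₁ Q₂) {L L' : Type} [Field L]
    [Algebra ℂ L] [Field L'] [Algebra ℂ L'] {ζ : Sx k → L} {ξ η : Tx k → L}
    (g : Gen j₁ c₂ Q₁ Q₂ ζ ξ η) (ψ : L' →ₐ[ℂ] L) {η' : Tx k → L'} (hη : ∀ l, ψ (η' l) = η l)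
    (htop : IntermediateField.adjoin ℂ (Set.range η') = ⊤)
    (htr : (j₁ : Cardinal) ≤ Algebra.trdeg ℂ L') (hJ : Function.Bijective J₂) {a : ℕ}
    (o : Tx k → ℂ) (v : Fin a → Tx k → ℂ)
    (hv : LinearIndependent ℂ fun i => fun l : Fin (k + 1) => v i (inl l))
    (s : ι → Fin a → ℂ) (hs : ∀ e ∈ E, ∀ l, x e l = o l + ∑ i, s e i * v i l)
    (hI₂ : ∀ ℓ : Tx k → ℂ, (∀ i, ∑ l, ℓ l * v i l = 0) →
      rename inr (∑ l, C (ℓ l) * (X l - C (o l)) : MvPolynomial (Tx k) ℂ) ∈ Q₂)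
    (hspan : affineSpan ℂ (s '' (E : Set ι)) = ⊤) {δ : ℕ} (hδ : ∀ e ∈ E, dg j₁ (P₁ e) ≤ δ)
    (ha : j₁ + 1 ≤ a) (M : ℕ) : H (vanI (y '' (E : Set ι))) M ≤
      (j₁ + 2) ^ (2 * j₁ + 1) * (c₂ * t + 1) ^ c₂ * δ * (M + 1) ^ j₁ := by
  obtain ⟨υ, hυ⟩ := mem_span_of_eqs v (fun l => η' l - algebraMap ℂ L' (o l)) fun ℓ hℓ => by
    apply ψ.injective
    simpa [aeval_rename, hη] using (g.ker₂ _).2 (hI₂ ℓ hℓ)
  obtain ⟨B, hB⟩ := isoa_left (L := L') hv
  obtain ⟨e₀, he₀⟩ := h.ne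
  have h1 := (h.yc₁ e₀ he₀).1.one_le_dg
  rw [Fintype.card_fin, Nat.sub_sub_self h.le₁] at h1
  have h2 : IntermediateField.adjoin ℂ (Set.range υ) = ⊤ := by
    rw [eq_top_iff, ← htop, IntermediateField.adjoin_le_iff]
    rintro _ ⟨l, rfl⟩
    rw [sub_eq_iff_eq_add.1 (hυ l)]
    exact add_mem (sum_mem fun i _ => mul_mem (IntermediateField.subset_adjoin ℂ _
      (Set.mem_range_self i)) (IntermediateField.algebraMap_mem _ _))
      (IntermediateField.algebraMap_mem _ _)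
  have h3 := deg_lemma (T := (c₂ * t + 1) ^ c₂) ha (h1.trans (hδ e₀ he₀)) (Nat.one_le_pow' _ _) υ
    h2 htr _ hspan (τ := Fin k) (by
      rintro _ ⟨e, he, rfl⟩
      obtain ⟨β, h4, h5, h6, h7⟩ := iso_edge h g ψ hη htop hJ he
      refine ⟨β, η' (inl 0) - algebraMap ℂ L' (x e (inl 0)),
        fun i => C (B i 0) + ∑ m : Fin k, C (B i m.succ) * X m,
        fun M => (h4 M).trans (Nat.mul_le_mul_right _ (hδ e he)), h5, h6, fun i => ?_, fun i => ?_⟩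
      · refine (totalDegree_add _ _).trans (max_le (by simp)
          (totalDegree_finsetSum_le fun m _ => (totalDegree_mul _ _).trans (by simp)))
      · have h8 : ∀ l, ∑ i', (υ i' - algebraMap ℂ L' (s e i')) * algebraMap ℂ L' (v i' l) =
            η' l - algebraMap ℂ L' (x e l) := fun l => by
          simp only [hs e he, map_add, map_sum, map_mul, sub_add_eq_sub_sub, hυ, sub_mul,
            Finset.sum_sub_distrib]
        rw [← hB (fun i => υ i - algebraMap ℂ L' (s e i)) i]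
        simp only [h8, Fin.sum_univ_succ, h7, map_add, map_sum, map_mul, aeval_C, aeval_X, mul_add,
          Finset.mul_sum]
        congr 1
        · ring
        · exact Finset.sum_congr rfl fun m _ => by ring) M
  refine le_trans ?_ h3
  have h4 := H_comap_le (aeval fun l => C (o l) + ∑ i, C (v i l) * X i :
      MvPolynomial (Tx k) ℂ →ₐ[ℂ] MvPolynomial (Fin a) ℂ) (s := 1) (fun l => by
    rw [aeval_X]
    exact (totalDegree_add _ _).trans (max_le (by simp)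
      (totalDegree_finsetSum_le fun m _ => (totalDegree_mul _ _).trans (by simp))))
    (RingHom.ker (aeval υ : MvPolynomial (Fin a) ℂ →ₐ[ℂ] L')) M
  rw [one_mul] at h4
  refine (H_anti (fun G hG => ?_) M).trans h4
  rintro _ ⟨e, he, rfl⟩
  refine h.on₂ g he G ((iso_ker ψ hη G).1 ?_)
  have h5 : η' = fun l => aeval υ (C (o l) + ∑ i, C (v i l) * X i : MvPolynomial (Fin a) ℂ) := by
    funext l
    rw [sub_eq_iff_eq_add'.1 (hυ l)]
    simp [mul_comm]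
  rw [h5, ← comp_aeval_apply]
  exact hG

theorem Pack.iso (h : Pack t j₁ j₂ E x y b P₁ P₂ f J φ₁ J₁ φ₂ J₂ Q₁ Q₂) {a : ℕ} (o : Tx k → ℂ)
    (v : Fin a → Tx k → ℂ)
    (hv : LinearIndependent ℂ fun i => fun l : Fin (k + 1) => v i (inl l))
    (s : ι → Fin a → ℂ) (hs : ∀ e ∈ E, ∀ l, x e l = o l + ∑ i, s e i * v i l)
    (hI₁ : ∀ ℓ : Tx k → ℂ, (∀ i, ∑ l, ℓ l * v i l = 0) →
      rename inr (∑ l, C (ℓ l) * (X l - C (o l)) : MvPolynomial (Tx k) ℂ) ∈ Q₁)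
    (hI₂ : ∀ ℓ : Tx k → ℂ, (∀ i, ∑ l, ℓ l * v i l = 0) →
      rename inr (∑ l, C (ℓ l) * (X l - C (o l)) : MvPolynomial (Tx k) ℂ) ∈ Q₂)
    (hspan : affineSpan ℂ (s '' (E : Set ι)) = ⊤) {δ : ℕ} (hδ : ∀ e ∈ E, dg j₁ (P₁ e) ≤ δ) :
    a ≤ j₁ + 1 ∨ ∀ M, H (vanI (y '' (E : Set ι))) M ≤
      (k + 2) ^ (2 * k + 1) * ((2 * k + 2) * t + 1) ^ (2 * k + 2) * δ * (M + 1) ^ j₁ := by
  obtain ⟨L, _, _, ζ, ξ, η, g⟩ := h.gen
  by_cases hc : c₂ < 2 * k + 2
  · exact Or.inl (h.cone g o v hv s hs hI₁ hI₂ hspan hc)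
  by_cases ha : a ≤ j₁ + 1
  · exact Or.inl ha
  obtain ⟨e₀, he₀⟩ := h.ne
  have h1 : Function.Injective J₂ := fun i i' e =>
    inj_of_minor_ne (f := φ₂) (J := fun i => inr (J₂ i))
      (fun h2 => isoa_minor h he₀ (by rw [h2, map_zero])) (congrArg inr e)
  have h2 := Fintype.card_le_of_injective J₂ h1
  rw [card_Tx, Fintype.card_fin] at h2
  have h3 : c₂ = 2 * k + 2 := by omega
  have h4 : Function.Bijective J₂ :=
    (Fintype.bijective_iff_injective_and_card J₂).2 ⟨h1, by rw [card_Tx, Fintype.card_fin, h3]⟩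
  refine Or.inr fun M => (iso_main h g (IntermediateField.val _) (fun _ => rfl) (iso_top η) g.trlow
    h4 o v hv s hs hI₂ hspan hδ (by omega) M).trans ?_
  have h5 := h.le₁
  rw [h3]
  gcongr
  omega

end Vale.Agent.P054A
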