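import Vale.Agent.P054A.IsoS

/-!
The isotropic case: specialisation of the first point, and the cone case.
-/

namespace Vale.Agent.P054A

open MvPolynomial Sum
open scoped Classical

variable {k : ℕ} {ι : Type} {t j₁ j₂ : ℕ} {E : Finset ι} {x y : ι → Tx k → ℂ}
  {b : ι → Fin k → ℂ} {P₁ P₂ : ι → Ideal (MvPolynomial (Fin k) ℂ)} {c c₁ c₂ : ℕ}
  {f : Fin c → MvPolynomial (Sx k) ℂ} {J : Fin c → Sx k}
  {φ₁ : Fin c₁ → MvPolynomial (Sx k ⊕ Tx k) ℂ} {J₁ : Fin c₁ → Tx k}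
  {φ₂ : Fin c₂ → MvPolynomial (Sx k ⊕ Tx k) ℂ} {J₂ : Fin c₂ → Tx k}
  {Q₁ Q₂ : Ideal (MvPolynomial (Sx k ⊕ Tx k) ℂ)} {L : Type} [Field L] [Algebra ℂ L]
  {ζ : Sx k → L} {ξ η : Tx k → L}

/-- Affine equations in the prime confine the generic point. -/
theorem mem_span_of_eqs {τ : Type} [Fintype τ] {a : ℕ} (v : Fin a → τ → ℂ) (w : τ → L)
    (h : ∀ ℓ : τ → ℂ, (∀ i, ∑ l, ℓ l * v i l = 0) → ∑ l, algebraMap ℂ L (ℓ l) * w l = 0) :
    ∃ s : Fin a → L, ∀ l, w l = ∑ i, s i * algebraMap ℂ L (v i l) := by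
  let V : (Fin a → ℂ) →ₗ[ℂ] τ → ℂ := Fintype.linearCombination ℂ v
  obtain ⟨r, hr⟩ := V.rangeRestrict.exists_rightInverse_of_surjective V.range_rangeRestrict
  obtain ⟨π, hπ⟩ := r.exists_extend
  have h1 : ∀ i, V (π (v i)) = v i := by
    intro i
    have h2 : v i ∈ LinearMap.range V := ⟨Pi.single i 1, by simp [V]⟩
    have h3 : π (v i) = r ⟨v i, h2⟩ := LinearMap.congr_fun hπ ⟨v i, h2⟩
    rw [h3]
    exact congrArg Subtype.val (LinearMap.congr_fun hr ⟨v i, h2⟩)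
  refine ⟨fun i => ∑ l, algebraMap ℂ L (π (Pi.single l 1) i) * w l, fun l₀ => ?_⟩
  have h2 := h (fun l => (Pi.single l 1 : τ → ℂ) l₀ - V (π (Pi.single l 1)) l₀) fun i => by
    have h3 := congrFun (LinearMap.pi_apply_eq_sum_univ (LinearMap.id - V ∘ₗ π) (v i)) l₀
    simp only [LinearMap.sub_apply, LinearMap.id_apply, LinearMap.comp_apply, h1, sub_self,
      Finset.sum_apply, Pi.smul_apply, Pi.sub_apply, smul_eq_mul] at h3
    rw [h3]
    refine Finset.sum_congr rfl fun l _ => ?_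
    have h4 : (fun j => if l = j then (1 : ℂ) else 0) = Pi.single l 1 := by
      funext j
      simp only [Pi.single_apply, eq_comm]
    rw [mul_comm, ← h4]
  simp only [map_sub, sub_mul, Finset.sum_sub_distrib, sub_eq_zero, V,
    Fintype.linearCombination_apply, Finset.sum_apply, Pi.smul_apply, smul_eq_mul, map_sum,
    map_mul, Finset.sum_mul] at h2
  rw [Finset.sum_eq_single l₀ (fun l _ hl => by simp [Pi.single_eq_of_ne hl.symm]) (by simp),
    Pi.single_eq_same, map_one, one_mul, Finset.sum_comm] at h2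
  rw [h2]
  refine Finset.sum_congr rfl fun i _ => ?_
  rw [Finset.sum_mul]
  exact Finset.sum_congr rfl fun l _ => by ring

theorem isoa_left {τ : Type} [Fintype τ] {a : ℕ} {v : Fin a → τ → ℂ}
    (hv : LinearIndependent ℂ v) : ∃ B : Fin a → τ → ℂ, ∀ (s : Fin a → L) (i : Fin a),
      ∑ l, algebraMap ℂ L (B i l) * ∑ i', s i' * algebraMap ℂ L (v i' l) = s i := by
  obtain ⟨π, hπ⟩ := (Fintype.linearCombination ℂ v).exists_leftInverse_of_injective
    (LinearMap.ker_eq_bot.2 (linearIndependent_iff_injective_fintypeLinearCombination.1 hv))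
  refine ⟨fun i l => π (fun j => if l = j then 1 else 0) i, fun s i => ?_⟩
  have h1 : ∀ i', ∑ l, v i' l * π (fun j => if l = j then 1 else 0) i =
      (Pi.single i' 1 : Fin a → ℂ) i := by
    intro i'
    have h2 := congrFun (LinearMap.congr_fun hπ (Pi.single i' 1)) i
    have h3 := congrFun (LinearMap.pi_apply_eq_sum_univ π (v i')) i
    simp only [LinearMap.comp_apply, Fintype.linearCombination_apply_single, one_smul,
      LinearMap.id_apply] at h2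
    simp only [Finset.sum_apply, Pi.smul_apply, smul_eq_mul] at h3
    rw [← h3, h2]
  simp only [Finset.mul_sum]
  rw [Finset.sum_comm]
  have h2 : ∀ i', ∑ l, algebraMap ℂ L (π (fun j => if l = j then 1 else 0) i) *
      (s i' * algebraMap ℂ L (v i' l)) = s i' * algebraMap ℂ L ((Pi.single i' 1 : Fin a → ℂ) i) := by
    intro i'
    rw [← h1, map_sum, Finset.mul_sum]
    exact Finset.sum_congr rfl fun l _ => by rw [map_mul]; ring
  simp only [h2]
  rw [Finset.sum_eq_single i (fun l _ hl => by simp [Pi.single_eq_of_ne hl.symm]) (by simp),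
    Pi.single_eq_same, map_one, mul_one]

theorem isoa_chain {τ τ' : Type} [Fintype τ] [Fintype τ'] (η w : τ → L)
    (Λ : τ' → MvPolynomial τ ℂ) (G : MvPolynomial τ' ℂ) :
    ∑ l, aeval η (pderiv l (aeval Λ G)) * w l =
      ∑ i, aeval (fun i => aeval η (Λ i)) (pderiv i G) * ∑ l, aeval η (pderiv l (Λ i)) * w l := by
  induction G using MvPolynomial.induction_on with
  | C a => simp
  | add p q hp hq => simp only [map_add, add_mul, Finset.sum_add_distrib, hp, hq]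
  | mul_X p n hp =>
    have h1 : aeval η (aeval Λ p) = aeval (fun i => aeval η (Λ i)) p :=
      comp_aeval_apply Λ (aeval η : MvPolynomial τ ℂ →ₐ[ℂ] L) p
    simp only [map_mul, aeval_X, Derivation.leibniz, smul_eq_mul, map_add, add_mul,
      Finset.sum_add_distrib, mul_assoc, ← Finset.mul_sum, hp, h1]
    congr 2
    rw [Finset.sum_eq_single n (fun i _ hi => by simp [pderiv_X_of_ne hi.symm]) (by simp)]
    simp

theorem isoa_rename {σ τ : Type} [Fintype σ] [Fintype τ] (ζ : σ → L) (η : τ → L) (θ : σ ⊕ τ → L)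
    (G : MvPolynomial τ ℂ) :
    ∑ l, aeval (Sum.elim ζ η) (pderiv l (rename inr G)) * θ l =
      ∑ l, aeval η (pderiv l G) * θ (inr l) := by
  have h1 := isoa_chain (Sum.elim ζ η) θ (fun l : τ => X (inr l)) G
  have h2 : ∀ i : τ, ∑ l, aeval (Sum.elim ζ η) (pderiv l (X (inr i) : MvPolynomial (σ ⊕ τ) ℂ)) *
      θ l = θ (inr i) := fun i => by
    rw [Finset.sum_eq_single (inr i) (fun l _ hl => by simp [pderiv_X_of_ne hl.symm]) (by simp)]
    simp
  simp only [aeval_X, Sum.elim_inr, h2] at h1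
  rw [rename_eq_aeval]
  exact h1

theorem isoa_rename' {σ τ : Type} [Fintype σ] [Fintype τ] (z θ : σ ⊕ τ → L)
    (hθ : ∀ l, θ (inl l) = 0) (G : MvPolynomial σ ℂ) :
    ∑ l, aeval z (pderiv l (rename inl G)) * θ l = 0 := by
  rw [rename_eq_aeval]
  refine (isoa_chain z θ (fun l : σ => X (inl l)) G).trans (Finset.sum_eq_zero fun i _ => ?_)
  rw [Finset.sum_eq_single (inl i) (fun l _ hl => by simp [pderiv_X_of_ne hl.symm]) (by simp), hθ,
    mul_zero, mul_zero]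

theorem isoa_dlin {τ : Type} [Fintype τ] (η w : τ → L) (ℓ o : τ → ℂ) :
    ∑ l, aeval η (pderiv l (∑ l, C (ℓ l) * (X l - C (o l)) : MvPolynomial τ ℂ)) * w l =
      ∑ l, algebraMap ℂ L (ℓ l) * w l := by
  refine Finset.sum_congr rfl fun l _ => ?_
  rw [map_sum, Finset.sum_eq_single l (fun i _ hi => by simp [pderiv_X_of_ne hi]) (by simp)]
  simp

theorem isoa_coord {a : ℕ} {o : Tx k → ℂ} {v : Fin a → Tx k → ℂ}
    {Q : Ideal (MvPolynomial (Sx k ⊕ Tx k) ℂ)} (hk : ∀ G, aeval (Sum.elim ζ η) G = 0 ↔ G ∈ Q)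
    (hI : ∀ ℓ : Tx k → ℂ, (∀ i, ∑ l, ℓ l * v i l = 0) →
      rename inr (∑ l, C (ℓ l) * (X l - C (o l)) : MvPolynomial (Tx k) ℂ) ∈ Q) :
    ∃ υ : Fin a → L, ∀ l, η l - algebraMap ℂ L (o l) = ∑ i, υ i * algebraMap ℂ L (v i l) := by
  refine mem_span_of_eqs v _ fun ℓ hℓ => ?_
  simpa [aeval_rename] using (hk _).2 (hI ℓ hℓ)

theorem isoa_minor (h : Pack t j₁ j₂ E x y b P₁ P₂ f J φ₁ J₁ φ₂ J₂ Q₁ Q₂) {e : ι} (he : e ∈ E) :
    eval (Sum.elim (fl (x e) (b e)) (y e)) (minor φ₂ fun i => inr (J₂ i)) ≠ 0 :=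
  (ext_simple.1 (h.sim₂ e he).1).2.2

theorem isoa_dir (h : Pack t j₁ j₂ E x y b P₁ P₂ f J φ₁ J₁ φ₂ J₂ Q₁ Q₂)
    (g : Gen j₁ c₂ Q₁ Q₂ ζ ξ η) {a : ℕ} {o : Tx k → ℂ} {v : Fin a → Tx k → ℂ}
    (hv : LinearIndependent ℂ fun i => fun l : Fin (k + 1) => v i (inl l))
    (hI₁ : ∀ ℓ : Tx k → ℂ, (∀ i, ∑ l, ℓ l * v i l = 0) →
      rename inr (∑ l, C (ℓ l) * (X l - C (o l)) : MvPolynomial (Tx k) ℂ) ∈ Q₁)
    (hI₂ : ∀ ℓ : Tx k → ℂ, (∀ i, ∑ l, ℓ l * v i l = 0) →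
      rename inr (∑ l, C (ℓ l) * (X l - C (o l)) : MvPolynomial (Tx k) ℂ) ∈ Q₂)
    {θ : Sx k ⊕ Tx k → L} (hθ : θ ∈ tan (ext f φ₂) (Sum.elim ζ η)) (h0 : ∀ l, θ (inl l) = 0) :
    ∃ lam : L, ∀ l, θ (inr l) = lam * (η l - ξ l) := by
  obtain ⟨B, hB⟩ := isoa_left (L := L) hv
  obtain ⟨s₁, h1⟩ := isoa_coord g.ker₁ hI₁
  obtain ⟨s₂, h2⟩ := isoa_coord g.ker₂ hI₂
  obtain ⟨s₃, h3⟩ := mem_span_of_eqs v (fun l => θ (inr l)) fun ℓ hℓ => by
    have := h.tan₂ g.ker₂ hθ (hI₂ ℓ hℓ)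
    rwa [isoa_rename, isoa_dlin] at this
  have h4 : ∀ i : Fin k, θ (inr (inl i.succ)) = θ (inr (inl 0)) * ζ (some (inl i)) := fun i => by
    have := h.tan₂ g.ker₂ hθ (h.inc₂ (some (inr i)))
    rw [d_incP] at this
    simp only [h0, dfl, fl0, mul_zero, neg_zero, zero_add, zero_sub, neg_eq_zero] at this
    exact sub_eq_zero.1 this
  have h5 : fl η (fun i => ζ (some (inl i))) = fl ξ fun i => ζ (some (inl i)) := by
    funext o'
    have h6 := (g.ker₁ _).2 (h.inc₁ o')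
    have h7 := (g.ker₂ _).2 (h.inc₂ o')
    rw [aeval_incP, sub_eq_zero] at h6 h7
    rw [← h6, ← h7]
  have h6 : η (inl 0) - ξ (inl 0) ≠ 0 := sub_ne_zero.2 g.ne0.symm
  obtain ⟨lam, h7⟩ : ∃ lam, θ (inr (inl 0)) = lam * (η (inl 0) - ξ (inl 0)) :=
    ⟨_, (div_mul_cancel₀ _ h6).symm⟩
  have h8 : ∀ l, θ (inr l) - lam * (η l - ξ l) =
      ∑ i, (s₃ i - lam * (s₂ i - s₁ i)) * algebraMap ℂ L (v i l) := fun l => by
    rw [← sub_sub_sub_cancel_right (η l) (ξ l) (algebraMap ℂ L (o l)), h1, h2, h3]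
    simp only [sub_mul, mul_sub, Finset.sum_sub_distrib, Finset.mul_sum, mul_assoc]
  have h9 : ∀ l, θ (inr (inl l)) - lam * (η (inl l) - ξ (inl l)) = 0 := fun l => by
    refine Fin.cases (sub_eq_zero.2 h7) (fun i => ?_) l
    rw [h4, s_sub_of_fl h5, h7]
    ring
  refine ⟨lam, fun l => sub_eq_zero.1 ?_⟩
  rw [h8]
  refine Finset.sum_eq_zero fun i _ => ?_
  rw [← hB (fun i => s₃ i - lam * (s₂ i - s₁ i)) i]
  simp only [← h8, h9, mul_zero, Finset.sum_const_zero, zero_mul]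

theorem isoa_free (h : Pack t j₁ j₂ E x y b P₁ P₂ f J φ₁ J₁ φ₂ J₂ Q₁ Q₂)
    (g : Gen j₁ c₂ Q₁ Q₂ ζ ξ η) {l₀ : Tx k} (hl : l₀ ∉ Set.range J₂) :
    ∃ θ ∈ tan (ext f φ₂) (Sum.elim ζ η), (∀ l, θ (inl l) = 0) ∧ θ (inr l₀) ≠ 0 ∧
      ∀ l, l ∉ Set.range J₂ → l ≠ l₀ → θ (inr l) = 0 := by
  obtain ⟨e, he⟩ := h.ne
  have h1 : aeval (Sum.elim ζ η) (minor φ₂ fun i => inr (J₂ i)) ≠ 0 := fun h2 =>
    isoa_minor h he (on_locP (h.sim₂ e he).1.1 _ ((h.sim₂ e he).2.symm ▸ (g.ker₂ _).1 h2))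
  have h2 : ∀ l, l ∉ Set.range J₂ → (inr l : Sx k ⊕ Tx k) ∉ Set.range fun i => inr (J₂ i) :=
    fun l h3 ⟨i, h4⟩ => h3 ⟨i, inr_injective h4⟩
  have h3 : ∀ l, aeval (Sum.elim ζ η) (Dk φ₂ (fun i => inr (J₂ i)) (inr l₀) (X (inl l))) = 0 :=
    fun l => by rw [Dk_X _ _ (fun ⟨i, h4⟩ => inr_ne_inl h4), if_neg inr_ne_inl, map_zero]
  refine ⟨fun l => aeval (Sum.elim ζ η) (Dk φ₂ (fun i => inr (J₂ i)) (inr l₀) (X l)),
    fun i => ?_, h3, ?_, fun l h4 h5 => ?_⟩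
  · rcases i with i | i
    · exact isoa_rename' _ _ h3 (f i)
    · exact Dk_mem_tan φ₂ _ _ _ i
  · beta_reduce
    rwa [Dk_X _ _ (h2 _ hl), if_pos rfl]
  · beta_reduce
    rw [Dk_X _ _ (h2 _ h4), if_neg (fun h6 => h5 (inr_injective h6).symm), map_zero]

theorem isoa_aff {a : ℕ} {S : Set (Fin a → ℂ)} (hS : affineSpan ℂ S = ⊤) (d : Fin a → L) (d₀ : L)
    (h : ∀ s ∈ S, ∑ i, algebraMap ℂ L (s i) * d i = d₀) (i : Fin a) : d i = 0 := by
  have h1 : vectorSpan ℂ S ≤ LinearMap.ker (Fintype.linearCombination ℂ d) := by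
    rw [vectorSpan_def, Submodule.span_le]
    rintro _ ⟨s, hs, s', hs', rfl⟩
    have h2 := h s hs
    have h3 := h s' hs'
    simp only [← Algebra.smul_def, ← Fintype.linearCombination_apply] at h2 h3
    simp only [vsub_eq_sub, SetLike.mem_coe, LinearMap.mem_ker, map_sub, h2, h3, sub_self]
  rw [AffineSubspace.vectorSpan_eq_top_of_affineSpan_eq_top ℂ _ _ hS] at h1
  simpa using h1 (Submodule.mem_top (x := Pi.single i 1))

/-- The cone case. -/
theorem Pack.cone (h : Pack t j₁ j₂ E x y b P₁ P₂ f J φ₁ J₁ φ₂ J₂ Q₁ Q₂)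
    (g : Gen j₁ c₂ Q₁ Q₂ ζ ξ η) {a : ℕ} (o : Tx k → ℂ) (v : Fin a → Tx k → ℂ)
    (hv : LinearIndependent ℂ fun i => fun l : Fin (k + 1) => v i (inl l))
    (s : ι → Fin a → ℂ) (hs : ∀ e ∈ E, ∀ l, x e l = o l + ∑ i, s e i * v i l)
    (hI₁ : ∀ ℓ : Tx k → ℂ, (∀ i, ∑ l, ℓ l * v i l = 0) →
      rename inr (∑ l, C (ℓ l) * (X l - C (o l)) : MvPolynomial (Tx k) ℂ) ∈ Q₁)
    (hI₂ : ∀ ℓ : Tx k → ℂ, (∀ i, ∑ l, ℓ l * v i l = 0) →
      rename inr (∑ l, C (ℓ l) * (X l - C (o l)) : MvPolynomial (Tx k) ℂ) ∈ Q₂)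
    (hspan : affineSpan ℂ (s '' (E : Set ι)) = ⊤) (hc : c₂ < 2 * k + 2) : a ≤ j₁ + 1 := by
  obtain ⟨l₀, hl₀⟩ : ∃ l₀, l₀ ∉ Set.range J₂ := by
    by_contra h1
    push Not at h1
    have := Fintype.card_le_of_surjective J₂ h1
    rw [card_Tx, Fintype.card_fin] at this
    omega
  obtain ⟨θ, h1, h2, h3, h4⟩ := isoa_free h g hl₀
  obtain ⟨lam, h5⟩ := isoa_dir h g hv hI₁ hI₂ h1 h2
  have h6 : lam ≠ 0 := fun h7 => h3 (by rw [h5, h7, zero_mul])
  have h7 : 2 * k + 2 ≤ c₂ + 1 := by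
    have h8 : Function.Surjective fun i : Option (Fin c₂) => i.elim l₀ J₂ := by
      intro l
      by_cases h9 : l ∈ Set.range J₂
      · obtain ⟨i, hi⟩ := h9
        exact ⟨some i, hi⟩
      · refine ⟨none, by_contra fun h10 => ?_⟩
        obtain ⟨θ', h11, h12, h13, h14⟩ := isoa_free h g h9
        obtain ⟨lam', h15⟩ := isoa_dir h g hv hI₁ hI₂ h11 h12
        have h16 := h14 l₀ hl₀ h10
        rw [h15] at h13 h16
        rw [h5] at h3
        exact (mul_eq_zero.1 h16).elim (left_ne_zero_of_mul h13) (right_ne_zero_of_mul h3)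
    have := Fintype.card_le_of_surjective _ h8
    rwa [card_Tx, Fintype.card_option, Fintype.card_fin] at this
  have h8 : ∀ G : MvPolynomial (Tx k) ℂ, aeval η G = 0 → ∀ i,
      ∑ l, aeval η (pderiv l G) * algebraMap ℂ L (v i l) = 0 := by
    intro G hG
    have h9 := h.tan₂ g.ker₂ h1 ((g.ker₂ (rename inr G)).1 (by simpa [aeval_rename] using hG))
    rw [isoa_rename] at h9
    have h10 : aeval (Sum.elim ξ η) (∑ l, rename inr (pderiv l G) * (X (inr l) - X (inl l)) :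
        MvPolynomial (Tx k ⊕ Tx k) ℂ) = 0 := by
      refine (mul_eq_zero.1 ?_).resolve_left h6
      rw [← h9, map_sum, Finset.mul_sum]
      refine Finset.sum_congr rfl fun l _ => ?_
      rw [h5]
      simp only [map_mul, aeval_rename, Sum.elim_comp_inr, map_sub, aeval_X, Sum.elim_inr,
        Sum.elim_inl]
      ring
    refine isoa_aff hspan _ (∑ l, aeval η (pderiv l G) * (η l - algebraMap ℂ L (o l))) ?_
    rintro _ ⟨e, he, rfl⟩
    have h11 := g.dom _ h10 (x e) (h.on₁ g he)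
    simp only [map_sum, map_mul, aeval_rename, Sum.elim_comp_inr, map_sub, aeval_X, Sum.elim_inr,
      Sum.elim_inl, hs e he, map_add] at h11
    rw [← sub_eq_zero, ← neg_eq_zero, ← h11, neg_sub]
    simp only [Finset.mul_sum]
    rw [Finset.sum_comm, ← Finset.sum_sub_distrib]
    refine Finset.sum_congr rfl fun l _ => ?_
    rw [sub_add_eq_sub_sub, mul_sub _ (η l - _), Finset.mul_sum]
    congr 1
    exact Finset.sum_congr rfl fun i _ => by ring
  obtain ⟨B, hB⟩ := isoa_left (L := L) hv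
  obtain ⟨υ, hυ⟩ := isoa_coord g.ker₂ hI₂
  let Λ : Fin a → MvPolynomial (Tx k) ℂ := fun i =>
    ∑ l, C (Sum.elim (B i) 0 l) * (X l - C (o l))
  have h9 : ∀ (w : Tx k → L) (i : Fin a), ∑ l, algebraMap ℂ L (Sum.elim (B i) 0 l) * w l =
      ∑ l, algebraMap ℂ L (B i l) * w (inl l) := fun w i => by simp [Fintype.sum_sum_type]
  have h10 : ∀ i, aeval η (Λ i) = υ i := fun i => by
    rw [← hB υ i]
    simp only [Λ, map_sum, map_mul, aeval_C, map_sub, aeval_X, ← hυ]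
    exact h9 (fun l => η l - algebraMap ℂ L (o l)) i
  have h11 : AlgebraicIndependent ℂ υ := by
    refine algInd_of_pderiv υ fun G hG i => ?_
    have h12 := h8 (aeval Λ G) (by
      rw [comp_aeval_apply Λ (aeval η : MvPolynomial (Tx k) ℂ →ₐ[ℂ] L) G]
      simpa only [h10] using hG) i
    rw [isoa_chain] at h12
    have h13 : ∀ i', ∑ l, aeval η (pderiv l (Λ i')) * algebraMap ℂ L (v i l) =
        (Pi.single i 1 : Fin a → L) i' := fun i' => by
      rw [isoa_dlin, h9, ← hB (Pi.single i 1) i']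
      simp [Pi.single_apply]
    simpa [h10, h13, Pi.single_apply] using h12
  have h12 : ∀ i, υ i ∈ IntermediateField.adjoin ℂ (Set.range η) := fun i => by
    rw [← h10]
    exact IntermediateField.algebra_adjoin_le_adjoin ℂ _
      (Algebra.adjoin_range_eq_range_aeval ℂ η ▸ ⟨_, rfl⟩)
  have h13 : AlgebraicIndependent ℂ fun i =>
      (⟨υ i, h12 i⟩ : IntermediateField.adjoin ℂ (Set.range η)) :=
    AlgebraicIndependent.of_comp (IntermediateField.val _) h11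
  have h14 := h13.cardinalMk_le_trdeg.trans g.trup
  rw [Cardinal.mk_fin, Nat.cast_le] at h14
  omega

end Vale.Agent.P054A
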