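import Vale.Agent.P054A.CritB
import Vale.Agent.P054A.Clr

/-!
The isotropic case: specialisation of the first point, and the cone case.
-/

namespace Vale.Agent.P054A

open MvPolynomial Sum
open scoped Classical

variable {k : ℕ} {ι : Type} {t j₁ j₂ : ℕ} {E : Finset ι} {x y : ι → Tx k → ℂ}
  {b : ι → Fin k → ℂ} {P₁ P₂ : ι → Ideal (MvPolynomial (Fin k) ℂ)} {c c₁ c₂ : ℕ}
  {f : Fin c → MvPolynomial (Sx k) ℂ} {J : Fin c → Sx k}
  {φ₁ : Fin c₁ → MvPolynomial (Sx k ⊕ Tx k) ℂ} {J₁ : Fin c₁ → Tx k}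
  {φ₂ : Fin c₂ → MvPolynomial (Sx k ⊕ Tx k) ℂ} {J₂ : Fin c₂ → Tx k}
  {Q₁ Q₂ : Ideal (MvPolynomial (Sx k ⊕ Tx k) ℂ)} {L : Type} [Field L] [Algebra ℂ L]
  {ζ : Sx k → L} {ξ η : Tx k → L}

/-- The differential of the parametrisation as a linear map. -/
noncomputable def isoSD (x : Tx k → ℂ) : (Fin k → ℂ) →ₗ[ℂ] (Sx k → ℂ) where
  toFun := dfl x
  map_add' := dfl_add x
  map_smul' := dfl_smul x

theorem isoS_mem_tan (f : Fin c → MvPolynomial (Sx k) ℂ) (x : Tx k → ℂ) (b w : Fin k → ℂ)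
    (h : ∀ i, ∑ l, eval b (pderiv l (resx x (rename inl (f i)))) * w l = 0) :
    isoSD x w ∈ tan f (fl x b) := fun i => by
  rw [← h i, d_resx]
  refine Finset.sum_congr rfl fun o _ => ?_
  rw [pderiv_rename inl_injective, eval_rename, aeval_eq_eval]
  rfl

/-- The node of an edge is the local component of the restricted system. -/
theorem Pack.node_le (h : Pack t j₁ j₂ E x y b P₁ P₂ f J φ₁ J₁ φ₂ J₂ Q₁ Q₂) {e : ι} (he : e ∈ E)
    {Q : Ideal (MvPolynomial (Fin k) ℂ)} (hQ : Q.IsPrime) (hon : On (b e) Q)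
    (hm : ∀ i, resx (x e) (ext f φ₁ i) ∈ Q) : P₁ e ≤ Q := by
  have h1 := finrank_tan (f := f) (J := J) (ζ := fl (x e) (b e))
    (by rw [aeval_eq_eval]; exact (ext_simple.1 (h.sim₁ e he).1).1.2)
  obtain ⟨T₂, hT, hT'⟩ := (h.yc₂ e he).1.exists_tan
  set T₁ := tan (fun i => resx (x e) (ext f φ₁ i)) (b e) with hT₁
  have h2 : ∀ w : T₁ × T₂, ((isoSD (x e) ∘ₗ T₁.subtype).coprod (-(isoSD (y e) ∘ₗ T₂.subtype))) w
      ∈ tan f (fl (x e) (b e)) := fun w => by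
    refine Submodule.add_mem _ (isoS_mem_tan f _ _ _ fun i => ?_) (Submodule.neg_mem _ ?_)
    · have h3 := w.1.2 (inl i)
      rw [aeval_eq_eval] at h3
      exact h3
    · rw [← (h.inc e he).1]
      exact isoS_mem_tan f _ _ _ fun i => hT' _ w.2.2 _ ((h.yc₂ e he).2 (inl i))
  have h3 := LinearMap.finrank_le_finrank_of_injective
    (f := LinearMap.codRestrict _ _ h2) (by
      rw [← LinearMap.ker_eq_bot, LinearMap.ker_codRestrict, LinearMap.ker_eq_bot']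
      intro w hw
      have h4 : dfl (x e) w.1 = dfl (y e) w.2 := add_neg_eq_zero.1 hw
      have h5 := eq_zero_of_dfl (h.inc e he).2 h4
      exact Prod.ext (Subtype.ext h5.1) (Subtype.ext h5.2))
  rw [Module.finrank_prod] at h3
  rw [card_Sx, Fintype.card_fin] at h1
  rw [Fintype.card_fin] at hT
  obtain ⟨ρ, γ, h4⟩ := exists_minor_ne (fun i => resx (x e) (ext f φ₁ i)) (b e) (r := k - j₁) (by
    have := h.crit
    have := h.le₁
    have := h.le₂
    rw [Fintype.card_fin, ← hT₁]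
    omega)
  rw [aeval_eq_eval] at h4
  have h5 : IsComp (k - j₁) (b e) (locP (fun i => resx (x e) (ext f φ₁ (ρ i))) (b e)) :=
    ⟨_, γ, ⟨fun i => hon _ (hm _), h4⟩, rfl⟩
  rw [← h5.eq_of_le (h.yc₁ e he).1
    (locP_le (h.yc₁ e he).1.prime (fun i => (h.yc₁ e he).2 _) (h.yc₁ e he).1.on)]
  exact locP_le hQ (fun i => hm _) hon

theorem isoS_sub (s : Tx k → Tx k ⊕ Tx k) (G : MvPolynomial (Sx k ⊕ Tx k) ℂ) :
    ∃ g : MvPolynomial (Fin k ⊕ (Tx k ⊕ Tx k)) ℂ, ∀ (L : Type) [CommRing L] [Algebra ℂ L]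
      (β : Fin k → L) (p : Tx k ⊕ Tx k → L), aeval (Sum.elim β p) g
        = aeval (Sum.elim (fl (fun l => p (s l)) β) fun l => p (s l)) G := by
  refine ⟨aeval (Sum.elim (fl (fun l => X (inr (s l))) fun i => X (inl i))
    fun l => X (inr (s l))) G, fun L _ _ β p => ?_⟩
  rw [comp_aeval_apply]
  congr 2
  funext o
  rcases o with o | l
  · have h := map_fl (aeval (Sum.elim β p) :
      MvPolynomial (Fin k ⊕ (Tx k ⊕ Tx k)) ℂ →ₐ[ℂ] L).toRingHom
      (fun l => X (inr (s l))) (fun i => X (inl i)) o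
    simpa using h
  · simp

theorem isoS_clear (g : MvPolynomial (Fin k ⊕ (Tx k ⊕ Tx k)) ℂ) :
    ∃ G : MvPolynomial (Tx k ⊕ Tx k) ℂ, ∀ (L : Type) [Field L] [Algebra ℂ L]
      (ξ η : Tx k → L), ξ (inl 0) ≠ η (inl 0) →
        (aeval (Sum.elim ξ η) G = 0 ↔ aeval (Sum.elim (bb ξ η) (Sum.elim ξ η)) g = 0) := by
  obtain ⟨G, M, hG⟩ := exists_clear' (τ := Tx k ⊕ Tx k) (X (inl (inl 0)) - X (inr (inl 0)))
    (Sum.elim (fun i : Fin k => X (inl (inl i.succ)) - X (inr (inl i.succ)))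
      fun l : Tx k ⊕ Tx k => (X (inl (inl 0)) - X (inr (inl 0))) * X l) g
  refine ⟨G, fun L _ _ ξ η h0 => ?_⟩
  have h1 := sub_ne_zero.2 h0
  rw [hG L (Sum.elim ξ η) (Sum.elim (bb ξ η) (Sum.elim ξ η))]
  · simp [h1]
  · rintro (i | l)
    · simp only [elim_inl, elim_inr, map_sub, aeval_X, bb]
      rw [mul_div_cancel₀ _ h1]
    · simp

theorem Gen.zeta (h : Pack t j₁ j₂ E x y b P₁ P₂ f J φ₁ J₁ φ₂ J₂ Q₁ Q₂)
    (g : Gen j₁ c₂ Q₁ Q₂ ζ ξ η) : ζ = fl ξ (bb ξ η) ∧ ζ = fl η (bb ξ η) := by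
  have h1 : ζ = fl ξ fun i => ζ (some (inl i)) := funext fun o => by
    have := (g.ker₁ _).2 (h.inc₁ o)
    rwa [aeval_incP, sub_eq_zero] at this
  have h2 : ζ = fl η fun i => ζ (some (inl i)) := funext fun o => by
    have := (g.ker₂ _).2 (h.inc₂ o)
    rwa [aeval_incP, sub_eq_zero] at this
  rw [← bb_of_fl (h2.symm.trans h1) g.ne0]
  exact ⟨h1, h2⟩

/-- Specialising the first point to an end point of an edge. -/
theorem Pack.spec (h : Pack t j₁ j₂ E x y b P₁ P₂ f J φ₁ J₁ φ₂ J₂ Q₁ Q₂)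
    (g : Gen j₁ c₂ Q₁ Q₂ ζ ξ η) {e : ι} (he : e ∈ E) :
    algebraMap ℂ L (x e (inl 0)) ≠ η (inl 0) ∧
    fl η (bb (fun l => algebraMap ℂ L (x e l)) η)
      = fl (fun l => algebraMap ℂ L (x e l)) (bb (fun l => algebraMap ℂ L (x e l)) η) ∧
    (∀ G ∈ P₁ e, aeval (bb (fun l => algebraMap ℂ L (x e l)) η) G = 0) ∧
    (∀ G ∈ Q₂, aeval (Sum.elim (fl η (bb (fun l => algebraMap ℂ L (x e l)) η)) η) G = 0) ∧
    ∀ G : MvPolynomial (Sx k ⊕ Tx k) ℂ,
      aeval (Sum.elim (fl η (bb (fun l => algebraMap ℂ L (x e l)) η)) η) G = 0 →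
        eval (Sum.elim (fl (x e) (b e)) (y e)) G = 0 := by
  have h0 : algebraMap ℂ L (x e (inl 0)) ≠ η (inl 0) := fun h0 => by
    have h1 := h.on₂ g he (C (x e (inl 0)) - X (inl 0)) (by simp [h0])
    exact (h.inc e he).2 (by simpa [sub_eq_zero] using h1)
  have tr : ∀ G : MvPolynomial (Fin k ⊕ (Tx k ⊕ Tx k)) ℂ,
      aeval (Sum.elim (bb ξ η) (Sum.elim ξ η)) G = 0 →
      aeval (Sum.elim (bb (fun l => algebraMap ℂ L (x e l)) η)
        (Sum.elim (fun l => algebraMap ℂ L (x e l)) η)) G = 0 := fun G hG => by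
    obtain ⟨G', hG'⟩ := isoS_clear G
    exact (hG' L _ _ h0).1 (g.dom G' ((hG' L _ _ g.ne0).2 hG) _ (h.on₁ g he))
  obtain ⟨z1, z2⟩ := g.zeta h
  have h5 : ∀ G : MvPolynomial (Sx k ⊕ Tx k) ℂ,
      aeval (Sum.elim (fl η (bb (fun l => algebraMap ℂ L (x e l)) η)) η) G = 0 →
        eval (Sum.elim (fl (x e) (b e)) (y e)) G = 0 := fun G hG => by
    obtain ⟨G₁, hG₁⟩ := isoS_sub inr G
    obtain ⟨G₂, hG₂⟩ := isoS_clear G₁
    have h6 := (hG₂ L _ _ h0).2 (by rw [hG₁]; exact hG)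
    have h7 := h.on₂ g he (aeval (Sum.elim (fun l => C (x e l)) X) G₂) (by
      rw [comp_aeval_apply, ← h6]
      congr 2
      funext o
      rcases o with o | o <;> simp)
    have h8 := (hG₂ ℂ _ _ (h.inc e he).2).1 (by
      rw [← h7, ← coe_aeval_eq_eval, RingHom.coe_coe, comp_aeval_apply]
      congr 2
      funext o
      rcases o with o | o <;> simp)
    rw [hG₁, ← bb_of_fl (h.inc e he).1 (h.inc e he).2, aeval_eq_eval] at h8
    rw [← (h.inc e he).1]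
    exact h8
  refine ⟨h0, funext fun o => ?_, fun G hG => ?_, fun G hG => ?_, h5⟩
  · obtain ⟨G₁, hG₁⟩ := isoS_sub (k := k) inl (X (inl o))
    obtain ⟨G₂, hG₂⟩ := isoS_sub (k := k) inr (X (inl o))
    have h6 := tr (G₂ - G₁) (by
      rw [map_sub, hG₁, hG₂, aeval_X, aeval_X]
      exact sub_eq_zero.2 (congrFun (z2.symm.trans z1) o))
    rw [map_sub, hG₁, hG₂, aeval_X, aeval_X] at h6
    exact sub_eq_zero.1 h6
  · refine h.node_le he (Q := RingHom.ker (aeval (bb (fun l => algebraMap ℂ L (x e l)) η) :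
      MvPolynomial (Fin k) ℂ →ₐ[ℂ] L)) (RingHom.ker_isPrime _) (fun G' hG' => ?_)
      (fun i => ?_) hG
    · have h6 := h5 (rename (fun i => inl (some (inl i))) G') (by
        rw [aeval_rename]
        exact hG')
      rw [eval_rename] at h6
      exact h6
    · obtain ⟨G₁, hG₁⟩ := isoS_sub inl (ext f φ₁ i)
      have h6 := tr G₁ (by
        rw [hG₁]
        have h7 := (g.ker₁ _).2 ((h.sim₁ e he).2 ▸ mem_locP (ext f φ₁) _ i)
        rw [z1] at h7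
        exact h7)
      rw [hG₁] at h6
      rw [RingHom.mem_ker, aeval_resx]
      exact h6
  · obtain ⟨G₁, hG₁⟩ := isoS_sub inr G
    have h6 := tr G₁ (by
      rw [hG₁]
      have h7 := (g.ker₂ _).2 hG
      rw [z2] at h7
      exact h7)
    rw [hG₁] at h6
    exact h6

end Vale.Agent.P054A
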