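import Vale.Agent.P054A.LocR

/-!
Cofactor vector fields and tangent spaces.
-/

namespace Vale.Agent.P054A

open MvPolynomial
open scoped Classical

section Field

variable {K : Type} [Field K] {σ κ : Type} [Fintype σ] [Fintype κ] [DecidableEq κ]
  {L : Type} [Field L] [Algebra K L]

theorem LocA_indep {F V ι : Type} [Field F] [AddCommGroup V] [Module F V] [Fintype ι]
    (v : ι → V) {r : ℕ} (h : r ≤ Module.finrank F (Submodule.span F (Set.range v))) :
    ∃ ρ : Fin r → ι, LinearIndependent F (v ∘ ρ) := by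
  obtain ⟨τ, a, ha, hs, hl⟩ := exists_linearIndependent' F v
  have : Finite τ := Finite.of_injective a ha
  have := Fintype.ofFinite τ
  have h1 : r ≤ Fintype.card τ := by
    rw [linearIndependent_iff_card_eq_finrank_span.mp hl, Set.finrank, hs]
    exact h
  obtain ⟨b⟩ : Nonempty (Fin r ↪ τ) := by
    rw [Function.Embedding.nonempty_iff_card_le, Fintype.card_fin]
    exact h1
  exact ⟨a ∘ b, hl.comp b b.injective⟩

theorem LocA_minor {F m n : Type} [Field F] [Fintype m] [Fintype n] (A : Matrix m n F) {r : ℕ}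
    (h : r ≤ A.rank) : ∃ (ρ : Fin r → m) (γ : Fin r → n), (A.submatrix ρ γ).det ≠ 0 := by
  rw [Matrix.rank_eq_finrank_span_row] at h
  obtain ⟨ρ, hρ⟩ := LocA_indep A.row h
  have h1 : LinearIndependent F (A.submatrix ρ id).row := hρ
  have h2 := h1.rank_matrix
  rw [Fintype.card_fin, Matrix.rank_eq_finrank_span_cols] at h2
  obtain ⟨γ, hγ⟩ := LocA_indep (A.submatrix ρ id).col h2.ge
  have h3 : LinearIndependent F (A.submatrix ρ γ).col := hγ
  rw [Matrix.linearIndependent_cols_iff_isUnit, Matrix.isUnit_iff_isUnit_det] at h3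
  exact ⟨ρ, γ, h3.ne_zero⟩

/-- The Jacobian matrix at a point. -/
noncomputable def LocA_jac {κ : Type} (f : κ → MvPolynomial σ K) (ζ : σ → L) : Matrix κ σ L :=
  Matrix.of fun i l => aeval ζ (pderiv l (f i))

omit [Fintype σ] [Fintype κ] [DecidableEq κ] in
theorem LocA_aeval {κ' : Type} [Fintype κ'] [DecidableEq κ'] (f : κ → MvPolynomial σ K)
    (ζ : σ → L) (ρ : κ' → κ) (γ : κ' → σ) :
    aeval ζ (minor (fun i => f (ρ i)) γ) = ((LocA_jac f ζ).submatrix ρ γ).det := by
  rw [minor, AlgHom.map_det]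
  rfl

omit [Fintype κ] [DecidableEq κ] in
theorem LocA_ker (f : κ → MvPolynomial σ K) (ζ : σ → L) :
    tan f ζ = LinearMap.ker (LocA_jac f ζ).mulVecLin := by
  ext w
  rw [LinearMap.mem_ker, Matrix.mulVecLin_apply, funext_iff]
  rfl

omit [Fintype κ] [DecidableEq κ] in
theorem LocA_rank (f : κ → MvPolynomial σ K) (ζ : σ → L) :
    (LocA_jac f ζ).rank + Module.finrank L (tan f ζ) = Fintype.card σ := by
  rw [LocA_ker, Matrix.rank, LinearMap.finrank_range_add_finrank_ker, Module.finrank_fintype_fun_eq_card]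

omit [Fintype σ] in
theorem LocA_inj {f : κ → MvPolynomial σ K} {J : κ → σ} {ζ : σ → L}
    (hJ : aeval ζ (minor f J) ≠ 0) : Function.Injective J :=
  inj_of_minor_ne (f := f) fun h => hJ (by rw [h, map_zero])

omit [DecidableEq κ] in
theorem LocA_sum {J : κ → σ} (hJ : Function.Injective J) (a w : σ → L)
    (h0 : ∀ l, l ∉ Set.range J → w l = 0) : ∑ i, a (J i) * w (J i) = ∑ l, a l * w l :=
  Fintype.sum_of_injective J hJ _ _ (fun l hl => by rw [h0 l hl, mul_zero]) fun _ => rfl

theorem LocA_Dk_mem (f : κ → MvPolynomial σ K) (J : κ → σ) (ζ : σ → L) (k : σ) :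
    (fun l => aeval ζ (Dk f J k (X l))) ∈ tan f ζ := by
  intro i
  have h := congrArg (aeval ζ) (Dk_eq_sum f J k (f i))
  rw [Dk_self, map_zero, map_sum] at h
  rw [h]
  exact Finset.sum_congr rfl fun l _ => by rw [map_mul, mul_comm]

theorem LocA_eq_zero {f : κ → MvPolynomial σ K} {J : κ → σ} {ζ : σ → L}
    (hJ : aeval ζ (minor f J) ≠ 0) {w : σ → L} (hw : w ∈ tan f ζ)
    (h0 : ∀ l, l ∉ Set.range J → w l = 0) : w = 0 := by
  have h1 : ((LocA_jac f ζ).submatrix id J).det ≠ 0 := by
    rw [← LocA_aeval]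
    exact hJ
  have h2 : (fun i => w (J i)) = 0 := by
    refine Matrix.eq_zero_of_mulVec_eq_zero h1 (funext fun i => ?_)
    exact (LocA_sum (LocA_inj hJ) (fun l => aeval ζ (pderiv l (f i))) w h0).trans (hw i)
  funext l
  by_cases hl : l ∈ Set.range J
  · obtain ⟨i, rfl⟩ := hl
    exact congrFun h2 i
  · exact h0 l hl

/-- The differential of `g` is a combination of the differentials of the system. -/
theorem tan_lemma {f : κ → MvPolynomial σ K} {J : κ → σ} {ζ : σ → L}
    (hJ : aeval ζ (minor f J) ≠ 0) {g : MvPolynomial σ K} (hg : ∀ k, aeval ζ (Dk f J k g) = 0)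
    {w : σ → L} (hw : w ∈ tan f ζ) : ∑ l, aeval ζ (pderiv l g) * w l = 0 := by
  let u : σ → L := ∑ k, (w k / aeval ζ (minor f J)) • fun l => aeval ζ (Dk f J k (X l))
  have hu : u ∈ tan f ζ :=
    Submodule.sum_mem _ fun k _ => Submodule.smul_mem _ _ (LocA_Dk_mem f J ζ k)
  have h1 : w - u = 0 := by
    refine LocA_eq_zero hJ (sub_mem hw hu) fun l hl => ?_
    simp only [u, Pi.sub_apply, Finset.sum_apply, Pi.smul_apply, smul_eq_mul, Dk_X f J hl]
    rw [Finset.sum_eq_single l]
    · rw [if_pos rfl, div_mul_cancel₀ _ hJ, sub_self]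
    · intro k _ hk
      rw [if_neg hk, map_zero, mul_zero]
    · intro h
      exact absurd (Finset.mem_univ l) h
  have h2 : ∀ l, w l = ∑ k, w k / aeval ζ (minor f J) * aeval ζ (Dk f J k (X l)) := fun l => by
    have h3 := congrFun (sub_eq_zero.1 h1) l
    simpa only [u, Finset.sum_apply, Pi.smul_apply, smul_eq_mul] using h3
  calc ∑ l, aeval ζ (pderiv l g) * w l
      = ∑ l, ∑ k, w k / aeval ζ (minor f J) *
          (aeval ζ (Dk f J k (X l)) * aeval ζ (pderiv l g)) := by
        refine Finset.sum_congr rfl fun l _ => ?_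
        rw [h2 l, Finset.mul_sum]
        exact Finset.sum_congr rfl fun k _ => by ring
    _ = ∑ k, w k / aeval ζ (minor f J) * aeval ζ (Dk f J k g) := by
        rw [Finset.sum_comm]
        refine Finset.sum_congr rfl fun k _ => ?_
        rw [← Finset.mul_sum, Dk_eq_sum f J k g, map_sum]
        simp only [map_mul]
    _ = 0 := Finset.sum_eq_zero fun k _ => by rw [hg k, mul_zero]

theorem finrank_tan {f : κ → MvPolynomial σ K} {J : κ → σ} {ζ : σ → L}
    (hJ : aeval ζ (minor f J) ≠ 0) :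
    Module.finrank L (tan f ζ) + Fintype.card κ = Fintype.card σ := by
  have h1 : ((LocA_jac f ζ).submatrix id J).det ≠ 0 := by
    rw [← LocA_aeval]
    exact hJ
  have h2 := Matrix.rank_of_det_ne_zero h1
  have h3 := Matrix.rank_submatrix_le (LocA_jac f ζ) id J
  have h4 := Matrix.rank_le_card_height (LocA_jac f ζ)
  have h5 := LocA_rank f ζ
  omega

theorem Dk_mem_tan (f : κ → MvPolynomial σ K) (J : κ → σ) (ζ : σ → L) (k : σ) :
    (fun l => aeval ζ (Dk f J k (X l))) ∈ tan f ζ := by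
  exact LocA_Dk_mem f J ζ k

/-- A tangent vector is determined by its free coordinates. -/
theorem tan_eq_zero {f : κ → MvPolynomial σ K} {J : κ → σ} {ζ : σ → L}
    (hJ : aeval ζ (minor f J) ≠ 0) {w : σ → L} (hw : w ∈ tan f ζ)
    (h0 : ∀ l, l ∉ Set.range J → w l = 0) : w = 0 := by
  exact LocA_eq_zero hJ hw h0

/-- Prescribed values of the differentials, supported on the columns `J`. -/
theorem exists_solve {f : κ → MvPolynomial σ K} {J : κ → σ} {ζ : σ → L}
    (hJ : aeval ζ (minor f J) ≠ 0) (a : κ → L) :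
    ∃ w : σ → L, (∀ l, l ∉ Set.range J → w l = 0) ∧
      ∀ i, ∑ l, aeval ζ (pderiv l (f i)) * w l = a i := by
  have h1 : ((LocA_jac f ζ).submatrix id J).det ≠ 0 := by
    rw [← LocA_aeval]
    exact hJ
  let v : κ → L := Matrix.mulVec ((LocA_jac f ζ).submatrix id J)⁻¹ a
  have hv : Matrix.mulVec ((LocA_jac f ζ).submatrix id J) v = a := by
    rw [Matrix.mulVec_mulVec, Matrix.mul_nonsing_inv _ (isUnit_iff_ne_zero.2 h1),
      Matrix.one_mulVec]
  have h0 : ∀ l, l ∉ Set.range J → Function.extend J v 0 l = 0 := fun l hl =>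
    Function.extend_apply' _ _ _ hl
  refine ⟨Function.extend J v 0, h0, fun i => ?_⟩
  rw [← LocA_sum (LocA_inj hJ) (fun l => aeval ζ (pderiv l (f i))) _ h0, ← congrFun hv i]
  refine Finset.sum_congr rfl fun k _ => ?_
  rw [(LocA_inj hJ).extend_apply]
  rfl

theorem Simple.card_le {f : κ → MvPolynomial σ K} {J : κ → σ} {p : σ → K} (h : Simple f J p) :
    Fintype.card κ ≤ Fintype.card σ := by
  exact Fintype.card_le_of_injective J
    (inj_of_minor_ne (f := f) fun h0 => h.2 (by rw [h0, map_zero]))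

/-- A large tangent space forces large minors to vanish. -/
theorem minor_eq_zero_of_tan {κ' : Type} [Fintype κ'] [DecidableEq κ'] (f : κ → MvPolynomial σ K)
    (ζ : σ → L) (W : Submodule L (σ → L)) (hW : W ≤ tan f ζ) (S : Set σ)
    (hS : ∀ w ∈ W, ∀ l, l ∉ S → w l = 0) (ρ : κ' → κ) (γ : κ' → σ) (hγ : ∀ i, γ i ∈ S)
    (h : S.ncard < Module.finrank L W + Fintype.card κ') :
    aeval ζ (minor (fun i => f (ρ i)) γ) = 0 := by
  by_contra hne
  have hinj := LocA_inj hne
  have hsub : Set.range γ ⊆ S := by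
    rintro _ ⟨i, rfl⟩
    exact hγ i
  let Φ : W →ₗ[L] (↥(S \ Set.range γ) → L) :=
    (LinearMap.funLeft L L (Subtype.val : ↥(S \ Set.range γ) → σ)) ∘ₗ W.subtype
  have hΦ : Function.Injective Φ := by
    rw [← LinearMap.ker_eq_bot, LinearMap.ker_eq_bot']
    intro w hw
    refine Subtype.ext (LocA_eq_zero hne (fun i => hW w.2 (ρ i)) fun l hl => ?_)
    by_cases hl' : l ∈ S
    · exact congrFun hw ⟨l, hl', hl⟩
    · exact hS w.1 w.2 l hl'
  have h1 := LinearMap.finrank_le_finrank_of_injective hΦ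
  rw [Module.finrank_fintype_fun_eq_card, ← Nat.card_eq_fintype_card, Nat.card_coe_set_eq] at h1
  have h2 := Set.ncard_sdiff_add_ncard_of_subset hsub
  rw [Set.ncard_range_of_injective hinj, Nat.card_eq_fintype_card] at h2
  omega

/-- If all minors of size `r + 1` with columns in `S` vanish, the part of the tangent space
supported on `S` is large. -/
theorem le_finrank_of_minor (f : κ → MvPolynomial σ K) (ζ : σ → L) {σ₀ : Type} [Fintype σ₀]
    (e : σ₀ → σ) (he : Function.Injective e) (r : ℕ)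
    (h : ∀ (ρ : Fin (r + 1) → κ) (γ : Fin (r + 1) → σ₀),
      aeval ζ (minor (fun i => f (ρ i)) fun i => e (γ i)) = 0) :
    ∃ W : Submodule L (σ → L), W ≤ tan f ζ ∧ (∀ w ∈ W, ∀ l, l ∉ Set.range e → w l = 0) ∧
      Fintype.card σ₀ ≤ Module.finrank L W + r := by
  let B : Matrix κ σ₀ L := (LocA_jac f ζ).submatrix id e
  have h1 : B.rank ≤ r := by
    by_contra hlt
    obtain ⟨ρ, γ, hd⟩ := LocA_minor B (r := r + 1) (by omega)
    apply hd
    have h2 := h ρ γ
    rw [LocA_aeval] at h2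
    exact h2
  let E : (σ₀ → L) →ₗ[L] σ → L := Function.ExtendByZero.linearMap L e
  have hE : Function.Injective E := Function.extend_injective he _
  have h0 : ∀ (v : σ₀ → L) l, l ∉ Set.range e → E v l = 0 := fun v l hl =>
    Function.extend_apply' _ _ _ hl
  have hE' : ∀ (v : σ₀ → L) k, E v (e k) = v k := fun v k => he.extend_apply _ _ _
  refine ⟨(LinearMap.ker B.mulVecLin).map E, ?_, ?_, ?_⟩
  · rintro _ ⟨v, hv, rfl⟩ i
    rw [← Fintype.sum_of_injective e he (fun k => aeval ζ (pderiv (e k) (f i)) * v k)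
      (fun l => aeval ζ (pderiv l (f i)) * E v l) (fun l hl => by rw [h0 v l hl, mul_zero])
      (fun k => by rw [hE'])]
    exact congrFun (LinearMap.mem_ker.1 hv) i
  · rintro _ ⟨v, -, rfl⟩ l hl
    exact h0 v l hl
  · rw [← (Submodule.equivMapOfInjective E hE _).finrank_eq]
    have h2 := LinearMap.finrank_range_add_finrank_ker B.mulVecLin
    rw [Module.finrank_fintype_fun_eq_card] at h2
    have h3 : B.rank = Module.finrank L (LinearMap.range B.mulVecLin) := rfl
    omega

/-- A small tangent space yields a nonvanishing minor. -/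
theorem exists_minor_ne (f : κ → MvPolynomial σ K) (ζ : σ → L) {r : ℕ}
    (h : Module.finrank L (tan f ζ) + r ≤ Fintype.card σ) :
    ∃ (ρ : Fin r → κ) (γ : Fin r → σ), aeval ζ (minor (fun i => f (ρ i)) γ) ≠ 0 := by
  have h1 := LocA_rank f ζ
  obtain ⟨ρ, γ, hd⟩ := LocA_minor (LocA_jac f ζ) (r := r) (by omega)
  exact ⟨ρ, γ, by rwa [LocA_aeval]⟩

end Field

end Vale.Agent.P054A
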