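import Vale.Agent.P054A.LocA

/-!
The local ideal at a simple zero.
-/

namespace Vale.Agent.P054A

open MvPolynomial
open scoped Classical

variable {K : Type} [Field K] {σ κ : Type}

section Der

variable {R : Type} [CommRing R] [Algebra K R] (D : Derivation K R R) (ev : R →+* K)

theorem locL_lin (i : ℕ) : ∃ L : R →ₗ[K] R, ∀ g, D^[i] g = L g :=
  ⟨D.toLinearMap ^ i, fun g => (Module.End.pow_apply D.toLinearMap i g).symm⟩

theorem locL_succ (i : ℕ) (g h : R) : D^[i + 1] (g * h) = D^[i] (g * D h) + D^[i] (D g * h) := by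
  rw [Function.iterate_succ_apply, D.leibniz, smul_eq_mul, smul_eq_mul, mul_comm h,
    iterate_map_add]

theorem locL_mul (i : ℕ) : ∀ g h : R, (∀ j < i, ev (D^[j] g) = 0) →
    ev (D^[i] (g * h)) = ev (D^[i] g) * ev h := by
  induction i with
  | zero => exact fun g h _ => map_mul ev g h
  | succ i ih =>
    intro g h hg
    rw [locL_succ, map_add, ih g _ fun j hj => hg j (by omega), hg i (by omega), zero_mul,
      zero_add, ih (D g) h fun j hj => hg (j + 1) (by omega), Function.iterate_succ_apply]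

theorem locL_mul' {l : R} (hl : ev l = 0) (i : ℕ) : ∀ g : R, (∀ j < i, ev (D^[j] g) = 0) →
    ev (D^[i + 1] (g * l)) = (i + 1) * ev (D^[i] g) * ev (D l) := by
  induction i with
  | zero =>
    intro g _
    rw [locL_succ, map_add]
    simp only [Function.iterate_zero, id, map_mul, hl]
    ring
  | succ i ih =>
    intro g hg
    rw [locL_succ, map_add, locL_mul D ev _ g _ hg, ih (D g) fun j hj => hg (j + 1) (by omega),
      Function.iterate_succ_apply]
    push_cast
    ring

theorem locL_pow (I : Ideal R) (r : ℕ) : ∀ g ∈ I ^ (r + 1), D g ∈ I ^ r := by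
  induction r with
  | zero => intro g _; simp
  | succ r ih =>
    intro g hg
    rw [pow_succ] at hg
    refine Submodule.mul_induction_on hg (fun a ha b hb => ?_) fun a b ha hb => ?_
    · rw [D.leibniz, smul_eq_mul, smul_eq_mul]
      refine Ideal.add_mem _ (Ideal.mul_mem_right _ _ ha) ?_
      rw [pow_succ']
      exact Ideal.mul_mem_mul hb (ih a ha)
    · rw [map_add]
      exact Ideal.add_mem _ ha hb

theorem locL_pow_iter (I : Ideal R) (r i : ℕ) : ∀ g ∈ I ^ (r + i), D^[i] g ∈ I ^ r := by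
  induction i with
  | zero => exact fun g hg => hg
  | succ i ih => exact fun g hg => ih _ (locL_pow D I (r + i) g hg)

theorem locL_prod {α : Type} (φ : α → R) (h : R) (s : Multiset α) (hs : ∀ a ∈ s, ev (φ a) = 0) :
    (∀ j < Multiset.card s, ev (D^[j] (h * (s.map φ).prod)) = 0) ∧
      ev (D^[Multiset.card s] (h * (s.map φ).prod)) =
        ev h * ((Multiset.card s).factorial : K) * (s.map fun a => ev (D (φ a))).prod := by
  induction s using Multiset.induction_on with
  | empty => simp
  | cons a s ih =>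
    obtain ⟨h1, h2⟩ := ih fun b hb => hs b (Multiset.mem_cons_of_mem hb)
    have ha := hs a (Multiset.mem_cons_self a s)
    rw [Multiset.map_cons, Multiset.prod_cons, Multiset.card_cons, mul_comm (φ a), ← mul_assoc]
    refine ⟨fun j hj => ?_, ?_⟩
    · rw [locL_mul D ev j _ _ fun k hk => h1 k (by omega), ha, mul_zero]
    · rw [locL_mul' D ev ha _ _ h1, h2, Multiset.map_cons, Multiset.prod_cons, Nat.factorial_succ]
      push_cast
      ring

end Der

theorem mem_locP (f : κ → MvPolynomial σ K) (p : σ → K) (i : κ) : f i ∈ locP f p := by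
  exact ⟨1, by simp, by rw [one_mul]; exact Ideal.subset_span ⟨i, rfl⟩⟩

theorem on_locP {f : κ → MvPolynomial σ K} {p : σ → K} (h : ∀ i, eval p (f i) = 0) :
    On p (locP f p) := by
  rintro g ⟨q, hq, hg⟩
  have h1 : Ideal.span (Set.range f) ≤ RingHom.ker (eval p) :=
    Ideal.span_le.2 (Set.range_subset_iff.2 h)
  have h2 : eval p (q * g) = 0 := h1 hg
  rw [map_mul] at h2
  exact (mul_eq_zero.1 h2).resolve_left hq

theorem locP_le {f : κ → MvPolynomial σ K} {p : σ → K} {Q : Ideal (MvPolynomial σ K)}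
    (hQ : Q.IsPrime) (hf : ∀ i, f i ∈ Q) (hp : On p Q) : locP f p ≤ Q := by
  rintro g ⟨q, hq, hg⟩
  have h1 : Ideal.span (Set.range f) ≤ Q := Ideal.span_le.2 (Set.range_subset_iff.2 hf)
  exact (hQ.mem_or_mem (h1 hg)).resolve_left fun h => hq (hp q h)

theorem locP_congr {κ' : Type} {f : κ → MvPolynomial σ K} {f' : κ' → MvPolynomial σ K}
    (h : Set.range f = Set.range f') (p : σ → K) : locP f p = locP f' p := by
  ext g
  change (∃ q, eval p q ≠ 0 ∧ q * g ∈ Ideal.span (Set.range f)) ↔
    ∃ q, eval p q ≠ 0 ∧ q * g ∈ Ideal.span (Set.range f')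
  rw [h]

theorem locP_empty [IsEmpty κ] (f : κ → MvPolynomial σ K) (p : σ → K) : locP f p = ⊥ := by
  refine eq_bot_iff.2 ?_
  rintro g ⟨q, hq, hg⟩
  rw [Set.range_eq_empty, Ideal.span_empty, Ideal.mem_bot] at hg
  exact (mul_eq_zero.1 hg).resolve_left fun h => hq (by rw [h, map_zero])

variable [Fintype σ] [Fintype κ] [DecidableEq κ]

theorem Dk_mem_locP (f : κ → MvPolynomial σ K) (J : κ → σ) (p : σ → K) (k : σ)
    {g : MvPolynomial σ K} (hg : g ∈ locP f p) : Dk f J k g ∈ locP f p := by
  obtain ⟨q, hq, hg⟩ := hg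
  refine ⟨q * q, by rw [map_mul]; exact mul_ne_zero hq hq, ?_⟩
  have e : q * q * Dk f J k g = q * Dk f J k (q * g) - Dk f J k q * (q * g) := by
    rw [Dk_mul]; ring
  rw [e]
  exact Ideal.sub_mem _ (Ideal.mul_mem_left _ _ (Dk_mem_span f J k hg)) (Ideal.mul_mem_left _ _ hg)

theorem Dl_iter_mem_locP (f : κ → MvPolynomial σ K) (J : κ → σ) (p : σ → K) (lam : σ → K)
    (i : ℕ) {g : MvPolynomial σ K} (hg : g ∈ locP f p) : (Dl f J lam)^[i] g ∈ locP f p := by
  induction i generalizing g with
  | zero => exact hg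
  | succ i ih =>
    exact ih (Submodule.sum_mem _ fun k _ => Submodule.smul_of_tower_mem _ _ (Dk_mem_locP f J p k hg))

/-- The iterated derivative at a point is a polynomial function of the direction. -/
theorem Dl_poly (f : κ → MvPolynomial σ K) (J : κ → σ) (p : σ → K) (i : ℕ)
    (g : MvPolynomial σ K) :
    ∃ F : MvPolynomial σ K, ∀ lam, eval p ((Dl f J lam)^[i] g) = eval lam F := by
  induction i generalizing g with
  | zero => exact ⟨C (eval p g), fun lam => by rw [eval_C]; rfl⟩
  | succ i ih =>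
    choose F hF using ih
    refine ⟨∑ k, X k * F (Dk f J k g), fun lam => ?_⟩
    obtain ⟨D, hD⟩ := exists_der_Dl f J lam
    obtain ⟨L, hL⟩ := locL_lin D i
    rw [funext hD] at hL
    rw [Function.iterate_succ_apply, hL, Dl, map_sum, map_sum, map_sum]
    refine Finset.sum_congr rfl fun k _ => ?_
    rw [map_smul, ← hL, smul_eval, hF, map_mul, eval_X]

/-- Leibniz: a factor vanishing to order `r` gives a product vanishing to order `r`. -/
theorem Dl_iter_mul_eq_zero (f : κ → MvPolynomial σ K) (J : κ → σ) (p : σ → K) (lam : σ → K)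
    {r : ℕ} {g : MvPolynomial σ K} (hg : ∀ i < r, eval p ((Dl f J lam)^[i] g) = 0)
    (h : MvPolynomial σ K) : ∀ i < r, eval p ((Dl f J lam)^[i] (g * h)) = 0 := by
  intro i hi
  obtain ⟨D, hD⟩ := exists_der_Dl f J lam
  rw [← funext hD] at hg ⊢
  rw [locL_mul D (eval p) i g h fun j hj => hg j (hj.trans hi), hg i hi, zero_mul]

theorem Dl_iter_pow_ideal (f : κ → MvPolynomial σ K) (J : κ → σ) (p : σ → K) (lam : σ → K)
    {r : ℕ} {g : MvPolynomial σ K} (hg : g ∈ vanI {p} ^ r) :
    ∀ i < r, eval p ((Dl f J lam)^[i] g) = 0 := by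
  intro i hi
  obtain ⟨D, hD⟩ := exists_der_Dl f J lam
  rw [← funext hD]
  have h1 := locL_pow_iter D (vanI {p}) 1 i g (Ideal.pow_le_pow_right (by omega) hg)
  rw [pow_one] at h1
  exact h1 p rfl

/-- The leading term: `F` is a form of degree `i` in the free variables. -/
theorem Dl_iter_lead (f : κ → MvPolynomial σ K) (J : κ → σ) (p : σ → K) (lam : σ → K) {i : ℕ}
    {F : MvPolynomial σ K} (hF : F.IsHomogeneous i) (hv : ∀ l ∈ F.vars, l ∉ Set.range J)
    (h : MvPolynomial σ K) :
    eval p ((Dl f J lam)^[i] (h * aeval (fun l => X l - C (p l)) F))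
      = eval p h * (i.factorial : K) * eval p (minor f J) ^ i * eval lam F := by
  obtain ⟨D, hD⟩ := exists_der_Dl f J lam
  obtain ⟨L, hL⟩ := locL_lin D i
  have hX : ∀ l ∈ F.vars, eval p (D (X l - C (p l))) = eval p (minor f J) * lam l := by
    intro l hl
    have h1 : D (C (p l)) = 0 := D.map_algebraMap (p l)
    rw [map_sub, h1, sub_zero, hD, Dl, Finset.sum_eq_single l, Dk_X f J (hv l hl), if_pos rfl,
      smul_eval, mul_comm]
    · intro k _ hk
      rw [Dk_X f J (hv l hl), if_neg hk, smul_zero]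
    · exact fun h => absurd (Finset.mem_univ l) h
  rw [← funext hD, hL, eval_eq lam F, Finset.mul_sum]
  conv_lhs => rw [F.as_sum, map_sum, Finset.mul_sum, map_sum, map_sum]
  refine Finset.sum_congr rfl fun d hd => ?_
  have hc : Multiset.card d.toMultiset = i := by
    rw [Finsupp.card_toMultiset, hF.degree_eq_sum_deg_support hd]; rfl
  have hp : ∀ {M : Type} [CommMonoid M] (φ : σ → M),
      (d.toMultiset.map φ).prod = ∏ l ∈ d.support, φ l ^ d l := fun φ => by
    rw [Finset.prod_multiset_map_count, Finsupp.toFinset_toMultiset]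
    simp only [Finsupp.count_toMultiset]
  have h1 := (locL_prod D (eval p) (fun l => X l - C (p l)) h d.toMultiset fun l _ => by simp).2
  have h2 : ∏ l ∈ d.support, eval p (D (X l - C (p l))) ^ d l =
      eval p (minor f J) ^ i * ∏ l ∈ d.support, lam l ^ d l := by
    rw [hF.degree_eq_sum_deg_support hd, ← Finset.prod_pow_eq_pow_sum, ← Finset.prod_mul_distrib]
    refine Finset.prod_congr rfl fun l hl => ?_
    rw [hX l ((mem_vars_iff_mem_support l).2 ⟨d, hd, hl⟩), mul_pow]
  rw [hc, hp, hp, hL, h2] at h1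
  rw [aeval_monomial, ← Algebra.smul_def, mul_smul_comm, map_smul, smul_eval, Finsupp.prod, h1]
  ring

end Vale.Agent.P054A
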