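import Vale.Agent.P054A.Defs

/-!
Cofactor vector fields and tangent spaces.
-/

namespace Vale.Agent.P054A

open MvPolynomial
open scoped Classical

section Ring

variable {A : Type} [CommRing A] {σ κ : Type} [Fintype σ] [Fintype κ] [DecidableEq κ]

omit [Fintype σ] in
theorem locr_cof (f : κ → MvPolynomial σ A) (J : κ → σ) (k : σ) :
    ∃ c : Option κ → MvPolynomial σ A, ∀ g, Dk f J k g = ∑ o, c o * pderiv (o.elim k J) g := by
  obtain ⟨M, hM⟩ : ∃ M : Matrix (Option κ) (Option κ) (MvPolynomial σ A),
      M = Matrix.of fun i o => pderiv (Option.elim o k J) (Option.elim i 0 f) := ⟨_, rfl⟩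
  refine ⟨fun o => Matrix.cramer M.transpose (fun j => if o = j then 1 else 0) none, fun g => ?_⟩
  have e : Dk f J k g = Matrix.cramer M.transpose (fun o => pderiv (o.elim k J) g) none := by
    rw [Matrix.cramer_transpose_apply, Dk, minor]
    congr 1
    ext1 i o
    rcases i with _ | i
    · rw [Matrix.updateRow_self]
      rfl
    · rw [Matrix.updateRow_ne (Option.some_ne_none i), hM]
      rfl
  rw [e, LinearMap.pi_apply_eq_sum_univ, Finset.sum_apply]
  refine Finset.sum_congr rfl fun o _ => ?_
  rw [Pi.smul_apply, smul_eq_mul, mul_comm]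

/-- `Dk` is a vector field. -/
theorem Dk_eq_sum (f : κ → MvPolynomial σ A) (J : κ → σ) (k : σ) (g : MvPolynomial σ A) :
    Dk f J k g = ∑ l, Dk f J k (X l) * pderiv l g := by
  obtain ⟨c, hc⟩ := locr_cof f J k
  simp only [hc, Finset.sum_mul]
  rw [Finset.sum_comm]
  refine Finset.sum_congr rfl fun o _ => ?_
  rw [Finset.sum_eq_single (o.elim k J)]
  · rw [pderiv_X_self, mul_one]
  · intro l _ hl
    rw [pderiv_X_of_ne hl, mul_zero, zero_mul]
  · intro h
    exact absurd (Finset.mem_univ _) h

theorem Dk_add (f : κ → MvPolynomial σ A) (J : κ → σ) (k : σ) (g h : MvPolynomial σ A) :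
    Dk f J k (g + h) = Dk f J k g + Dk f J k h := by
  obtain ⟨c, hc⟩ := locr_cof f J k
  simp only [hc, map_add, mul_add, Finset.sum_add_distrib]

theorem Dk_mul (f : κ → MvPolynomial σ A) (J : κ → σ) (k : σ) (g h : MvPolynomial σ A) :
    Dk f J k (g * h) = g * Dk f J k h + h * Dk f J k g := by
  obtain ⟨c, hc⟩ := locr_cof f J k
  simp only [hc, pderiv_mul, Finset.mul_sum, ← Finset.sum_add_distrib]
  exact Finset.sum_congr rfl fun o _ => by ring

theorem Dk_C (f : κ → MvPolynomial σ A) (J : κ → σ) (k : σ) (a : A) : Dk f J k (C a) = 0 := by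
  obtain ⟨c, hc⟩ := locr_cof f J k
  simp only [hc, pderiv_C, mul_zero, Finset.sum_const_zero]

theorem Dk_smul (f : κ → MvPolynomial σ A) (J : κ → σ) (k : σ) (a : A) (g : MvPolynomial σ A) :
    Dk f J k (a • g) = a • Dk f J k g := by
  rw [smul_eq_C_mul, smul_eq_C_mul, Dk_mul, Dk_C, mul_zero, add_zero]

theorem Dk_self (f : κ → MvPolynomial σ A) (J : κ → σ) (k : σ) (i : κ) :
    Dk f J k (f i) = 0 := by
  exact Matrix.det_zero_of_row_eq (Option.some_ne_none i) rfl

theorem Dk_range (f : κ → MvPolynomial σ A) (J : κ → σ) (i : κ) (g : MvPolynomial σ A) :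
    Dk f J (J i) g = 0 := by
  exact Matrix.det_zero_of_column_eq (Option.some_ne_none i) fun _ => rfl

theorem Dk_X (f : κ → MvPolynomial σ A) (J : κ → σ) {k l : σ} (hl : l ∉ Set.range J) :
    Dk f J k (X l) = if k = l then minor f J else 0 := by
  have h0 : ∀ j, pderiv (J j) (X l : MvPolynomial σ A) = 0 := fun j =>
    pderiv_X_of_ne fun h => hl ⟨j, h.symm⟩
  split_ifs with h
  · subst h
    rw [Dk, minor, minor, ← Matrix.det_submatrix_equiv_self (Equiv.optionEquivSumPUnit.{0} κ).symm]
    have e : Matrix.submatrix (Matrix.of fun i o : Option κ =>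
        pderiv (Option.elim o k J) (Option.elim i (X k : MvPolynomial σ A) f))
        (Equiv.optionEquivSumPUnit.{0} κ).symm (Equiv.optionEquivSumPUnit.{0} κ).symm =
        Matrix.fromBlocks (Matrix.of fun i j => pderiv (J j) (f i))
          (Matrix.of fun i _ => pderiv k (f i)) 0 1 := by
      ext1 i j
      rcases i with i | i <;> rcases j with j | j
      · rfl
      · rfl
      · exact h0 j
      · exact pderiv_X_self k
    rw [e, Matrix.det_fromBlocks_zero₂₁, Matrix.det_one, mul_one]
  · refine Matrix.det_eq_zero_of_row_eq_zero none fun o => ?_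
    rcases o with _ | j
    · exact pderiv_X_of_ne (Ne.symm h)
    · exact h0 j

/-- `Dl` as a derivation. -/
theorem exists_der_Dl (f : κ → MvPolynomial σ A) (J : κ → σ) (lam : σ → A) :
    ∃ D : Derivation A (MvPolynomial σ A) (MvPolynomial σ A), ∀ g, D g = Dl f J lam g := by
  refine ⟨Derivation.mk'
    { toFun := Dl f J lam
      map_add' := fun g h => ?_
      map_smul' := fun a g => ?_ } fun g h => ?_, fun _ => rfl⟩
  · simp only [Dl, Dk_add, smul_add, Finset.sum_add_distrib]
  · simp only [Dl, Dk_smul, RingHom.id_apply, Finset.smul_sum]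
    exact Finset.sum_congr rfl fun k _ => smul_comm _ _ _
  · show Dl f J lam (g * h) = g • Dl f J lam h + h • Dl f J lam g
    simp only [Dl, Dk_mul, smul_add, Finset.sum_add_distrib, smul_eq_mul, Finset.mul_sum,
      mul_smul_comm]

theorem Dk_mem_span (f : κ → MvPolynomial σ A) (J : κ → σ) (k : σ) {g : MvPolynomial σ A}
    (hg : g ∈ Ideal.span (Set.range f)) : Dk f J k g ∈ Ideal.span (Set.range f) := by
  obtain ⟨c, rfl⟩ := Ideal.mem_span_range_iff_exists_fun.1 hg
  obtain ⟨d, hd⟩ := locr_cof f J k
  have e : Dk f J k (∑ i, c i * f i) = ∑ i, Dk f J k (c i * f i) := by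
    simp only [hd, map_sum, Finset.mul_sum]
    exact Finset.sum_comm
  rw [e]
  refine Ideal.sum_mem _ fun i _ => ?_
  rw [Dk_mul, Dk_self, mul_zero, zero_add]
  exact Ideal.mul_mem_right _ _ (Ideal.subset_span ⟨i, rfl⟩)

omit [Fintype σ] in
theorem locr_deg_pderiv (i : σ) (p : MvPolynomial σ A) :
    (pderiv i p).totalDegree ≤ p.totalDegree := by
  refine Finset.sup_le fun m hm => ?_
  rw [mem_support_iff, coeff_pderiv] at hm
  have h := le_totalDegree (mem_support_iff.2 (left_ne_zero_of_mul hm))
  rw [Finsupp.sum_add_index' (fun _ => rfl) (fun _ _ _ => rfl)] at h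
  exact le_trans (Nat.le_add_right _ _) h

omit [Fintype σ] in
theorem locr_deg_minor {f : κ → MvPolynomial σ A} {s : κ → ℕ}
    (hs : ∀ i, (f i).totalDegree ≤ s i) (J : κ → σ) : (minor f J).totalDegree ≤ ∑ i, s i := by
  rw [minor, Matrix.det_apply]
  refine totalDegree_finsetSum_le fun e _ => ?_
  have h : (∏ i, pderiv (J i) (f (e i))).totalDegree ≤ ∑ i, s i := by
    refine (totalDegree_finsetProd _ _).trans ?_
    rw [← Equiv.sum_comp e s]
    exact Finset.sum_le_sum fun i _ => (locr_deg_pderiv _ _).trans (hs _)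
  rcases Int.units_eq_one_or (Equiv.Perm.sign e) with h1 | h1
  · rw [h1, one_smul]
    exact h
  · rw [h1, Units.neg_smul, one_smul, totalDegree_neg]
    exact h

omit [Fintype σ] in
theorem totalDegree_minor_le {f : κ → MvPolynomial σ A} {s : ℕ}
    (hs : ∀ i, (f i).totalDegree ≤ s) (J : κ → σ) :
    (minor f J).totalDegree ≤ Fintype.card κ * s := by
  simpa using locr_deg_minor (s := fun _ => s) hs J

omit [Fintype σ] in
theorem totalDegree_Dk_le {f : κ → MvPolynomial σ A} {s : ℕ} (hs : ∀ i, (f i).totalDegree ≤ s)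
    (J : κ → σ) (k : σ) (g : MvPolynomial σ A) :
    (Dk f J k g).totalDegree ≤ g.totalDegree + Fintype.card κ * s := by
  have h := locr_deg_minor (f := fun o : Option κ => o.elim g f)
    (s := fun o : Option κ => o.elim g.totalDegree fun _ => s)
    (fun o => by
      rcases o with _ | i
      · exact le_rfl
      · exact hs i) (fun o : Option κ => o.elim k J)
  rw [Dk]
  simpa [Fintype.sum_option] using h

theorem totalDegree_Dl_iter_le {f : κ → MvPolynomial σ A} {s : ℕ}
    (hs : ∀ i, (f i).totalDegree ≤ s) (J : κ → σ) (lam : σ → A) (i : ℕ) (g : MvPolynomial σ A) :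
    ((Dl f J lam)^[i] g).totalDegree ≤ g.totalDegree + i * (Fintype.card κ * s) := by
  induction i with
  | zero => simp
  | succ i ih =>
    rw [Function.iterate_succ_apply', Dl]
    refine totalDegree_finsetSum_le fun k _ => (totalDegree_smul_le _ _).trans ?_
    refine (totalDegree_Dk_le hs J k _).trans ?_
    rw [add_mul, one_mul]
    omega

omit [Fintype σ] in
theorem map_minor {B : Type} [CommRing B] (φ : A →+* B) (f : κ → MvPolynomial σ A) (J : κ → σ) :
    map φ (minor f J) = minor (fun i => map φ (f i)) J := by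
  rw [minor, minor, RingHom.map_det]
  congr 1
  ext1 i j
  exact pderiv_map.symm

omit [Fintype σ] in
theorem map_Dk {B : Type} [CommRing B] (φ : A →+* B) (f : κ → MvPolynomial σ A) (J : κ → σ)
    (k : σ) (g : MvPolynomial σ A) :
    map φ (Dk f J k g) = Dk (fun i => map φ (f i)) J k (map φ g) := by
  rw [Dk, Dk, map_minor]
  congr 1
  funext o
  rcases o with _ | i <;> rfl

omit [Fintype σ] in
theorem minor_reindex {κ' : Type} [Fintype κ'] [DecidableEq κ'] (ε : κ' ≃ κ)
    (f : κ → MvPolynomial σ A) (J : κ → σ) :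
    minor (fun i => f (ε i)) (fun i => J (ε i)) = minor f J := by
  exact Matrix.det_submatrix_equiv_self ε (Matrix.of fun i k => pderiv (J k) (f i))

omit [Fintype σ] in
theorem minor_rename {σ' : Type} {e : σ → σ'} (he : Function.Injective e)
    (f : κ → MvPolynomial σ A) (J : κ → σ) :
    minor (fun i => rename e (f i)) (fun i => e (J i)) = rename e (minor f J) := by
  rw [minor, minor, AlgHom.map_det]
  congr 1
  ext1 i j
  exact pderiv_rename he _ _

omit [Fintype σ] in
/-- Block triangular minors. -/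
theorem minor_block {σ' κ' : Type} [Fintype κ'] [DecidableEq κ'] {e : σ → σ'}
    (he : Function.Injective e) (f : κ → MvPolynomial σ A) (J : κ → σ)
    (φ : κ' → MvPolynomial σ' A) (J' : κ' → σ') (hJ : ∀ i, J' i ∉ Set.range e) :
    minor (Sum.elim (fun i => rename e (f i)) φ) (Sum.elim (fun i => e (J i)) J')
      = rename e (minor f J) * minor φ J' := by
  rw [← minor_rename he, minor, minor, minor, ← Matrix.det_fromBlocks_zero₁₂ _
    (Matrix.of fun i j => pderiv (e (J j)) (φ i))]
  congr 1
  ext1 i j
  rcases i with i | i <;> rcases j with j | j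
  · rfl
  · refine pderiv_eq_zero_of_notMem_vars fun h => hJ j ?_
    obtain ⟨a, -, ha⟩ := mem_vars_rename e (f i) h
    exact ⟨a, ha⟩
  · rfl
  · rfl

omit [Fintype σ] in
theorem minor_snoc (f : ℕ → MvPolynomial σ A) (J : ℕ → σ) (c : ℕ) (g : MvPolynomial σ A) (k : σ) :
    minor (pre (Function.update f c g) (c + 1)) (pre (Function.update J c k) (c + 1))
      = Dk (pre f c) (pre J c) k g := by
  have key : ∀ {α : Type} (F : ℕ → α) (a : α), pre (Function.update F c a) (c + 1) =
      fun i => Option.elim (finSuccEquivLast i) a (pre F c) := by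
    intro α F a
    funext i
    refine Fin.lastCases ?_ (fun j => ?_) i
    · rw [finSuccEquivLast_last]
      exact Function.update_self c a F
    · rw [finSuccEquivLast_castSucc]
      exact Function.update_of_ne (ne_of_lt j.2) a F
  rw [key, key]
  exact minor_reindex finSuccEquivLast (fun o : Option (Fin c) => o.elim g (pre f c))
    (fun o : Option (Fin c) => o.elim k (pre J c))

omit [Fintype σ] in
theorem inj_of_minor_ne {f : κ → MvPolynomial σ A} {J : κ → σ} (h : minor f J ≠ 0) :
    Function.Injective J := by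
  intro i j hij
  by_contra hne
  refine h (Matrix.det_zero_of_column_eq hne fun k => ?_)
  rw [Matrix.of_apply, Matrix.of_apply, hij]

end Ring

end Vale.Agent.P054A
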