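import Vale.Agent.P054A.Zoom

/-!
Choice of a typical node.
-/

namespace Vale.Agent.P054A

open MvPolynomial Sum
open scoped Classical

variable {k : ℕ} {ι R₁ R₂ : Type} {u : UF}

/-- A class which is typical for finitely many weights. -/
theorem exists_typical {β α : Type} [Fintype α] (E : Finset ι) (hE : E.Nonempty) (lab : ι → β)
    (w : α → β → ℝ) (hw : ∀ a z, 0 ≤ w a z) (S : α → ℝ)
    (hS : ∀ a, ∑ z ∈ E.image lab, w a z ≤ S a) (bad : Finset ι) (hbad : 2 * bad.card ≤ E.card)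
    (hsat : ∀ e ∈ E, ∀ e' ∈ E, lab e = lab e' → e ∈ bad → e' ∈ bad) :
    ∃ e₀ ∈ E, e₀ ∉ bad ∧ ∀ a, w a (lab e₀) * E.card ≤
      (2 * Fintype.card α + 1) * S a * (E.filter fun e => lab e = lab e₀).card := by
  by_contra hcon
  have hB : ∀ a, (2 * Fintype.card α + 1) * (E.filter fun e => (2 * Fintype.card α + 1) * S a *
      (E.filter fun e' => lab e' = lab e).card < w a (lab e) * E.card).card ≤ E.card := by
    intro a
    generalize hBa : (E.filter fun e => (2 * Fintype.card α + 1) * S a *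
      (E.filter fun e' => lab e' = lab e).card < w a (lab e) * E.card) = B
    have hsub : B ⊆ E := hBa ▸ Finset.filter_subset _ _
    rcases B.eq_empty_or_nonempty with h0 | h0
    · rw [h0, Finset.card_empty, mul_zero]
      exact Nat.zero_le _
    have h1 : (B.card : ℝ) ≤ ∑ z ∈ B.image lab, ((E.filter fun e => lab e = z).card : ℝ) := by
      rw [Finset.card_eq_sum_card_image lab B, Nat.cast_sum]
      exact Finset.sum_le_sum fun z _ =>
        Nat.cast_le.2 (Finset.card_le_card (Finset.filter_subset_filter _ hsub))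
    have h2 : ∑ z ∈ B.image lab, w a z ≤ S a :=
      (Finset.sum_le_sum_of_subset_of_nonneg (Finset.image_subset_image hsub)
        fun z _ _ => hw a z).trans (hS a)
    have h3 : ∑ z ∈ B.image lab, (2 * Fintype.card α + 1) * S a *
        ((E.filter fun e => lab e = z).card : ℝ) < ∑ z ∈ B.image lab, w a z * E.card := by
      refine Finset.sum_lt_sum_of_nonempty (h0.image _) fun z hz => ?_
      obtain ⟨e, he, rfl⟩ := Finset.mem_image.1 hz
      rw [← hBa] at he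
      exact (Finset.mem_filter.1 he).2
    rw [← Finset.mul_sum, ← Finset.sum_mul] at h3
    have h4 : 0 ≤ S a := (Finset.sum_nonneg fun z _ => hw a z).trans h2
    have h5 : (0 : ℝ) ≤ 2 * Fintype.card α + 1 := by positivity
    have h6 : S a * ((2 * Fintype.card α + 1) * B.card) < S a * E.card := by
      have h7 := mul_le_mul_of_nonneg_left h1 (mul_nonneg h5 h4)
      have h8 := mul_le_mul_of_nonneg_right h2 (Nat.cast_nonneg (α := ℝ) E.card)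
      linarith
    have h9 := lt_of_mul_lt_mul_left h6 h4
    exact_mod_cast h9.le
  have hsub : E \ bad ⊆ Finset.univ.biUnion fun a => E.filter fun e =>
      (2 * Fintype.card α + 1) * S a * (E.filter fun e' => lab e' = lab e).card <
        w a (lab e) * E.card := by
    intro e he
    obtain ⟨he1, he2⟩ := Finset.mem_sdiff.1 he
    by_contra hn
    refine hcon ⟨e, he1, he2, fun a => not_lt.1 fun hlt => hn ?_⟩
    exact Finset.mem_biUnion.2 ⟨a, Finset.mem_univ _, Finset.mem_filter.2 ⟨he1, hlt⟩⟩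
  have h1 := Nat.mul_le_mul_left (2 * Fintype.card α + 1)
    ((Finset.card_le_card hsub).trans Finset.card_biUnion_le)
  rw [Finset.mul_sum] at h1
  have h2 := h1.trans (Finset.sum_le_sum fun a _ => hB a)
  rw [Finset.sum_const, Finset.card_univ, smul_eq_mul] at h2
  have h3 := Finset.le_card_sdiff bad E
  have h4 := hE.card_pos
  have h5 : E.card ≤ 2 * (E \ bad).card := by omega
  have h6 := Nat.mul_le_mul_left (2 * Fintype.card α + 1) h5
  nlinarith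

theorem ZoomB_cap {R σ β : Type} (E : Finset ι) {r : ι → R} {π : ι → σ → ℂ}
    {P : ι → Ideal (MvPolynomial σ ℂ)} {M : ℕ} (lab : ι → β)
    (hn : ∀ e ∈ E, ∀ e' ∈ E, r e = r e' → P e = P e' → lab e = lab e') {K : ℕ}
    (hK : ∀ G ⊆ E, ∀ g, Cap G r π P M g → G.card ≤ K) :
    ∃ w : β → ℕ, ∑ z ∈ E.image lab, w z ≤ K ∧
      ∀ z, ∀ G ⊆ E.filter fun e => lab e = z, ∀ g, Cap G r π P M g → G.card ≤ w z := by
  have h1 : ∀ z, ∃ (G : Finset ι) (g : ι → MvPolynomial σ ℂ),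
      G ⊆ (E.filter fun e => lab e = z) ∧ Cap G r π P M g ∧
      ∀ G' ⊆ E.filter fun e => lab e = z, ∀ g', Cap G' r π P M g' → G'.card ≤ G.card := by
    intro z
    obtain ⟨G, hG, hmax⟩ := Finset.exists_max_image
      ((E.filter fun e => lab e = z).powerset.filter fun G => ∃ g, Cap G r π P M g) Finset.card
      ⟨∅, Finset.mem_filter.2 ⟨Finset.empty_mem_powerset _, fun _ => 0, by simp, by simp, by simp,
        by simp⟩⟩
    obtain ⟨h1, g, hg⟩ := Finset.mem_filter.1 hG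
    exact ⟨G, g, Finset.mem_powerset.1 h1, hg, fun G' h' g' hg' =>
      hmax G' (Finset.mem_filter.2 ⟨Finset.mem_powerset.2 h', g', hg'⟩)⟩
  choose G g hG hc hmax using h1
  have hl : ∀ z, ∀ e ∈ G z, e ∈ E ∧ lab e = z := fun z e he => Finset.mem_filter.1 (hG z he)
  have hm : ∀ e ∈ (E.image lab).biUnion G, e ∈ G (lab e) := by
    intro e he
    obtain ⟨z, -, hz⟩ := Finset.mem_biUnion.1 he
    rw [(hl z e hz).2]
    exact hz
  refine ⟨fun z => (G z).card, ?_, hmax⟩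
  rw [← Finset.card_biUnion]
  · refine hK _ (fun e he => (hl _ e (hm e he)).1) (fun e => g (lab e) e)
      ⟨fun e he e' he' hr hP => ?_, fun e he => (hc _).notin e (hm e he),
        fun e he => (hc _).deg e (hm e he), fun e he => (hc _).zero e (hm e he)⟩
    have h2 := hn e (hl _ e (hm e he)).1 e' (hl _ e' (hm e' he')).1 hr hP
    have h3 := hm e' he'
    rw [← h2] at h3 ⊢
    exact (hc _).cons e (hm e he) e' h3 hr hP
  · intro z _ z' _ hz
    exact Finset.disjoint_left.2 fun e he he' => hz ((hl z e he).2.symm.trans (hl z' e he').2)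

theorem ZoomB_sdg {R σ β : Type} (v : ℕ) (E : Finset ι) {r : ι → R}
    {P : ι → Ideal (MvPolynomial σ ℂ)} (lab : ι → β)
    (hn : ∀ e ∈ E, ∀ e' ∈ E, r e = r e' → P e = P e' → lab e = lab e') [Fintype σ] {T : ℝ} {N : ℕ}
    (hE : E.Nonempty) (hT : ∀ ρ, (sdg v (E.filter fun e => r e = ρ) r P : ℝ) ≤ T)
    (hN : (E.image r).card ≤ N) :
    ∑ z ∈ E.image lab, (sdg v (E.filter fun e => lab e = z) r P : ℝ) ≤ N * T := by
  obtain ⟨e, -⟩ := hE
  have h0 : 0 ≤ T := (Nat.cast_nonneg _).trans (hT (r e))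
  rw [← Nat.cast_sum, sum_sdg_eq v E r P lab hn]
  refine (Nat.cast_le.2 (sdg_le_sum v E r P r)).trans ?_
  rw [Nat.cast_sum]
  refine (Finset.sum_le_card_nsmul _ _ T fun ρ _ => hT ρ).trans ?_
  rw [nsmul_eq_mul]
  exact mul_le_mul_of_nonneg_right (Nat.cast_le.2 hN) h0

theorem ZoomB_fin {R₀ σ₀ σ β : Type} [Fintype σ] (E : Finset ι) (hE : E.Nonempty) (lab : ι → β)
    (bad : Finset ι) (hbad : 2 * bad.card ≤ E.card ∧
      ∀ e ∈ E, ∀ e' ∈ E, lab e = lab e' → e ∈ bad → e' ∈ bad)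
    {r₀ : ι → R₀} {r₁ : ι → R₁} {r₂ : ι → R₂} {π₀ : ι → σ₀ → ℂ} {π : ι → σ → ℂ}
    {P₀ : ι → Ideal (MvPolynomial σ₀ ℂ)} {P₁ P₂ : ι → Ideal (MvPolynomial σ ℂ)}
    (n₀ : ∀ e ∈ E, ∀ e' ∈ E, r₀ e = r₀ e' → P₀ e = P₀ e' → lab e = lab e')
    (n₁ : ∀ e ∈ E, ∀ e' ∈ E, r₁ e = r₁ e' → P₁ e = P₁ e' → lab e = lab e')
    (n₂ : ∀ e ∈ E, ∀ e' ∈ E, r₂ e = r₂ e' → P₂ e = P₂ e' → lab e = lab e')
    {M K₀ K₁ K₂ : ℕ} (c₀ : ∀ G ⊆ E, ∀ g, Cap G r₀ π₀ P₀ M g → G.card ≤ K₀)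
    (c₁ : ∀ G ⊆ E, ∀ g, Cap G r₁ π P₁ M g → G.card ≤ K₁)
    (c₂ : ∀ G ⊆ E, ∀ g, Cap G r₂ π P₂ M g → G.card ≤ K₂) {v₁ v₂ N : ℕ} {T₁ T₂ : ℝ}
    (t₁ : ∀ ρ, (sdg v₁ (E.filter fun e => r₁ e = ρ) r₁ P₁ : ℝ) ≤ T₁)
    (t₂ : ∀ ρ, (sdg v₂ (E.filter fun e => r₂ e = ρ) r₂ P₂ : ℝ) ≤ T₂)
    (m₁ : (E.image r₁).card ≤ N) (m₂ : (E.image r₂).card ≤ N) :
    ∃ e₀, e₀ ∈ E ∧ e₀ ∉ bad ∧
      (∀ G ⊆ E.filter fun e => lab e = lab e₀, ∀ g, Cap G r₀ π₀ P₀ M g →
        (G.card : ℝ) * E.card ≤ 11 * K₀ * (E.filter fun e => lab e = lab e₀).card) ∧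
      (∀ G ⊆ E.filter fun e => lab e = lab e₀, ∀ g, Cap G r₁ π P₁ M g →
        (G.card : ℝ) * E.card ≤ 11 * K₁ * (E.filter fun e => lab e = lab e₀).card) ∧
      (∀ G ⊆ E.filter fun e => lab e = lab e₀, ∀ g, Cap G r₂ π P₂ M g →
        (G.card : ℝ) * E.card ≤ 11 * K₂ * (E.filter fun e => lab e = lab e₀).card) ∧
      (sdg v₁ (E.filter fun e => lab e = lab e₀) r₁ P₁ : ℝ) * E.card ≤
        11 * (N * T₁) * (E.filter fun e => lab e = lab e₀).card ∧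
      (sdg v₂ (E.filter fun e => lab e = lab e₀) r₂ P₂ : ℝ) * E.card ≤
        11 * (N * T₂) * (E.filter fun e => lab e = lab e₀).card := by
  obtain ⟨w₀, s₀, b₀⟩ := ZoomB_cap E lab n₀ c₀
  obtain ⟨w₁, s₁, b₁⟩ := ZoomB_cap E lab n₁ c₁
  obtain ⟨w₂, s₂, b₂⟩ := ZoomB_cap E lab n₂ c₂
  have s₃ := ZoomB_sdg v₁ E lab n₁ hE t₁ m₁
  have s₄ := ZoomB_sdg v₂ E lab n₂ hE t₂ m₂
  obtain ⟨e₀, he₀, hb, h⟩ := exists_typical (α := Fin 5) E hE lab
    ![fun z => w₀ z, fun z => w₁ z, fun z => w₂ z,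
      fun z => sdg v₁ (E.filter fun e => lab e = z) r₁ P₁,
      fun z => sdg v₂ (E.filter fun e => lab e = z) r₂ P₂]
    (fun a z => by fin_cases a <;> exact Nat.cast_nonneg _)
    ![K₀, K₁, K₂, N * T₁, N * T₂] (fun a => by
      fin_cases a
      · exact (Nat.cast_sum _ w₀).symm.trans_le (Nat.cast_le.2 s₀)
      · exact (Nat.cast_sum _ w₁).symm.trans_le (Nat.cast_le.2 s₁)
      · exact (Nat.cast_sum _ w₂).symm.trans_le (Nat.cast_le.2 s₂)
      · exact s₃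
      · exact s₄) bad hbad.1 hbad.2
  have e : (2 * (Fintype.card (Fin 5) : ℝ) + 1) = 11 := by
    rw [Fintype.card_fin]
    norm_num
  rw [e] at h
  have h0 : (0 : ℝ) ≤ E.card := Nat.cast_nonneg _
  exact ⟨e₀, he₀, hb,
    fun G hG g hg => (mul_le_mul_of_nonneg_right (Nat.cast_le.2 (b₀ _ G hG g hg)) h0).trans (h 0),
    fun G hG g hg => (mul_le_mul_of_nonneg_right (Nat.cast_le.2 (b₁ _ G hG g hg)) h0).trans (h 1),
    fun G hG g hg => (mul_le_mul_of_nonneg_right (Nat.cast_le.2 (b₂ _ G hG g hg)) h0).trans (h 2),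
    h 3, h 4⟩

theorem ZoomB_sdg_bad {R σ : Type} (v : ℕ) {B E : Finset ι} (hB : B ⊆ E) (hE : E.Nonempty)
    {r : ι → R} (hr : ∀ e e', r e = r e') (P : ι → Ideal (MvPolynomial σ ℂ)) {t : ℝ} (ht : 0 ≤ t)
    (h : ∀ e ∈ B, (dg v (P e) : ℝ) * E.card ≤ t * (E.filter fun e' => P e' = P e).card) :
    (sdg v B r P : ℝ) ≤ t := by
  have h0 : (0 : ℝ) < E.card := Nat.cast_pos.2 hE.card_pos
  refine le_of_mul_le_mul_right ?_ h0
  unfold sdg
  rw [Nat.cast_sum, Finset.sum_mul]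
  conv_rhs => rw [Finset.card_eq_sum_card_image (fun e => (r e, P e)) E, Nat.cast_sum,
    Finset.mul_sum]
  refine (Finset.sum_le_sum fun z hz => ?_).trans
    (Finset.sum_le_sum_of_subset_of_nonneg (Finset.image_subset_image hB)
      fun z _ _ => mul_nonneg ht (Nat.cast_nonneg _))
  obtain ⟨e, he, rfl⟩ := Finset.mem_image.1 hz
  refine (h e he).trans (mul_le_mul_of_nonneg_left (Nat.cast_le.2 (Finset.card_le_card ?_)) ht)
  intro e' he'
  obtain ⟨h1, h2⟩ := Finset.mem_filter.1 he'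
  exact Finset.mem_filter.2 ⟨h1, Prod.ext (hr _ _) h2⟩

theorem ZoomB_bad {σ : Type} [Fintype σ] {E : ℕ → Finset ι} {π : ℕ → ι → σ → ℂ} {c : ℕ}
    {J : ℕ → σ} {f : ℕ → ι → ℕ → MvPolynomial σ ℂ} {ν θ κ : ℝ}
    (h : TS u E (fun _ _ => ()) π c J f c ν θ) (hκ : 0 < κ) :
    u.ev fun n => 2 * ((E n).filter fun e =>
        (dg (Fintype.card σ - c) (lev (f n) (π n) c e) : ℝ) * (E n).card < pw (θ - κ) n *
          ((E n).filter fun e' => lev (f n) (π n) c e' = lev (f n) (π n) c e).card).card ≤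
        (E n).card ∧ ∀ e ∈ E n, ∀ e' ∈ E n, lev (f n) (π n) c e = lev (f n) (π n) c e' →
      e ∈ ((E n).filter fun e =>
        (dg (Fintype.card σ - c) (lev (f n) (π n) c e) : ℝ) * (E n).card < pw (θ - κ) n *
          ((E n).filter fun e' => lev (f n) (π n) c e' = lev (f n) (π n) c e).card) →
      e' ∈ ((E n).filter fun e =>
        (dg (Fintype.card σ - c) (lev (f n) (π n) c e) : ℝ) * (E n).card < pw (θ - κ) n *
          ((E n).filter fun e' => lev (f n) (π n) c e' = lev (f n) (π n) c e).card) := by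
  rcases UF.full_or_ll (u := u) (E := E) (F := fun n => (E n).filter fun e =>
      (dg (Fintype.card σ - c) (lev (f n) (π n) c e) : ℝ) * (E n).card < pw (θ - κ) n *
        ((E n).filter fun e' => lev (f n) (π n) c e' = lev (f n) (π n) c e).card)
      (u.ev_of_forall fun n => Finset.filter_subset _ _) with h1 | h1
  · have h2 := UF.le_of_pw ((h.low _ h1).mono_right (b' := pw (θ - κ)) (h.pos.mono fun n hn =>
      ZoomB_sdg_bad _ (Finset.filter_subset _ _) hn (fun _ _ => rfl) _ (pw_nonneg _ _)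
        fun e he => (Finset.mem_filter.1 he).2.le))
    linarith
  · refine (h1.ev_le (u.ev_of_forall (cd_nonneg _)) 2).mono fun n hn =>
      ⟨?_, fun e _ e' he' hl he => Finset.mem_filter.2 ⟨he', hl ▸ (Finset.mem_filter.1 he).2⟩⟩
    unfold cd at hn
    exact_mod_cast hn

theorem ZoomB_bigM {m : ℕ → ℕ} {ν : ℝ} (h : u.LL (nr m) (pw ν)) :
    ∃ M' : ℕ → ℕ, u.LL (nr M') (pw ν) ∧
      ∀ M : ℕ → ℕ, u.LE (nr M) (nr m) → u.ev fun n => M n ≤ M' n := by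
  obtain ⟨κ, hκ, h⟩ := h
  refine ⟨fun n => ⌊(n : ℝ) ^ (κ / 2) * nr m n⌋₊, ⟨κ / 2, half_pos hκ, h.mono fun n hn => ?_⟩,
    fun M hM => (hM _ (half_pos hκ)).mono fun n hn => Nat.le_floor hn⟩
  have h0 : (0 : ℝ) ≤ (n : ℝ) ^ (κ / 2) := Real.rpow_nonneg (Nat.cast_nonneg n) _
  have h1 := mul_le_mul_of_nonneg_left (Nat.floor_le (mul_nonneg h0 (nr_nonneg m n))) h0
  rw [← mul_assoc, ← Real.rpow_add' (Nat.cast_nonneg n) (by linarith), add_halves] at h1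
  exact h1.trans hn

theorem ZoomB_ll {E F G : ℕ → Finset ι} {K : ℕ → ℕ} (hK : u.LL (nr K) (cd E))
    (hE : u.ev fun n => (E n).Nonempty)
    (h : u.ev fun n => ((G n).card : ℝ) * (E n).card ≤ 11 * K n * (F n).card) :
    u.LL (cd G) (cd F) := by
  obtain ⟨κ, hκ, hK⟩ := hK
  refine UF.LL.trans_le (b := fun n => 11 * cd F n) ⟨κ, hκ, ((hK.and hE).and h).mono fun n hn => ?_⟩
    (UF.LE.of_const 11 (u.ev_of_forall (cd_nonneg F)) (u.ev_of_forall fun _ => le_rfl))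
  have h0 : (0 : ℝ) < (E n).card := Nat.cast_pos.2 hn.1.2.card_pos
  have h1 := mul_le_mul_of_nonneg_left hn.2 (Real.rpow_nonneg (Nat.cast_nonneg (α := ℝ) n) κ)
  have h2 := mul_le_mul_of_nonneg_left hn.1.1 (cd_nonneg F n)
  unfold cd nr at *
  refine le_of_mul_le_mul_right ?_ h0
  linarith

theorem ZoomB_le {E E₁ F : ℕ → Finset ι} {a T : ℕ → ℝ} {N : ℕ → ℕ} {θ : ℝ} (ha : ∀ n, 0 ≤ a n)
    (hE : u.LE (cd E) (cd E₁)) (hT : u.LE T (pw θ))
    (h : u.ev fun n => a n * (E₁ n).card ≤ 11 * (N n * T n) * (F n).card) :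
    u.LE (fun n => a n * cd E n) fun n => (N n : ℝ) * pw θ n * cd F n := by
  intro κ hκ
  have h3 : 0 < κ / 3 := by linarith
  refine ((((hE _ h3).and (hT _ h3)).and (u.ev_pw_ge h3 11)).and h).mono fun n hn => ?_
  have e : (n : ℝ) ^ κ = (n : ℝ) ^ (κ / 3) * (n : ℝ) ^ (κ / 3) * (n : ℝ) ^ (κ / 3) := by
    rw [← Real.rpow_add' (Nat.cast_nonneg n) (by linarith),
      ← Real.rpow_add' (Nat.cast_nonneg n) (by linarith)]
    congr 1
    ring
  obtain ⟨⟨⟨h1, h2⟩, h4⟩, h5⟩ := hn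
  rw [e]
  generalize (n : ℝ) ^ (κ / 3) = q at *
  have hq : 0 ≤ q := by linarith
  have hN : (0 : ℝ) ≤ N n * cd F n := mul_nonneg (Nat.cast_nonneg _) (cd_nonneg F n)
  have h6 := mul_le_mul_of_nonneg_left h1 (ha n)
  have h7 := mul_le_mul_of_nonneg_left h5 hq
  have h8 := mul_le_mul_of_nonneg_left h2 (mul_nonneg hq hN)
  have h9 := mul_le_mul_of_nonneg_left h4
    (mul_nonneg (mul_nonneg (mul_nonneg hq hq) hN) (pw_nonneg θ n))
  unfold cd at *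
  linarith

theorem ZoomB_last {d m v C h : ℕ} {t F E₁ E : ℝ}
    (h1 : ((d * (m + 1) ^ v : ℕ) : ℝ) ≤ ((C * h : ℕ) : ℝ)) (h2 : t * F ≤ d * E₁) (h3 : E₁ ≤ E)
    (h4 : 0 ≤ E₁) : t * ((m : ℝ) + 1) ^ v * F ≤ C * (h * E) := by
  push_cast at h1
  have h5 := mul_le_mul_of_nonneg_left h2 (show (0 : ℝ) ≤ ((m : ℝ) + 1) ^ v by positivity)
  have h6 := mul_le_mul_of_nonneg_left h1 h4
  have h7 := mul_le_mul_of_nonneg_left h3 (show (0 : ℝ) ≤ C * h by positivity)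
  linarith

theorem zoom {E : ℕ → Finset ι} {x y : ℕ → ι → Tx k → ℂ} {b : ℕ → ι → Fin k → ℂ}
    {r₁ : ℕ → ι → R₁} {r₂ : ℕ → ι → R₂} {N : ℕ → ℕ} (hB : Base u E x y b r₁ r₂ N)
    {c c₁ c₂ : ℕ} {J : ℕ → Sx k} {J₁ J₂ : ℕ → Fin k} {f : ℕ → ι → ℕ → MvPolynomial (Sx k) ℂ}
    {f₁ f₂ : ℕ → ι → ℕ → MvPolynomial (Fin k) ℂ} {ν θ θ₁ θ₂ : ℝ}
    (hV : TS u E (fun _ _ => ()) (fun n e => fl (x n e) (b n e)) c J f c ν θ)
    (h₁ : TS u E r₁ b c₁ J₁ f₁ c₁ ν θ₁) (h₂ : TS u E r₂ b c₂ J₂ f₂ c₂ ν θ₂) :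
    ∃ ν₀ < ν, ∀ m : ℕ → ℕ, (∀ n, 1 ≤ m n) → (u.ev fun n => pw ν₀ n ≤ m n) →
      u.LL (nr m) (pw ν) → ∀ κ : ℝ, 0 < κ →
      ∃ (g : ℕ → Fin c → MvPolynomial (Sx k) ℂ) (P : ℕ → Ideal (MvPolynomial (Sx k) ℂ))
        (F : ℕ → Finset ι), (u.ev fun n => F n ⊆ E n) ∧
        Loc u ⟨x, y, b, r₁, r₂, fun n => lev (f₁ n) (b n) c₁, fun n => lev (f₂ n) (b n) c₂, c,
          k - c₁, k - c₂, m, g, pre J c, P⟩ F ∧
        u.LE (fun n => (sdg (k - c₁) (F n) (r₁ n) (lev (f₁ n) (b n) c₁) : ℝ) * cd E n)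
          (fun n => (N n : ℝ) * pw θ₁ n * cd F n) ∧
        u.LE (fun n => (sdg (k - c₂) (F n) (r₂ n) (lev (f₂ n) (b n) c₂) : ℝ) * cd E n)
          (fun n => (N n : ℝ) * pw θ₂ n * cd F n) ∧
        u.LE (fun n => pw (θ - κ) n * ((m n : ℝ) + 1) ^ (2 * k + 1 - c) * cd F n)
          (fun n => (H (P n) (m n) : ℝ) * cd E n) := by
  obtain ⟨s, hs, hsd⟩ := hV.degU
  obtain ⟨ν', hν', hsν⟩ := hs.exists_pw
  refine ⟨(ν' + ν) / 2, by linarith, fun m hm1 hm0 hmν κ hκ => ?_⟩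
  have hsm : u.ev fun n => 2 * (c * s n) ≤ m n := by
    have h1 := (UF.LL.pw_pw u (show ν' < (ν' + ν) / 2 by linarith)).ev_le
      (u.ev_of_forall (pw_nonneg ν')) (2 * c)
    refine ((h1.and hsν).and hm0).mono fun n hn => ?_
    have h2 := mul_le_mul_of_nonneg_left hn.1.2 (show (0 : ℝ) ≤ 2 * c by positivity)
    have h3 : ((2 * (c * s n) : ℕ) : ℝ) ≤ m n := by
      push_cast
      unfold nr at h2
      linarith [hn.1.1, hn.2]
    exact_mod_cast h3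
  obtain ⟨A₁, -, hA₁, hn₁⟩ := nest_ae (u.ev_of_forall fun _ _ _ => rfl) hB.root₁ hV h₁
  obtain ⟨A₂, -, hA₂, hn₂⟩ :=
    nest_ae (hB.inc.mono fun _ hn e he => (hn e he).1.symm) hB.root₂ hV h₂
  have hfull := ((UF.Full.refl u E).sdiff hA₁).sdiff hA₂
  generalize hE₁ : (fun n => (E n \ (E n \ A₁ n)) \ (E n \ A₂ n)) = E₁ at hfull
  have hmem : ∀ n, ∀ e ∈ E₁ n, e ∈ E n ∧ e ∈ A₁ n ∧ e ∈ A₂ n := by
    intro n e he
    rw [← hE₁] at he
    simp only [Finset.mem_sdiff, not_and, not_not] at he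
    exact ⟨he.1.1, he.1.2 he.1.1, he.2 he.1.1⟩
  have hV' := hV.restrict hfull
  have h₁' := h₁.restrict hfull
  have h₂' := h₂.restrict hfull
  have hB' := hB.restrict hfull.1
  obtain ⟨M', hM', hM''⟩ := ZoomB_bigM hmν
  obtain ⟨K₀, hK₀, hc₀⟩ := (hV'.rob M' hM').exists_bound
  obtain ⟨K₁, hK₁, hc₁⟩ := (h₁'.rob M' hM').exists_bound
  obtain ⟨K₂, hK₂, hc₂⟩ := (h₂'.rob M' hM').exists_bound
  obtain ⟨T₁, hT₁, hu₁⟩ := h₁'.up
  obtain ⟨T₂, hT₂, hu₂⟩ := h₂'.up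
  rw [Fintype.card_fin] at hu₁ hu₂
  have hbad := ZoomB_bad hV' hκ
  rw [card_Sx] at hbad
  obtain ⟨n₀, e₁, -⟩ := hV.pos.exists
  have : Nonempty ι := ⟨e₁⟩
  obtain ⟨e₀, he₀⟩ := UF.ev.choose (((((((hV'.pos.and hbad).and hn₁).and hn₂).and hu₁).and hu₂).and
    (hB'.num₁.and hB'.num₂)).mono fun n hn =>
      ZoomB_fin (E₁ n) hn.1.1.1.1.1.1 (lev (f n) (fun e => fl (x n e) (b n e)) c) _
        hn.1.1.1.1.1.2 (fun _ _ _ _ _ h => h)
        (fun e he e' he' => hn.1.1.1.1.2 e (hmem n e he).2.1 e' (hmem n e' he').2.1)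
        (fun e he e' he' => hn.1.1.1.2 e (hmem n e he).2.2 e' (hmem n e' he').2.2)
        (hc₀ n) (hc₁ n) (hc₂ n) hn.1.1.2 hn.1.2 hn.2.1 hn.2.2)
  have hsub : u.ev fun n => ((E₁ n).filter fun e => lev (f n) (fun e => fl (x n e) (b n e)) c e =
      lev (f n) (fun e => fl (x n e) (b n e)) c (e₀ n)) ⊆ E₁ n :=
    u.ev_of_forall fun n => Finset.filter_subset _ _
  have hBF := hB'.restrict hsub
  have hk₁ := h₁.le_card
  have hk₂ := h₂.le_card
  have hkV := hV.le_card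
  rw [Fintype.card_fin] at hk₁ hk₂
  rw [card_Sx] at hkV
  refine ⟨fun n => pre (f n (e₀ n)) c, fun n => lev (f n) (fun e => fl (x n e) (b n e)) c (e₀ n),
    fun n => (E₁ n).filter fun e => lev (f n) (fun e => fl (x n e) (b n e)) c e =
      lev (f n) (fun e => fl (x n e) (b n e)) c (e₀ n),
    u.ev_of_forall fun n e he => (hmem n e (Finset.mem_filter.1 he).1).1,
    ⟨he₀.mono fun n hn => ⟨e₀ n, Finset.mem_filter.2 ⟨hn.1, rfl⟩⟩, hm1, Nat.sub_le _ _,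
      Nat.sub_le _ _, hBF.inc, hBF.root₁, hBF.root₂, hBF.inj, ?_, ?_, ?_, fun M hM G g hG => ?_,
      fun M hM G g hG => ?_, fun M hM G g hG => ?_⟩,
    ZoomB_le (fun n => Nat.cast_nonneg _) hfull.2 hT₁ (he₀.mono fun n hn => hn.2.2.2.2.2.1),
    ZoomB_le (fun n => Nat.cast_nonneg _) hfull.2 hT₂ (he₀.mono fun n hn => hn.2.2.2.2.2.2), ?_⟩
  · refine (((he₀.and hsd).and hsm).and hV'.chain).mono fun n hn => ⟨fun i => ?_, fun e he => ?_⟩
    · have h1 := hn.1.1.2 _ (hmem n _ hn.1.1.1.1).1 i i.2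
      have h2 : s n ≤ c * s n := Nat.le_mul_of_pos_left _ (Fin.pos i)
      have h3 := hn.1.2
      change (f n (e₀ n) i).totalDegree ≤ m n
      omega
    · obtain ⟨he1, he2⟩ := Finset.mem_filter.1 he
      have h1 : pre (f n e) c = pre (f n (e₀ n)) c := funext fun i =>
        (hn.2.eq_of_lev he1 hn.1.1.1.1 rfl le_rfl he2).2 i i.2
      have h2 := hn.2.simple e he1 c le_rfl
      unfold lev at he2
      rw [h1] at h2 he2
      exact ⟨h2, he2⟩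
  · refine h₁'.chain.mono fun n hn e he => ?_
    change IsComp (k - (k - c₁)) _ _
    rw [Nat.sub_sub_self hk₁]
    exact hn.isComp (Finset.mem_filter.1 he).1 le_rfl
  · refine h₂'.chain.mono fun n hn e he => ?_
    change IsComp (k - (k - c₂)) _ _
    rw [Nat.sub_sub_self hk₂]
    exact hn.isComp (Finset.mem_filter.1 he).1 le_rfl
  · refine ZoomB_ll hK₀ hV'.pos (((he₀.and hG).and (hM'' M hM)).mono fun n hn => ?_)
    have hc := hn.1.2.2
    refine hn.1.1.2.2.1 _ hn.1.2.1 (g n) ⟨fun e he e' he' hr _ => hc.cons e he e' he' hr rfl,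
      fun e he => ?_, fun e he => (hc.deg e he).trans hn.2, hc.zero⟩
    rw [(Finset.mem_filter.1 (hn.1.2.1 he)).2]
    exact hc.notin e he
  · exact ZoomB_ll hK₁ hV'.pos (((he₀.and hG).and (hM'' M hM)).mono fun n hn =>
      hn.1.1.2.2.2.1 _ hn.1.2.1 (g n) (hn.1.2.2.mono subset_rfl hn.2))
  · exact ZoomB_ll hK₂ hV'.pos (((he₀.and hG).and (hM'' M hM)).mono fun n hn =>
      hn.1.1.2.2.2.2.1 _ hn.1.2.1 (g n) (hn.1.2.2.mono subset_rfl hn.2))
  · refine UF.LE.of_const (((2 * (2 * k + 1 - c) + 2) ^ (2 * (2 * k + 1 - c)) : ℕ) : ℝ)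
      (u.ev_of_forall fun n => mul_nonneg (Nat.cast_nonneg _) (cd_nonneg E n))
      ((((he₀.and hsd).and hsm).and hV'.chain).mono fun n hn => ?_)
    have he1 := hn.1.1.1.1
    have h1 := dg_le_H (hn.2.simple _ he1 c le_rfl) (s := s n)
      (fun i => hn.1.1.2 _ (hmem n _ he1).1 i i.2) (v := 2 * k + 1 - c)
      (by rw [Fintype.card_fin, card_Sx]; omega) (M := m n) (by rw [Fintype.card_fin]; exact hn.1.2)
    have h2 := not_lt.1 fun h => hn.1.1.1.2.1 (Finset.mem_filter.2 ⟨he1, h⟩)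
    have h3 : ((E₁ n).card : ℝ) ≤ (E n).card :=
      Nat.cast_le.2 (Finset.card_le_card fun e he => (hmem n e he).1)
    exact ZoomB_last (Nat.cast_le.2 h1) h2 h3 (by positivity)

end Vale.Agent.P054A
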