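import Vale.Agent.P054A.Term
import Vale.Agent.P054A.ZoomB
import Vale.Agent.P054A.TrD

/-!
The joint process for the three trees.
-/

namespace Vale.Agent.P054A

open MvPolynomial Sum
open scoped Classical

variable {k : ℕ} {u : UF}

/-- The numerical hypotheses; the dimension is `k + 1`. -/
structure Num (u : UF) (k : ℕ) (γ : ℝ) (X : ℕ → Finset (Tx k → ℝ)) (E : ℕ → Finset (Ed k))
    (M : ℕ → ℕ) (K : ℕ → ℕ → ℕ) : Prop where
  pos : 0 < γ
  small : γ ≤ 1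
  dim : 3 ≤ k
  mod : u.ev fun n => Mod (X n) (E n) (M n) (K n)
  big : u.LE (pw (k + 1 + 2 * γ)) (cd X)
  edges : u.LE (fun n => cd X n ^ 2) fun n => pw 1 n * cd E n
  sep : u.LE (nr M) (pw (1 + 2 * γ / (k + 1)))
  low : ∀ a, 1 ≤ a → a ≤ k → u.LE (nr fun n => K n a) (pw ((a : ℝ) - 1))
  top : u.LE (nr fun n => K n (k + 1)) (pw ((k + 1) / 2 + γ))

variable {γ : ℝ} {X : ℕ → Finset (Tx k → ℝ)} {E₀ E : ℕ → Finset (Ed k)} {M : ℕ → ℕ}
  {K : ℕ → ℕ → ℕ} {c c₁ c₂ : ℕ} {J : ℕ → Sx k} {J₁ J₂ : ℕ → Fin k}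
  {f : ℕ → Ed k → ℕ → MvPolynomial (Sx k) ℂ} {f₁ f₂ : ℕ → Ed k → ℕ → MvPolynomial (Fin k) ℂ}
  {ν θ θ₁ θ₂ : ℝ}

theorem Loop_cancel {a b c : ℕ → ℝ} (h : u.LE (fun n => a n * c n) fun n => b n * c n)
    (hc : u.ev fun n => 0 < c n) : u.LE a b := fun κ hκ =>
  ((h κ hκ).and hc).mono fun n hn => by
    obtain ⟨h1, h2⟩ := hn
    rw [← mul_assoc] at h1
    exact le_of_mul_le_mul_right h1 h2

theorem Loop_rich {a e N F : ℕ → ℝ} {θ α β : ℝ} (ha : ∀ n, 0 ≤ a n)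
    (h1 : u.LE (fun n => a n * e n) fun n => N n * pw θ n * F n)
    (h2 : u.LE (fun n => N n ^ 2) fun n => pw 1 n * e n) (h3 : u.LE (pw β) N)
    (h : θ + 1 + α < β) : u.LL (fun n => a n * pw α n) F := by
  obtain ⟨κ, hκ, rfl⟩ : ∃ κ : ℝ, 0 < κ ∧ β = 4 * κ + θ + 1 + α :=
    ⟨(β - (θ + 1 + α)) / 4, by linarith, by ring⟩
  refine ⟨κ, hκ, ?_⟩
  refine ((((h1 κ hκ).and (h2 κ hκ)).and (h3 κ hκ)).and (u.ev_ge 1)).mono fun n hn => ?_
  obtain ⟨⟨⟨e1, e2⟩, e3⟩, e4⟩ := hn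
  have hn0 : (0 : ℝ) < n := by exact_mod_cast e4
  simp only [pw] at e1 e2 e3 ⊢
  have hb : (n : ℝ) ^ (4 * κ + θ + 1 + α) =
      (n : ℝ) ^ κ * n ^ κ * n ^ κ * n ^ κ * n ^ θ * n ^ (1 : ℝ) * n ^ α := by
    simp only [← Real.rpow_add hn0]; congr 1; ring
  rw [hb] at e3
  have p1 : 0 < (n : ℝ) ^ κ := Real.rpow_pos_of_pos hn0 _
  have p2 : 0 < (n : ℝ) ^ θ := Real.rpow_pos_of_pos hn0 _
  have p3 : 0 < (n : ℝ) ^ (1 : ℝ) := Real.rpow_pos_of_pos hn0 _
  have p4 : 0 < (n : ℝ) ^ α := Real.rpow_pos_of_pos hn0 _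
  generalize (n : ℝ) ^ κ = x at *
  generalize (n : ℝ) ^ θ = t at *
  generalize (n : ℝ) ^ (1 : ℝ) = o at *
  generalize (n : ℝ) ^ α = w at *
  have han := ha n
  have hN : 0 < N n := by
    have : 0 < x * N n := lt_of_lt_of_le (by positivity) e3
    exact (mul_pos_iff_of_pos_left p1).1 this
  have q1 : (a n * N n) * N n ≤ (x * x * o * t * F n) * N n :=
    calc (a n * N n) * N n = a n * N n ^ 2 := by ring
      _ ≤ a n * (x * (o * e n)) := mul_le_mul_of_nonneg_left e2 han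
      _ = (x * o) * (a n * e n) := by ring
      _ ≤ (x * o) * (x * (N n * t * F n)) := mul_le_mul_of_nonneg_left e1 (by positivity)
      _ = _ := by ring
  have q2 := le_of_mul_le_mul_right q1 hN
  have q3 : (x * (a n * w)) * (x * x * x * o * t) ≤ F n * (x * x * x * o * t) :=
    calc (x * (a n * w)) * (x * x * x * o * t) = a n * (x * x * x * x * t * o * w) := by ring
      _ ≤ a n * (x * N n) := mul_le_mul_of_nonneg_left e3 han
      _ = x * (a n * N n) := by ring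
      _ ≤ x * (x * x * o * t * F n) := mul_le_mul_of_nonneg_left q2 p1.le
      _ = _ := by ring
  exact le_of_mul_le_mul_right q3 (by positivity)

theorem Loop_star {Hh S₁ S₂ A B e F N : ℕ → ℝ} {t θ₁ θ₂ a b : ℝ} (hS₁ : ∀ n, 0 ≤ S₁ n)
    (hS₂ : ∀ n, 0 ≤ S₂ n) (hA : ∀ n, 0 ≤ A n) (hB : ∀ n, 0 ≤ B n)
    (he : u.ev fun n => 0 < e n) (hF : u.ev fun n => 0 < F n)
    (h0 : u.ev fun n => Hh n * F n ≤ 2 * (S₁ n * A n) * (S₂ n * B n))
    (h1 : u.LE (fun n => S₁ n * e n) fun n => N n * pw θ₁ n * F n)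
    (h2 : u.LE (fun n => S₂ n * e n) fun n => N n * pw θ₂ n * F n)
    (h3 : u.LE (fun n => pw t n * F n) fun n => Hh n * e n)
    (h4 : u.LE (fun n => N n ^ 2) fun n => pw 1 n * e n) (h5 : u.LE A (pw a))
    (h6 : u.LE B (pw b)) : t ≤ 1 + (θ₁ + a) + (θ₂ + b) := by
  have heF := he.and hF
  have q1 : u.LE (fun n => (pw t n * F n) * (F n * e n)) fun n => (Hh n * e n) * (F n * e n) :=
    h3.mul (UF.LE.refl (heF.mono fun n hn => (mul_pos hn.2 hn.1).le))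
      (hF.mono fun n hn => mul_nonneg (pw_nonneg _ _) hn.le)
      (heF.mono fun n hn => (mul_pos hn.2 hn.1).le)
  have q2 : u.LE (fun n => (Hh n * e n) * (F n * e n))
      fun n => ((S₁ n * e n) * (S₂ n * e n)) * (A n * B n) := by
    refine UF.LE.of_const 2 (he.mono fun n hn => ?_) ((h0.and he).mono fun n hn => ?_)
    · have := hS₁ n; have := hS₂ n; have := hA n; have := hB n
      positivity
    · have := mul_le_mul_of_nonneg_right hn.1 (mul_pos hn.2 hn.2).le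
      linarith
  have q3 : u.LE (fun n => ((S₁ n * e n) * (S₂ n * e n)) * (A n * B n))
      fun n => ((N n * pw θ₁ n * F n) * (N n * pw θ₂ n * F n)) * (pw a n * pw b n) :=
    (h1.mul h2 (he.mono fun n hn => mul_nonneg (hS₁ n) hn.le)
      (he.mono fun n hn => mul_nonneg (hS₂ n) hn.le)).mul
      (h5.mul h6 (u.ev_of_forall hA) (u.ev_of_forall hB))
      (he.mono fun n hn => mul_nonneg (mul_nonneg (hS₁ n) hn.le) (mul_nonneg (hS₂ n) hn.le))
      (u.ev_of_forall fun n => mul_nonneg (hA n) (hB n))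
  have hW : ∀ n, 0 ≤ pw θ₁ n * pw θ₂ n * pw a n * pw b n * F n ^ 2 := fun n => by
    have := pw_nonneg θ₁ n; have := pw_nonneg θ₂ n; have := pw_nonneg a n; have := pw_nonneg b n
    positivity
  have q4 : u.LE (fun n => N n ^ 2 * (pw θ₁ n * pw θ₂ n * pw a n * pw b n * F n ^ 2))
      fun n => (pw 1 n * e n) * (pw θ₁ n * pw θ₂ n * pw a n * pw b n * F n ^ 2) :=
    h4.mul (UF.LE.refl (u.ev_of_forall hW)) (u.ev_of_forall fun n => sq_nonneg _)
      (u.ev_of_forall hW)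
  have q5 := (((q1.trans q2).trans q3).mono_right
    (u.ev_of_forall fun n => le_of_eq (by ring))).trans q4
  refine UF.le_of_pw (u := u) (Loop_cancel (c := fun n => F n * F n * e n) ?_
    (heF.mono fun n hn => mul_pos (mul_pos hn.2 hn.2) hn.1))
  refine (q5.mono_left (u.ev_of_forall fun n => le_of_eq (by ring))).mono_right
    ((u.ev_ge 1).mono fun n hn => le_of_eq ?_)
  have hn0 : (0 : ℝ) < n := by exact_mod_cast hn
  simp only [pw, Real.rpow_add hn0]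
  ring

/-- A working degree between two scales. -/
theorem Loop_deg (u : UF) {ν₀ ν' ν : ℝ} (h0 : 0 ≤ ν') (h1 : ν₀ ≤ ν') (h2 : ν' < ν) :
    ∃ m : ℕ → ℕ, (∀ n, 1 ≤ m n) ∧ (u.ev fun n => pw ν₀ n ≤ m n) ∧ u.LL (nr m) (pw ν) ∧
      (u.ev fun n => pw ν' n ≤ (m n : ℝ) + 1) ∧ u.LE (fun n => (m n : ℝ) + 1) (pw ν) := by
  have hm : u.LE (nr fun n => ⌊pw ν' n⌋₊ + 1) (pw ν') := by
    refine ((UF.LE.of_ev (u.ev_of_forall (pw_nonneg _))
      ((u.floor_pw ν').mono fun n hn => hn.1)).add (UF.LE.one_pw u h0)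
      (u.ev_of_forall (pw_nonneg _))).mono_left (u.ev_of_forall fun n => le_of_eq ?_)
    simp [nr]
  refine ⟨fun n => ⌊pw ν' n⌋₊ + 1, fun n => Nat.le_add_left _ _,
    ((u.floor_pw ν').and (u.ev_ge 1)).mono fun n hn => ?_, hm.trans_ll (UF.LL.pw_pw u h2),
    (u.floor_pw ν').mono fun n hn => ?_, ?_⟩
  · have : pw ν₀ n ≤ pw ν' n := Real.rpow_le_rpow_of_exponent_le (by exact_mod_cast hn.2) h1
    push_cast
    exact this.trans hn.1.2
  · push_cast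
    linarith [hn.2]
  · exact (hm.trans (UF.LE.pw_pw u h2.le)).add (UF.LE.one_pw u (h0.trans h2.le))
      (u.ev_of_forall (pw_nonneg _))

theorem Loop_pow {a : ℕ → ℝ} {μ : ℝ} (h : u.LE a (pw μ)) (ha : ∀ n, 0 ≤ a n) (j : ℕ) :
    u.LE (fun n => a n ^ j) (pw (μ * j)) :=
  (h.pow (u.ev_of_forall ha) j).mono_right ((u.ev_pw_pow μ j).mono fun _ hn => hn.le)

theorem Num.base (h : Num u k γ X E₀ M K) :
    Base u E₀ (fun _ e => cx e.1) (fun _ e => cx e.2) (fun _ e => bb (cx e.1) (cx e.2))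
      (fun _ e => e.1) (fun _ e => e.2) fun n => (X n).card := by
  refine ⟨h.mod.mono fun n hn e he => ?_, u.ev_of_forall fun n e _ e' _ h => by rw [h],
    u.ev_of_forall fun n e _ e' _ h => by rw [h],
    u.ev_of_forall fun n e _ e' _ h h' => Prod.ext h h', h.mod.mono fun n hn => ?_,
    h.mod.mono fun n hn => ?_⟩
  · obtain ⟨-, -, h1, h2⟩ := hn.mem e he
    have h3 : cx e.1 (inl 0) ≠ cx e.2 (inl 0) := fun h => h2 (Complex.ofReal_injective h)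
    exact ⟨fl_bb (cx_nul.2 h1) h3, h3⟩
  · refine Finset.card_le_card fun z hz => ?_
    simp only [Finset.mem_image] at hz
    obtain ⟨e, he, rfl⟩ := hz
    exact (hn.mem e he).1
  · refine Finset.card_le_card fun z hz => ?_
    simp only [Finset.mem_image] at hz
    obtain ⟨e, he, rfl⟩ := hz
    exact (hn.mem e he).2.1

theorem Num.nonempty (h : Num u k γ X E₀ M K) : u.ev fun n => (E₀ n).Nonempty := by
  refine (((h.big 1 one_pos).and (h.edges 1 one_pos)).and (u.ev_pw_pos (k + 1 + 2 * γ))).mono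
    fun n hn => ?_
  obtain ⟨⟨h1, h2⟩, h3⟩ := hn
  rw [Finset.nonempty_iff_ne_empty]
  intro h0
  have h4 : cd E₀ n = 0 := by simp [cd, h0]
  simp only [h4, mul_zero] at h2
  have h5 : cd X n = 0 := pow_eq_zero_iff two_ne_zero |>.1 (le_antisymm h2 (sq_nonneg _))
  rw [h5, mul_zero] at h1
  exact absurd h3 (not_lt.2 h1)

theorem Num.dom (h : Num u k γ X E₀ M K) {j : ℕ} (hj : j ≤ k) :
    Dom u k j M K (pw (j + γ * (k + 1 + j) / (k + 1))) := by
  have hγ := h.pos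
  have hk : (0 : ℝ) < k + 1 := by positivity
  have hj' : (j : ℝ) ≤ k := by exact_mod_cast hj
  have hj0 : (0 : ℝ) ≤ j := Nat.cast_nonneg j
  have e1 : γ * (k + 1 + j) / (k + 1) = γ + γ / (k + 1) * j := by field_simp
  have e2 : 0 ≤ γ / (k + 1) * j := by positivity
  refine ⟨pw_nonneg _, ?_, fun a h1 h2 h3 => (h.low a h1 h2).trans (UF.LE.pw_pw u ?_),
    fun h1 => h.top.trans (UF.LE.pw_pw u ?_)⟩
  · have h1 : u.LE (fun n => (M n : ℝ) + 1) (pw (1 + 2 * γ / (k + 1))) :=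
      h.sep.add (UF.LE.one_pw u (by positivity)) (u.ev_of_forall (pw_nonneg _))
    refine (Loop_pow h1 (fun n => by positivity) j).trans (UF.LE.pw_pw u ?_)
    have e3 : γ / (k + 1) * j ≤ γ := by
      rw [div_mul_eq_mul_div, div_le_iff₀ hk]
      exact mul_le_mul_of_nonneg_left (by linarith) hγ.le
    have e4 : (1 + 2 * γ / (k + 1)) * j = j + 2 * (γ / (k + 1) * j) := by ring
    rw [e1, e4]
    linarith
  · have : (a : ℝ) ≤ j + 1 := by exact_mod_cast h3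
    rw [e1]
    linarith
  · have h2 : (k : ℝ) ≤ j + 1 := by exact_mod_cast h1
    have h3 : (3 : ℝ) ≤ k := by exact_mod_cast h.dim
    rw [e1]
    linarith

theorem Num.Loop_edges (h : Num u k γ X E₀ M K) (hE : u.Full E E₀) :
    u.LE (fun n => cd X n ^ 2) fun n => pw 1 n * cd E n :=
  h.edges.trans ((UF.LE.refl (u.ev_of_forall (pw_nonneg 1))).mul hE.2
    (u.ev_of_forall (pw_nonneg 1)) (u.ev_of_forall (cd_nonneg E₀)))

theorem Loop_exp (hγ : 0 < γ) (hc : c ≤ k) (hθ : θ ≤ c * ν) (hν : ν ≤ 1 + γ / (k + 1)) :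
    θ + 1 + (((k - c : ℕ) : ℝ) + γ * (k + 1 + ((k - c : ℕ) : ℝ)) / (k + 1)) < k + 1 + 2 * γ := by
  have hk : (0 : ℝ) < k + 1 := by positivity
  rw [Nat.cast_sub hc]
  have e1 : γ * (k + 1 + ((k : ℝ) - c)) / (k + 1) = γ + γ / (k + 1) * (k - c) := by field_simp
  have e2 : (c : ℝ) * ν ≤ c * (1 + γ / (k + 1)) := mul_le_mul_of_nonneg_left hν (Nat.cast_nonneg c)
  have e3 : γ / (k + 1) * k < γ := by
    rw [div_mul_eq_mul_div, div_lt_iff₀ hk]
    exact mul_lt_mul_of_pos_left (by linarith) hγ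
  rw [e1]
  nlinarith

/-- Mature states are not critical. -/
theorem Num.noncrit (h : Num u k γ X E₀ M K) (hE : u.Full E E₀)
    (hV : TS u E (fun _ _ => ()) (fun _ e => fl (cx e.1) (bb (cx e.1) (cx e.2))) c J f c ν θ)
    (h₁ : TS u E (fun _ e => e.1) (fun _ e => bb (cx e.1) (cx e.2)) c₁ J₁ f₁ c₁ ν θ₁)
    (h₂ : TS u E (fun _ e => e.2) (fun _ e => bb (cx e.1) (cx e.2)) c₂ J₂ f₂ c₂ ν θ₂)
    (h0 : 0 < ν) (hν : ν ≤ 1 + γ / (k + 1)) : c + (k - c₁) + (k - c₂) ≤ 2 * k := by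
  obtain ⟨ν₀, hν₀, hz⟩ := zoom (h.base.restrict hE.1) hV h₁ h₂
  obtain ⟨m, m1, m2, m3, -, -⟩ := Loop_deg u (le_max_right ν₀ 0) (le_max_left ν₀ 0)
    (max_lt hν₀ h0)
  obtain ⟨g, P, F, hF, hL, r1, r2, -⟩ := hz m m1 m2 m3 1 one_pos
  have hc₁ : c₁ ≤ k := by simpa using h₁.le_card
  have hc₂ : c₂ ≤ k := by simpa using h₂.le_card
  refine term (xr := fun _ e => e.1) (yr := fun _ e => e.2) (X := X) (M := M) (K := K) hL
    ⟨((h.mod.and hF).and hE.1).mono fun n hn => hn.1.1.mono ?_,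
      u.ev_of_forall fun n e _ => ⟨rfl, rfl⟩, u.ev_of_forall fun n e _ e' _ h => h,
      u.ev_of_forall fun n e _ e' _ h => h⟩ (h.dom (Nat.sub_le k c₁)) (h.dom (Nat.sub_le k c₂))
    (Loop_rich (fun n => Nat.cast_nonneg _) r1 (h.Loop_edges hE) h.big
      (Loop_exp h.pos hc₁ h₁.thle hν))
    (Loop_rich (fun n => Nat.cast_nonneg _) r2 (h.Loop_edges hE) h.big
      (Loop_exp h.pos hc₂ h₂.thle hν))
  exact Finset.image_subset_iff.2 fun e he => hn.2 (hn.1.2 he)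

/-- The basic inequality for mature states. -/
theorem Num.star (h : Num u k γ X E₀ M K) (hE : u.Full E E₀)
    (hV : TS u E (fun _ _ => ()) (fun _ e => fl (cx e.1) (bb (cx e.1) (cx e.2))) c J f c ν θ)
    (h₁ : TS u E (fun _ e => e.1) (fun _ e => bb (cx e.1) (cx e.2)) c₁ J₁ f₁ c₁ ν θ₁)
    (h₂ : TS u E (fun _ e => e.2) (fun _ e => bb (cx e.1) (cx e.2)) c₂ J₂ f₂ c₂ ν θ₂)
    (h0 : 0 < ν) :
    θ + ν * ((2 * k + 1 - c : ℕ) : ℝ)
      ≤ 1 + (θ₁ + ν * ((k - c₁ : ℕ) : ℝ)) + (θ₂ + ν * ((k - c₂ : ℕ) : ℝ)) := by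
  obtain ⟨ν₀, hν₀, hz⟩ := zoom (h.base.restrict hE.1) hV h₁ h₂
  have key : ∀ κ : ℝ, 0 < κ → θ - κ + (ν - κ) * ((2 * k + 1 - c : ℕ) : ℝ)
      ≤ 1 + (θ₁ + ν * ((k - c₁ : ℕ) : ℝ)) + (θ₂ + ν * ((k - c₂ : ℕ) : ℝ)) := by
    intro κ hκ
    obtain ⟨m, m1, m2, m3, m4, m5⟩ := Loop_deg u (ν' := max (max ν₀ 0) (ν - κ))
      ((le_max_right ν₀ 0).trans (le_max_left _ _)) ((le_max_left ν₀ 0).trans (le_max_left _ _))
      (max_lt (max_lt hν₀ h0) (by linarith))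
    obtain ⟨g, P, F, hF, hL, r1, r2, r3⟩ := hz m m1 m2 m3 κ hκ
    have hm : ∀ n, (0 : ℝ) ≤ (m n : ℝ) + 1 := fun n => by positivity
    refine Loop_star (Hh := fun n => (H (P n) (m n) : ℝ)) (fun n => Nat.cast_nonneg _)
      (fun n => Nat.cast_nonneg _) (fun n => pow_nonneg (hm n) _) (fun n => pow_nonneg (hm n) _)
      (hV.pos.mono fun n hn => ?_) (hL.pos.mono fun n hn => ?_) (hL.star.mono fun n hn => ?_) r1 r2
      (r3.mono_left ?_) (h.Loop_edges hE) (Loop_pow m5 hm _) (Loop_pow m5 hm _)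
    · exact Nat.cast_pos.2 hn.card_pos
    · exact Nat.cast_pos.2 hn.card_pos
    · simp only [cd]
      exact_mod_cast hn
    · refine (m4.and (u.ev_ge 1)).mono fun n hn => ?_
      have hn1 : (1 : ℝ) ≤ n := by exact_mod_cast hn.2
      have hn0 : (0 : ℝ) < n := by linarith
      refine mul_le_mul_of_nonneg_right ?_ (cd_nonneg F n)
      have e1 : pw (ν - κ) n ≤ (m n : ℝ) + 1 :=
        (Real.rpow_le_rpow_of_exponent_le hn1 (le_max_right _ _)).trans hn.1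
      simp only [pw] at e1 ⊢
      rw [Real.rpow_add hn0, Real.rpow_mul_natCast hn0.le]
      exact mul_le_mul_of_nonneg_left (pow_le_pow_left₀ (by positivity) e1 _) (by positivity)
  refine le_of_forall_pos_le_add fun ε hε => ?_
  have hv : (0 : ℝ) < ((2 * k + 1 - c : ℕ) : ℝ) + 1 := by positivity
  have h3 := key (ε / (((2 * k + 1 - c : ℕ) : ℝ) + 1)) (by positivity)
  have h4 : ε / (((2 * k + 1 - c : ℕ) : ℝ) + 1) * (((2 * k + 1 - c : ℕ) : ℝ) + 1) = ε :=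
    div_mul_cancel₀ _ hv.ne'
  nlinarith

end Vale.Agent.P054A
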