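import Vale.Agent.P054A.LowA
import Vale.Agent.P054A.Up

/-!
Two-sided bounds for simple components.
-/

namespace Vale.Agent.P054A

open MvPolynomial Vale.Agent.P271
open scoped Classical

variable {σ κ : Type} [Fintype σ] [Fintype κ] [DecidableEq κ]

open scoped IntermediateField.algebraAdjoinAdjoin in
omit [Fintype κ] [DecidableEq κ] in
/-- The conjugates of a generic point over a purely transcendental base. -/
theorem low_pts {L Ω : Type} [Field L] [Algebra ℂ L] [Field Ω] [Algebra ℂ Ω] [IsAlgClosed Ω]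
    (ζ : σ → L) (hL : IntermediateField.adjoin ℂ (Set.range ζ) = ⊤) {v : ℕ} (y : Fin v → L)
    (hy : AlgebraicIndependent ℂ y)
    (hint : ∀ l, IsIntegral (Algebra.adjoin ℂ (Set.range y)) (ζ l)) (τ : Fin v → Ω)
    (hτ : AlgebraicIndependent ℂ τ) :
    ∃ (δ : ℕ) (ψ : Fin δ → (L →ₐ[ℂ] Ω)),
      Module.finrank (IntermediateField.adjoin ℂ (Set.range y)) L = δ ∧
      (Function.Injective fun a l => ψ a (ζ l)) ∧ ∀ a i, ψ a (y i) = τ i := by
  let F := IntermediateField.adjoin ℂ (Set.range y)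
  let φ : F →ₐ[ℂ] Ω := (IntermediateField.val _).comp
    (hτ.aevalEquivField.toAlgHom.comp hy.reprField)
  have hm : ∀ i, y i ∈ F := fun i => IntermediateField.subset_adjoin _ _ ⟨i, rfl⟩
  have hφ : ∀ i, φ ⟨y i, hm i⟩ = τ i := by
    intro i
    have h1 : hy.aevalEquivField (algebraMap (MvPolynomial (Fin v) ℂ) _ (X i)) = ⟨y i, hm i⟩ :=
      Subtype.ext (by rw [hy.aevalEquivField_algebraMap_apply_coe, aeval_X])
    have h2 : hy.aevalEquivField.symm ⟨y i, hm i⟩
        = algebraMap (MvPolynomial (Fin v) ℂ) _ (X i) := by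
      rw [← h1, AlgEquiv.symm_apply_apply]
    change ((hτ.aevalEquivField (hy.aevalEquivField.symm ⟨y i, hm i⟩) : _) : Ω) = τ i
    rw [h2, hτ.aevalEquivField_algebraMap_apply_coe, aeval_X]
  let : Algebra F Ω := φ.toRingHom.toAlgebra
  have : IsScalarTower ℂ F Ω := IsScalarTower.of_algebraMap_eq fun c => (φ.commutes c).symm
  have hF : IntermediateField.adjoin F (Set.range ζ) = ⊤ :=
    IntermediateField.adjoin_eq_top_of_adjoin_eq_top ℂ hL
  have : FiniteDimensional F L := by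
    have h1 : FiniteDimensional F (IntermediateField.adjoin F (Set.range ζ)) :=
      IntermediateField.finiteDimensional_adjoin (by
        rintro _ ⟨l, rfl⟩
        exact (hint l).tower_top)
    rw [hF] at h1
    exact IntermediateField.topEquiv.toLinearEquiv.finiteDimensional
  have : CharZero F := charZero_of_injective_algebraMap (algebraMap ℂ F).injective
  have hc := AlgHom.card F L Ω
  let e : (L →ₐ[F] Ω) ≃ Fin (Module.finrank F L) := Fintype.equivFinOfCardEq hc
  refine ⟨_, fun a => (e.symm a).restrictScalars ℂ, rfl, ?_, ?_⟩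
  · intro a b hab
    apply e.symm.injective
    ext x
    have hx : x ∈ IntermediateField.adjoin F (Set.range ζ) := hF ▸ IntermediateField.mem_top
    induction hx using IntermediateField.adjoin_induction with
    | mem x hx =>
      obtain ⟨l, rfl⟩ := hx
      exact congrFun hab l
    | algebraMap x => rw [AlgHom.commutes, AlgHom.commutes]
    | add x y _ _ hx hy => rw [map_add, map_add, hx, hy]
    | inv x _ hx => rw [map_inv₀, map_inv₀, hx]
    | mul x y _ _ hx hy => rw [map_mul, map_mul, hx, hy]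
  · intro a i
    exact ((e.symm a).commutes ⟨y i, hm i⟩).trans (hφ i)

omit [Fintype σ] [Fintype κ] [DecidableEq κ] in
/-- The generic point of a prime ideal. -/
theorem low_generic {P : Ideal (MvPolynomial σ ℂ)} (hP : P.IsPrime) :
    ∃ (L : Type) (_ : Field L) (_ : Algebra ℂ L) (ζ : σ → L),
      (∀ G, aeval ζ G = 0 ↔ G ∈ P) ∧ IntermediateField.adjoin ℂ (Set.range ζ) = ⊤ := by
  let A := MvPolynomial σ ℂ ⧸ P
  let L := FractionRing A
  let ζ : σ → L := fun l => algebraMap A L (Ideal.Quotient.mk P (X l))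
  have h : ∀ G, aeval ζ G = algebraMap A L (Ideal.Quotient.mk P G) := by
    intro G
    have : (aeval ζ : MvPolynomial σ ℂ →ₐ[ℂ] L)
        = (IsScalarTower.toAlgHom ℂ A L).comp (Ideal.Quotient.mkₐ ℂ P) := by
      ext l
      rw [aeval_X]
      rfl
    rw [this]
    rfl
  refine ⟨L, inferInstance, inferInstance, ζ, fun G => ?_, ?_⟩
  · rw [h, map_eq_zero_iff _ (IsFractionRing.injective A L), Ideal.Quotient.eq_zero_iff_mem]
  · have hm : ∀ a : A, algebraMap A L a ∈ IntermediateField.adjoin ℂ (Set.range ζ) := by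
      intro a
      obtain ⟨G, rfl⟩ := Ideal.Quotient.mk_surjective a
      rw [← h]
      apply IntermediateField.algebra_adjoin_le_adjoin
      rw [Algebra.adjoin_range_eq_range_aeval]
      exact ⟨G, rfl⟩
    rw [eq_top_iff]
    intro x _
    obtain ⟨a, b, -, rfl⟩ := IsFractionRing.div_surjective (A := A) x
    exact div_mem (hm a) (hm b)

/-- The data attached to one component. -/
theorem low_one {f : κ → MvPolynomial σ ℂ} {J : κ → σ} {p : σ → ℂ} (h : Simple f J p) {v : ℕ}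
    (t : Fin v → MvPolynomial σ ℂ)
    (ht : ∀ (L : Type) [Field L] [Algebra ℂ L] (ζ : σ → L),
      (∀ G, aeval ζ G = 0 ↔ G ∈ locP f p) →
        AlgebraicIndependent ℂ (fun i => aeval ζ (t i)) ∧
        ∀ l, FInt (lin fun i => aeval ζ (t i)) 1 (ζ l))
    {Ω : Type} [Field Ω] [Algebra ℂ Ω] [IsAlgClosed Ω] (τ : Fin v → Ω)
    (hτ : AlgebraicIndependent ℂ τ) (ε : κ ⊕ Fin v ≃ σ) :
    ∃ (δ : ℕ) (ξ : Fin δ → σ → Ω),
      (∀ M, H (locP f p) M ≤ (v + 1) ^ v * δ * (M + 1) ^ v) ∧ Function.Injective ξ ∧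
      ∀ a, (∀ G, aeval (ξ a) G = 0 ↔ G ∈ locP f p) ∧ (∀ i, aeval (ξ a) (t i) = τ i) ∧
        aeval (ξ a) (minor (Sum.elim f t) ε) ≠ 0 := by
  obtain ⟨L, _, _, ζ, hk, hL⟩ := low_generic (locP_prime h)
  obtain ⟨hy, hx⟩ := ht L ζ hk
  obtain ⟨δ, ψ, hδ, hinj, hψ⟩ := low_pts ζ hL _ hy (fun l => (hx l).isIntegral) τ hτ
  have hcomp : ∀ (a) (G : MvPolynomial σ ℂ), aeval (fun l => ψ a (ζ l)) G = ψ a (aeval ζ G) := by
    intro a G
    rw [← comp_aeval_apply]
  have hker : ∀ a G, aeval (fun l => ψ a (ζ l)) G = 0 ↔ G ∈ locP f p := by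
    intro a G
    rw [hcomp, map_eq_zero, hk]
  refine ⟨δ, fun a l => ψ a (ζ l), fun M => ?_, hinj, fun a => ⟨hker a, fun i => ?_, ?_⟩⟩
  · have h1 := H_le_of_norm ζ _ hy hx (by
      rw [eq_top_iff, ← hL]
      exact IntermediateField.adjoin.mono _ _ _ Set.subset_union_left) hδ M
    have h2 : RingHom.ker (aeval ζ : MvPolynomial σ ℂ →ₐ[ℂ] L) = locP f p := by
      ext G
      rw [RingHom.mem_ker, hk]
    rwa [h2] at h1
  · rw [hcomp, hψ]
  · refine jac_ne_zero (J := J) _ (fun h0 => minor_notin_locP h ((hker a _).1 h0))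
      (fun G hG k => (hker a _).2 (Dk_mem_locP f J p k ((hker a _).1 hG))) t (fun l => ?_) ε
    exact ((ht Ω _ (hker a)).2 l).isIntegral.isAlgebraic

omit [Fintype σ] in
theorem low_minor {A B : Type} [CommRing A] [CommRing B] (φ : A →+* B)
    (g : κ → MvPolynomial σ A) (c : κ → B) (J : κ → σ) :
    minor (fun i => map φ (g i) - C (c i)) J = map φ (minor g J) := by
  rw [map_minor]
  unfold minor
  congr 1
  ext1 i k
  simp only [Matrix.of_apply, map_sub, pderiv_C, sub_zero]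

omit [Fintype σ] in
theorem low_deg_map {A B : Type} [CommRing A] [CommRing B] (φ : A →+* B)
    (g : MvPolynomial σ A) : (map φ g).totalDegree ≤ g.totalDegree :=
  Finset.sup_mono (support_map_subset φ g)

/-- Independence of box monomials. -/
theorem low_box {Ω : Type} [Field Ω] [Algebra ℂ Ω] {v M : ℕ} {τ : Fin v → Ω}
    (hτ : AlgebraicIndependent ℂ τ) (c : (Fin v → Fin (M + 1)) → ℂ)
    (h : ∑ e, algebraMap ℂ Ω (c e) * ∏ i, τ i ^ (e i : ℕ) = 0) : c = 0 := by
  let m : (Fin v → Fin (M + 1)) → (Fin v →₀ ℕ) :=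
    fun e => Finsupp.equivFunOnFinite.symm fun i => (e i : ℕ)
  have hm : Function.Injective m := by
    intro e e' he
    funext i
    exact Fin.ext (congrFun (Finsupp.equivFunOnFinite.symm.injective he) i)
  have h0 : ∑ e, monomial (m e) (c e) = 0 := by
    refine algebraicIndependent_iff.1 hτ _ ?_
    rw [map_sum, ← h]
    refine Finset.sum_congr rfl fun e _ => ?_
    rw [aeval_monomial, Finsupp.prod_fintype _ _ (fun i => pow_zero _)]
    rfl
  funext e
  have h1 := congrArg (coeff (m e)) h0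
  rw [coeff_sum, Finset.sum_eq_single e, coeff_monomial, if_pos rfl, coeff_zero] at h1
  · exact h1
  · intro e' _ he
    rw [coeff_monomial, if_neg fun h2 => he (hm h2)]
  · intro he
    exact absurd (Finset.mem_univ e) he

/-- The lower bound from a family of simple generic points. -/
theorem low_lower {f : κ → MvPolynomial σ ℂ} {s : ℕ} (hs : ∀ i, (f i).totalDegree ≤ s) {v : ℕ}
    {t : Fin v → MvPolynomial σ ℂ} (ht : ∀ i, (t i).totalDegree ≤ 1)
    {Ω : Type} [Field Ω] [Algebra ℂ Ω] {τ : Fin v → Ω} (hτ : AlgebraicIndependent ℂ τ)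
    (ε : κ ⊕ Fin v ≃ σ) {α : Type} [Fintype α] (ξ : α → σ → Ω) (hξ : Function.Injective ξ)
    (h0 : ∀ a i, aeval (ξ a) (f i) = 0) (h1 : ∀ a i, aeval (ξ a) (t i) = τ i)
    (h2 : ∀ a, aeval (ξ a) (minor (Sum.elim f t) ε) ≠ 0) {I : Ideal (MvPolynomial σ ℂ)}
    (hI : ∀ a, ∀ G ∈ I, aeval (ξ a) G = 0) (M : ℕ) :
    Fintype.card α * (M + 1) ^ v ≤ H I (v * M + Fintype.card κ * s) := by
  let c₀ : κ ⊕ Fin v → Ω := Sum.elim (fun _ => 0) τ
  let G : κ ⊕ Fin v → MvPolynomial σ Ω :=
    fun i => map (algebraMap ℂ Ω) (Sum.elim f t i) - C (c₀ i)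
  let s₀ : κ ⊕ Fin v → ℕ := Sum.elim (fun _ => s) fun _ => 0
  have hdeg : ∀ i, (G i).totalDegree ≤ s₀ i + 1 := by
    intro i
    refine (totalDegree_sub_C_le _ _).trans ((low_deg_map _ _).trans ?_)
    rcases i with i | i
    · exact (hs i).trans (Nat.le_succ s)
    · exact ht i
  have hmin : minor (fun l => G (ε.symm l)) id
      = map (algebraMap ℂ Ω) (minor (Sum.elim f t) ε) := by
    rw [← minor_reindex ε, ← low_minor _ _ c₀]
    simp only [Equiv.symm_apply_apply, id]
    rfl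
  have hz : ∀ a i, eval (ξ a) (G i) = 0 := by
    intro a i
    rcases i with i | i
    · simp only [G, c₀, Sum.elim_inl, map_sub, eval_map, ← aeval_def, h0, eval_C, sub_zero]
    · simp only [G, c₀, Sum.elim_inr, map_sub, eval_map, ← aeval_def, h1, eval_C, sub_self]
  obtain ⟨β, hβ, hind⟩ := sep_monomials (fun l => G (ε.symm l)) (fun l => s₀ (ε.symm l))
    (fun l => hdeg _) ξ hξ (fun a => ⟨fun l => hz a _, by
      rw [hmin, eval_map, ← aeval_def]
      exact h2 a⟩)
  have hsum : ∑ l, s₀ (ε.symm l) = Fintype.card κ * s := by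
    rw [Equiv.sum_comp ε.symm s₀, Fintype.sum_sum_type]
    simp [s₀]
  rw [hsum] at hβ
  have hc := card_le_H_of_indep (I := I) (M := v * M + Fintype.card κ * s)
    (fun z : α × (Fin v → Fin (M + 1)) => (∏ i, t i ^ (z.2 i : ℕ)) * monomial (β z.1) (1 : ℂ))
    (fun z => by
      refine (totalDegree_mul _ _).trans (add_le_add ?_ ?_)
      · refine (totalDegree_finsetProd _ _).trans ?_
        calc ∑ i, (t i ^ (z.2 i : ℕ)).totalDegree ≤ ∑ _i : Fin v, M := by
              refine Finset.sum_le_sum fun i _ => (totalDegree_pow _ _).trans ?_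
              calc (z.2 i : ℕ) * (t i).totalDegree ≤ M * 1 :=
                    Nat.mul_le_mul (Nat.lt_succ_iff.1 (z.2 i).2) (ht i)
                _ = M := mul_one M
          _ = v * M := by simp
      · refine (totalDegree_monomial_le _ _).trans ?_
        rw [Finsupp.sum_fintype _ _ (fun _ => rfl)]
        exact hβ z.1)
    (fun c hc => by
      have h3 := hind (fun a => ∑ e : Fin v → Fin (M + 1),
        algebraMap ℂ Ω (c (a, e)) * ∏ i, τ i ^ (e i : ℕ)) (fun a => by
          rw [← hI a _ hc, map_sum, Fintype.sum_prod_type]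
          refine Finset.sum_congr rfl fun a' _ => ?_
          rw [Finset.sum_mul]
          refine Finset.sum_congr rfl fun e _ => ?_
          rw [map_smul, map_mul, map_prod, aeval_monomial, map_one, one_mul,
            Finsupp.prod_fintype _ _ (fun i => pow_zero _), Algebra.smul_def, mul_assoc]
          simp only [map_pow, h1])
      funext z
      exact congrFun (low_box hτ (fun e => c (z.1, e)) (congrFun h3 z.1)) z.2)
  simpa using hc

/-- Independence of sibling components, in terms of field degrees. -/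
theorem low_core {f : κ → MvPolynomial σ ℂ} {J : κ → σ} {s : ℕ}
    (hs : ∀ i, (f i).totalDegree ≤ s) (W : Finset (σ → ℂ)) (hW : ∀ p ∈ W, Simple f J p) {v : ℕ}
    (hv : v + Fintype.card κ = Fintype.card σ) :
    ∃ δ : Ideal (MvPolynomial σ ℂ) → ℕ,
      (∀ p ∈ W, ∀ M, H (locP f p) M ≤ (v + 1) ^ v * δ (locP f p) * (M + 1) ^ v) ∧
      ∀ I : Ideal (MvPolynomial σ ℂ), (∀ p ∈ W, I ≤ locP f p) → ∀ M,
        (∑ P ∈ W.image (locP f), δ P) * (M + 1) ^ v ≤ H I (v * M + Fintype.card κ * s) := by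
  obtain ⟨t, ht1, ht⟩ := exists_common_fn W hW hv
  let A := MvPolynomial (Fin v) ℂ
  let Ω := AlgebraicClosure (FractionRing A)
  let τ : Fin v → Ω := fun i => IsScalarTower.toAlgHom ℂ A Ω (X i)
  have hτ : AlgebraicIndependent ℂ τ :=
    (algebraicIndependent_X (Fin v) ℂ).map' (f := IsScalarTower.toAlgHom ℂ A Ω) (by
      intro a b hab
      have h1 : algebraMap A Ω a = algebraMap A Ω b := hab
      rw [IsScalarTower.algebraMap_apply A (FractionRing A) Ω,
        IsScalarTower.algebraMap_apply A (FractionRing A) Ω b] at h1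
      exact IsFractionRing.injective A _ ((algebraMap (FractionRing A) Ω).injective h1))
  let ε : κ ⊕ Fin v ≃ σ := Fintype.equivOfCardEq (by
    rw [Fintype.card_sum, Fintype.card_fin, add_comm, hv])
  have hex : ∀ P : Ideal (MvPolynomial σ ℂ), ∃ (δ : ℕ) (ξ : Fin δ → σ → Ω),
      P ∈ W.image (locP f) → (∀ M, H P M ≤ (v + 1) ^ v * δ * (M + 1) ^ v) ∧
        Function.Injective ξ ∧ ∀ a, (∀ G, aeval (ξ a) G = 0 ↔ G ∈ P) ∧
          (∀ i, aeval (ξ a) (t i) = τ i) ∧ aeval (ξ a) (minor (Sum.elim f t) ε) ≠ 0 := by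
    intro P
    by_cases hP : P ∈ W.image (locP f)
    · obtain ⟨p, hp, rfl⟩ := Finset.mem_image.1 hP
      obtain ⟨δ, ξ, h⟩ := low_one (hW p hp) t (ht p hp) τ hτ ε
      exact ⟨δ, ξ, fun _ => h⟩
    · exact ⟨0, Fin.elim0, fun h => absurd h hP⟩
  choose δ ξ hξ using hex
  refine ⟨δ, fun p hp => (hξ _ (Finset.mem_image_of_mem _ hp)).1, fun I hI M => ?_⟩
  have hmem : ∀ P : W.image (locP f), (∀ i, f i ∈ P.1) ∧ I ≤ P.1 := by
    rintro ⟨P, hP⟩
    obtain ⟨p, hp, rfl⟩ := Finset.mem_image.1 hP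
    exact ⟨mem_locP f p, hI p hp⟩
  have h := low_lower hs ht1 hτ ε (α := Σ P : W.image (locP f), Fin (δ P.1))
    (fun z => ξ z.1.1 z.2) (by
      rintro ⟨⟨P, hP⟩, a⟩ ⟨⟨Q, hQ⟩, b⟩ hab
      have hab' : ξ P a = ξ Q b := hab
      have hPQ : P = Q := by
        ext G
        rw [← ((hξ P hP).2.2 a).1, ← ((hξ Q hQ).2.2 b).1, hab']
      subst hPQ
      rw [(hξ P hP).2.1 hab'])
    (fun z i => (((hξ _ z.1.2).2.2 z.2).1 _).2 ((hmem z.1).1 i))
    (fun z => ((hξ _ z.1.2).2.2 z.2).2.1) (fun z => ((hξ _ z.1.2).2.2 z.2).2.2) (I := I)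
    (fun z G hG => (((hξ _ z.1.2).2.2 z.2).1 _).2 ((hmem z.1).2 hG)) M
  rw [Fintype.card_sigma] at h
  simp only [Fintype.card_fin] at h
  rwa [Finset.sum_coe_sort (W.image (locP f)) δ] at h

theorem H_le_dg_loc {f : κ → MvPolynomial σ ℂ} {J : κ → σ} {p : σ → ℂ} (h : Simple f J p)
    (M : ℕ) : H (locP f p) M
      ≤ dg (Fintype.card σ - Fintype.card κ) (locP f p) *
        (M + 1) ^ (Fintype.card σ - Fintype.card κ) := by
  obtain ⟨δ, h1, -⟩ := low_core (J := J) (s := Finset.univ.sup fun i => (f i).totalDegree)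
    (fun i => Finset.le_sup (f := fun i => (f i).totalDegree) (Finset.mem_univ i)) {p}
    (fun q hq => by rw [Finset.mem_singleton.1 hq]; exact h) (Nat.sub_add_cancel h.card_le)
  exact H_le_dg (h1 p (Finset.mem_singleton_self p)) M

theorem sum_dg_le {f : κ → MvPolynomial σ ℂ} {J : κ → σ} {s : ℕ}
    (hs : ∀ i, (f i).totalDegree ≤ s) (W : Finset (σ → ℂ)) (hW : ∀ p ∈ W, Simple f J p) {v : ℕ}
    (hv : v + Fintype.card κ = Fintype.card σ) {I : Ideal (MvPolynomial σ ℂ)}
    (hI : ∀ p ∈ W, I ≤ locP f p) (M : ℕ) :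
    (∑ P ∈ W.image (locP f), dg v P) * (M + 1) ^ v
      ≤ (v + 1) ^ v * H I (v * M + Fintype.card κ * s) := by
  obtain ⟨δ, h1, h2⟩ := low_core hs W hW hv
  calc (∑ P ∈ W.image (locP f), dg v P) * (M + 1) ^ v
      ≤ (∑ P ∈ W.image (locP f), (v + 1) ^ v * δ P) * (M + 1) ^ v := by
        refine Nat.mul_le_mul_right _ (Finset.sum_le_sum fun P hP => ?_)
        obtain ⟨p, hp, rfl⟩ := Finset.mem_image.1 hP
        exact dg_le (h1 p hp)
    _ = (v + 1) ^ v * ((∑ P ∈ W.image (locP f), δ P) * (M + 1) ^ v) := by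
        rw [← Finset.mul_sum, mul_assoc]
    _ ≤ (v + 1) ^ v * H I (v * M + Fintype.card κ * s) := Nat.mul_le_mul_left _ (h2 I hI M)

end Vale.Agent.P054A
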