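import Vale.Agent.P054A.LowJ
import Vale.Agent.P271.FN

/-!
Normalisation of simple components by common linear forms.
-/

namespace Vale.Agent.P054A

open MvPolynomial Vale.Agent.P271
open scoped Classical

variable {σ κ : Type} [Fintype σ] [Fintype κ] [DecidableEq κ]

omit [Fintype σ] in
theorem lowa_generic {P : Ideal (MvPolynomial σ ℂ)} (hP : P.IsPrime) :
    ∃ (L : Type) (_ : Field L) (_ : Algebra ℂ L) (ζ : σ → L),
      (∀ G, aeval ζ G = 0 ↔ G ∈ P) ∧ IntermediateField.adjoin ℂ (Set.range ζ) = ⊤ := by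
  let A := MvPolynomial σ ℂ ⧸ P
  let L := FractionRing A
  let ζ : σ → L := fun l => algebraMap A L (Ideal.Quotient.mk P (X l))
  have h : ∀ G, aeval ζ G = algebraMap A L (Ideal.Quotient.mk P G) := by
    intro G
    have : (aeval ζ : MvPolynomial σ ℂ →ₐ[ℂ] L)
        = (IsScalarTower.toAlgHom ℂ A L).comp (Ideal.Quotient.mkₐ ℂ P) := by
      ext l
      rw [aeval_X]
      rfl
    rw [this]
    rfl
  obtain ⟨ζ', -, h1, h2⟩ := lowj_top ζ
  refine ⟨_, inferInstance, inferInstance, ζ', fun G => ?_, h2⟩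
  rw [← ZeroMemClass.coe_eq_zero, h1, h, map_eq_zero_iff _ (IsFractionRing.injective A L),
    Ideal.Quotient.eq_zero_iff_mem]

theorem lowa_map_lin {R S ι : Type} [CommRing R] [Algebra ℂ R] [CommRing S] [Algebra ℂ S]
    (φ : R →ₐ[ℂ] S) (y : ι → R) : (lin y).map φ.toLinearMap = lin fun i => φ (y i) := by
  unfold lin
  rw [Submodule.map_span, Set.image_insert_eq, ← Set.range_comp, AlgHom.toLinearMap_apply,
    map_one]
  rfl

open scoped IntermediateField.algebraAdjoinAdjoin in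
theorem lowa_alg {L : Type} [Field L] [Algebra ℂ L] (ζ : σ → L)
    (hL : IntermediateField.adjoin ℂ (Set.range ζ) = ⊤) {d : ℕ} (y : Fin d → L)
    (h : ∀ l, FInt (lin y) 1 (ζ l)) : Algebra.IsAlgebraic (Algebra.adjoin ℂ (Set.range y)) L :=
  lowj_alg ζ hL _ fun l => (h l).isIntegral.tower_top

/-- Common linear forms giving a filtered normalisation of finitely many components. -/
theorem exists_common_fn {f : κ → MvPolynomial σ ℂ} {J : κ → σ} (W : Finset (σ → ℂ))
    (hW : ∀ p ∈ W, Simple f J p) {v : ℕ} (hv : v + Fintype.card κ = Fintype.card σ) :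
    ∃ t : Fin v → MvPolynomial σ ℂ, (∀ i, (t i).totalDegree ≤ 1) ∧ ∀ p ∈ W,
      ∀ (L : Type) [Field L] [Algebra ℂ L] (ζ : σ → L), (∀ G, aeval ζ G = 0 ↔ G ∈ locP f p) →
        AlgebraicIndependent ℂ (fun i => aeval ζ (t i)) ∧
        ∀ l, FInt (lin fun i => aeval ζ (t i)) 1 (ζ l) := by
  rcases W.eq_empty_or_nonempty with rfl | ⟨p₀, hp₀⟩
  · exact ⟨fun _ => 0, fun _ => by simp, fun p hp => absurd hp (Finset.notMem_empty p)⟩
  have hv' : Fintype.card σ - Fintype.card κ = v := by omega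
  let I : Ideal (MvPolynomial σ ℂ) := W.inf (locP f)
  have hI : ∀ p ∈ W, I ≤ locP f p := fun p hp => Finset.inf_le hp
  have hnt : Nontrivial (MvPolynomial σ ℂ ⧸ I) :=
    Ideal.Quotient.nontrivial_iff.2 fun h0 =>
      (locP_prime (hW p₀ hp₀)).ne_top (top_le_iff.1 (h0 ▸ hI p₀ hp₀))
  let e : Fin (Fintype.card σ) ≃ σ := (Fintype.equivFin σ).symm
  obtain ⟨d, y, -, hy, hspan, hint⟩ := fn fun j => Ideal.Quotient.mkₐ ℂ I (X (e j))
  choose c hc using fun i => (Submodule.mem_span_range_iff_exists_fun ℂ).1 (hspan i)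
  let t : Fin d → MvPolynomial σ ℂ := fun i => ∑ j, c i j • X (e j)
  have ht : ∀ i, Ideal.Quotient.mkₐ ℂ I (t i) = y i := by
    intro i
    rw [← hc i, map_sum]
    exact Finset.sum_congr rfl fun j _ => map_smul _ _ _
  have ht1 : ∀ i, (t i).totalDegree ≤ 1 := fun i =>
    totalDegree_finsetSum_le fun j _ => (totalDegree_smul_le _ _).trans (totalDegree_X _).le
  have key : ∀ p ∈ W, ∀ (L : Type) [Field L] [Algebra ℂ L] (ζ : σ → L),
      (∀ G, aeval ζ G = 0 ↔ G ∈ locP f p) → ∀ l, FInt (lin fun i => aeval ζ (t i)) 1 (ζ l) := by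
    intro p hp L _ _ ζ hk l
    let φ : (MvPolynomial σ ℂ ⧸ I) →ₐ[ℂ] L :=
      Ideal.Quotient.liftₐ I (aeval ζ) fun a ha => (hk a).2 (hI p hp ha)
    have hφ : ∀ G, φ (Ideal.Quotient.mkₐ ℂ I G) = aeval ζ G := fun G => rfl
    have h1 := (hint _ (fn_mem _ (e.symm l))).map φ
    rw [lowa_map_lin, hφ, Equiv.apply_symm_apply, aeval_X] at h1
    simpa only [← ht, hφ] using h1
  have hle : v ≤ d := by
    obtain ⟨L, _, _, ζ, hk, hL⟩ := lowa_generic (locP_prime (hW p₀ hp₀))
    have h1 := lowa_alg ζ hL _ (key p₀ hp₀ L ζ hk)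
    have h2 := (Algebra.IsAlgebraic.trdeg_le_cardinalMk ℂ
      (Set.range fun i => aeval ζ (t i))).trans Cardinal.mk_range_le
    rw [lowj_trdeg (hW p₀ hp₀) ζ hk hL, hv', Cardinal.mk_fin] at h2
    exact_mod_cast h2
  have hge : d ≤ v := by
    by_contra hlt
    have h1 : ∀ p ∈ W, ∃ F : MvPolynomial (Fin d) ℂ, F ≠ 0 ∧ aeval t F ∈ locP f p := by
      intro p hp
      obtain ⟨L, _, _, ζ, hk, hL⟩ := lowa_generic (locP_prime (hW p hp))
      have h2 : ¬ AlgebraicIndependent ℂ fun i => aeval ζ (t i) := by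
        intro h3
        have h4 := h3.cardinalMk_le_trdeg
        rw [lowj_trdeg (hW p hp) ζ hk hL, hv', Cardinal.mk_fin] at h4
        exact hlt (by exact_mod_cast h4)
      rw [algebraicIndependent_iff] at h2
      push Not at h2
      obtain ⟨F, hF, hF0⟩ := h2
      exact ⟨F, hF0, (hk _).1 (by rw [comp_aeval_apply, hF])⟩
    choose! F hF0 hF using h1
    refine Finset.prod_ne_zero_iff.2 hF0 (algebraicIndependent_iff.1 hy _ ?_)
    have h5 : aeval t (∏ p ∈ W, F p) ∈ I := by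
      refine Submodule.mem_finsetInf.2 fun p hp => ?_
      rw [map_prod]
      exact Ideal.mem_of_dvd _ (Finset.dvd_prod_of_mem (fun p => aeval t (F p)) hp) (hF p hp)
    have h6 := comp_aeval_apply t (Ideal.Quotient.mkₐ ℂ I) (∏ p ∈ W, F p)
    simp only [ht] at h6
    exact h6.symm.trans (Ideal.Quotient.eq_zero_iff_mem.2 h5)
  obtain rfl : d = v := le_antisymm hge hle
  refine ⟨t, ht1, fun p hp L _ _ ζ hk => ⟨?_, key p hp L ζ hk⟩⟩
  obtain ⟨ζ', -, h1, h2⟩ := lowj_top ζ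
  have hk' : ∀ G, aeval ζ' G = 0 ↔ G ∈ locP f p := fun G => by
    rw [← hk, ← h1]
    exact ZeroMemClass.coe_eq_zero.symm
  have h3 := lowa_alg ζ' h2 _ (key p hp _ ζ' hk')
  have h4 := Algebra.IsAlgebraic.isTranscendenceBasis_of_le_trdeg_of_finite ℂ
    (fun i => aeval ζ' (t i)) (by rw [lowj_trdeg (hW p hp) ζ' hk' h2, hv', Cardinal.mk_fin])
  have h5 := h4.1.map' (f := IntermediateField.val _) Subtype.val_injective
  have h6 : (fun i => aeval ζ (t i)) = IntermediateField.val _ ∘ fun i => aeval ζ' (t i) :=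
    funext fun i => (h1 _).symm
  rw [h6]
  exact h5

end Vale.Agent.P054A
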