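import Vale.Agent.P054A.LocB
import Vale.Agent.P054A.Bez

/-!
Normalisation of simple components by common linear forms.
-/

namespace Vale.Agent.P054A

open MvPolynomial
open scoped Classical

variable {σ κ : Type} [Fintype σ] [Fintype κ] [DecidableEq κ]

omit [Fintype σ] in
/-- A point with coordinates in the field it generates. -/
theorem lowj_top {L : Type} [Field L] [Algebra ℂ L] (ζ : σ → L) :
    ∃ ζ' : σ → IntermediateField.adjoin ℂ (Set.range ζ), (∀ l, (ζ' l : L) = ζ l) ∧
      (∀ G : MvPolynomial σ ℂ, ((aeval ζ' G : IntermediateField.adjoin ℂ (Set.range ζ)) : L)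
        = aeval ζ G) ∧ IntermediateField.adjoin ℂ (Set.range ζ') = ⊤ := by
  refine ⟨fun l => ⟨ζ l, IntermediateField.subset_adjoin _ _ ⟨l, rfl⟩⟩, fun _ => rfl,
    fun G => ?_, ?_⟩
  · exact comp_aeval_apply _ (IntermediateField.val _) G
  · apply IntermediateField.lift_injective
    rw [IntermediateField.lift_adjoin, IntermediateField.lift_top, ← Set.range_comp]
    rfl

open scoped IntermediateField.algebraAdjoinAdjoin in
/-- A field generated by algebraic elements is algebraic. -/
theorem lowj_alg {L : Type} [Field L] [Algebra ℂ L] (ζ : σ → L)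
    (hL : IntermediateField.adjoin ℂ (Set.range ζ) = ⊤) (S : Set L)
    (h : ∀ l, IsIntegral (IntermediateField.adjoin ℂ S) (ζ l)) :
    Algebra.IsAlgebraic (Algebra.adjoin ℂ S) L := by
  have hF : IntermediateField.adjoin (IntermediateField.adjoin ℂ S) (Set.range ζ) = ⊤ :=
    IntermediateField.adjoin_eq_top_of_adjoin_eq_top ℂ hL
  have h1 : FiniteDimensional (IntermediateField.adjoin ℂ S)
      (IntermediateField.adjoin (IntermediateField.adjoin ℂ S) (Set.range ζ)) :=
    IntermediateField.finiteDimensional_adjoin (by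
      rintro _ ⟨l, rfl⟩
      exact h l)
  rw [hF] at h1
  have h2 : FiniteDimensional (IntermediateField.adjoin ℂ S) L :=
    IntermediateField.topEquiv.toLinearEquiv.finiteDimensional
  exact (IsFractionRing.comap_isAlgebraic_iff (K := IntermediateField.adjoin ℂ S)).2 inferInstance

theorem lowj_trdeg {f : κ → MvPolynomial σ ℂ} {J : κ → σ} {p : σ → ℂ} (h : Simple f J p)
    {L : Type} [Field L] [Algebra ℂ L] (ζ : σ → L) (hk : ∀ G, aeval ζ G = 0 ↔ G ∈ locP f p)
    (hL : IntermediateField.adjoin ℂ (Set.range ζ) = ⊤) :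
    Algebra.trdeg ℂ L = ((Fintype.card σ - Fintype.card κ : ℕ) : Cardinal) := by
  let z : {l // l ∉ Set.range J} → L := fun l => ζ l.1
  have hz : AlgebraicIndependent ℂ z := by
    rw [algebraicIndependent_iff]
    intro G hG
    apply rename_injective Subtype.val Subtype.val_injective
    rw [map_zero]
    refine eq_zero_of_free h (fun l hl => ?_) ((hk _).1 ?_)
    · obtain ⟨i, -, rfl⟩ := mem_vars_rename _ _ hl
      exact i.2
    · rw [aeval_rename]
      exact hG
  have hJ : aeval ζ (minor f J) ≠ 0 := fun h0 => minor_notin_locP h ((hk _).1 h0)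
  have hinj : Function.Injective J := inj_of_minor_ne (f := f) fun h0 => hJ (by rw [h0, map_zero])
  have hfin := (finrank_adjoin_le' f J
    (t := Finset.univ.sup fun i => (f i).support.sup fun α => ∑ l, α (J l))
    (fun i α hα => (Finset.le_sup (f := fun α : σ →₀ ℕ => ∑ l, α (J l)) hα).trans
      (Finset.le_sup (f := fun i => (f i).support.sup fun α => ∑ l, α (J l)) (Finset.mem_univ i)))
    ζ (fun i => (hk _).2 (mem_locP f p i)) hJ (IntermediateField.adjoin ℂ (Set.range z))
    (fun l hl => IntermediateField.subset_adjoin _ _ ⟨⟨l, hl⟩, rfl⟩)).1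
  have halg := lowj_alg ζ hL (Set.range z) fun l =>
    (IntermediateField.coe_isIntegral_iff
      (x := (⟨ζ l, IntermediateField.subset_adjoin _ _ ⟨l, rfl⟩⟩ : IntermediateField.adjoin
        (IntermediateField.adjoin ℂ (Set.range z)) (Set.range ζ)))).2 (IsIntegral.of_finite _ _)
  rw [← (hz.isTranscendenceBasis_iff_isAlgebraic.2 halg).cardinalMk_eq_trdeg, Cardinal.mk_fintype,
    Fintype.card_subtype_compl, Set.card_range_of_injective hinj]

/-- The transcendence degree of a simple component. -/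
theorem trdeg_loc {f : κ → MvPolynomial σ ℂ} {J : κ → σ} {p : σ → ℂ} (h : Simple f J p)
    {L : Type} [Field L] [Algebra ℂ L] (ζ : σ → L) (hk : ∀ G, aeval ζ G = 0 ↔ G ∈ locP f p) :
    Algebra.trdeg ℂ (IntermediateField.adjoin ℂ (Set.range ζ))
      = ((Fintype.card σ - Fintype.card κ : ℕ) : Cardinal) := by
  obtain ⟨ζ', -, h1, h2⟩ := lowj_top ζ
  refine lowj_trdeg h ζ' (fun G => ?_) h2
  rw [← hk, ← h1]
  exact ZeroMemClass.coe_eq_zero.symm

/-- The directional derivative at a point. -/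
noncomputable def lowjD {L : Type} [Field L] [Algebra ℂ L] (ζ w : σ → L)
    (G : MvPolynomial σ ℂ) : L := ∑ l, aeval ζ (pderiv l G) * w l

section D

variable {L : Type} [Field L] [Algebra ℂ L] (ζ w : σ → L)

theorem lowjD_add (g h : MvPolynomial σ ℂ) : lowjD ζ w (g + h) = lowjD ζ w g + lowjD ζ w h := by
  simp only [lowjD, map_add, add_mul, Finset.sum_add_distrib]

theorem lowjD_mul (g h : MvPolynomial σ ℂ) :
    lowjD ζ w (g * h) = aeval ζ g * lowjD ζ w h + aeval ζ h * lowjD ζ w g := by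
  simp only [lowjD, pderiv_mul, map_add, map_mul, Finset.mul_sum, ← Finset.sum_add_distrib]
  exact Finset.sum_congr rfl fun l _ => by ring

theorem lowjD_C (c : ℂ) : lowjD ζ w (C c) = 0 := by
  simp [lowjD]

theorem lowjD_X (l : σ) : lowjD ζ w (X l) = w l := by
  unfold lowjD
  rw [Finset.sum_eq_single l]
  · simp
  · intro k _ hk
    rw [pderiv_X_of_ne hk.symm, map_zero, zero_mul]
  · intro hl
    exact absurd (Finset.mem_univ l) hl

theorem lowjD_sum {α : Type} (s : Finset α) (g : α → MvPolynomial σ ℂ) :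
    lowjD ζ w (∑ a ∈ s, g a) = ∑ a ∈ s, lowjD ζ w (g a) := by
  simp only [lowjD, map_sum, Finset.sum_mul]
  exact Finset.sum_comm

theorem lowjD_pow (l : σ) (n : ℕ) : lowjD ζ w (X l ^ n) = n * ζ l ^ (n - 1) * w l := by
  induction n with
  | zero => simpa using lowjD_C ζ w 1
  | succ n ih =>
    rw [pow_succ, lowjD_mul, ih, lowjD_X, map_pow, aeval_X]
    rcases n with _ | n
    · simp
    · simp only [Nat.add_sub_cancel]
      push_cast
      ring

theorem lowj_der (hker : ∀ G, aeval ζ G = 0 → lowjD ζ w G = 0) (l : σ) {q : Polynomial L}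
    (hq : ∀ n, ∃ c, aeval ζ c = q.coeff n ∧ lowjD ζ w c = 0) (h0 : q.eval (ζ l) = 0) :
    q.derivative.eval (ζ l) * w l = 0 := by
  choose c hc hD using hq
  have h1 := hker (∑ n ∈ q.support, c n * X l ^ n) (by
    rw [← h0, Polynomial.eval_eq_sum, Polynomial.sum, map_sum]
    exact Finset.sum_congr rfl fun n _ => by rw [map_mul, map_pow, aeval_X, hc])
  rw [lowjD_sum] at h1
  rw [← h1, Polynomial.derivative_eval, Polynomial.sum, Finset.sum_mul]
  refine Finset.sum_congr rfl fun n _ => ?_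
  rw [lowjD_mul, hD, lowjD_pow, hc]
  ring

theorem lowj_zero (hker : ∀ G, aeval ζ G = 0 → lowjD ζ w G = 0) {l : σ} (hw : w l ≠ 0) (N : ℕ) :
    ∀ q : Polynomial L, q.natDegree ≤ N → (∀ n, ∃ c, aeval ζ c = q.coeff n ∧ lowjD ζ w c = 0) →
      q.eval (ζ l) = 0 → q = 0 := by
  have hc : CharZero L := charZero_of_injective_algebraMap (algebraMap ℂ L).injective
  have hb : ∀ q : Polynomial L, q.natDegree = 0 → q.eval (ζ l) = 0 → q = 0 := by
    intro q hq h0
    rw [Polynomial.eq_C_of_natDegree_eq_zero hq] at h0 ⊢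
    rw [Polynomial.eval_C] at h0
    rw [h0, map_zero]
  induction N with
  | zero => exact fun q hq _ h0 => hb q (Nat.le_zero.1 hq) h0
  | succ N ih =>
    intro q hq hc h0
    refine hb q (Polynomial.derivative_eq_zero.1 (ih _ ?_ ?_ ?_)) h0
    · have := Polynomial.natDegree_derivative_le q
      omega
    · intro n
      obtain ⟨c, h1, h2⟩ := hc (n + 1)
      refine ⟨c * C ((n : ℂ) + 1), ?_, ?_⟩
      · rw [map_mul, h1, Polynomial.coeff_derivative, aeval_C, map_add, map_natCast, map_one]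
      · rw [lowjD_mul, h2, lowjD_C, mul_zero, mul_zero, add_zero]
    · exact (mul_eq_zero.1 (lowj_der ζ w hker l hc h0)).resolve_right hw

theorem lowj_adj {v : ℕ} (t : Fin v → MvPolynomial σ ℂ) (ht : ∀ i, lowjD ζ w (t i) = 0) {b : L}
    (hb : b ∈ Algebra.adjoin ℂ (Set.range fun i => aeval ζ (t i))) :
    ∃ c, aeval ζ c = b ∧ lowjD ζ w c = 0 := by
  induction hb using Algebra.adjoin_induction with
  | mem x hx =>
    obtain ⟨i, rfl⟩ := hx
    exact ⟨t i, rfl, ht i⟩
  | algebraMap r => exact ⟨C r, aeval_C _ _, lowjD_C ζ w r⟩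
  | add x y _ _ hx hy =>
    obtain ⟨c, rfl, h1⟩ := hx
    obtain ⟨d, rfl, h2⟩ := hy
    exact ⟨c + d, map_add _ _ _, by rw [lowjD_add, h1, h2, add_zero]⟩
  | mul x y _ _ hx hy =>
    obtain ⟨c, rfl, h1⟩ := hx
    obtain ⟨d, rfl, h2⟩ := hy
    exact ⟨c * d, map_mul _ _ _, by rw [lowjD_mul, h1, h2, mul_zero, mul_zero, add_zero]⟩

end D

/-- Transversality of a normalisation at the generic point. -/
theorem jac_ne_zero {f : κ → MvPolynomial σ ℂ} {J : κ → σ} {L : Type} [Field L] [Algebra ℂ L]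
    (ζ : σ → L) (hJ : aeval ζ (minor f J) ≠ 0)
    (hD : ∀ G, aeval ζ G = 0 → ∀ k, aeval ζ (Dk f J k G) = 0) {v : ℕ}
    (t : Fin v → MvPolynomial σ ℂ)
    (halg : ∀ l, IsAlgebraic (Algebra.adjoin ℂ (Set.range fun i => aeval ζ (t i))) (ζ l))
    (ε : κ ⊕ Fin v ≃ σ) : aeval ζ (minor (Sum.elim f t) ε) ≠ 0 := by
  intro h0
  unfold minor at h0
  rw [AlgHom.map_det] at h0
  obtain ⟨w', hw', hM⟩ := Matrix.exists_mulVec_eq_zero_iff.2 h0
  let w : σ → L := fun l => w' (ε.symm l)
  have hw : ∀ i, lowjD ζ w (Sum.elim f t i) = 0 := by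
    intro i
    have h1 := congrFun hM i
    unfold lowjD
    rw [← Equiv.sum_comp ε]
    simp only [w, Equiv.symm_apply_apply]
    exact h1
  have htan : w ∈ tan f ζ := fun i => hw (Sum.inl i)
  have hker : ∀ G, aeval ζ G = 0 → lowjD ζ w G = 0 := fun G hG => tan_lemma hJ (hD G hG) htan
  apply hw'
  funext k
  by_contra hk
  have hk' : w (ε k) ≠ 0 := by
    simp only [w, Equiv.symm_apply_apply]
    exact hk
  obtain ⟨q, hq, hq0⟩ := halg (ε k)
  apply hq
  have h1 := lowj_zero ζ w hker hk' _ (q.map (algebraMap _ L)) le_rfl (fun n => by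
    rw [Polynomial.coeff_map]
    exact lowj_adj ζ w t (fun i => hw (Sum.inr i)) (q.coeff n).2) (by
    rw [Polynomial.eval_map_algebraMap]
    exact hq0)
  exact (Polynomial.map_eq_zero_iff Subtype.val_injective).1 h1

end Vale.Agent.P054A
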