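import Vale.Agent.P054A.ModQ

/-!
Distance quadruples on poor lines, and separators from spheres.
-/

namespace Vale.Agent.P054A

open MvPolynomial
open scoped Classical

variable {d : ℕ}

theorem nd_eq_nd2 (P : Finset (EuclideanSpace ℝ (Fin d))) :
    nd P = nd2 (P.image WithLp.ofLp) := by
  have h0 : ∀ p q : EuclideanSpace ℝ (Fin d), √(d2 p.ofLp q.ofLp) = dist p q := fun p q => by
    rw [EuclideanSpace.dist_eq]
    simp only [d2, Real.dist_eq, sq_abs]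
  have h1 : {r : ℝ | ∃ p ∈ P, ∃ q ∈ P, p ≠ q ∧ r = dist p q} = Real.sqrt ''
      (((P.image WithLp.ofLp).offDiag.image fun z => d2 z.1 z.2 : Finset ℝ) : Set ℝ) := by
    ext r
    simp only [Set.mem_ofPred_eq, Set.mem_image, Finset.mem_coe, Finset.mem_image,
      Finset.mem_offDiag]
    constructor
    · rintro ⟨p, hp, q, hq, hpq, rfl⟩
      exact ⟨_, ⟨(p.ofLp, q.ofLp), ⟨⟨p, hp, rfl⟩, ⟨q, hq, rfl⟩,
        fun h => hpq (WithLp.ofLp_injective 2 h)⟩, rfl⟩, h0 p q⟩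
    · rintro ⟨_, ⟨⟨_, _⟩, ⟨⟨p, hp, rfl⟩, ⟨q, hq, rfl⟩, hpq⟩, rfl⟩, rfl⟩
      exact ⟨p, hp, q, hq, fun h => hpq (by rw [h]), h0 p q⟩
  rw [nd, nd2, h1, Set.InjOn.ncard_image, Set.ncard_coe_finset]
  have h2 : ∀ r ∈ (((P.image WithLp.ofLp).offDiag.image fun z => d2 z.1 z.2 : Finset ℝ) : Set ℝ),
      0 ≤ r := by
    intro r hr
    obtain ⟨z, -, rfl⟩ := Finset.mem_image.1 hr
    exact Finset.sum_nonneg fun i _ => sq_nonneg _
  exact fun r hr r' hr' h => (Real.sqrt_inj (h2 r hr) (h2 r' hr')).1 h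

theorem ModA_iso {a : ℕ} (p : Fin d → ℝ) (U : Submodule ℝ (Fin d → ℝ))
    (hU : Module.finrank ℝ U = a) : ∃ φ : (Fin d → ℝ) → EuclideanSpace ℝ (Fin a),
      ∀ q q', q - p ∈ U → q' - p ∈ U →
        dist (φ q) (φ q') = dist (WithLp.toLp 2 q) (WithLp.toLp 2 q') := by
  let e := (WithLp.linearEquiv 2 ℝ (Fin d → ℝ)).symm
  let U' : Submodule ℝ (EuclideanSpace ℝ (Fin d)) := U.map e.toLinearMap
  have hU' : Module.finrank ℝ U' = a := by rw [← hU]; exact LinearEquiv.finrank_map_eq e U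
  let b := (stdOrthonormalBasis ℝ U').reindex (finCongr hU')
  have hm : ∀ q, q - p ∈ U → WithLp.toLp 2 (q - p) ∈ U' := fun q hq => ⟨q - p, hq, rfl⟩
  refine ⟨fun q => if h : q - p ∈ U then b.repr ⟨_, hm q h⟩ else 0, fun q q' h h' => ?_⟩
  simp only [dif_pos h, dif_pos h']
  rw [LinearIsometryEquiv.dist_map, Subtype.dist_eq]
  exact dist_sub_right (WithLp.toLp 2 q) (WithLp.toLp 2 q') (WithLp.toLp 2 p)

/-- The theorem in dimension `a` bounds the number of points on a flat of dimension `a`. -/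
theorem flat_bound {a : ℕ} (ha : Thm a) {ε : ℝ} (hε : 0 < ε) : ∃ n₀ : ℕ, ∀ (d : ℕ)
    (P : Finset (Fin d → ℝ)) (p : Fin d → ℝ) (U : Submodule ℝ (Fin d → ℝ)),
    Module.finrank ℝ U = a → n₀ ≤ (P.filter fun q => q - p ∈ U).card →
      ((P.filter fun q => q - p ∈ U).card : ℝ) ^ (2 / (a : ℝ) - ε) ≤ (nd2 P : ℝ) := by
  obtain ⟨n₀, hn₀⟩ := ha ε hε
  refine ⟨n₀, fun d P p U hU hn => ?_⟩
  obtain ⟨φ, hφ⟩ := ModA_iso p U hU
  set Q := P.filter fun q => q - p ∈ U with hQ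
  have hm : ∀ q ∈ Q, q - p ∈ U := fun q hq => (Finset.mem_filter.1 hq).2
  have hinj : ∀ q ∈ Q, ∀ q' ∈ Q, φ q = φ q' → q = q' := by
    intro q hq q' hq' h
    have h1 := hφ q q' (hm q hq) (hm q' hq')
    rw [h, dist_self, eq_comm, dist_eq_zero] at h1
    exact WithLp.toLp_injective 2 h1
  have hc : (Q.image φ).card = Q.card := Finset.card_image_of_injOn hinj
  have h1 := hn₀ (Q.image φ) (hc ▸ hn)
  have h2 : nd (Q.image φ) = nd (Q.image (WithLp.toLp 2)) := by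
    unfold nd
    congr 1
    ext r
    simp only [Set.mem_ofPred_eq, Finset.mem_image]
    constructor
    · rintro ⟨_, ⟨q, hq, rfl⟩, _, ⟨q', hq', rfl⟩, hne, rfl⟩
      exact ⟨_, ⟨q, hq, rfl⟩, _, ⟨q', hq', rfl⟩,
        fun h => hne (by rw [WithLp.toLp_injective 2 h]), hφ q q' (hm q hq) (hm q' hq')⟩
    · rintro ⟨_, ⟨q, hq, rfl⟩, _, ⟨q', hq', rfl⟩, hne, rfl⟩
      exact ⟨_, ⟨q, hq, rfl⟩, _, ⟨q', hq', rfl⟩, fun h => hne (by rw [hinj q hq q' hq' h]),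
        (hφ q q' (hm q hq) (hm q' hq')).symm⟩
  have h3 : (Q.image (WithLp.toLp 2)).image WithLp.ofLp = Q := by
    rw [Finset.image_image]
    exact Finset.image_id
  rw [hc, h2, nd_eq_nd2, h3] at h1
  exact h1.trans (by exact_mod_cast nd2_mono (Finset.filter_subset _ _))

end Vale.Agent.P054A
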