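import Vale.Agent.P054A.Defs
import Vale.Agent.P054.Beck

/-!
Distance quadruples on poor lines, and separators from spheres.
-/

namespace Vale.Agent.P054A

open MvPolynomial
open scoped Classical

variable {d : ℕ}

/-- Squared distance. -/
def d2 (p q : Fin d → ℝ) : ℝ := ∑ i, (p i - q i) ^ 2

/-- The number of distinct squared distances. -/
noncomputable def nd2 (P : Finset (Fin d → ℝ)) : ℕ :=
  (P.offDiag.image fun z => d2 z.1 z.2).card

theorem nd2_mono {P Q : Finset (Fin d → ℝ)} (h : P ⊆ Q) : nd2 P ≤ nd2 Q :=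
  Finset.card_le_card (Finset.image_subset_image (Finset.offDiag_mono h))

theorem modQ_zero {p q : Fin d → ℝ} (h : d2 p q = 0) : p = q := by
  funext i
  have := (Finset.sum_eq_zero_iff_of_nonneg fun i _ => sq_nonneg (p i - q i)).1 h i
    (Finset.mem_univ i)
  exact sub_eq_zero.1 (pow_eq_zero_iff two_ne_zero |>.1 this)

theorem modQ_eval (y y₀ : Fin d → ℝ) (ρ : ℝ) :
    eval (cx y) (∑ i, (X i - C (y₀ i : ℂ)) ^ 2 - C (ρ : ℂ) : MvPolynomial (Fin d) ℂ) =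
      ((d2 y y₀ - ρ : ℝ) : ℂ) := by
  simp [cx, d2]

theorem modQ_deg (y₀ : Fin d → ℝ) (ρ : ℝ) :
    (∑ i, (X i - C (y₀ i : ℂ)) ^ 2 - C (ρ : ℂ) : MvPolynomial (Fin d) ℂ).totalDegree ≤ 2 := by
  refine (totalDegree_sub _ _).trans (max_le ?_ (by rw [totalDegree_C]; omega))
  refine totalDegree_finsetSum_le fun i _ => (totalDegree_pow _ _).trans ?_
  have : (X i - C (y₀ i : ℂ) : MvPolynomial (Fin d) ℂ).totalDegree ≤ 1 :=
    (totalDegree_sub _ _).trans (max_le (totalDegree_X _).le (by rw [totalDegree_C]; omega))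
  omega

theorem sep_nc (P : Finset (Fin d → ℝ)) {τ : ℕ} (h : nd2 P ≤ τ) : SepZ P (2 * τ) 0 ⊤ 0 := by
  intro y₀ hy₀ _
  refine ⟨∏ ρ ∈ P.offDiag.image (fun z => d2 z.1 z.2),
    (∑ i, (X i - C (y₀ i : ℂ)) ^ 2 - C (ρ : ℂ)), ?_, fun a t => ?_, ?_, fun y hy _ hne => ?_⟩
  · refine (totalDegree_finsetProd _ _).trans ?_
    refine (Finset.sum_le_sum fun ρ _ => modQ_deg y₀ ρ).trans ?_
    rw [Finset.sum_const, smul_eq_mul]
    unfold nd2 at h
    omega
  · have : a + t • cx (0 : Fin d → ℝ) = a := by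
      funext i
      simp [cx]
    rw [this]
  · rw [map_prod]
    refine Finset.prod_ne_zero_iff.2 fun ρ hρ => ?_
    obtain ⟨z, hz, rfl⟩ := Finset.mem_image.1 hρ
    rw [modQ_eval, Complex.ofReal_ne_zero]
    have h0 : d2 y₀ y₀ = 0 := by simp [d2]
    rw [h0, zero_sub, neg_ne_zero]
    exact fun h1 => (Finset.mem_offDiag.1 hz).2.2 (modQ_zero h1)
  · rw [map_prod]
    refine Finset.prod_eq_zero (Finset.mem_image.2 ⟨(y, y₀),
      Finset.mem_offDiag.2 ⟨hy, hy₀, hne⟩, rfl⟩) ?_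
    rw [modQ_eval, sub_self, Complex.ofReal_zero]

theorem modQ_cs {α β : Type} (S : Finset α) (g : α → β) (D : Finset β) (h : ∀ a ∈ S, g a ∈ D) :
    S.card ^ 2 ≤ D.card * ((S ×ˢ S).filter fun z => g z.1 = g z.2).card := by
  have h1 := Finset.card_eq_sum_card_fiberwise (s := S) (t := D) (f := g) h
  have h2 := Finset.card_eq_sum_card_fiberwise (s := (S ×ˢ S).filter fun z => g z.1 = g z.2)
    (t := D) (f := fun z => g z.1)
    (fun z hz => h _ (Finset.mem_product.1 (Finset.mem_filter.1 hz).1).1)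
  have h3 : ∀ b ∈ D, (S.filter fun a => g a = b).card ^ 2 =
      (((S ×ˢ S).filter fun z => g z.1 = g z.2).filter fun z => g z.1 = b).card := by
    intro b _
    rw [sq, ← Finset.card_product]
    congr 1
    ext z
    simp only [Finset.mem_product, Finset.mem_filter]
    constructor
    · rintro ⟨⟨a1, a2⟩, a3, a4⟩
      exact ⟨⟨⟨a1, a3⟩, a2.trans a4.symm⟩, a2⟩
    · rintro ⟨⟨⟨a1, a3⟩, a2⟩, a4⟩
      exact ⟨⟨a1, a4⟩, a3, a2.symm.trans a4⟩
  rw [h2, ← Finset.sum_congr rfl h3]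
  conv_lhs => rw [h1]
  exact sq_sum_le_card_mul_sum_sq

theorem modQ_col (P : Finset (Fin d → ℝ)) {τ : ℕ} (h : nd2 P ≤ τ) {T : Finset (Fin d → ℝ)}
    (hT : T ⊆ P) (hc : P054.Col T) : T.card ≤ 2 * τ + 2 := by
  rcases T.eq_empty_or_nonempty with rfl | ⟨q₀, hq₀⟩
  · simp
  obtain ⟨p, v, hv⟩ := hc
  obtain ⟨r₀, e₀⟩ := hv q₀ hq₀
  have hd : ∀ r : ℝ, d2 q₀ (p + r • v) = (r - r₀) ^ 2 * ∑ i, v i ^ 2 := by
    intro r
    rw [e₀, d2, Finset.mul_sum]
    refine Finset.sum_congr rfl fun i _ => ?_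
    simp only [Pi.add_apply, Pi.smul_apply, smul_eq_mul]
    ring
  have h1 : (T.erase q₀).card ≤ 2 * (P.offDiag.image fun z => d2 z.1 z.2).card := by
    refine Finset.card_le_mul_card_image_of_maps_to (f := fun q => d2 q₀ q) (fun q hq => ?_) 2
      fun ρ _ => ?_
    · obtain ⟨h2, h3⟩ := Finset.mem_erase.1 hq
      exact Finset.mem_image.2 ⟨(q₀, q), Finset.mem_offDiag.2 ⟨hT hq₀, hT h3, h2.symm⟩, rfl⟩
    · rcases ((T.erase q₀).filter fun q => d2 q₀ q = ρ).eq_empty_or_nonempty with h0 | ⟨q₁, hq₁⟩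
      · rw [h0]; simp
      obtain ⟨h2, h3⟩ := Finset.mem_filter.1 hq₁
      obtain ⟨r₁, e₁⟩ := hv q₁ (Finset.mem_erase.1 h2).2
      refine le_trans (Finset.card_le_card (t := {p + r₁ • v, p + (2 * r₀ - r₁) • v})
        fun q hq => ?_) Finset.card_le_two
      obtain ⟨h4, h5⟩ := Finset.mem_filter.1 hq
      obtain ⟨r, e⟩ := hv q (Finset.mem_erase.1 h4).2
      have h6 : ∑ i, v i ^ 2 ≠ 0 := by
        intro h7
        refine (Finset.mem_erase.1 h4).1 (modQ_zero ?_).symm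
        rw [e, hd, h7, mul_zero]
      rw [e, hd] at h5
      rw [e₁, hd] at h3
      have h7 : (r - r₀) ^ 2 = (r₁ - r₀) ^ 2 := mul_right_cancel₀ h6 (h5.trans h3.symm)
      rw [Finset.mem_insert, Finset.mem_singleton, e]
      rcases sq_eq_sq_iff_eq_or_eq_neg.1 h7 with h8 | h8
      · left
        rw [show r = r₁ by linarith]
      · right
        rw [show r = 2 * r₀ - r₁ by linarith]
  have h2 := Finset.card_erase_add_one hq₀
  unfold nd2 at h
  omega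

theorem modQ_poor (P : Finset (Fin d → ℝ)) {τ : ℕ} (h : nd2 P ≤ τ)
    (hP : 10 ^ 12 * (τ + 1) ≤ P.card) :
    P.card ^ 2 ≤ 2 * (P.offDiag.filter fun z => (P054.ln P z.1 z.2).card ≤ 10 ^ 12).card := by
  have hn : (10 : ℝ) ^ 12 * (τ + 1) ≤ P.card := by exact_mod_cast hP
  have hτ : (0 : ℝ) ≤ τ := Nat.cast_nonneg τ
  have h1 := P054.richSqA P (κ := 10 ^ 12) (M := 2 * τ + 2) (by norm_num) (by positivity)
    (fun T hT hc => by exact_mod_cast modQ_col P h hT hc)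
  have h2 := P054.beck_pairs P (10 ^ 12)
  have h3 : (P.offDiag.filter fun z => ¬ (P054.ln P z.1 z.2).card ≤ 10 ^ 12).card ≤
      ∑ p ∈ P, ((P.erase p).filter fun q =>
        (10 : ℝ) ^ 12 ≤ ((P054.ln P p q).card : ℝ)).card := by
    rw [← Finset.card_sigma]
    refine Finset.card_le_card_of_injOn (fun z => ⟨z.1, z.2⟩) (fun z hz => ?_) ?_
    · obtain ⟨a1, a2⟩ := Finset.mem_filter.1 (Finset.mem_coe.1 hz)
      obtain ⟨a3, a4, a5⟩ := Finset.mem_offDiag.1 a1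
      refine Finset.mem_coe.2 (Finset.mem_sigma.2 ⟨a3, Finset.mem_filter.2
        ⟨Finset.mem_erase.2 ⟨a5.symm, a4⟩, ?_⟩⟩)
      exact_mod_cast (not_le.1 a2).le
    · intro z _ w _ e
      simp only [Sigma.mk.injEq, heq_eq_eq] at e
      exact Prod.ext e.1 e.2
  have h4 := Finset.card_filter_add_card_filter_not (s := P.offDiag)
    fun z => (P054.ln P z.1 z.2).card ≤ 10 ^ 12
  rw [Finset.offDiag_card] at h4
  have h5 : P.card ≤ P.card * P.card := Nat.le_mul_self _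
  have h6 : P.card * P.card ≤
      (P.offDiag.filter fun z => (P054.ln P z.1 z.2).card ≤ 10 ^ 12).card +
        ∑ T ∈ P054.rich P (10 ^ 12), T.card * T.card + P.card := by omega
  have h7 : (P.card : ℝ) * P.card ≤
      ((P.offDiag.filter fun z => (P054.ln P z.1 z.2).card ≤ 10 ^ 12).card : ℝ) +
        ∑ T ∈ P054.rich P (10 ^ 12), (T.card : ℝ) ^ 2 + P.card := by
    simp only [sq]
    exact_mod_cast h6
  have aux : ∀ n a b t : ℝ, 0 ≤ t → 10 ^ 12 * (t + 1) ≤ n → n * n ≤ a + b + n →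
      b ≤ 10 ^ 10 * (n ^ 2 / 10 ^ 12 + n * (2 * t + 2)) → n ^ 2 ≤ 2 * a := by
    intro n a b t e0 e1 e2 e3
    have e4 : 0 ≤ n := by linarith [show (0 : ℝ) ≤ 10 ^ 12 * (t + 1) by positivity]
    have e5 : n * (10 ^ 12 * (t + 1)) ≤ n * n := by gcongr
    have e6 : 0 ≤ n * t := by positivity
    nlinarith
  exact_mod_cast aux _ _ _ _ hτ hn h7 h1

theorem exists_quads (P : Finset (Fin d → ℝ)) {τ : ℕ} (h : nd2 P ≤ τ)
    (hP : 10 ^ 12 * (τ + 1) ≤ P.card) :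
    ∃ Q : Finset (((Fin d → ℝ) × (Fin d → ℝ)) × ((Fin d → ℝ) × (Fin d → ℝ))),
      P.card ^ 4 ≤ 4 * τ * Q.card ∧ ∀ e ∈ Q, e.1.1 ∈ P ∧ e.1.2 ∈ P ∧ e.2.1 ∈ P ∧ e.2.2 ∈ P ∧
        e.1.1 ≠ e.2.1 ∧ d2 e.1.1 e.2.1 = d2 e.1.2 e.2.2 ∧
        (P.filter fun q => q - e.1.1 ∈ Submodule.span ℝ {e.2.1 - e.1.1}).card ≤ 10 ^ 12 := by
  have h1 := modQ_poor P h hP
  set S := P.offDiag.filter fun z => (P054.ln P z.1 z.2).card ≤ 10 ^ 12 with hS
  have h2 := modQ_cs S (fun z => d2 z.1 z.2) (P.offDiag.image fun z => d2 z.1 z.2)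
    fun z hz => Finset.mem_image_of_mem _ (Finset.mem_filter.1 hz).1
  refine ⟨((S ×ˢ S).filter fun z => d2 z.1.1 z.1.2 = d2 z.2.1 z.2.2).image
    fun z => ((z.1.1, z.2.1), (z.1.2, z.2.2)), ?_, fun e he => ?_⟩
  · rw [Finset.card_image_of_injective]
    · calc P.card ^ 4 = (P.card ^ 2) ^ 2 := by ring
        _ ≤ (2 * S.card) ^ 2 := Nat.pow_le_pow_left h1 2
        _ = 4 * S.card ^ 2 := by ring
        _ ≤ 4 * (τ * ((S ×ˢ S).filter fun z => d2 z.1.1 z.1.2 = d2 z.2.1 z.2.2).card) :=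
          Nat.mul_le_mul_left 4 (h2.trans (Nat.mul_le_mul_right _ h))
        _ = _ := by ring
    · intro z w e
      simp only [Prod.mk.injEq] at e
      exact Prod.ext (Prod.ext e.1.1 e.2.1) (Prod.ext e.1.2 e.2.2)
  · obtain ⟨z, hz, rfl⟩ := Finset.mem_image.1 he
    obtain ⟨a1, a2⟩ := Finset.mem_filter.1 hz
    obtain ⟨a3, a4⟩ := Finset.mem_product.1 a1
    obtain ⟨a5, a6⟩ := Finset.mem_filter.1 a3
    obtain ⟨b1, b2, b3⟩ := Finset.mem_offDiag.1 a5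
    obtain ⟨b4, b5, -⟩ := Finset.mem_offDiag.1 (Finset.mem_filter.1 a4).1
    exact ⟨b1, b4, b2, b5, b3, a2, a6⟩

end Vale.Agent.P054A
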