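import Vale.Agent.P054A.Twist
import Vale.Agent.P054A.ModA
import Vale.Agent.P054A.Hil

/-!
Construction of the finite model.
-/

namespace Vale.Agent.P054A

open MvPolynomial Sum
open scoped Classical

theorem model_pull {σ τ : Type} [Fintype σ] [Fintype τ] (L : (τ → ℝ) →ₗ[ℝ] (σ → ℝ)) :
    ∃ Λ : (τ → ℂ) →ₗ[ℂ] (σ → ℂ), (∀ y, Λ (cx y) = cx (L y)) ∧ ∀ g₀ : MvPolynomial σ ℂ,
      ∃ g : MvPolynomial τ ℂ, g.totalDegree ≤ g₀.totalDegree ∧ ∀ a, eval a g = eval (Λ a) g₀ := by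
  refine ⟨Matrix.mulVecLin (Matrix.of fun i l => (L (Pi.single l 1) i : ℂ)), fun y => ?_,
    fun g₀ => ⟨aeval (fun i => ∑ l, C (L (Pi.single l 1) i : ℂ) * X l) g₀, ?_, fun a => ?_⟩⟩
  · funext i
    have h : y = ∑ l, y l • (Pi.single l 1 : τ → ℝ) := pi_eq_sum_univ' y
    conv_rhs => rw [h]
    simp [cx, Matrix.mulVec, dotProduct, mul_comm]
  · refine (totalDegree_aeval_le _ (s := 1) (fun i => ?_) g₀).trans (one_mul _).le
    refine totalDegree_finsetSum_le fun l _ => (totalDegree_mul _ _).trans ?_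
    rw [totalDegree_C, totalDegree_X, zero_add]
  · rw [← coe_aeval_eq_eval, ← coe_aeval_eq_eval]
    change aeval a (aeval _ g₀) = aeval _ g₀
    rw [← AlgHom.comp_apply, comp_aeval]
    congr 2
    funext i
    simp [Matrix.mulVec, dotProduct]

theorem model_cx0 {τ : Type} : cx (0 : τ → ℝ) = 0 := by
  funext i
  simp [cx]

theorem model_d2 {d : ℕ} (p q : Fin d → ℝ) : d2 p q = (p - q) ⬝ᵥ (p - q) := by
  simp [d2, dotProduct, sq]

/-- The form on pairs of vectors. -/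
noncomputable def modelF {d : ℕ} (w : (Fin d → ℝ) × (Fin d → ℝ)) :
    ((Fin d → ℝ) × (Fin d → ℝ)) →ₗ[ℝ] ℝ where
  toFun v := v.1 ⬝ᵥ w.1 - v.2 ⬝ᵥ w.2
  map_add' a b := by
    simp only [Prod.fst_add, Prod.snd_add, add_dotProduct]
    ring
  map_smul' c a := by
    simp only [Prod.smul_fst, Prod.smul_snd, smul_dotProduct, smul_eq_mul, RingHom.id_apply]
    ring

/-- The subspaces which the twist has to respect. -/
noncomputable def modelU {d : ℕ} (B : Finset ((Fin d → ℝ) × (Fin d → ℝ)))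
    (x y : (Fin d → ℝ) × (Fin d → ℝ)) : Submodule ℝ ((Fin d → ℝ) × (Fin d → ℝ)) :=
  Submodule.span ℝ ((fun v => v - x) '' (B : Set ((Fin d → ℝ) × (Fin d → ℝ)))) ⊓
    LinearMap.ker (modelF (y - x))

variable {k : ℕ} {T : ((Fin (k + 1) → ℝ) × (Fin (k + 1) → ℝ)) ≃ₗ[ℝ] (Tx k → ℝ)}

theorem model_map (hT : ∀ v w, bil (T v) (T w) = 2 * (v.1 ⬝ᵥ w.1 - v.2 ⬝ᵥ w.2))
    (B : Finset (Tx k → ℝ)) (x y : (Fin (k + 1) → ℝ) × (Fin (k + 1) → ℝ)) :
    (modelU (B.image T.symm) x y).map T.toLinearMap = spd B (T x) ⊓ perp (T y - T x) := by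
  rw [modelU, Submodule.map_inf _ T.injective, Submodule.map_span, spd]
  congr 1
  · congr 1
    rw [Finset.coe_image, Set.image_image, Set.image_image]
    refine Set.image_congr fun v _ => ?_
    simp
  · ext v
    obtain ⟨w, rfl⟩ := T.surjective v
    rw [← map_sub]
    change _ ↔ bil (T w) (T (y - x)) = 0
    rw [hT, Submodule.mem_map_equiv, T.symm_apply_apply, LinearMap.mem_ker]
    change w.1 ⬝ᵥ (y - x).1 - w.2 ⬝ᵥ (y - x).2 = 0 ↔ _
    rw [mul_eq_zero, or_iff_right two_ne_zero]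

theorem model_inj (hT : ∀ v w, bil (T v) (T w) = 2 * (v.1 ⬝ᵥ w.1 - v.2 ⬝ᵥ w.2))
    {U : Submodule ℝ (Tx k → ℝ)} (hU : Iso U) {v : Tx k → ℝ} (hv : v ∈ U)
    (h : (T.symm v).1 = 0) : v = 0 := by
  obtain ⟨w, rfl⟩ := T.surjective v
  rw [T.symm_apply_apply] at h
  have h1 := hU _ hv _ hv
  rw [hT, h, dotProduct_zero, zero_sub, mul_eq_zero, or_iff_right two_ne_zero, neg_eq_zero,
    dotProduct_self_eq_zero] at h1
  rw [show w = 0 from Prod.ext h h1, map_zero]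

theorem model_cnt (hT : ∀ v w, bil (T v) (T w) = 2 * (v.1 ⬝ᵥ w.1 - v.2 ⬝ᵥ w.2))
    (P : Finset (Fin (k + 1) → ℝ)) {U : Submodule ℝ (Tx k → ℝ)} (hU : Iso U) (x : Tx k → ℝ)
    {U₁ : Submodule ℝ (Fin (k + 1) → ℝ)} (h1 : ∀ v ∈ U, (T.symm v).1 ∈ U₁) :
    (((P ×ˢ P).image T).filter fun y => y - x ∈ U).card ≤
      (P.filter fun q => q - (T.symm x).1 ∈ U₁).card := by
  refine Finset.card_le_card_of_injOn (fun y => (T.symm y).1) (fun y hy => ?_)
    fun y hy y' hy' e => ?_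
  · obtain ⟨h2, h3⟩ := Finset.mem_filter.1 (Finset.mem_coe.1 hy)
    obtain ⟨w, hw, rfl⟩ := Finset.mem_image.1 h2
    refine Finset.mem_coe.2 (Finset.mem_filter.2 ⟨?_, ?_⟩)
    · simp only [T.symm_apply_apply]
      exact (Finset.mem_product.1 hw).1
    · have h4 := h1 _ h3
      rwa [map_sub] at h4
  · have h2 := U.sub_mem (Finset.mem_filter.1 (Finset.mem_coe.1 hy)).2
      (Finset.mem_filter.1 (Finset.mem_coe.1 hy')).2
    rw [sub_sub_sub_cancel_right] at h2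
    refine sub_eq_zero.1 (model_inj hT hU h2 ?_)
    rw [map_sub, Prod.fst_sub]
    exact sub_eq_zero.2 e

theorem model_fin {k : ℕ} (hk : 1 ≤ k) (P : Finset (Fin (k + 1) → ℝ)) {τ M : ℕ} (h : nd2 P ≤ τ)
    (hP : 10 ^ 12 * (τ + 1) ≤ P.card) (hM : 2 * τ ≤ M) {Ψ : MvPolynomial (Fin (k + 1)) ℂ} {r : ℕ}
    (h0 : Ψ ≠ 0) (hΨ : Ψ.IsHomogeneous r)
    (hs : ∀ z : Fin (k + 1) → ℝ, eval (cx z) Ψ ≠ 0 → SepZ P M 0 ⊤ z) (K : ℕ → ℕ)
    (hK1 : 10 ^ 12 ≤ K 1)
    (hK : ∀ p ∈ P, ∀ U : Submodule ℝ (Fin (k + 1) → ℝ), 2 ≤ Module.finrank ℝ U →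
      (P.filter fun q => q - p ∈ U).card ≤ K (Module.finrank ℝ U)) :
    ∃ (X : Finset (Tx k → ℝ)) (E : Finset (Ed k)), Mod X E (2 * M) K ∧ X.card = P.card ^ 2 ∧
      P.card ^ 4 ≤ 4 * τ * E.card := by
  obtain ⟨Q, hQ, hQ'⟩ := exists_quads P h hP
  obtain ⟨T, hT, hZ, hS⟩ := exists_twist hk
    (((P ×ˢ P).powerset ×ˢ (P ×ˢ P) ×ˢ (P ×ˢ P)).image fun w => modelU w.1 w.2.1 w.2.2)
    (Q.image fun e => e.1 - e.2) (fun z hz => by
      obtain ⟨e, he, rfl⟩ := Finset.mem_image.1 hz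
      exact fun h1 => (hQ' e he).2.2.2.2.1 (sub_eq_zero.1 (congrArg Prod.fst h1))) h0 hΨ
  obtain ⟨Λ₁, a1, a2⟩ := model_pull (LinearMap.fst ℝ _ _ ∘ₗ T.symm.toLinearMap)
  obtain ⟨Λ₂, a3, a4⟩ := model_pull (LinearMap.snd ℝ _ _ ∘ₗ T.symm.toLinearMap)
  have b1 : ∀ w, Λ₁ (cx (T w)) = cx w.1 := fun w => by rw [a1]; simp
  have b2 : ∀ w, Λ₂ (cx (T w)) = cx w.2 := fun w => by rw [a3]; simp
  have hn : ∀ e ∈ Q, (e.1 - e.2).1 ⬝ᵥ (e.1 - e.2).1 - (e.1 - e.2).2 ⬝ᵥ (e.1 - e.2).2 = 0 := by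
    intro e he
    rw [Prod.fst_sub, Prod.snd_sub, ← model_d2, ← model_d2, (hQ' e he).2.2.2.2.2.1, sub_self]
  refine ⟨(P ×ˢ P).image T, Q.image (Prod.map T T), ⟨?_, ?_, ?_, ?_, ?_⟩, ?_, ?_⟩
  · intro e0 he0
    obtain ⟨e, he, rfl⟩ := Finset.mem_image.1 he0
    obtain ⟨c1, c2, c3, c4, -⟩ := hQ' e he
    refine ⟨Finset.mem_image_of_mem _ (Finset.mem_product.2 ⟨c1, c2⟩),
      Finset.mem_image_of_mem _ (Finset.mem_product.2 ⟨c3, c4⟩), ?_, ?_⟩
    · change bil (T e.1 - T e.2) (T e.1 - T e.2) = 0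
      rw [← map_sub, hT, hn e he, mul_zero]
    · have c5 := hZ _ (Finset.mem_image_of_mem _ he)
      rw [map_sub] at c5
      exact sub_ne_zero.1 c5
  · intro y₀ hy₀ _
    obtain ⟨w₀, hw₀, rfl⟩ := Finset.mem_image.1 hy₀
    obtain ⟨g₁, c1, -, c2, c3⟩ := sep_nc P h w₀.1 (Finset.mem_product.1 hw₀).1 Submodule.mem_top
    obtain ⟨g₂, c4, -, c5, c6⟩ := sep_nc P h w₀.2 (Finset.mem_product.1 hw₀).2 Submodule.mem_top
    obtain ⟨G₁, d1, d2⟩ := a2 g₁
    obtain ⟨G₂, d3, d4⟩ := a4 g₂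
    refine ⟨G₁ * G₂, (totalDegree_mul _ _).trans (by omega), fun a t => ?_, ?_, fun y hy _ hne => ?_⟩
    · rw [model_cx0, smul_zero, add_zero]
    · rw [map_mul, d2, d4, b1, b2]
      exact mul_ne_zero c2 c5
    · obtain ⟨w, hw, rfl⟩ := Finset.mem_image.1 hy
      rw [map_mul, d2, d4, b1, b2]
      by_cases e1 : w.1 = w₀.1
      · have e2 : w.2 ≠ w₀.2 := fun e2 => hne (by rw [show w = w₀ from Prod.ext e1 e2])
        rw [c6 _ (Finset.mem_product.1 hw).2 Submodule.mem_top e2, mul_zero]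
      · rw [c3 _ (Finset.mem_product.1 hw).1 Submodule.mem_top e1, zero_mul]
  · intro B hB x hx y hy hr
    obtain ⟨x, hx', rfl⟩ := Finset.mem_image.1 hx
    obtain ⟨y, hy', rfl⟩ := Finset.mem_image.1 hy
    have c1 : B.image T.symm ∈ (P ×ˢ P).powerset := by
      refine Finset.mem_powerset.2 fun w hw => ?_
      obtain ⟨v, hv, rfl⟩ := Finset.mem_image.1 hw
      obtain ⟨w, hw, rfl⟩ := Finset.mem_image.1 (hB hv)
      rwa [T.symm_apply_apply]
    have c2 := hS (modelU (B.image T.symm) x y) (Finset.mem_image.2 ⟨(B.image T.symm, x, y),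
      Finset.mem_product.2 ⟨c1, Finset.mem_product.2 ⟨hx', hy'⟩⟩, rfl⟩)
    rw [← T.finrank_map_eq, model_map hT] at c2
    rcases c2 hr with c3 | ⟨c3, c4, z, -, c5, c6, c7⟩
    · exact Or.inl c3
    refine Or.inr ⟨c3, c4, T z, fun e => c5 (T.map_eq_zero_iff.1 e), c6, fun y₀ hy₀ hU => ?_⟩
    obtain ⟨w₀, hw₀, rfl⟩ := Finset.mem_image.1 hy₀
    obtain ⟨g, d1, d2, d3, d4⟩ := hs z.1 c7 w₀.1 (Finset.mem_product.1 hw₀).1 Submodule.mem_top
    obtain ⟨G, d5, d6⟩ := a2 g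
    refine ⟨G, by omega, fun a t => ?_, ?_, fun v hv hv' hne => ?_⟩
    · rw [d6, d6, map_add, map_smul, b1, d2]
    · rwa [d6, b1]
    · obtain ⟨w, hw, rfl⟩ := Finset.mem_image.1 hv
      rw [d6, b1]
      refine d4 _ (Finset.mem_product.1 hw).1 Submodule.mem_top fun e => hne ?_
      have d7 := Submodule.sub_mem _ hv' hU
      rw [sub_sub_sub_cancel_right] at d7
      refine sub_eq_zero.1 (model_inj hT c3 d7 ?_)
      rw [← map_sub, T.symm_apply_apply, Prod.fst_sub, e, sub_self]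
  · intro x hx U hU hr
    obtain ⟨x, hx', rfl⟩ := Finset.mem_image.1 hx
    have c1 : Module.finrank ℝ (U.map (LinearMap.fst ℝ _ _ ∘ₗ T.symm.toLinearMap)) =
        Module.finrank ℝ U := by
      rw [← LinearMap.range_domRestrict]
      refine LinearMap.finrank_range_of_inj ((injective_iff_map_eq_zero _).2 fun v hv => ?_)
      exact Subtype.ext (model_inj hT hU v.2 hv)
    refine (model_cnt hT P hU _ (U₁ := U.map (LinearMap.fst ℝ _ _ ∘ₗ T.symm.toLinearMap))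
      fun v hv => Submodule.mem_map_of_mem hv).trans ?_
    rw [← c1] at hr ⊢
    rw [T.symm_apply_apply]
    exact hK _ (Finset.mem_product.1 hx').1 _ hr
  · intro e0 he0
    obtain ⟨e, he, rfl⟩ := Finset.mem_image.1 he0
    have c1 : Iso (Submodule.span ℝ {T e.2 - T e.1}) := by
      intro v hv w hw
      obtain ⟨a, rfl⟩ := Submodule.mem_span_singleton.1 hv
      obtain ⟨b, rfl⟩ := Submodule.mem_span_singleton.1 hw
      have c2 := hn e he
      rw [← map_sub, ← map_smul, ← map_smul, hT, ← neg_sub e.1 e.2]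
      simp only [Prod.smul_fst, Prod.smul_snd, Prod.fst_neg, Prod.snd_neg, smul_dotProduct,
        dotProduct_smul, neg_dotProduct, dotProduct_neg, smul_eq_mul]
      linear_combination 2 * a * b * c2
    refine (model_cnt hT P c1 (T e.1) (U₁ := Submodule.span ℝ {e.2.1 - e.1.1})
      fun v hv => ?_).trans ?_
    · obtain ⟨a, rfl⟩ := Submodule.mem_span_singleton.1 hv
      rw [← map_sub, ← map_smul, T.symm_apply_apply]
      exact Submodule.smul_mem _ a (Submodule.mem_span_singleton_self _)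
    · rw [T.symm_apply_apply]
      exact (hQ' e he).2.2.2.2.2.2.trans hK1
  · rw [Finset.card_image_of_injective _ T.injective, Finset.card_product, sq]
  · rwa [Finset.card_image_of_injective _ (T.injective.prodMap T.injective)]

end Vale.Agent.P054A
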