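import Vale.Agent.P054A.Defs

/-!
Polynomials vanishing to high order on a grid, and degrees of minimal polynomials.
-/

namespace Vale.Agent.P054A

open MvPolynomial
open scoped Classical

theorem msz_der {σ : Type} (I : Ideal (MvPolynomial σ ℂ)) (i : σ) (r : ℕ) :
    ∀ G ∈ I ^ (r + 1), pderiv i G ∈ I ^ r := by
  induction r with
  | zero => intro G _; simp
  | succ r ih =>
    intro G hG
    rw [pow_succ] at hG
    refine Submodule.mul_induction_on hG (fun a ha b hb => ?_) fun a b ha hb => ?_
    · rw [Derivation.leibniz, smul_eq_mul, smul_eq_mul]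
      refine Ideal.add_mem _ (Ideal.mul_mem_right _ _ ha) ?_
      rw [mul_comm, pow_succ]
      exact Ideal.mul_mem_mul (ih a ha) hb
    · rw [map_add]; exact Ideal.add_mem _ ha hb

/-- iterated partial derivatives -/
noncomputable def mszD {σ : Type} (l : List σ) (G : MvPolynomial σ ℂ) : MvPolynomial σ ℂ :=
  l.foldr (fun i H => pderiv i H) G

theorem msz_ord {σ : Type} (I : Ideal (MvPolynomial σ ℂ)) (l : List σ) :
    ∀ r, ∀ G ∈ I ^ (r + l.length), mszD l G ∈ I ^ r := by
  induction l with
  | nil => intro r G hG; exact hG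
  | cons i l ih =>
    intro r G hG
    exact msz_der I i r _ (ih (r + 1) G (by rwa [List.length_cons, ← add_assoc,
      add_right_comm] at hG))

theorem msz_deg1 {σ : Type} (i : σ) (G : MvPolynomial σ ℂ) :
    (pderiv i G).totalDegree ≤ G.totalDegree := by
  conv_lhs => rw [G.as_sum, map_sum]
  refine totalDegree_finsetSum_le fun α hα => ?_
  rw [pderiv_monomial]
  refine (totalDegree_monomial_le _ _).trans (le_trans ?_ (le_totalDegree hα))
  exact Finsupp.sum_le_sum_index tsub_le_self (fun _ _ => monotone_id) fun _ _ => rfl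

theorem msz_deg {σ : Type} (l : List σ) (G : MvPolynomial σ ℂ) :
    (mszD l G).totalDegree ≤ G.totalDegree := by
  induction l with
  | nil => exact le_rfl
  | cons i l ih => exact (msz_deg1 i _).trans ih

/-- restriction to an axis parallel line -/
noncomputable def mszL {σ : Type} [DecidableEq σ] (a : σ → ℂ) (j : σ) : MvPolynomial σ ℂ →ₐ[ℂ] Polynomial ℂ :=
  aeval fun i => if i = j then Polynomial.X else Polynomial.C (a i)

theorem mszL_eval {σ : Type} [DecidableEq σ] (a : σ → ℂ) (j : σ) (t : ℂ) (G : MvPolynomial σ ℂ) :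
    (mszL a j G).eval t = eval (Function.update a j t) G := by
  induction G using MvPolynomial.induction_on with
  | C c => simp [mszL]
  | add p q hp hq => simp [hp, hq]
  | mul_X p i hp =>
    rw [map_mul, map_mul, Polynomial.eval_mul, hp]
    by_cases h : i = j <;> simp [mszL, h]

theorem mszL_der {σ : Type} [DecidableEq σ] (a : σ → ℂ) (j : σ) (G : MvPolynomial σ ℂ) :
    (mszL a j G).derivative = mszL a j (pderiv j G) := by
  induction G using MvPolynomial.induction_on with
  | C c => simp [mszL]
  | add p q hp hq => simp [hp, hq]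
  | mul_X p i hp =>
    rw [map_mul, Polynomial.derivative_mul, hp, Derivation.leibniz, smul_eq_mul, smul_eq_mul,
      map_add, map_mul, map_mul]
    by_cases h : i = j
    · subst h; simp [mszL]; ring
    · simp [mszL, h, pderiv_X_of_ne h]; ring

theorem mszL_iter {σ : Type} [DecidableEq σ] (a : σ → ℂ) (j : σ) (G : MvPolynomial σ ℂ) (m : ℕ) :
    Polynomial.derivative^[m] (mszL a j G) = mszL a j (mszD (List.replicate m j) G) := by
  induction m with
  | zero => rfl
  | succ m ih => rw [Function.iterate_succ_apply', ih, mszL_der]; rfl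

theorem msz_uni (g : Polynomial ℂ) (S : Finset ℂ) (p : ℕ)
    (h : ∀ t ∈ S, ∀ m ≤ p, (Polynomial.derivative^[m] g).IsRoot t)
    (hd : g.natDegree < S.card * (p + 1)) : g = 0 := by
  by_contra hg
  have h1 : S.card * (p + 1) ≤ ∑ t ∈ S, g.roots.count t := by
    rw [← smul_eq_mul]
    refine Finset.card_nsmul_le_sum _ _ _ fun t ht => ?_
    rw [Polynomial.count_roots]
    exact Polynomial.lt_rootMultiplicity_of_isRoot_iterate_derivative hg (h t ht)
  have h2 : ∑ t ∈ S, g.roots.count t ≤ g.roots.card := by
    rw [← Multiset.toFinset_sum_count_eq]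
    refine Finset.sum_le_sum_of_ne_zero fun t _ ht => ?_
    exact Multiset.mem_toFinset.2 (Multiset.count_ne_zero.1 ht)
  have h3 := Polynomial.card_roots' g
  omega

/-- A polynomial of degree at most `δ M` vanishing to order `δ` on a large grid is zero. -/
theorem msz {v δ M : ℕ} (hδ : 1 ≤ δ) (S : Fin v → Finset ℂ) (hS : ∀ i, (S i).card = v * M + 1)
    (E F : MvPolynomial (Fin v) ℂ) (hF : F.totalDegree ≤ δ * M)
    (h : ∀ a : Fin v → ℂ, (∀ i, a i ∈ S i) → eval a E ≠ 0 ∧ E ^ δ * F ∈ vanI {a} ^ δ) :
    F = 0 := by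
  have h1 : ∀ a : Fin v → ℂ, (∀ i, a i ∈ S i) → F ∈ vanI {a} ^ δ := fun a ha => by
    obtain ⟨h2, h3⟩ := h a ha
    have hx : 1 - C (eval a E)⁻¹ * E ∈ vanI {a} := fun p hp => by
      rw [Set.mem_singleton_iff.1 hp]; simp [h2]
    have hc : IsCoprime E (1 - C (eval a E)⁻¹ * E) := ⟨C (eval a E)⁻¹, 1, by ring⟩
    obtain ⟨u, w, huw⟩ := hc.pow (m := δ) (n := δ)
    have e : F = u * (E ^ δ * F) + w * F * (1 - C (eval a E)⁻¹ * E) ^ δ := by
      linear_combination (-F) * huw
    rw [e]
    exact Ideal.add_mem _ (Ideal.mul_mem_left _ _ h3)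
      (Ideal.mul_mem_left _ _ (Ideal.pow_mem_pow hx δ))
  set n := δ * M / (v * M + 1) with hn
  have key : ∀ j, j ≤ v → ∀ a : Fin v → ℂ, (∀ i : Fin v, j ≤ i.val → a i ∈ S i) →
      ∀ l : List (Fin v), l.length + j * n < δ → eval a (mszD l F) = 0 := by
    intro j
    induction j with
    | zero =>
      intro _ a ha l hl
      have h2 := msz_ord (vanI {a}) l 1 F
        (Ideal.pow_le_pow_right (by omega) (h1 a fun i => ha i (Nat.zero_le _)))
      rw [pow_one] at h2
      exact h2 a rfl
    | succ j ih =>
      intro hj a ha l hl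
      have h2 : mszL a ⟨j, hj⟩ (mszD l F) = 0 := by
        refine msz_uni _ (S ⟨j, hj⟩) n (fun t ht m hm => ?_) ?_
        · rw [mszL_iter, Polynomial.IsRoot, mszL_eval]
          have h3 := ih (by omega) (Function.update a ⟨j, hj⟩ t) (fun i hi => ?_)
            (List.replicate m ⟨j, hj⟩ ++ l) (by
              rw [List.length_append, List.length_replicate]
              have : (j + 1) * n = j * n + n := by ring
              omega)
          · rw [mszD, List.foldr_append] at h3
            exact h3
          · by_cases e : i = ⟨j, hj⟩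
            · subst e; rwa [Function.update_self]
            · rw [Function.update_of_ne e]
              exact ha i (by have := Fin.val_ne_of_ne e; simp only at this; omega)
        · have h4 : (mszL a ⟨j, hj⟩ (mszD l F)).natDegree ≤ δ * M * 1 :=
            aeval_natDegree_le _ ((msz_deg l F).trans hF) _ fun i => by
              split_ifs <;> simp
          rw [hS]
          have := Nat.lt_mul_div_succ (δ * M) (show 0 < v * M + 1 by omega)
          rw [← hn] at this
          omega
      have h5 := mszL_eval a ⟨j, hj⟩ (a ⟨j, hj⟩) (mszD l F)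
      rw [h2, Function.update_eq_self, Polynomial.eval_zero] at h5
      exact h5.symm
  refine MvPolynomial.funext fun a => ?_
  rw [map_zero]
  refine key v le_rfl a (fun i hi => absurd i.2 (by omega)) [] ?_
  have h2 : n * (v * M + 1) ≤ δ * M := Nat.div_mul_le_self _ _
  by_contra h3
  have h4 : δ * M ≤ v * n * M := Nat.mul_le_mul_right _ (by simpa using h3)
  have h5 : n = 0 := by nlinarith
  rw [h5] at h3
  simp at h3
  omega

/-- A grid avoiding a hypersurface. -/
theorem exists_grid {v : ℕ} (N : ℕ) {E : MvPolynomial (Fin v) ℂ} (hE : E ≠ 0) :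
    ∃ S : Fin v → Finset ℂ, (∀ i, (S i).card = N) ∧
      ∀ a : Fin v → ℂ, (∀ i, a i ∈ S i) → eval a E ≠ 0 := by
  let G : MvPolynomial (Fin v × Fin N) ℂ :=
    (∏ φ : Fin v → Fin N, rename (fun i => (i, φ i)) E) *
      ∏ p ∈ Finset.univ.filter fun p : (Fin v × Fin N) × (Fin v × Fin N) => p.1 ≠ p.2,
        (X p.1 - X p.2)
  have hG : G ≠ 0 := by
    refine mul_ne_zero (Finset.prod_ne_zero_iff.2 fun φ _ h => hE ?_)
      (Finset.prod_ne_zero_iff.2 fun p hp h => ?_)
    · exact rename_injective _ (fun _ _ h => congrArg Prod.fst h) (h.trans (map_zero _).symm)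
    · exact (Finset.mem_filter.1 hp).2 (X_injective (sub_eq_zero.1 h))
  obtain ⟨x, hx⟩ : ∃ x, eval x G ≠ 0 := by
    by_contra h
    push Not at h
    exact hG (MvPolynomial.funext fun x => by rw [h x, map_zero])
  rw [map_mul, map_prod, map_prod, mul_ne_zero_iff, Finset.prod_ne_zero_iff,
    Finset.prod_ne_zero_iff] at hx
  refine ⟨fun i => Finset.univ.image fun k => x (i, k), fun i => ?_, fun a ha => ?_⟩
  · rw [Finset.card_image_of_injective, Finset.card_univ, Fintype.card_fin]
    intro k k' hk
    by_contra hne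
    refine hx.2 ((i, k), (i, k')) (by simpa using hne) ?_
    simpa [sub_eq_zero] using hk
  · choose φ _ hφ using fun i => Finset.mem_image.1 (ha i)
    have h := hx.1 φ (Finset.mem_univ _)
    rw [eval_rename] at h
    rwa [show a = x ∘ fun i => (i, φ i) from funext fun i => (hφ i).symm]

/-- scaling of the variables -/
noncomputable def mszP (τ : Type) : MvPolynomial τ ℂ →ₐ[ℂ] Polynomial (MvPolynomial τ ℂ) :=
  aeval fun i => Polynomial.C (X i) * Polynomial.X

theorem mszP_mon {τ : Type} (α : τ →₀ ℕ) (c : ℂ) :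
    mszP τ (monomial α c) = Polynomial.monomial (α.sum fun _ e => e) (monomial α c) := by
  rw [mszP, aeval_monomial, ← Polynomial.C_mul_X_pow_eq_monomial, monomial_eq, Finsupp.prod,
    Finsupp.prod, Finsupp.sum, map_mul, map_prod, mul_assoc]
  simp only [mul_pow, Finset.prod_mul_distrib, Finset.prod_pow_eq_pow_sum, map_pow]
  rfl

theorem mszP_deg {τ : Type} (c : MvPolynomial τ ℂ) : (mszP τ c).natDegree = c.totalDegree := by
  apply le_antisymm
  · conv_lhs => rw [c.as_sum, map_sum]
    refine Polynomial.natDegree_sum_le_of_forall_le _ _ fun α hα => ?_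
    rw [mszP_mon]
    exact (Polynomial.natDegree_monomial_le _).trans (le_totalDegree hα)
  · refine Finset.sup_le fun α hα => Polynomial.le_natDegree_of_ne_zero fun h => ?_
    have h1 := congrArg (coeff α) h
    conv_lhs at h1 => rw [c.as_sum, map_sum, Polynomial.finsetSum_coeff, coeff_sum]
    rw [Finset.sum_eq_single α] at h1
    · simp [mszP_mon] at h1
      exact mem_support_iff.1 hα h1
    · intro β _ hβ
      rw [mszP_mon, Polynomial.coeff_monomial]
      split_ifs
      · rw [coeff_monomial, if_neg hβ]
      · rfl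
    · exact fun h => absurd hα h

/-- weighted scaling -/
noncomputable def mszQ (τ : Type) (M : ℕ) :
    Polynomial (MvPolynomial τ ℂ) →+* Polynomial (Polynomial (MvPolynomial τ ℂ)) :=
  Polynomial.eval₂RingHom (S := Polynomial (Polynomial (MvPolynomial τ ℂ)))
    ((Polynomial.mapRingHom (Polynomial.C (R := MvPolynomial τ ℂ))).comp (mszP τ).toRingHom)
    (Polynomial.C (Polynomial.X (R := MvPolynomial τ ℂ)) * Polynomial.X ^ M)

theorem mszQ_monic {τ : Type} (M : ℕ) {Q : Polynomial (MvPolynomial τ ℂ)} (hQ : Q.Monic) :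
    mszQ τ M Q ≠ 0 ∧ Q.natDegree * M ≤ (mszQ τ M Q).natDegree := by
  have e : ∀ P : Polynomial (MvPolynomial τ ℂ),
      (mszQ τ M P).map (Polynomial.mapRingHom constantCoeff) =
        ((P.map constantCoeff).map Polynomial.C).comp
          (Polynomial.C Polynomial.X * Polynomial.X ^ M) := by
    intro P
    induction P using Polynomial.induction_on' with
    | add p q hp hq => simp [hp, hq]
    | monomial n c =>
      have hc : (((mszP τ c).map Polynomial.C).map
          (Polynomial.mapRingHom (constantCoeff : MvPolynomial τ ℂ →+* ℂ))) =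
          Polynomial.C (Polynomial.C (constantCoeff c)) := by
        induction c using MvPolynomial.induction_on with
        | C a => simp [mszP]
        | add p q hp hq => simp [hp, hq]
        | mul_X p i hp => rw [map_mul, Polynomial.map_mul, Polynomial.map_mul, hp]; simp [mszP]
      simp [mszQ, hc]
  have h1 := e Q
  have hm := (hQ.map (constantCoeff : MvPolynomial τ ℂ →+* ℂ)).map
    (Polynomial.C : ℂ →+* Polynomial ℂ)
  have h2 := Polynomial.natDegree_map_le (p := mszQ τ M Q)
    (f := Polynomial.mapRingHom (constantCoeff : MvPolynomial τ ℂ →+* ℂ))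
  rw [h1, Polynomial.natDegree_comp, (hQ.map _).natDegree_map, hQ.natDegree_map,
    Polynomial.natDegree_C_mul_X_pow _ _ Polynomial.X_ne_zero] at h2
  refine ⟨fun h => ?_, h2⟩
  have h3 := congrArg (Polynomial.eval 1) h
  have e2 : ∀ P : Polynomial (MvPolynomial τ ℂ), (mszQ τ M P).eval 1 = P := by
    intro P
    induction P using Polynomial.induction_on' with
    | add p q hp hq => simp [hp, hq]
    | monomial n c =>
      have hc : ((mszP τ c).map Polynomial.C).eval 1 = Polynomial.C c := by
        induction c using MvPolynomial.induction_on with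
        | C a => simp [mszP]
        | add p q hp hq => simp [hp, hq]
        | mul_X p i hp => rw [map_mul, Polynomial.map_mul, Polynomial.eval_mul, hp]; simp [mszP]
      simp [mszQ, hc, Polynomial.C_mul_X_pow_eq_monomial]
  rw [e2, Polynomial.eval_zero] at h3
  exact hQ.ne_zero h3

/-- A monic factor of a polynomial with weighted degree bounds has the same bounds. -/
theorem deg_coeff_zero_le {τ : Type} {M : ℕ} {P Q : Polynomial (MvPolynomial τ ℂ)}
    (hP : P.Monic) (hQ : Q.Monic) (hd : Q ∣ P)
    (h : ∀ i, i ≤ P.natDegree → (P.coeff i).totalDegree ≤ (P.natDegree - i) * M) :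
    (Q.coeff 0).totalDegree ≤ Q.natDegree * M := by
  obtain ⟨R, hR⟩ := hd
  have hRm : R.Monic := hQ.of_mul_monic_left (hR ▸ hP)
  have h1 : (mszQ τ M P).natDegree ≤ P.natDegree * M := by
    rw [mszQ, Polynomial.coe_eval₂RingHom, Polynomial.eval₂_eq_sum_range]
    refine Polynomial.natDegree_sum_le_of_forall_le _ _ fun i hi => ?_
    have hi' : i ≤ P.natDegree := Nat.lt_succ_iff.1 (Finset.mem_range.1 hi)
    refine Polynomial.natDegree_mul_le.trans ?_
    have a1 : ((mszP τ (P.coeff i)).map (Polynomial.C (R := MvPolynomial τ ℂ))).natDegree ≤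
        (P.natDegree - i) * M := Polynomial.natDegree_map_le.trans (mszP_deg _ ▸ h i hi')
    have a2 : ((Polynomial.C (Polynomial.X : Polynomial (MvPolynomial τ ℂ)) *
        Polynomial.X ^ M) ^ i).natDegree ≤ i * M :=
      Polynomial.natDegree_pow_le.trans
        (Nat.mul_le_mul_left _ (Polynomial.natDegree_C_mul_X_pow_le _ _))
    refine (add_le_add a1 a2).trans (le_of_eq ?_)
    rw [← add_mul, Nat.sub_add_cancel hi']
  obtain ⟨q0, -⟩ := mszQ_monic M hQ
  obtain ⟨r0, r1⟩ := mszQ_monic M hRm
  rw [hR, map_mul, Polynomial.natDegree_mul q0 r0, hQ.natDegree_mul hRm, add_mul] at h1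
  have e : (mszQ τ M Q).map (Polynomial.evalRingHom 0) = mszP τ (Q.coeff 0) := by
    clear * -
    induction Q using Polynomial.induction_on' with
    | add p q hp hq => simp [hp, hq]
    | monomial n c =>
      rcases n with _ | n
      · have e : (Polynomial.evalRingHom (0 : MvPolynomial τ ℂ)).comp Polynomial.C =
            RingHom.id _ := RingHom.ext fun x => by simp
        simp [mszQ, Polynomial.map_map, e]
      · simp [mszQ]
  have h2 := Polynomial.natDegree_map_le (p := mszQ τ M Q) (f := Polynomial.evalRingHom 0)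
  rw [e, mszP_deg] at h2
  omega

end Vale.Agent.P054A
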