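import Vale.Agent.P054A.Cmp

/-!
Chains of simple systems.
-/

namespace Vale.Agent.P054A

open MvPolynomial
open scoped Classical

variable {ι R σ : Type} [Fintype σ] {E : Finset ι} {r : ι → R} {π : ι → σ → ℂ} {c : ℕ}
  {J : ℕ → σ} {f : ι → ℕ → MvPolynomial σ ℂ}

omit [Fintype σ] in
theorem Chain.mono (h : Chain E r π c J f) {F : Finset ι} (hF : F ⊆ E) : Chain F r π c J f :=
  ⟨fun e he => h.simple e (hF he), fun e he e' he' => h.cons e (hF he) e' (hF he')⟩

theorem Chain.isComp (h : Chain E r π c J f) {e : ι} (he : e ∈ E) {i : ℕ} (hi : i ≤ c) :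
    IsComp i (π e) (lev f π i e) :=
  ⟨pre (f e) i, pre J i, h.simple e he i hi, rfl⟩

theorem Chain.le_card (h : Chain E r π c J f) (hE : E.Nonempty) : c ≤ Fintype.card σ := by
  obtain ⟨e, he⟩ := hE
  exact (h.isComp he le_rfl).le_card

theorem Chain.lev_mono (h : Chain E r π c J f) {e : ι} (he : e ∈ E) {i i' : ℕ} (hi : i ≤ i')
    (hi' : i' ≤ c) : lev f π i e ≤ lev f π i' e := by
  refine locP_le (h.isComp he hi').prime (fun l => ?_) (h.isComp he hi').on
  exact mem_locP (pre (f e) i') (π e) ⟨l, lt_of_lt_of_le l.2 hi⟩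

omit [Fintype σ] in
theorem lev_zero (f : ι → ℕ → MvPolynomial σ ℂ) (π : ι → σ → ℂ) (e : ι) : lev f π 0 e = ⊥ :=
  locP_empty _ _

/-- A point on a node of another edge with the same root shares the node. -/
theorem Chain.key (h : Chain E r π c J f) {e e' : ι} (he : e ∈ E) (he' : e' ∈ E)
    (hr : r e = r e') {i : ℕ} (hi : i ≤ c) (hon : On (π e') (lev f π i e)) :
    ∀ i' ≤ i, lev f π i' e = lev f π i' e' ∧ ∀ l < i', f e l = f e' l := by
  intro i'
  induction i' with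
  | zero => exact fun _ => ⟨by rw [lev_zero, lev_zero], fun l hl => absurd hl (Nat.not_lt_zero l)⟩
  | succ j ih =>
    intro hj
    obtain ⟨h1, h2⟩ := ih (Nat.le_of_succ_le hj)
    have h3 : ∀ l < j + 1, f e l = f e' l := by
      intro l hl
      rcases Nat.lt_succ_iff_lt_or_eq.1 hl with hl | rfl
      · exact h2 l hl
      · exact h.cons e he e' he' hr l (by omega) h1
    refine ⟨?_, h3⟩
    have hc := h.isComp he (hj.trans hi)
    have hc' := h.isComp he' (hj.trans hi)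
    refine (hc'.eq_of_le hc ?_).symm
    refine locP_le hc.prime (fun l => ?_) fun g hg => hon g (h.lev_mono he hj hi hg)
    have : pre (f e') (j + 1) l = pre (f e) (j + 1) l := (h3 l l.2).symm
    rw [this]
    exact mem_locP _ _ l

/-- A node determines its ancestors and its system. -/
theorem Chain.eq_of_lev (h : Chain E r π c J f) {e e' : ι} (he : e ∈ E) (he' : e' ∈ E)
    (hr : r e = r e') {i : ℕ} (hi : i ≤ c) (hl : lev f π i e = lev f π i e') :
    (∀ i' ≤ i, lev f π i' e = lev f π i' e') ∧ ∀ i' < i, f e i' = f e' i' := by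
  have hon : On (π e') (lev f π i e) := by
    rw [hl]
    exact (h.isComp he' hi).on
  have := h.key he he' hr hi hon
  exact ⟨fun i' hi' => (this i' hi').1, (this i le_rfl).2⟩

/-- A family of edges on a prime lies in one node, or is captured by one equation. -/
theorem Chain.nest (h : Chain E r π c J f) {F : Finset ι} (hF : F ⊆ E)
    (hr : ∀ e ∈ F, ∀ e' ∈ F, r e = r e') {Q : Ideal (MvPolynomial σ ℂ)} (hQ : Q.IsPrime)
    (hon : ∀ e ∈ F, On (π e) Q) {e₀ : ι} (he₀ : e₀ ∈ F) :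
    (∀ e ∈ F, lev f π c e = lev f π c e₀) ∨
      ∃ i < c, f e₀ i ∉ Q ∧ ∀ e ∈ F, eval (π e) (f e₀ i) = 0 := by
  have hk : ∀ i ≤ c, (∀ l < i, f e₀ l ∈ Q) → ∀ e ∈ F, lev f π i e₀ = lev f π i e := by
    intro i hi hl e he
    have hle : lev f π i e₀ ≤ Q := locP_le hQ (fun l => hl l l.2) (hon e₀ he₀)
    exact (h.key (hF he₀) (hF he) (hr e₀ he₀ e he) hi (fun g hg => hon e he g (hle hg)) i le_rfl).1
  by_cases hex : ∃ i, i < c ∧ f e₀ i ∉ Q
  · right
    refine ⟨Nat.find hex, (Nat.find_spec hex).1, (Nat.find_spec hex).2, fun e he => ?_⟩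
    have hlt := (Nat.find_spec hex).1
    have h1 := hk (Nat.find hex) hlt.le (fun l hl => by
      by_contra hn
      exact Nat.find_min hex hl ⟨hl.trans hlt, hn⟩) e he
    rw [h.cons e₀ (hF he₀) e (hF he) (hr e₀ he₀ e he) _ hlt h1]
    exact (h.simple e (hF he) c le_rfl).1 ⟨_, hlt⟩
  · left
    intro e he
    refine (hk c le_rfl (fun l hl => ?_) e he).symm
    by_contra hn
    exact hex ⟨l, hl, hn⟩

omit [Fintype σ] in
theorem sdg_mono (v : ℕ) {F : Finset ι} (hF : F ⊆ E) (r : ι → R)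
    (P : ι → Ideal (MvPolynomial σ ℂ)) : sdg v F r P ≤ sdg v E r P :=
  Finset.sum_le_sum_of_subset (Finset.image_subset_image hF)

theorem sum_biUnion_le_nat {α β : Type} [DecidableEq α] (B : Finset β) (T : β → Finset α)
    (d : α → ℕ) : ∑ z ∈ B.biUnion T, d z ≤ ∑ b ∈ B, ∑ z ∈ T b, d z := by
  induction B using Finset.induction_on with
  | empty => simp
  | insert b B hb ih =>
    rw [Finset.biUnion_insert, Finset.sum_insert hb]
    have := Finset.sum_union_inter (s₁ := T b) (s₂ := B.biUnion T) (f := d)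
    omega

theorem image_eq_biUnion_lab {α β : Type} [DecidableEq α] (E : Finset ι) (g : ι → α)
    (lab : ι → β) :
    E.image g = (E.image lab).biUnion fun b => (E.filter fun e => lab e = b).image g := by
  ext z
  simp only [Finset.mem_biUnion, Finset.mem_image, Finset.mem_filter]
  constructor
  · rintro ⟨e, he, rfl⟩
    exact ⟨lab e, ⟨e, he, rfl⟩, e, ⟨he, rfl⟩, rfl⟩
  · rintro ⟨_, _, e, ⟨he, _⟩, rfl⟩
    exact ⟨e, he, rfl⟩

omit [Fintype σ] in
/-- Splitting the sum of degrees along any labelling. -/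
theorem sdg_le_sum {β : Type} (v : ℕ) (E : Finset ι) (r : ι → R)
    (P : ι → Ideal (MvPolynomial σ ℂ)) (lab : ι → β) :
    sdg v E r P ≤ ∑ b ∈ E.image lab, sdg v (E.filter fun e => lab e = b) r P := by
  unfold sdg
  rw [image_eq_biUnion_lab E (fun e => (r e, P e)) lab]
  exact sum_biUnion_le_nat _ _ _

omit [Fintype σ] in
/-- Equality when the node determines the label. -/
theorem sum_sdg_eq {β : Type} (v : ℕ) (E : Finset ι) (r : ι → R)
    (P : ι → Ideal (MvPolynomial σ ℂ)) (lab : ι → β)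
    (h : ∀ e ∈ E, ∀ e' ∈ E, r e = r e' → P e = P e' → lab e = lab e') :
    ∑ b ∈ E.image lab, sdg v (E.filter fun e => lab e = b) r P = sdg v E r P := by
  unfold sdg
  rw [image_eq_biUnion_lab E (fun e => (r e, P e)) lab, Finset.sum_biUnion]
  intro b _ b' _ hbb
  refine Finset.disjoint_left.2 fun z hz hz' => hbb ?_
  obtain ⟨e, he, rfl⟩ := Finset.mem_image.1 hz
  obtain ⟨e', he', hee⟩ := Finset.mem_image.1 hz'
  obtain ⟨he1, he2⟩ := Finset.mem_filter.1 he
  obtain ⟨he1', he2'⟩ := Finset.mem_filter.1 he'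
  rw [← he2, ← he2']
  exact (h e' he1' e he1 (congrArg Prod.fst hee) (congrArg Prod.snd hee)).symm

omit [Fintype σ] in
theorem Cap.mono {F G : Finset ι} {P : ι → Ideal (MvPolynomial σ ℂ)} {M M' : ℕ}
    {g : ι → MvPolynomial σ ℂ} (h : Cap F r π P M g) (hG : G ⊆ F) (hM : M ≤ M') :
    Cap G r π P M' g :=
  ⟨fun e he e' he' => h.cons e (hG he) e' (hG he'), fun e he => h.notin e (hG he),
    fun e he => (h.deg e (hG he)).trans hM, fun e he => h.zero e (hG he)⟩

omit [Fintype σ] in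
/-- Node-wise capture. -/
theorem exists_cap (F : Finset ι) (r : ι → R) (π : ι → σ → ℂ)
    (P : ι → Ideal (MvPolynomial σ ℂ)) (M : ℕ)
    (h : ∀ e₀ ∈ F, ∃ g : MvPolynomial σ ℂ, g ∉ P e₀ ∧ g.totalDegree ≤ M ∧
      ∀ e ∈ F, r e = r e₀ → P e = P e₀ → eval (π e) g = 0) : ∃ g, Cap F r π P M g := by
  have key : ∀ z : R × Ideal (MvPolynomial σ ℂ), ∃ g : MvPolynomial σ ℂ, ∀ e₀ ∈ F,
      r e₀ = z.1 → P e₀ = z.2 → g ∉ P e₀ ∧ g.totalDegree ≤ M ∧ eval (π e₀) g = 0 := by
    intro z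
    by_cases hz : ∃ e₁ ∈ F, r e₁ = z.1 ∧ P e₁ = z.2
    · obtain ⟨e₁, he₁, h1, h2⟩ := hz
      obtain ⟨g, g1, g2, g3⟩ := h e₁ he₁
      refine ⟨g, fun e₀ he₀ a1 a2 => ⟨?_, g2, g3 e₀ he₀ (a1.trans h1.symm) (a2.trans h2.symm)⟩⟩
      rw [a2, ← h2]
      exact g1
    · exact ⟨0, fun e₀ he₀ a1 a2 => absurd ⟨e₀, he₀, a1, a2⟩ hz⟩
  choose g hg using key
  refine ⟨fun e => g (r e, P e), ?_, fun e he => (hg _ e he rfl rfl).1,
    fun e he => (hg _ e he rfl rfl).2.1, fun e he => (hg _ e he rfl rfl).2.2⟩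
  intro e _ e' _ h1 h2
  rw [h1, h2]

/-- If the points of a node impose few conditions, the node is captured. -/
theorem exists_poly_of_sum_lt {β : Type} (F : Finset ι) (π : ι → σ → ℂ) (lab : ι → β)
    {U : Ideal (MvPolynomial σ ℂ)} {M : ℕ}
    (h : ∑ b ∈ F.image lab,
      H (vanI ((((F.filter fun e => lab e = b).image π : Finset (σ → ℂ))) : Set (σ → ℂ))) M
        < H U M) :
    ∃ g : MvPolynomial σ ℂ, g ∉ U ∧ g.totalDegree ≤ M ∧ ∀ e ∈ F, eval (π e) g = 0 := by
  have h1 := H_le_sum (F.image lab) (fun b =>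
      vanI ((((F.filter fun e => lab e = b).image π : Finset (σ → ℂ))) : Set (σ → ℂ)))
    (J := vanI (π '' (F : Set ι))) (fun g hg => by
      rintro _ ⟨e, he, rfl⟩
      refine hg (lab e) (Finset.mem_image_of_mem _ he) (π e) ?_
      exact Finset.mem_coe.2 (Finset.mem_image_of_mem _ (Finset.mem_filter.2 ⟨he, rfl⟩))) M
  obtain ⟨g, g1, g2, g3⟩ := exists_notin_of_H_lt (h1.trans_lt h)
  exact ⟨g, g2, g3, fun e he => g1 (π e) ⟨e, he, rfl⟩⟩

end Vale.Agent.P054A
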