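import Vale.Agent.P054A.Hil

/-!
The greedy spanning lemma.
-/

namespace Vale.Agent.P054A

open MvPolynomial
open scoped Classical

theorem samp_pick {ι β : Type} (E U : Finset ι) (b : ι → β) (h : β → ℕ) (hU : U ⊆ E)
    (hc : E.card < 2 * U.card) :
    ∃ z ∈ E.image b, 0 < (U.filter fun e => b e = z).card ∧
      E.card * h z ≤ 2 * (∑ z ∈ E.image b, h z) * (U.filter fun e => b e = z).card := by
  by_contra hcon
  push Not at hcon
  have h1 : U.card = ∑ z ∈ E.image b, (U.filter fun e => b e = z).card :=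
    Finset.card_eq_sum_card_fiberwise fun e he => Finset.mem_coe.2 (Finset.mem_image_of_mem b (hU he))
  obtain ⟨e, he⟩ : U.Nonempty := Finset.card_pos.1 (by omega)
  have h2 : ∑ z ∈ E.image b, 2 * (∑ z ∈ E.image b, h z) * (U.filter fun e => b e = z).card
      < ∑ z ∈ E.image b, E.card * h z := by
    refine Finset.sum_lt_sum (fun z hz => ?_) ⟨b e, Finset.mem_image_of_mem b (hU he), ?_⟩
    · rcases Nat.eq_zero_or_pos (U.filter fun e => b e = z).card with h0 | h0
      · rw [h0, mul_zero]
        exact Nat.zero_le _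
      · exact (hcon z hz h0).le
    · exact hcon _ (Finset.mem_image_of_mem b (hU he))
        (Finset.card_pos.2 ⟨e, Finset.mem_filter.2 ⟨he, rfl⟩⟩)
  rw [← Finset.mul_sum, ← Finset.mul_sum, ← h1] at h2
  have h3 := Nat.mul_le_mul_right (∑ z ∈ E.image b, h z) hc.le
  linarith

theorem greedy_span {K V ι α β : Type} [Field K] [AddCommGroup V] [Module K V]
    [FiniteDimensional K V] (E : Finset ι) (a : ι → α) (b : ι → β)
    (hinj : ∀ e ∈ E, ∀ e' ∈ E, a e = a e' → b e = b e' → e = e') (ω : ι → V) :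
    ∃ W : Submodule K V, E.card ≤ 2 * (E.filter fun e => ω e ∈ W).card ∧
      Module.finrank K W * E.card ≤ 2 *
        (∑ z ∈ E.image a, Module.finrank K
          (Submodule.span K (ω '' ((E.filter fun e => a e = z : Finset ι) : Set ι)))) *
        ∑ z ∈ E.image b, Module.finrank K
          (Submodule.span K (ω '' ((E.filter fun e => b e = z : Finset ι) : Set ι))) := by
  set S : α → Submodule K V := fun z =>
    Submodule.span K (ω '' ((E.filter fun e => a e = z : Finset ι) : Set ι)) with hS
  set T : β → Submodule K V := fun z =>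
    Submodule.span K (ω '' ((E.filter fun e => b e = z : Finset ι) : Set ι)) with hT
  set A := ∑ z ∈ E.image a, Module.finrank K (S z) with hA
  set B := ∑ z ∈ E.image b, Module.finrank K (T z) with hB
  set Φ : Submodule K V → ℕ := fun W => ∑ z ∈ E.image a, Module.finrank K ↥(W ⊓ S z) with hΦ
  have hΦA : ∀ W, Φ W ≤ A := fun W =>
    Finset.sum_le_sum fun z _ => Submodule.finrank_mono inf_le_right
  obtain ⟨W, hW, hmax⟩ := (measure fun W => A - Φ W).wf.has_min
    {W : Submodule K V | Module.finrank K W * E.card ≤ 2 * B * Φ W} ⟨⊥, by simp⟩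
  refine ⟨W, ?_, hW.trans ?_⟩
  swap
  · have := Nat.mul_le_mul_left (2 * B) (hΦA W)
    linarith
  by_contra hcon
  have h1 := Finset.card_filter_add_card_filter_not (s := E) (fun e => ω e ∈ W)
  obtain ⟨z, -, hz0, hz⟩ := samp_pick E (E.filter fun e => ¬ ω e ∈ W) b
    (fun z => Module.finrank K (T z)) (Finset.filter_subset _ _) (by omega)
  set N := (E.filter fun e => ¬ ω e ∈ W).filter fun e => b e = z with hN
  have hNm : ∀ e ∈ N, e ∈ E ∧ ω e ∉ W ∧ b e = z := fun e he => by
    simp only [hN, Finset.mem_filter] at he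
    exact ⟨he.1.1, he.1.2, he.2⟩
  have h2 : Φ W + N.card ≤ Φ (W ⊔ T z) := by
    have h3 : N.card = ∑ x ∈ E.image a, if x ∈ N.image a then 1 else 0 := by
      rw [← Finset.card_filter, Finset.filter_mem_eq_inter,
        Finset.inter_eq_right.2 (Finset.image_subset_image fun e he => (hNm e he).1),
        Finset.card_image_of_injOn]
      intro e he e' he' hee
      exact hinj e (hNm e he).1 e' (hNm e' he').1 hee
        ((hNm e he).2.2.trans (hNm e' he').2.2.symm)
    rw [h3, hΦ]
    simp only
    rw [← Finset.sum_add_distrib]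
    refine Finset.sum_le_sum fun x _ => ?_
    have h4 : W ⊓ S x ≤ (W ⊔ T z) ⊓ S x := inf_le_inf_right _ le_sup_left
    split_ifs with hx
    · obtain ⟨e, he, rfl⟩ := Finset.mem_image.1 hx
      obtain ⟨h5, h6, h7⟩ := hNm e he
      refine Submodule.finrank_lt_finrank_of_lt (lt_of_le_of_ne h4 fun h8 => h6 ?_)
      have h9 : ω e ∈ (W ⊔ T z) ⊓ S (a e) :=
        ⟨Submodule.mem_sup_right (Submodule.subset_span
          ⟨e, Finset.mem_coe.2 (Finset.mem_filter.2 ⟨h5, h7⟩), rfl⟩),
          Submodule.subset_span ⟨e, Finset.mem_coe.2 (Finset.mem_filter.2 ⟨h5, rfl⟩), rfl⟩⟩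
      rw [← h8] at h9
      exact h9.1
    · exact Submodule.finrank_mono h4
  have h3 : Module.finrank K ↥(W ⊔ T z) ≤ Module.finrank K W + Module.finrank K (T z) :=
    Submodule.finrank_add_le_finrank_add_finrank W (T z)
  refine hmax (W ⊔ T z) ?_ ?_
  · have h4 := Nat.mul_le_mul_right E.card h3
    have h5 := Nat.mul_le_mul_left (2 * B) h2
    have h6 : Module.finrank K W * E.card ≤ 2 * B * Φ W := hW
    change Module.finrank K ↥(W ⊔ T z) * E.card ≤ 2 * B * Φ (W ⊔ T z)
    change E.card * Module.finrank K (T z) ≤ 2 * B * N.card at hz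
    linarith
  · have h4 := hΦA (W ⊔ T z)
    change A - Φ (W ⊔ T z) < A - Φ W
    omega

theorem samp_H {σ : Type} [Fintype σ] (I : Ideal (MvPolynomial σ ℂ)) (M : ℕ) :
    H I M + Module.finrank ℂ
      ((I.restrictScalars ℂ).comap (restrictTotalDegree σ ℂ M).subtype)
      = Module.finrank ℂ (restrictTotalDegree σ ℂ M) := by
  have h := LinearMap.finrank_range_add_finrank_ker
    ((Ideal.Quotient.mkₐ ℂ I).toLinearMap.domRestrict (restrictTotalDegree σ ℂ M))
  have h1 : LinearMap.ker
      ((Ideal.Quotient.mkₐ ℂ I).toLinearMap.domRestrict (restrictTotalDegree σ ℂ M))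
      = (I.restrictScalars ℂ).comap (restrictTotalDegree σ ℂ M).subtype := by
    ext g
    simp [Ideal.Quotient.eq_zero_iff_mem]
  rw [LinearMap.range_domRestrict, h1] at h
  exact h

/-- Either half of the points are captured or the Hilbert function is small. -/
theorem star_fin {ι α β σ : Type} [Fintype σ] (E : Finset ι) (a : ι → α) (b : ι → β)
    (hinj : ∀ e ∈ E, ∀ e' ∈ E, a e = a e' → b e = b e' → e = e') (p : ι → σ → ℂ)
    (P : Ideal (MvPolynomial σ ℂ)) (M : ℕ) :
    (∃ g : MvPolynomial σ ℂ, g ∉ P ∧ g.totalDegree ≤ M ∧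
      E.card ≤ 2 * (E.filter fun e => eval (p e) g = 0).card) ∨
    H P M * E.card ≤ 2 *
      (∑ z ∈ E.image a, H (vanI (p '' ((E.filter fun e => a e = z : Finset ι) : Set ι))) M) *
      ∑ z ∈ E.image b, H (vanI (p '' ((E.filter fun e => b e = z : Finset ι) : Set ι))) M := by
  set ω : ι → Module.Dual ℂ (restrictTotalDegree σ ℂ M) := fun e =>
    (aeval (p e)).toLinearMap.domRestrict (restrictTotalDegree σ ℂ M) with hω
  have hω' : ∀ e g, ω e g = eval (p e) (g : MvPolynomial σ ℂ) := fun e g => by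
    simp [hω, aeval_eq_eval]
  have hs : ∀ S : Set ι, Module.finrank ℂ (Submodule.span ℂ (ω '' S)) = H (vanI (p '' S)) M := by
    intro S
    have h1 := Subspace.finrank_add_finrank_dualCoannihilator_eq (Submodule.span ℂ (ω '' S))
    have h2 := samp_H (vanI (p '' S)) M
    have h3 : (Submodule.span ℂ (ω '' S)).dualCoannihilator =
        ((vanI (p '' S)).restrictScalars ℂ).comap (restrictTotalDegree σ ℂ M).subtype := by
      ext g
      rw [← SetLike.mem_coe, Submodule.coe_dualCoannihilator_span]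
      constructor
      · rintro h _ ⟨e, he, rfl⟩
        exact (hω' e g).symm.trans (h _ ⟨e, he, rfl⟩)
      · rintro h _ ⟨e, he, rfl⟩
        exact (hω' e g).trans (h _ ⟨e, he, rfl⟩)
    rw [h3] at h1
    omega
  obtain ⟨W, hW, hW'⟩ := greedy_span (K := ℂ) E a b hinj ω
  simp only [hs] at hW'
  by_cases hle : W.dualCoannihilator ≤
      (P.restrictScalars ℂ).comap (restrictTotalDegree σ ℂ M).subtype
  · right
    have h1 := Subspace.finrank_add_finrank_dualCoannihilator_eq W
    have h2 := samp_H P M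
    have h3 := Submodule.finrank_mono hle
    exact (Nat.mul_le_mul_right _ (by omega)).trans hW'
  · left
    obtain ⟨g, hg, hgP⟩ := SetLike.not_le_iff_exists.1 hle
    refine ⟨g, hgP, (mem_restrictTotalDegree _ _ _).1 g.2, hW.trans (Nat.mul_le_mul_left _
      (Finset.card_le_card fun e he => ?_))⟩
    rw [Finset.mem_filter] at he ⊢
    exact ⟨he.1, (hω' e g).symm.trans ((Submodule.mem_dualCoannihilator _).1 hg _ he.2)⟩

end Vale.Agent.P054A
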