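import Vale.Agent.P054A.TrA
import Vale.Agent.P054A.Fl
import Vale.Agent.P054A.Samp

/-!
Localisation to a typical node, and the basic inequality there.
-/

namespace Vale.Agent.P054A

open MvPolynomial Sum
open scoped Classical

variable {k : ℕ} {ι R₁ R₂ : Type} {u : UF}

/-- The incidence data of the edges. -/
structure Base (u : UF) (E : ℕ → Finset ι) (x y : ℕ → ι → Tx k → ℂ) (b : ℕ → ι → Fin k → ℂ)
    (r₁ : ℕ → ι → R₁) (r₂ : ℕ → ι → R₂) (N : ℕ → ℕ) : Prop where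
  inc : u.ev fun n => ∀ e ∈ E n, fl (y n e) (b n e) = fl (x n e) (b n e) ∧
    x n e (inl 0) ≠ y n e (inl 0)
  root₁ : u.ev fun n => ∀ e ∈ E n, ∀ e' ∈ E n, r₁ n e = r₁ n e' → x n e = x n e'
  root₂ : u.ev fun n => ∀ e ∈ E n, ∀ e' ∈ E n, r₂ n e = r₂ n e' → y n e = y n e'
  inj : u.ev fun n => ∀ e ∈ E n, ∀ e' ∈ E n, r₁ n e = r₁ n e' → r₂ n e = r₂ n e' → e = e'
  num₁ : u.ev fun n => ((E n).image (r₁ n)).card ≤ N n
  num₂ : u.ev fun n => ((E n).image (r₂ n)).card ≤ N n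

theorem Base.restrict {E F : ℕ → Finset ι} {x y : ℕ → ι → Tx k → ℂ} {b : ℕ → ι → Fin k → ℂ}
    {r₁ : ℕ → ι → R₁} {r₂ : ℕ → ι → R₂} {N : ℕ → ℕ} (h : Base u E x y b r₁ r₂ N)
    (hF : u.ev fun n => F n ⊆ E n) : Base u F x y b r₁ r₂ N :=
  ⟨(h.inc.and hF).mono fun _ hn e he => hn.1 e (hn.2 he),
    (h.root₁.and hF).mono fun _ hn e he e' he' => hn.1 e (hn.2 he) e' (hn.2 he'),
    (h.root₂.and hF).mono fun _ hn e he e' he' => hn.1 e (hn.2 he) e' (hn.2 he'),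
    (h.inj.and hF).mono fun _ hn e he e' he' => hn.1 e (hn.2 he) e' (hn.2 he'),
    (h.num₁.and hF).mono fun _ hn =>
      (Finset.card_le_card (Finset.image_subset_image hn.2)).trans hn.1,
    (h.num₂.and hF).mono fun _ hn =>
      (Finset.card_le_card (Finset.image_subset_image hn.2)).trans hn.1⟩

theorem Loc.restrict {D : LD k ι R₁ R₂} {E F : ℕ → Finset ι} (h : Loc u D E) (hF : u.Full F E) :
    Loc u D F :=
  ⟨hF.nonempty h.pos, h.one_le, h.le₁, h.le₂,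
    (h.inc.and hF.1).mono fun _ hn e he => hn.1 e (hn.2 he),
    (h.root₁.and hF.1).mono fun _ hn e he e' he' => hn.1 e (hn.2 he) e' (hn.2 he'),
    (h.root₂.and hF.1).mono fun _ hn e he e' he' => hn.1 e (hn.2 he) e' (hn.2 he'),
    (h.inj.and hF.1).mono fun _ hn e he e' he' => hn.1 e (hn.2 he) e' (hn.2 he'),
    (h.sv.and hF.1).mono fun _ hn => ⟨hn.1.1, fun e he => hn.1.2 e (hn.2 he)⟩,
    (h.s₁.and hF.1).mono fun _ hn e he => hn.1 e (hn.2 he),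
    (h.s₂.and hF.1).mono fun _ hn e he => hn.1 e (hn.2 he),
    fun M hM => (h.robV M hM).restrict hF, fun M hM => (h.rob₁ M hM).restrict hF,
    fun M hM => (h.rob₂ M hM).restrict hF⟩

theorem Loc.swap {D : LD k ι R₁ R₂} {E : ℕ → Finset ι} (h : Loc u D E) : Loc u D.swap E := by
  refine ⟨h.pos, h.one_le, h.le₂, h.le₁, h.inc.mono fun _ hn e he =>
    ⟨(hn e he).1.symm, (hn e he).2.symm⟩, h.root₂, h.root₁,
    h.inj.mono fun _ hn e he e' he' h1 h2 => hn e he e' he' h2 h1,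
    (h.sv.and h.inc).mono fun n hn => ⟨hn.1.1, fun e he => ?_⟩, h.s₂, h.s₁,
    fun M hM F g hF => ?_, h.rob₂, h.rob₁⟩
  · have e1 : D.swap.p n e = D.p n e := (hn.2 e he).1
    rw [e1]
    exact hn.1.2 e he
  · refine h.robV M hM F g ((hF.and h.inc).mono fun n hn => ⟨hn.1.1, hn.1.2.cons, hn.1.2.notin,
      hn.1.2.deg, fun e he => ?_⟩)
    have e1 : D.swap.p n e = D.p n e := (hn.2 e (hn.1.1 he)).1
    rw [← e1]
    exact hn.1.2.zero e he

/-- Restriction of a polynomial to the flat of `x`. -/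
noncomputable def zoomRes (x : Tx k → ℂ) :
    MvPolynomial (Sx k) ℂ →ₐ[ℂ] MvPolynomial (Fin k) ℂ :=
  (resx x).comp (rename inl)

theorem zoom_eval (x : Tx k → ℂ) (b : Fin k → ℂ) (g : MvPolynomial (Sx k) ℂ) :
    eval b (zoomRes x g) = eval (fl x b) g := by
  change eval b (resx x (rename inl g)) = _
  rw [eval_resx, eval_rename]
  rfl

theorem zoom_deg (x : Tx k → ℂ) {g : MvPolynomial (Sx k) ℂ} {M : ℕ} (h : g.totalDegree ≤ M) :
    (zoomRes x g).totalDegree ≤ M :=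
  (BD.rename_inl h).resx x

theorem zoom_sum {R : Type} [DecidableEq (R × Ideal (MvPolynomial (Fin k) ℂ))] {E : Finset ι}
    {x : ι → Tx k → ℂ} {b : ι → Fin k → ℂ} {p : ι → Sx k → ℂ} {r : ι → R}
    {P : ι → Ideal (MvPolynomial (Fin k) ℂ)} {j : ℕ} (hj : j ≤ k)
    (hp : ∀ e ∈ E, p e = fl (x e) (b e)) (hr : ∀ e ∈ E, ∀ e' ∈ E, r e = r e' → x e = x e')
    (hs : ∀ e ∈ E, IsComp (k - j) (b e) (P e)) (M : ℕ) :
    ∑ z ∈ E.image (fun e => (r e, P e)),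
      H (vanI (p '' ((E.filter fun e => (r e, P e) = z : Finset ι) : Set ι))) M ≤
      sdg j E r P * (M + 1) ^ j := by
  have e0 : sdg j E r P = ∑ z ∈ E.image (fun e => (r e, P e)), dg j z.2 := by
    unfold sdg
    refine Finset.sum_congr ?_ fun _ _ => rfl
    ext z
    simp only [Finset.mem_image]
  rw [e0, Finset.sum_mul]
  refine Finset.sum_le_sum fun z hz => ?_
  obtain ⟨e₀, he₀, rfl⟩ := Finset.mem_image.1 hz
  have h1 : (P e₀).comap (zoomRes (x e₀)) ≤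
      vanI (p '' ((E.filter fun e => (r e, P e) = (r e₀, P e₀) : Finset ι) : Set ι)) := by
    rintro g hg _ ⟨e, he, rfl⟩
    obtain ⟨he1, he2⟩ := Finset.mem_filter.1 (Finset.mem_coe.1 he)
    rw [Prod.mk.injEq] at he2
    rw [hp e he1, hr e he1 e₀ he₀ he2.1, ← zoom_eval]
    exact (hs e he1).on _ (he2.2 ▸ Ideal.mem_comap.1 hg)
  have h2 := H_comap_le (zoomRes (x e₀)) (s := 1)
    (fun i => zoom_deg _ (totalDegree_X i).le) (P e₀) M
  have h3 := (hs e₀ he₀).H_le M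
  rw [Fintype.card_fin, Nat.sub_sub_self hj] at h3
  rw [one_mul] at h2
  exact ((H_anti h1 M).trans h2).trans h3

/-- Outside a negligible set, a node on a flat lies in one node of the big tree. -/
theorem nest_ae {R : Type} {E : ℕ → Finset ι} {x : ℕ → ι → Tx k → ℂ} {b : ℕ → ι → Fin k → ℂ}
    {p : ℕ → ι → Sx k → ℂ} {r : ℕ → ι → R}
    (hp : u.ev fun n => ∀ e ∈ E n, p n e = fl (x n e) (b n e))
    (hr : u.ev fun n => ∀ e ∈ E n, ∀ e' ∈ E n, r n e = r n e' → x n e = x n e')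
    {c c₁ : ℕ} {J : ℕ → Sx k} {J₁ : ℕ → Fin k} {f : ℕ → ι → ℕ → MvPolynomial (Sx k) ℂ}
    {f₁ : ℕ → ι → ℕ → MvPolynomial (Fin k) ℂ} {ν θ θ₁ : ℝ}
    (hV : TS u E (fun _ _ => ()) p c J f c ν θ) (h₁ : TS u E r b c₁ J₁ f₁ c₁ ν θ₁) :
    ∃ F : ℕ → Finset ι, (u.ev fun n => F n ⊆ E n) ∧ u.LL (cd fun n => E n \ F n) (cd E) ∧
      u.ev fun n => ∀ e ∈ F n, ∀ e' ∈ F n, r n e = r n e' →
        lev (f₁ n) (b n) c₁ e = lev (f₁ n) (b n) c₁ e' →
          lev (f n) (p n) c e = lev (f n) (p n) c e' := by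
  obtain ⟨s, hs, hd⟩ := hV.degU
  obtain ⟨F, hF⟩ : ∃ F : ℕ → Finset ι, ∀ n e₀, e₀ ∈ F n ↔ e₀ ∈ E n ∧ ∀ e ∈ E n, r n e = r n e₀ →
      lev (f₁ n) (b n) c₁ e = lev (f₁ n) (b n) c₁ e₀ →
        lev (f n) (p n) c e = lev (f n) (p n) c e₀ :=
    ⟨fun n => (E n).filter _, fun n e₀ => Finset.mem_filter⟩
  refine ⟨F, u.ev_of_forall fun n e he => ((hF n e).1 he).1, ?_,
    u.ev_of_forall fun n e he e' he' => ((hF n e').1 he').2 e ((hF n e).1 he).1⟩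
  have hc : u.ev fun n => ∃ g, E n \ F n ⊆ E n ∧
      Cap (E n \ F n) (r n) (b n) (lev (f₁ n) (b n) c₁) (s n) g := by
    refine ((((hp.and hr).and hV.chain).and h₁.chain).and hd).mono fun n hn => ?_
    obtain ⟨⟨⟨⟨a1, a2⟩, a3⟩, a4⟩, a5⟩ := hn
    obtain ⟨g, hg⟩ := exists_cap (E n \ F n) (r n) (b n) (lev (f₁ n) (b n) c₁) (s n) (by
      intro e₀ he₀
      obtain ⟨b1, b2⟩ := Finset.mem_sdiff.1 he₀
      have b3 := (a4.isComp b1 le_rfl).prime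
      obtain ⟨N, hN⟩ : ∃ N : Finset ι, ∀ e, e ∈ N ↔ e ∈ E n ∧ r n e = r n e₀ ∧
          lev (f₁ n) (b n) c₁ e = lev (f₁ n) (b n) c₁ e₀ :=
        ⟨(E n).filter _, fun e => Finset.mem_filter⟩
      have b4 : ∀ e ∈ N, ∀ g, eval (b n e) (zoomRes (x n e₀) g) = eval (p n e) g := by
        intro e he g
        obtain ⟨c1, c2, -⟩ := (hN e).1 he
        rw [zoom_eval, a1 e c1, a2 e c1 e₀ b1 c2]
      rcases a3.nest (F := N) (fun e he => ((hN e).1 he).1) (fun _ _ _ _ => rfl)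
        (Q := (lev (f₁ n) (b n) c₁ e₀).comap (zoomRes (x n e₀))) (Ideal.IsPrime.comap _)
        (fun e he g hg => by
          obtain ⟨c1, -, c3⟩ := (hN e).1 he
          rw [← b4 e he]
          exact (a4.isComp c1 le_rfl).on _ (c3 ▸ Ideal.mem_comap.1 hg))
        ((hN e₀).2 ⟨b1, rfl, rfl⟩) with h | ⟨i, hi, h1, h2⟩
      · exact absurd ((hF n e₀).2 ⟨b1, fun e he c2 c3 => h e ((hN e).2 ⟨he, c2, c3⟩)⟩) b2
      · refine ⟨zoomRes (x n e₀) (f n e₀ i), fun h3 => h1 (Ideal.mem_comap.2 h3),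
          zoom_deg _ (a5 e₀ b1 i hi), fun e he c2 c3 => ?_⟩
        have c4 := (hN e).2 ⟨(Finset.mem_sdiff.1 he).1, c2, c3⟩
        rw [b4 e c4]
        exact h2 e c4)
    exact ⟨g, Finset.sdiff_subset, hg⟩
  obtain ⟨g, hg⟩ := hc.choose
  exact h₁.rob s hs _ g hg

/-- The basic inequality in a node. -/
theorem Loc.star {D : LD k ι R₁ R₂} {E : ℕ → Finset ι} (h : Loc u D E) :
    u.ev fun n => H (D.P n) (D.m n) * (E n).card ≤
      2 * (sdg D.j₁ (E n) (D.r₁ n) (D.P₁ n) * (D.m n + 1) ^ D.j₁) *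
        (sdg D.j₂ (E n) (D.r₂ n) (D.P₂ n) * (D.m n + 1) ^ D.j₂) := by
  have h1 := h.inj.mono fun n hn => star_fin (E n) (fun e => (D.r₁ n e, D.P₁ n e))
    (fun e => (D.r₂ n e, D.P₂ n e)) (fun e he e' he' h1 h2 =>
      hn e he e' he' (congrArg Prod.fst h1) (congrArg Prod.fst h2)) (D.p n) (D.P n) (D.m n)
  rcases UF.ev_or h1 with h2 | h2
  · obtain ⟨g, hg⟩ := h2.choose
    have h3 := h.robV D.m (UF.LE.refl (u.ev_of_forall (nr_nonneg _)))
      (fun n => (E n).filter fun e => eval (D.p n e) (g n) = 0) (fun n _ => g n)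
      (hg.mono fun n hn => ⟨Finset.filter_subset _ _, fun _ _ _ _ _ _ => rfl, fun _ _ => hn.1,
        fun _ _ => hn.2.1, fun e he => (Finset.mem_filter.1 he).2⟩)
    refine absurd h3 (UF.Full.not_ll (UF.Full.of_const 2 (hg.mono fun n hn =>
      ⟨Finset.filter_subset _ _, ?_⟩)) h.pos)
    exact_mod_cast hn.2.2
  · refine (((((h2.and h.inc).and h.root₁).and h.root₂).and h.s₁).and h.s₂).mono fun n hn => ?_
    obtain ⟨⟨⟨⟨⟨a1, a2⟩, a3⟩, a4⟩, a5⟩, a6⟩ := hn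
    refine a1.trans (Nat.mul_le_mul (Nat.mul_le_mul_left 2 ?_) ?_)
    · exact @zoom_sum k ι R₁ (_) _ _ _ _ _ _ _ h.le₁ (fun _ _ => rfl) a3 a5 _
    · exact @zoom_sum k ι R₂ (_) _ _ _ _ _ _ _ h.le₂ (fun e he => (a2 e he).1.symm) a4 a6 _

end Vale.Agent.P054A
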