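import Vale.Agent.P054A.UP
import Vale.Agent.P054A.Zoom

/-!
Extraction of the finite package from a critical configuration.
-/

namespace Vale.Agent.P054A

open MvPolynomial Sum
open scoped Classical

variable {k : ℕ} {ι R₁ R₂ : Type} {u : UF} {D : LD k ι R₁ R₂} {E : ℕ → Finset ι}

/-- A bounded family vanishing at the edges vanishes on almost all nodes. -/
theorem Loc.resx_mem (h : Loc u D E) {F : ℕ → Finset ι} (hF : u.ev fun n => F n ⊆ E n)
    {G : ℕ → MvPolynomial (Sx k ⊕ Tx k) ℂ} {t : ℕ} {M : ℕ → ℕ} (hM : u.LE (nr M) (nr D.m))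
    (hG : u.ev fun n => BD t (M n) (G n) ∧
      ∀ e ∈ F n, eval (Sum.elim (D.p n e) (D.x n e)) (G n) = 0) :
    u.LL (cd fun n => (F n).filter fun e => resx (D.x n e) (G n) ∉ D.P₁ n e) (cd E) := by
  refine h.rob₁ M hM _ (fun n e => resx (D.x n e) (G n)) ?_
  refine ((hF.and hG).and h.root₁).mono fun n hn => ?_
  obtain ⟨⟨h1, h2, h3⟩, h4⟩ := hn
  refine ⟨fun e he => h1 (Finset.mem_filter.1 he).1, ?_, ?_, ?_, ?_⟩
  · intro e he e' he' hr _
    rw [h4 e (h1 (Finset.mem_filter.1 he).1) e' (h1 (Finset.mem_filter.1 he').1) hr]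
  · intro e he
    exact (Finset.mem_filter.1 he).2
  · intro e _
    exact h2.resx _
  · intro e he
    rw [eval_resx]
    exact h3 e (Finset.mem_filter.1 he).1

/-- The differential of the flat as a linear map into all coordinates. -/
def dflL (x : Tx k → ℂ) : (Fin k → ℂ) →ₗ[ℂ] (Sx k ⊕ Tx k → ℂ) where
  toFun w := Sum.elim (dfl x w) 0
  map_add' w w' := by
    funext l
    rcases l with l | l
    · simp only [Sum.elim_inl, Pi.add_apply, dfl_add]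
    · simp only [Sum.elim_inr, Pi.add_apply, Pi.zero_apply, add_zero]
  map_smul' c w := by
    funext l
    rcases l with l | l
    · simp only [Sum.elim_inl, Pi.smul_apply, dfl_smul, RingHom.id_apply]
    · simp only [Sum.elim_inr, Pi.smul_apply, Pi.zero_apply, smul_zero]

theorem dflL_injective (x : Tx k → ℂ) : Function.Injective (dflL x) := by
  intro w w' hw
  funext i
  exact congrFun hw (inl (some (inl i)))

/-- Large minors vanish at an edge. -/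
theorem minor_zero_at_edge {κ : Type} [Fintype κ] [DecidableEq κ] {j : ℕ} (hj : j ≤ k)
    (G : κ → MvPolynomial (Sx k ⊕ Tx k) ℂ) {x : Tx k → ℂ} {b : Fin k → ℂ}
    {P : Ideal (MvPolynomial (Fin k) ℂ)} (hP : IsComp (k - j) b P) (hG : ∀ i, resx x (G i) ∈ P)
    (ρ : Fin (2 * k + 2 - j) → κ) (γ : Fin (2 * k + 2 - j) → Sx k) :
    eval (Sum.elim (fl x b) x) (minor (fun i => G (ρ i)) fun i => inl (γ i)) = 0 := by
  obtain ⟨T, hT, hT'⟩ := hP.exists_tan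
  rw [Fintype.card_fin] at hT
  have hW : T.map (dflL x) ≤ tan G (Sum.elim (fl x b) x) := by
    rintro _ ⟨w, hw, rfl⟩ i
    have h1 := hT' w hw _ (hG i)
    rw [d_resx] at h1
    rw [Fintype.sum_sum_type]
    have h2 : ∑ l : Tx k, aeval (Sum.elim (fl x b) x) (pderiv (inr l) (G i)) * dflL x w (inr l)
        = 0 := Finset.sum_eq_zero fun l _ => by
      have : dflL x w (inr l) = 0 := rfl
      rw [this, mul_zero]
    rw [h2, add_zero, ← h1]
    refine Finset.sum_congr rfl fun o _ => ?_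
    rw [aeval_eq_eval]
    rfl
  have h0 := minor_eq_zero_of_tan G (Sum.elim (fl x b) x) (T.map (dflL x)) hW
    (Set.range (inl : Sx k → Sx k ⊕ Tx k)) ?_ ρ (fun i => inl (γ i)) (fun i => ⟨γ i, rfl⟩) ?_
  · rw [← h0, aeval_eq_eval]
  · rintro _ ⟨w, _, rfl⟩ l hl
    rcases l with l | l
    · exact absurd ⟨l, rfl⟩ hl
    · rfl
  · rw [Set.ncard_range_of_injective Sum.inl_injective, Nat.card_eq_fintype_card, card_Sx,
      Fintype.card_fin, ← (Submodule.equivMapOfInjective _ (dflL_injective x) T).finrank_eq]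
    omega

/-- One side of the package. -/
theorem Loc.side (h : Loc u D E) :
    ∃ (F : ℕ → Finset ι) (t c₁ : ℕ) (φ : ℕ → Fin c₁ → MvPolynomial (Sx k ⊕ Tx k) ℂ)
      (J₁ : Fin c₁ → Tx k) (Q : ℕ → Ideal (MvPolynomial (Sx k ⊕ Tx k) ℂ)), u.Full F E ∧
      (u.ev fun n => (∃ M, ∀ i, BD t M (φ n i)) ∧
        (∀ e ∈ F n, Simple (ext (D.f n) (φ n)) (Sum.map D.J J₁) (Sum.elim (D.p n e) (D.x n e)) ∧
          locP (ext (D.f n) (φ n)) (Sum.elim (D.p n e) (D.x n e)) = Q n) ∧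
        (∀ o, incP o ∈ Q n) ∧
        (∀ (ρ : Fin (2 * k + 2 - D.j₁) → Fin D.c ⊕ Fin c₁) (γ : Fin (2 * k + 2 - D.j₁) → Sx k),
          minor (fun i => ext (D.f n) (φ n) (ρ i)) (fun i => inl (γ i)) ∈ Q n) ∧
        ∀ e ∈ F n, ∀ i, resx (D.x n e) (ext (D.f n) (φ n) i) ∈ D.P₁ n e) ∧
      ∀ G : ℕ → MvPolynomial (Tx k) ℂ, (u.ev fun n => (G n).totalDegree ≤ 1 ∧
        ∀ e ∈ E n, eval (D.x n e) (G n) = 0) → u.ev fun n => rename inr (G n) ∈ Q n := by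
  obtain ⟨F, c₁, t, φ, J₁, M, Q, hF, hM, hbd, hsim, hQ⟩ := up_main u E h.pos D.p D.x D.f D.J D.P
    (h.sv.mono fun n hn => hn.2) D.m h.one_le h.robV
  have hm0 : u.ev fun n => 0 ≤ nr D.m n := u.ev_of_forall fun n => nr_nonneg _ n
  have hM' : u.LE (nr fun n => M n + D.m n) (nr D.m) := by
    have := hM.add (UF.LE.refl hm0) hm0
    refine this.mono_left (u.ev_of_forall fun n => ?_)
    simp only [nr, Nat.cast_add, le_refl]
  have h1 : u.LE (nr fun _ => 1) (nr D.m) :=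
    UF.LE.of_ev hm0 (u.ev_of_forall fun n => by
      simp only [nr]
      exact_mod_cast h.one_le n)
  have hext : u.ev fun n => ∀ i, BD t (M n + D.m n) (ext (D.f n) (φ n) i) := by
    refine (hbd.and h.sv).mono fun n hn i => ?_
    rcases i with i | i
    · exact (BD.rename_inl (hn.2.1 i)).mono (Nat.zero_le _) (Nat.le_add_left _ _)
    · exact (hn.1 i).mono le_rfl (Nat.le_add_right _ _)
  have hneg : ∀ i : Fin D.c ⊕ Fin c₁, u.LL (cd fun n => (F n).filter fun e =>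
      ¬ resx (D.x n e) (ext (D.f n) (φ n) i) ∈ D.P₁ n e) (cd E) := fun i =>
    h.resx_mem hF.1 (G := fun n => ext (D.f n) (φ n) i) hM'
      ((hext.and hsim).mono fun n hn => ⟨hn.1 i, fun e he => (hn.2 e he).1.1 i⟩)
  have hF' := hF.filter_all
    (fun (i : Fin D.c ⊕ Fin c₁) n e => resx (D.x n e) (ext (D.f n) (φ n) i) ∈ D.P₁ n e) hneg
  obtain ⟨F', hF'E, hsub, hmem⟩ : ∃ F' : ℕ → Finset ι, u.Full F' E ∧ (∀ n, F' n ⊆ F n) ∧
      ∀ n, ∀ e ∈ F' n, ∀ i, resx (D.x n e) (ext (D.f n) (φ n) i) ∈ D.P₁ n e :=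
    ⟨_, hF', fun n e he => (Finset.mem_filter.1 he).1, fun n e he => (Finset.mem_filter.1 he).2⟩
  have hF'F : u.Full F' F := by
    refine ⟨u.ev_of_forall hsub, hF'E.2.mono_left (hF.1.mono fun n hn => ?_)⟩
    simp only [cd]
    exact_mod_cast Finset.card_le_card hn
  have hinc : u.ev fun n => ∀ o, incP o ∈ Q n := by
    refine UF.ev_all fun o => hQ (fun _ => incP o) 1 (fun _ => 1) F h1 (UF.Full.refl u F) ?_
    refine u.ev_of_forall fun n => ⟨bd_incP o, fun e _ => ?_⟩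
    have := aeval_incP (D.p n e) (D.x n e) o
    rw [aeval_eq_eval] at this
    rw [this]
    exact sub_self _
  have hrk : u.ev fun n => ∀ (ρ : Fin (2 * k + 2 - D.j₁) → Fin D.c ⊕ Fin c₁)
      (γ : Fin (2 * k + 2 - D.j₁) → Sx k),
      minor (fun i => ext (D.f n) (φ n) (ρ i)) (fun i => inl (γ i)) ∈ Q n := by
    refine UF.ev_all fun ρ => UF.ev_all fun γ => ?_
    refine hQ (fun n => minor (fun i => ext (D.f n) (φ n) (ρ i)) (fun i => inl (γ i)))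
      (Fintype.card (Fin (2 * k + 2 - D.j₁)) * t)
      (fun n => Fintype.card (Fin (2 * k + 2 - D.j₁)) * (M n + D.m n)) F' ?_ hF'F ?_
    · have := hM'.const_mul (Fintype.card (Fin (2 * k + 2 - D.j₁)) : ℝ) hm0
        (u.ev_of_forall fun n => nr_nonneg _ n)
      refine this.mono_left (u.ev_of_forall fun n => ?_)
      simp only [nr, Nat.cast_mul, le_refl]
    · refine ((hext.and h.s₁).and hF'E.1).mono fun n hn => ⟨BD.minor (fun i => hn.1.1 _) _, ?_⟩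
      intro e he
      exact minor_zero_at_edge h.le₁ (ext (D.f n) (φ n)) (hn.1.2 e (hn.2 he)) (hmem n e he) ρ γ
  refine ⟨F', t, c₁, φ, J₁, Q, hF'E, ?_, ?_⟩
  · refine (((hbd.and hsim).and hinc).and hrk).mono fun n hn => ?_
    exact ⟨⟨M n, hn.1.1.1⟩, fun e he => hn.1.1.2 e (hsub n he), hn.1.2, hn.2, hmem n⟩
  · intro G hG
    refine hQ (fun n => rename inr (G n)) 1 (fun _ => 1) F h1 (UF.Full.refl u F) ?_
    refine (hG.and hF.1).mono fun n hn =>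
      ⟨BD.of_totalDegree ((totalDegree_rename_le _ _).trans hn.1.1), fun e he => ?_⟩
    rw [eval_rename]
    exact hn.1.2 e (hn.2 he)

theorem Loc.pack (h : Loc u D E) (hc : 2 * k + 1 ≤ D.c + D.j₁ + D.j₂) :
    ∃ (F : ℕ → Finset ι) (t c₁ c₂ : ℕ) (φ₁ : ℕ → Fin c₁ → MvPolynomial (Sx k ⊕ Tx k) ℂ)
      (J₁ : Fin c₁ → Tx k) (φ₂ : ℕ → Fin c₂ → MvPolynomial (Sx k ⊕ Tx k) ℂ) (J₂ : Fin c₂ → Tx k)
      (Q₁ Q₂ : ℕ → Ideal (MvPolynomial (Sx k ⊕ Tx k) ℂ)), u.Full F E ∧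
      (u.ev fun n => Pack t D.j₁ D.j₂ (F n) (D.x n) (D.y n) (D.b n) (D.P₁ n) (D.P₂ n) (D.f n) D.J
        (φ₁ n) J₁ (φ₂ n) J₂ (Q₁ n) (Q₂ n)) ∧
      (∀ G : ℕ → MvPolynomial (Tx k) ℂ, (u.ev fun n => (G n).totalDegree ≤ 1 ∧
        ∀ e ∈ E n, eval (D.x n e) (G n) = 0) → u.ev fun n => rename inr (G n) ∈ Q₁ n) ∧
      ∀ G : ℕ → MvPolynomial (Tx k) ℂ, (u.ev fun n => (G n).totalDegree ≤ 1 ∧
        ∀ e ∈ E n, eval (D.y n e) (G n) = 0) → u.ev fun n => rename inr (G n) ∈ Q₂ n := by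
  obtain ⟨F₁, t₁, c₁, φ₁, J₁, Q₁, hF₁, hA₁, hB₁⟩ := h.side
  obtain ⟨F₂, t₂, c₂, φ₂, J₂, Q₂, hF₂, hA₂, hB₂⟩ := (h.restrict hF₁).swap.side
  have hF := hF₂.trans hF₁
  refine ⟨F₂, t₂, c₁, c₂, φ₁, J₁, φ₂, J₂, Q₁, Q₂, hF, ?_, hB₁, fun G hG => hB₂ G ?_⟩
  · refine (((((((hA₁.and hA₂).and hF₂.1).and hF.1).and (hF.nonempty h.pos)).and h.inc).and
      h.s₁).and h.s₂).mono fun n hn => ?_
    obtain ⟨⟨⟨⟨⟨⟨⟨⟨-, a2, a3, a4, a5⟩, b1, b2, b3, b4, b5⟩, s2⟩, s⟩, ne⟩, inc⟩, c1⟩, c2⟩ := hn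
    refine ⟨ne, h.le₁, h.le₂, hc, fun e he => inc e (s he), fun e he => a2 e (s2 he), ?_, b1, a3,
      b3, a4, b4, fun e he => ⟨c1 e (s he), a5 e (s2 he)⟩, fun e he => ⟨c2 e (s he), b5 e he⟩⟩
    intro e he
    rw [← (inc e (s he)).1]
    exact b2 e he
  · exact (hG.and hF₁.1).mono fun n hn => ⟨hn.1.1, fun e he => hn.1.2 e (hn.2 he)⟩

end Vale.Agent.P054A
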