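import Vale.Agent.P054A.Hil

/-!
Second equations on hypersurfaces and cones over complete intersections.
-/

namespace Vale.Agent.P054A

open MvPolynomial
open scoped Classical

variable {σ : Type} [Fintype σ]

theorem projA_rank (I : Ideal (MvPolynomial σ ℂ)) (n : ℕ) :
    H I n + Module.finrank ℂ ((LinearMap.ker ((Ideal.Quotient.mkₐ ℂ I).toLinearMap.domRestrict
      (restrictTotalDegree σ ℂ n))).map (restrictTotalDegree σ ℂ n).subtype) =
      Module.finrank ℂ (restrictTotalDegree σ ℂ n) := by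
  rw [Submodule.finrank_map_subtype_eq, H, ← LinearMap.range_domRestrict]
  exact LinearMap.finrank_range_add_finrank_ker _

theorem projA_mem {I : Ideal (MvPolynomial σ ℂ)} {n : ℕ} {g : MvPolynomial σ ℂ}
    (hg : g ∈ (LinearMap.ker ((Ideal.Quotient.mkₐ ℂ I).toLinearMap.domRestrict
      (restrictTotalDegree σ ℂ n))).map (restrictTotalDegree σ ℂ n).subtype) :
    g ∈ I ∧ g.totalDegree ≤ n := by
  obtain ⟨y, hy, rfl⟩ := hg
  exact ⟨Ideal.Quotient.eq_zero_iff_mem.1 hy, (mem_restrictTotalDegree _ _ _).1 y.2⟩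

theorem projA_bot (n : ℕ) : Module.finrank ℂ (restrictTotalDegree σ ℂ n) =
    (n + Fintype.card σ).choose (Fintype.card σ) := by
  have h := projA_rank (⊥ : Ideal (MvPolynomial σ ℂ)) n
  have e : (LinearMap.ker ((Ideal.Quotient.mkₐ ℂ (⊥ : Ideal (MvPolynomial σ ℂ))).toLinearMap.domRestrict
      (restrictTotalDegree σ ℂ n))).map (restrictTotalDegree σ ℂ n).subtype = ⊥ :=
    (Submodule.eq_bot_iff _).2 fun g hg => (projA_mem hg).1
  rw [e, finrank_bot, add_zero, H_bot] at h
  exact h.symm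

theorem projA_choose (M v e : ℕ) :
    (M + (v + 1)).choose (v + 1) + e * (M + v).choose v ≤ (M + e + (v + 1)).choose (v + 1) := by
  induction e with
  | zero => simp
  | succ e ih =>
    have h1 : (M + (e + 1) + (v + 1)).choose (v + 1) =
        (M + e + (v + 1)).choose v + (M + e + (v + 1)).choose (v + 1) := by
      rw [show M + (e + 1) + (v + 1) = M + e + (v + 1) + 1 by ring, Nat.choose_succ_succ']
    have h2 : (M + v).choose v ≤ (M + e + (v + 1)).choose v := Nat.choose_le_choose v (by omega)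
    rw [h1, add_mul, one_mul]
    omega

theorem projA_pow (M v : ℕ) : (M + 1) ^ v ≤ v.factorial * (M + v).choose v := by
  rw [← Nat.ascFactorial_eq_factorial_mul_choose]
  exact Nat.pow_succ_le_ascFactorial _ _

theorem H_span_ge {h : MvPolynomial σ ℂ} (h0 : h ≠ 0) {v : ℕ} (hv : Fintype.card σ = v + 1)
    (M : ℕ) : h.totalDegree * (M + 1) ^ v
      ≤ v.factorial * H (Ideal.span {h}) (M + h.totalDegree) := by
  have h1 := projA_rank (Ideal.span {h}) (M + h.totalDegree)
  have h2 : (LinearMap.ker ((Ideal.Quotient.mkₐ ℂ (Ideal.span {h})).toLinearMap.domRestrict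
      (restrictTotalDegree σ ℂ (M + h.totalDegree)))).map
      (restrictTotalDegree σ ℂ (M + h.totalDegree)).subtype ≤
      (restrictTotalDegree σ ℂ M).map (LinearMap.mulLeft ℂ h) := by
    intro g hg
    obtain ⟨hg1, hg2⟩ := projA_mem hg
    obtain ⟨k, rfl⟩ := Ideal.mem_span_singleton.1 hg1
    refine ⟨k, (mem_restrictTotalDegree _ _ _).2 ?_, rfl⟩
    rcases eq_or_ne k 0 with rfl | hk
    · simp
    · rw [totalDegree_mul_of_isDomain h0 hk] at hg2
      omega
  have h3 := (Submodule.finrank_mono h2).trans (Submodule.finrank_map_le _ _)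
  rw [projA_bot, hv] at h1 h3
  have h4 := projA_choose M v h.totalDegree
  have h5 : h.totalDegree * (M + v).choose v ≤ H (Ideal.span {h}) (M + h.totalDegree) := by omega
  calc h.totalDegree * (M + 1) ^ v ≤ h.totalDegree * (v.factorial * (M + v).choose v) :=
        Nat.mul_le_mul_left _ (projA_pow M v)
    _ = v.factorial * (h.totalDegree * (M + v).choose v) := by ring
    _ ≤ _ := Nat.mul_le_mul_left _ h5

theorem exists_second {h : MvPolynomial σ ℂ} (h0 : h ≠ 0) {v : ℕ} (hv : Fintype.card σ = v + 1)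
    (W : Finset (σ → ℂ)) {M : ℕ} (hM : v.factorial * W.card < h.totalDegree * (M + 1) ^ v) :
    ∃ g : MvPolynomial σ ℂ, ¬ h ∣ g ∧ g.totalDegree ≤ M + h.totalDegree ∧
      ∀ q ∈ W, eval q g = 0 := by
  have h1 := Nat.lt_of_mul_lt_mul_left (hM.trans_le (H_span_ge h0 hv M))
  obtain ⟨g, hg1, hg2, hg3⟩ := exists_notin_of_H_lt ((H_vanI_le_card W _).trans_lt h1)
  exact ⟨g, fun hd => hg2 (Ideal.mem_span_singleton.2 hd), hg3, fun q hq => hg1 q hq⟩

theorem projA_eval (x q : σ → ℂ) (p : MvPolynomial σ ℂ) :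
    eval x (aeval (fun i => (X i - C (q i) : MvPolynomial σ ℂ)) p) = eval (x - q) p := by
  induction p using MvPolynomial.induction_on with
  | C a => simp
  | add p q hp hq => simp only [map_add, hp, hq]
  | mul_X p i hp => simp only [map_mul, hp, aeval_X, map_sub, eval_X, eval_C, Pi.sub_apply]

theorem projA_sec {v : ℕ} (hv : Fintype.card σ = v + 1 + 1) {h g : MvPolynomial σ ℂ}
    (hp : Prime h) (hg : ¬ h ∣ g) :
    ∃ a : ℕ, ∀ M, H (Ideal.span {h} ⊔ Ideal.span {g}) M ≤ a * (M + 1) ^ v := by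
  have h1 : ∀ M, H (⊥ : Ideal (MvPolynomial σ ℂ)) M ≤ 1 * (M + 1) ^ (v + 1 + 1) := fun M => by
    rw [one_mul, ← hv]
    exact H_le_pow _ M
  have h2 := H_sec Ideal.isPrime_bot h1 (g := h) (fun h0 => hp.ne_zero h0)
    (Nat.le_succ _) (Nat.le_add_left 1 _)
  rw [bot_sup_eq] at h2
  exact ⟨_, H_sec ((Ideal.span_singleton_prime hp.ne_zero).2 hp) h2
    (fun h0 => hg (Ideal.mem_span_singleton.1 h0)) (Nat.le_succ _) (Nat.le_add_left 1 _)⟩

theorem projA_exp {v : ℕ} (hv : Fintype.card σ = v + 1) (i0 : σ) (n : ℕ) :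
    ∃ e : ({j // j ≠ i0} → Fin (n + 1)) → σ →₀ ℕ, Function.Injective e ∧
      ∀ a, (e a).degree = v * n := by
  have hc : Fintype.card {j // j ≠ i0} = v := by simp [hv]
  refine ⟨fun a => Finsupp.equivFunOnFinite.symm fun j =>
    if h : j = i0 then v * n - ∑ k, (a k : ℕ) else a ⟨j, h⟩, fun a b hab => ?_, fun a => ?_⟩
  · funext j
    have h1 := congrFun (Finsupp.equivFunOnFinite.symm.injective hab) j.1
    simp only [dif_neg j.2] at h1
    exact Fin.ext h1
  · have h1 : ∑ k, (a k : ℕ) ≤ v * n := by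
      have h2 := Finset.sum_le_card_nsmul Finset.univ (fun k => (a k : ℕ)) n
        fun k _ => Nat.le_of_lt_succ (a k).2
      rwa [Finset.card_univ, hc, smul_eq_mul] at h2
    rw [Finsupp.degree_eq_sum, Fintype.sum_eq_add_sum_subtype_ne _ i0]
    simp only [Finsupp.equivFunOnFinite_symm_apply_apply, dif_pos]
    rw [Finset.sum_congr rfl fun (j : {j // j ≠ i0}) _ => dif_neg j.2]
    exact Nat.sub_add_cancel h1

theorem exists_cone (hσ : 2 ≤ Fintype.card σ) {h g : MvPolynomial σ ℂ} (hp : Prime h)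
    (hg : ¬ h ∣ g) (q : σ → ℂ) :
    ∃ (Ξ : MvPolynomial σ ℂ) (r : ℕ), Ξ ≠ 0 ∧ Ξ.IsHomogeneous r ∧
      ∀ x : σ → ℂ, eval x h = 0 → eval x g = 0 → eval (x - q) Ξ = 0 := by
  by_contra hne
  obtain ⟨v, hv⟩ : ∃ v, Fintype.card σ = v + 1 + 1 := ⟨Fintype.card σ - 2, by omega⟩
  obtain ⟨i0⟩ : Nonempty σ := Fintype.card_pos_iff.1 (by omega)
  obtain ⟨a, ha⟩ := projA_sec hv hp hg
  have key : ∀ n, (n + 1) ^ (v + 1) ≤ 1 * (a * ((v + 1) * n + 0 + 1) ^ v) := by
    intro n
    obtain ⟨e, he1, he2⟩ := projA_exp hv i0 n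
    have hc : Fintype.card ({j // j ≠ i0} → Fin (n + 1)) = (n + 1) ^ (v + 1) := by simp [hv]
    rw [one_mul, add_zero, ← hc]
    refine le_trans (card_le_H_of_indep
      (fun b => aeval (fun i => (X i - C (q i) : MvPolynomial σ ℂ)) (monomial (e b) (1 : ℂ)))
      (fun b => ?_) fun c hc => ?_) (ha _)
    · refine (totalDegree_aeval_le (s := 1) _ (fun i => ?_) _).trans ?_
      · exact (totalDegree_sub _ _).trans (by simp)
      · rw [one_mul]
        exact (isHomogeneous_monomial (1 : ℂ) (he2 b)).totalDegree_le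
    · have h0 : ∑ b, c b • monomial (e b) (1 : ℂ) = 0 := by
        by_contra h0
        refine hne ⟨_, (v + 1) * n, h0, ?_, fun x hx1 hx2 => ?_⟩
        · exact (homogeneousSubmodule σ ℂ _).sum_mem fun b _ =>
            Submodule.smul_mem _ _ (isHomogeneous_monomial (1 : ℂ) (he2 b))
        · have e1 : ∑ b, c b • aeval (fun i => (X i - C (q i) : MvPolynomial σ ℂ))
              (monomial (e b) (1 : ℂ)) = aeval (fun i => (X i - C (q i) : MvPolynomial σ ℂ))
              (∑ b, c b • monomial (e b) (1 : ℂ)) := by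
            simp only [map_sum, map_smul]
          rw [e1] at hc
          obtain ⟨y, hy, z, hz, hyz⟩ := Submodule.mem_sup.1 hc
          obtain ⟨k, rfl⟩ := Ideal.mem_span_singleton.1 hy
          obtain ⟨l, rfl⟩ := Ideal.mem_span_singleton.1 hz
          rw [← projA_eval, ← hyz, map_add, map_mul, map_mul, hx1, hx2, zero_mul, zero_mul, add_zero]
      funext b
      have h1 := congrArg (coeff (e b)) h0
      simpa [coeff_sum, coeff_monomial, he1.eq_iff] using h1
  have := le_of_growth (a := a) (C := 1) (s := 0) (t := v + 1) (v := v + 1) (w := v) key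
  omega

theorem projA_prod (S : Finset (MvPolynomial σ ℂ)) (hS : ∀ a ∈ S, a ≠ 0) :
    ∑ a ∈ S, a.totalDegree = (S.prod id).totalDegree := by
  induction S using Finset.induction_on with
  | empty => simp
  | insert a S ha ih =>
    have h1 : ∀ b ∈ S, b ≠ 0 := fun b hb => hS b (Finset.mem_insert_of_mem hb)
    rw [Finset.sum_insert ha, Finset.prod_insert ha, ih h1]
    exact (totalDegree_mul_of_isDomain (hS a (Finset.mem_insert_self a S))
      (Finset.prod_ne_zero_iff.2 h1)).symm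

/-- The prime factors of a polynomial through its simple zeros. -/
theorem exists_factors (W : Finset (σ → ℂ)) {f : MvPolynomial σ ℂ}
    (hf : ∀ q ∈ W, eval q f = 0 ∧ ∃ l, eval q (pderiv l f) ≠ 0) :
    ∃ (S : Finset (MvPolynomial σ ℂ)) (h : (σ → ℂ) → MvPolynomial σ ℂ),
      (∀ a ∈ S, Prime a ∧ 1 ≤ a.totalDegree) ∧ ∑ a ∈ S, a.totalDegree ≤ f.totalDegree ∧
      ∀ q ∈ W, h q ∈ S ∧ eval q (h q) = 0 ∧ (∃ l, eval q (pderiv l (h q)) ≠ 0) ∧
        ∀ a ∈ S, a ≠ h q → eval q a ≠ 0 := by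
  rcases eq_or_ne f 0 with rfl | f0
  · refine ⟨∅, fun _ => 0, by simp, by simp, fun q hq => ?_⟩
    obtain ⟨l, hl⟩ := (hf q hq).2
    simp at hl
  obtain ⟨m, hm, u, hu⟩ := UniqueFactorizationMonoid.exists_prime_factors f f0
  have key : ∀ q : σ → ℂ, ∃ a : MvPolynomial σ ℂ, q ∈ W → a ∈ m.toFinset ∧ eval q a = 0 ∧
      (∃ l, eval q (pderiv l a) ≠ 0) ∧ ∀ b ∈ m.toFinset, b ≠ a → eval q b ≠ 0 := by
    intro q
    by_cases hq : q ∈ W
    swap
    · exact ⟨0, fun h => absurd h hq⟩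
    obtain ⟨h1, l, hl⟩ := hf q hq
    have h2 : eval q m.prod = 0 := by
      rw [← hu, map_mul] at h1
      exact (mul_eq_zero.1 h1).resolve_right (u.isUnit.map (eval q)).ne_zero
    rw [map_multiset_prod, Multiset.prod_eq_zero_iff, Multiset.mem_map] at h2
    obtain ⟨a, ha, ha0⟩ := h2
    have e : f = a * ((m.erase a).prod * u) := by rw [← mul_assoc, Multiset.prod_erase ha, hu]
    rw [e, pderiv_mul, map_add, map_mul (eval q) a, ha0, zero_mul, add_zero, map_mul] at hl
    refine ⟨a, fun _ => ⟨Multiset.mem_toFinset.2 ha, ha0, ⟨l, left_ne_zero_of_mul hl⟩,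
      fun b hb hba hb0 => right_ne_zero_of_mul hl ?_⟩⟩
    obtain ⟨k, hk⟩ := Multiset.dvd_prod
      ((Multiset.mem_erase_of_ne hba).2 (Multiset.mem_toFinset.1 hb))
    rw [hk, map_mul, map_mul, hb0, zero_mul, zero_mul]
  choose h hh using key
  refine ⟨m.toFinset, h, fun a ha => ?_, ?_, hh⟩
  · have hp := hm a (Multiset.mem_toFinset.1 ha)
    refine ⟨hp, Nat.one_le_iff_ne_zero.2 fun h0 => hp.not_unit ?_⟩
    have e := totalDegree_eq_zero_iff_eq_C.1 h0
    have h1 : a.coeff 0 ≠ 0 := fun h1 => hp.ne_zero (by rw [e, h1, map_zero])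
    rw [e]
    exact (IsUnit.mk0 _ h1).map C
  · rw [projA_prod _ fun a ha => (hm a (Multiset.mem_toFinset.1 ha)).ne_zero]
    exact totalDegree_le_of_dvd_of_isDomain
      ((Multiset.toFinset_prod_dvd_prod m).trans ⟨u, hu.symm⟩) f0

/-- A nonzero polynomial of small degree through a finite set. -/
theorem exists_vanish (W : Finset (σ → ℂ)) {D : ℕ}
    (h : (Fintype.card σ).factorial * W.card < (D + 1) ^ Fintype.card σ) :
    ∃ g : MvPolynomial σ ℂ, g ≠ 0 ∧ g.totalDegree ≤ D ∧ ∀ q ∈ W, eval q g = 0 := by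
  have h1 := Nat.lt_of_mul_lt_mul_left (h.trans_le (projA_pow D _))
  rw [← H_bot (K := ℂ)] at h1
  obtain ⟨g, hg1, hg2, hg3⟩ := exists_notin_of_H_lt ((H_vanI_le_card W _).trans_lt h1)
  exact ⟨g, fun h0 => hg2 h0, hg3, fun q hq => hg1 q hq⟩

end Vale.Agent.P054A
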