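import Vale.Agent.P054A.DichA
import Vale.Agent.P054A.Hil
import Vale.Agent.P054A.Clr

/-!
The rational case: separators on a flat.
-/

namespace Vale.Agent.P054A

open MvPolynomial Sum
open scoped Classical

theorem rat_fl0 {k : ℕ} {x y : Tx k → ℝ} (h : nul x y) (h0 : x (inl 0) ≠ y (inl 0)) :
    fl0 (y - x) (bb x y) = 0 := by
  have h1 := fl_add x (y - x) (bb x y)
  rw [add_sub_cancel, fl_bb h h0] at h1
  exact left_eq_add.1 h1

theorem rat_sum {k : ℕ} (w : Tx k → ℂ) (p : Fin k → ℂ) (o : Sx k) :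
    ∑ l, fl0 (fun l' => if l = l' then (1 : ℂ) else 0) p o * w l = fl0 w p o := by
  let L : (Tx k → ℂ) →ₗ[ℂ] ℂ :=
    { toFun := fun w => fl0 w p o
      map_add' := fun a b => by
        rcases o with _ | i | i
        · simp only [fl0, Pi.add_apply, add_mul, Finset.sum_add_distrib]
          ring
        · simp only [fl0, add_zero]
        · simp only [fl0, Pi.add_apply]
          ring
      map_smul' := fun c a => by
        rcases o with _ | i | i
        · simp only [fl0, Pi.smul_apply, smul_eq_mul, RingHom.id_apply, mul_add, Finset.mul_sum,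
            mul_assoc]
        · simp only [fl0, smul_zero]
        · simp only [fl0, Pi.smul_apply, smul_eq_mul, RingHom.id_apply]
          ring }
  have h := L.pi_apply_eq_sum_univ w
  exact (Finset.sum_congr rfl fun l _ => mul_comm _ _).trans h.symm

theorem rat_eval {k : ℕ} (v : Tx k → ℂ) (p : Fin k → ℂ) (o : Sx k) :
    eval p (fl0 (fun l => (C (v l) : MvPolynomial (Fin k) ℂ)) X o) = fl0 v p o := by
  rcases o with _ | i | i <;> simp [fl0]

theorem rat_deg {k : ℕ} (v : Tx k → ℂ) (o : Sx k) :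
    (fl0 (fun l => (C (v l) : MvPolynomial (Fin k) ℂ)) X o).totalDegree ≤ 1 := by
  rcases o with _ | i | i
  · exact totalDegree_fl_le v none
  · simp [fl0]
  · exact totalDegree_fl_le v (some (inr i))

theorem rat_lin {k : ℕ} (φ : ℂ →ₗ[ℝ] ℝ) (w : Tx k → ℂ) (b : Fin k → ℝ) (o : Sx k) :
    φ (fl0 w (cx b) o) = fl0 (fun l => φ (w l)) b o := by
  have h : ∀ (z : ℂ) (t : ℝ), φ (z * t) = φ z * t := fun z t => by
    rw [mul_comm z, ← Complex.real_smul, map_smul, smul_eq_mul, mul_comm]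
  rcases o with _ | i | i
  · simp only [fl0, cx, map_add, map_sum, h]
  · simp only [fl0, map_zero]
  · simp only [fl0, cx, map_sub, h]

theorem rat_cx {k : ℕ} (w : Tx k → ℝ) (b : Fin k → ℝ) (o : Sx k) :
    fl0 (cx w) (cx b) o = ((fl0 w b o : ℝ) : ℂ) := by
  rcases o with _ | i | i <;> simp [fl0, cx]

theorem rat_bb {k : ℕ} (x y : Tx k → ℝ) : bb (cx x) (cx y) = cx (bb x y) := by
  funext i
  simp [bb, cx]

theorem rat_uniq {k : ℕ} {B : Finset (Tx k → ℝ)} {x y w : Tx k → ℝ} (hy : y ∈ B) (h : nul x y)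
    (h0 : x (inl 0) ≠ y (inl 0)) (hx : x ∉ affineSpan ℝ (B : Set (Tx k → ℝ)))
    (hb : (spd B x ⊓ perp (y - x)) ⊓ Rb k = ⊥) (hw : w ∈ vectorSpan ℝ (B : Set (Tx k → ℝ)))
    (hw0 : fl0 w (bb x y) = 0) : w = 0 := by
  have hz := rat_fl0 h h0
  generalize bb x y = b at hz hw0
  have hz0 : (y - x) (inl 0) ≠ 0 := sub_ne_zero.2 h0.symm
  generalize hzz : y - x = z at hz hz0 hb
  have z1 : ∀ i : Fin k, z (inl i.succ) = z (inl 0) * b i := fun i =>
    sub_eq_zero.1 (congrFun hz (some (inr i)))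
  have z2 : z (inr 0) + ∑ i, z (inr i.succ) * b i = 0 := congrFun hz none
  have w1 : ∀ i : Fin k, w (inl i.succ) = w (inl 0) * b i := fun i =>
    sub_eq_zero.1 (congrFun hw0 (some (inr i)))
  have w2 : w (inr 0) + ∑ i, w (inr i.succ) * b i = 0 := congrFun hw0 none
  obtain ⟨lam, hl⟩ : ∃ lam : ℝ, w (inl 0) = lam * z (inl 0) := ⟨_, (div_mul_cancel₀ _ hz0).symm⟩
  have hR : ∀ i, (w - lam • z) (inl i) = 0 := by
    intro i
    rw [Pi.sub_apply, Pi.smul_apply, smul_eq_mul]
    refine Fin.cases ?_ (fun i => ?_) i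
    · rw [hl, sub_self]
    · rw [w1, z1, hl]
      ring
  have hmem : w - lam • z ∈ (spd B x ⊓ perp z) ⊓ Rb k := by
    refine ⟨⟨?_, ?_⟩, hR⟩
    · rw [spd_eq hy, hzz]
      exact Submodule.sub_mem _ (Submodule.mem_sup_left hw)
        (Submodule.mem_sup_right (Submodule.smul_mem _ _ (Submodule.mem_span_singleton_self z)))
    · change bil (w - lam • z) z = 0
      unfold bil
      simp only [hR, zero_mul, zero_add]
      rw [Fin.sum_univ_succ]
      simp only [z1, Pi.sub_apply, Pi.smul_apply, smul_eq_mul]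
      have e : ∑ i : Fin k, z (inl 0) * b i * (w (inr i.succ) - lam * z (inr i.succ)) =
          z (inl 0) * ∑ i, w (inr i.succ) * b i - z (inl 0) * lam * ∑ i, z (inr i.succ) * b i := by
        rw [Finset.mul_sum, Finset.mul_sum, ← Finset.sum_sub_distrib]
        exact Finset.sum_congr rfl fun i _ => by ring
      rw [e]
      linear_combination z (inl 0) * w2 - z (inl 0) * lam * z2
  rw [hb, Submodule.mem_bot, sub_eq_zero] at hmem
  by_contra hne
  have hl0 : lam ≠ 0 := fun h' => hne (by rw [hmem, h', zero_smul])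
  have h1 : -(lam⁻¹ • w) ∈ vectorSpan ℝ (B : Set (Tx k → ℝ)) :=
    Submodule.neg_mem _ (Submodule.smul_mem _ _ hw)
  have h2 := AffineSubspace.vadd_mem_of_mem_direction
    (s := affineSpan ℝ (B : Set (Tx k → ℝ))) (by rw [direction_affineSpan]; exact h1)
    (subset_affineSpan ℝ _ (Finset.mem_coe.2 hy))
  rw [hmem, smul_smul, inv_mul_cancel₀ hl0, one_smul, ← hzz, vadd_eq_add, neg_sub,
    sub_add_cancel] at h2
  exact hx h2

theorem card_le_caseX {k : ℕ} {X : Finset (Tx k → ℝ)} {E F : Finset (Ed k)} {M : ℕ} {K : ℕ → ℕ}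
    (h : Mod X E M K) (hF : F ⊆ E) (hX : CaseX E F) {x : Tx k → ℝ} (hx : ∀ e ∈ F, e.1 = x)
    {P : Ideal (MvPolynomial (Fin k) ℂ)} (hP : ∀ e ∈ F, On (bb (cx e.1) (cx e.2)) P) :
    F.card ≤ H P ((2 * k + 2) * M) := by
  rcases F.eq_empty_or_nonempty with rfl | ⟨e₁, he₁⟩
  · exact Nat.zero_le _
  have hB : ∀ e ∈ F, e.2 ∈ E.image Prod.snd := fun e he => Finset.mem_image_of_mem _ (hF he)
  obtain ⟨W, hW⟩ := Submodule.exists_isCompl
    (vectorSpan ℝ ((E.image Prod.snd : Finset (Tx k → ℝ)) : Set (Tx k → ℝ)))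
  obtain ⟨q, hq⟩ : ∃ q : (Tx k → ℝ) →ₗ[ℝ] (Tx k → ℝ), ∀ w, q w = 0 ↔
      w ∈ vectorSpan ℝ ((E.image Prod.snd : Finset (Tx k → ℝ)) : Set (Tx k → ℝ)) :=
    ⟨W.projection _ hW.symm, fun w => Submodule.projection_apply_eq_zero_iff hW.symm⟩
  have hqs : ∀ (w : Tx k → ℝ) (i : Tx k),
      ∑ l, q (fun l' => if l = l' then 1 else 0) i * w l = q w i := by
    intro w i
    rw [q.pi_apply_eq_sum_univ w, Finset.sum_apply]
    exact Finset.sum_congr rfl fun l _ => mul_comm _ _
  obtain ⟨Δ, Z, hΔ, hZ, hs⟩ := exists_rat F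
    (fun (i : Tx k ⊕ Sx k) (l : Tx k) => Sum.elim
      (fun i => C ((q (fun l' => if l = l' then 1 else 0) i : ℝ) : ℂ))
      (fun o => fl0 (fun l' => (C (if l = l' then 1 else 0) : MvPolynomial (Fin k) ℂ))
        MvPolynomial.X o) i)
    (by
      rintro (i | o) l
      · exact (totalDegree_C _).le.trans zero_le_one
      · rw [Sum.elim_inr]
        exact rat_deg (fun l' => if l = l' then 1 else 0) o)
    (Sum.elim (cx (q (e₁.2 - x))) 0) (fun e => bb (cx e.1) (cx e.2)) (fun e => cx (e.2 - e.1))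
    (by
      rintro e he (i | o)
      · have h1 : q (e.2 - e.1) = q (e₁.2 - x) := by
          rw [← sub_eq_zero, ← map_sub, hq, hx e he, sub_sub_sub_cancel_right]
          exact vsub_mem_vectorSpan ℝ (Finset.mem_coe.2 (hB e he)) (Finset.mem_coe.2 (hB e₁ he₁))
        simp only [Sum.elim_inl, eval_C, cx]
        rw [← h1, ← hqs]
        push_cast
        rfl
      · obtain ⟨-, -, h1, h2⟩ := h.mem e (hF he)
        simp only [Sum.elim_inr, rat_eval, rat_sum, Pi.zero_apply]
        rw [rat_bb, rat_cx, rat_fl0 h1 h2, Pi.zero_apply, Complex.ofReal_zero])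
    (by
      intro e he w hw
      obtain ⟨-, -, h1, h2⟩ := h.mem e (hF he)
      have key : ∀ φ : ℂ →ₗ[ℝ] ℝ, (fun l => φ (w l)) = 0 := by
        intro φ
        refine rat_uniq (hB e he) h1 h2 (hX e he).1 (hX e he).2 ((hq _).1 (funext fun i => ?_))
          (funext fun o => ?_)
        · have h3 := congrArg φ (hw (inl i))
          simp only [Sum.elim_inl, eval_C, map_sum, map_zero, ← Complex.real_smul, map_smul,
            smul_eq_mul] at h3
          rw [← hqs]
          exact h3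
        · have h3 := congrArg φ (hw (inr o))
          simp only [Sum.elim_inr, rat_eval, rat_sum, map_zero] at h3
          rw [rat_bb, rat_lin] at h3
          exact h3
      funext l
      exact Complex.ext (congrFun (key Complex.reLm) l) (congrFun (key Complex.imLm) l))
  rw [card_Tx] at hΔ hZ
  refine card_le_H_of_sep F _ hP fun e he => ?_
  obtain ⟨g, hg, -, hg1, hg2⟩ := h.sep e.2 (h.mem e (hF he)).2.1 Submodule.mem_top
  obtain ⟨G, hG, hG1⟩ := exists_clear Δ (fun l => Z l + C (cx x l) * Δ) hΔ (fun l =>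
    (totalDegree_add _ _).trans (max_le (hZ l) ((totalDegree_mul _ _).trans
      (by rw [totalDegree_C, zero_add]; exact hΔ)))) g hg
  have hev : ∀ e' ∈ F, eval (bb (cx e'.1) (cx e'.2)) G =
      eval (bb (cx e'.1) (cx e'.2)) Δ ^ M * eval (cx e'.2) g := by
    intro e' he'
    refine hG1 _ _ fun l => ?_
    rw [map_add, map_mul, eval_C, (hs e' he').2 l, ← hx e' he']
    simp only [cx, Pi.sub_apply]
    push_cast
    ring
  refine ⟨G, hG, ?_, fun e' he' hne => ?_⟩
  · rw [hev e he]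
    exact mul_ne_zero (pow_ne_zero _ (hs e he).1) hg1
  · rw [hev e' he', hg2 e'.2 (h.mem e' (hF he')).2.1 Submodule.mem_top
      fun h' => hne (Prod.ext ((hx e' he').trans (hx e he).symm) h'), mul_zero]

end Vale.Agent.P054A
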