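import Vale.Agent.P054A.TermB
import Vale.Agent.P054A.Dich
import Vale.Agent.P054A.Rat

/-!
A rich configuration is not critical.
-/

namespace Vale.Agent.P054A

open MvPolynomial Sum
open scoped Classical

variable {k : ℕ} {ι R₁ R₂ : Type} {u : UF} {D : LD k ι R₁ R₂} {E : ℕ → Finset ι}
  {xr yr : ℕ → ι → Tx k → ℝ} {X : ℕ → Finset (Tx k → ℝ)} {M : ℕ → ℕ} {K : ℕ → ℕ → ℕ}

theorem rich_restrict {σ R : Type} {F : ℕ → Finset ι} (hF : u.Full F E) (v : ℕ) (r : ℕ → ι → R)
    (P : ℕ → ι → Ideal (MvPolynomial σ ℂ)) {G : ℕ → ℝ} (hG : ∀ n, 0 ≤ G n)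
    (h : u.LL (fun n => (sdg v (E n) (r n) (P n) : ℝ) * G n) (cd E)) :
    u.LL (fun n => (sdg v (F n) (r n) (P n) : ℝ) * G n) (cd F) := by
  refine hF.ll (h.mono_left (hF.1.mono fun n hn => ?_))
  exact mul_le_mul_of_nonneg_right (Nat.cast_le.2 (sdg_mono v hn (r n) (P n))) (hG n)

theorem term_fst (s : Finset ι) (x y : ι → Tx k → ℝ) :
    (s.image fun e => (x e, y e)).image Prod.fst = s.image x := by
  rw [Finset.image_image]
  rfl

theorem term_snd (s : Finset ι) (x y : ι → Tx k → ℝ) :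
    (s.image fun e => (x e, y e)).image Prod.snd = s.image y := by
  rw [Finset.image_image]
  rfl

theorem term_sdim (s : Finset ι) (x y : ι → Tx k → ℝ) :
    sdim (s.image fun e => (x e, y e)) = adim (s.image x) + adim (s.image y) := by
  rw [sdim, term_fst, term_snd]

theorem term_inj (h : Loc u D E) (hl : Link u D E xr yr X M K) :
    u.ev fun n => Set.InjOn (fun e => (xr n e, yr n e)) (E n) := by
  refine (h.inj.and (hl.root₁.and hl.root₂)).mono fun n hn e he e' he' hee => ?_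
  exact hn.1 e he e' he' (hn.2.1 e he e' he' (congrArg Prod.fst hee))
    (hn.2.2 e he e' he' (congrArg Prod.snd hee))

theorem term_caseX (h : Loc u D E) (hl : Link u D E xr yr X M K) {G : ℕ → ℝ}
    (hG : Dom u k D.j₁ M K G)
    (hrich : u.LL (fun n => (sdg D.j₁ (E n) (D.r₁ n) (D.P₁ n) : ℝ) * G n) (cd E))
    {F : ℕ → Finset ι} (hF : u.Full F E)
    (hX : u.ev fun n => CaseX ((E n).image fun e => (xr n e, yr n e))
      ((F n).image fun e => (xr n e, yr n e))) : False := by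
  refine term_count h hF hG.nonneg hrich
    (fun n => ((((2 * k + 2) * M n + 1) ^ D.j₁ : ℕ) : ℝ)) ?_ ?_
  · refine (hG.sep.const_mul ((2 * k + 2) ^ D.j₁) (u.ev_of_forall hG.nonneg)
      (u.ev_of_forall fun n => by positivity)).mono_left (u.ev_of_forall fun n => ?_)
    rw [← mul_pow]
    push_cast
    refine pow_le_pow_left₀ (by positivity) ?_ _
    have h1 : (0 : ℝ) ≤ k := Nat.cast_nonneg k
    linarith
  refine ((((hF.1.and hX).and (term_inj h hl)).and (hl.mod.and hl.hx)).and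
    ((h.inc.and h.root₁).and h.s₁)).mono ?_
  rintro n ⟨⟨⟨⟨hs, hX⟩, hi⟩, hm, hx⟩, ⟨hinc, hr⟩, hs₁⟩ e he
  set N := (F n).filter fun e' => D.r₁ n e' = D.r₁ n e ∧ D.P₁ n e' = D.P₁ n e with hN
  have hNF : N ⊆ F n := Finset.filter_subset _ _
  have hNE : N ⊆ E n := hNF.trans hs
  have h1 := card_le_caseX (F := N.image fun e => (xr n e, yr n e)) (x := xr n e)
    (P := D.P₁ n e) hm (Finset.image_subset_image hNE)
    (fun z hz => hX z (Finset.image_subset_image hNF hz)) (by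
      intro z hz
      obtain ⟨e', he', rfl⟩ := Finset.mem_image.1 hz
      have h2 := hr e' (hNE he') e (hs he) (Finset.mem_filter.1 he').2.1
      rw [(hx e' (hNE he')).1, (hx e (hs he)).1] at h2
      exact cx_injective h2) (by
      intro z hz
      obtain ⟨e', he', rfl⟩ := Finset.mem_image.1 hz
      have h2 := (hs₁ e' (hNE he')).on
      rw [bb_of_fl (hinc e' (hNE he')).1 (hinc e' (hNE he')).2, (hx e' (hNE he')).1,
        (hx e' (hNE he')).2, (Finset.mem_filter.1 he').2.2] at h2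
      exact h2)
  rw [Finset.card_image_of_injOn (hi.mono (Finset.coe_subset.2 hNE))] at h1
  have h2 := (hs₁ e (hs he)).H_le ((2 * k + 2) * M n)
  rw [Fintype.card_fin, Nat.sub_sub_self h.le₁] at h2
  exact_mod_cast h1.trans h2

theorem term_half (h : Loc u D E) (hc : 2 * k + 1 ≤ D.c + D.j₁ + D.j₂)
    (hl : Link u D E xr yr X M K) {G : ℕ → ℝ} (hG : Dom u k D.j₁ M K G)
    (hrich : u.LL (fun n => (sdg D.j₁ (E n) (D.r₁ n) (D.P₁ n) : ℝ) * G n) (cd E))
    (hb : u.ev fun n => ∀ e ∈ E n, ∀ e' ∈ E n, nul (xr n e) (yr n e'))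
    (hmin : ∀ F, u.Full F E → u.ev fun n =>
      adim ((E n).image (xr n)) + adim ((E n).image (yr n))
        ≤ adim ((F n).image (xr n)) + adim ((F n).image (yr n)))
    (hd : u.ev fun n => adim ((E n).image (yr n)) ≤ adim ((E n).image (xr n))) : False := by
  have h0 : u.ev fun n => ∃ F : Finset ι, (F ⊆ E n ∧ ((E n).card : ℝ) ≤ 64 * F.card) ∧
      (sdim (F.image fun e => (xr n e, yr n e)) < sdim ((E n).image fun e => (xr n e, yr n e)) ∨
        CaseX ((E n).image fun e => (xr n e, yr n e)) (F.image fun e => (xr n e, yr n e)) ∨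
        CaseI (X n) (M n) (F.image fun e => (xr n e, yr n e))) := by
    refine (((h.pos.and hl.mod).and (hb.and hd)).and (term_inj h hl)).mono ?_
    rintro n ⟨⟨⟨hp, hm⟩, hb, hd⟩, hi⟩
    obtain ⟨F', hF', hcard, hcase⟩ := dich hm (hp.image _) (by
      intro z hz z' hz'
      obtain ⟨e, he, rfl⟩ := Finset.mem_image.1 hz
      obtain ⟨e', he', rfl⟩ := Finset.mem_image.1 hz'
      exact hb e he e' he') (by rwa [term_fst, term_snd])
    obtain ⟨F, hF, rfl⟩ := Finset.subset_image_iff.1 hF'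
    refine ⟨F, ⟨hF, ?_⟩, hcase⟩
    rw [Finset.card_image_of_injOn hi] at hcard
    exact_mod_cast hcard.trans (Nat.mul_le_mul_left _ Finset.card_image_le)
  obtain ⟨F, hF⟩ := h0.choose
  have hFE : u.Full F E := UF.Full.of_const 64 (hF.mono fun n hn => hn.1)
  rcases UF.ev_or (hF.mono fun n hn => hn.2) with h1 | h1
  · obtain ⟨n, h2, h3⟩ := (h1.and (hmin F hFE)).exists
    rw [term_sdim, term_sdim] at h2
    omega
  rcases UF.ev_or h1 with h2 | h2
  · exact term_caseX h hl hG hrich hFE h2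
  refine term_caseI (h.restrict hFE) hc (hl.restrict hFE.1) hG
    (rich_restrict hFE _ _ _ hG.nonneg hrich) h2 fun F₂ hF₂ => ?_
  refine ((hmin F₂ (hF₂.trans hFE)).and (hFE.1.and hF₂.1)).mono ?_
  rintro n ⟨h3, h4, h5⟩
  have h6 := adim_mono (Finset.image_subset_image (f := xr n) h4)
  have h7 := adim_mono (Finset.image_subset_image (f := yr n) (h5.trans h4))
  omega

theorem term (h : Loc u D E) (hl : Link u D E xr yr X M K) {G₁ G₂ : ℕ → ℝ}
    (hG₁ : Dom u k D.j₁ M K G₁) (hG₂ : Dom u k D.j₂ M K G₂)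
    (hr₁ : u.LL (fun n => (sdg D.j₁ (E n) (D.r₁ n) (D.P₁ n) : ℝ) * G₁ n) (cd E))
    (hr₂ : u.LL (fun n => (sdg D.j₂ (E n) (D.r₂ n) (D.P₂ n) : ℝ) * G₂ n) (cd E)) :
    D.c + D.j₁ + D.j₂ ≤ 2 * k := by
  by_contra hcon
  have hc : 2 * k + 1 ≤ D.c + D.j₁ + D.j₂ := by omega
  obtain ⟨F₀, hF₀, hb₀⟩ := h.bip hc
  obtain ⟨F, a, hF, ha, hmin⟩ := u.exists_min_full F₀
    (fun n s => adim (s.image (xr n)) + adim (s.image (yr n))) (4 * k + 4) fun n s => by
      have := sdim_le (s.image fun e => (xr n e, yr n e))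
      rwa [term_sdim] at this
  have hFE : u.Full F E := hF.trans hF₀
  have hb : u.ev fun n => ∀ e ∈ F n, ∀ e' ∈ F n, nul (xr n e) (yr n e') := by
    refine ((hb₀.and hl.hx).and (hF.1.and hFE.1)).mono ?_
    rintro n ⟨⟨h1, h2⟩, h3, h4⟩ e he e' he'
    have h5 := h1 e (h3 he) e' (h3 he')
    rw [(h2 e (h4 he)).1, (h2 e' (h4 he')).2] at h5
    exact cx_nul.1 h5
  have hm : ∀ F₂, u.Full F₂ F → u.ev fun n =>
      adim ((F n).image (xr n)) + adim ((F n).image (yr n))
        ≤ adim ((F₂ n).image (xr n)) + adim ((F₂ n).image (yr n)) := fun F₂ hF₂ =>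
    (ha.and (hmin F₂ (hF₂.trans hF))).mono fun n hn => hn.1.trans_le hn.2
  rcases UF.ev_or (u.ev_of_forall fun n =>
    le_total (adim ((F n).image (yr n))) (adim ((F n).image (xr n)))) with hd | hd
  · exact term_half (h.restrict hFE) hc (hl.restrict hFE.1) hG₁
      (rich_restrict hFE _ _ _ hG₁.nonneg hr₁) hb hm hd
  · refine term_half (D := D.swap) (h.restrict hFE).swap ?_ (hl.restrict hFE.1).swap hG₂
      (rich_restrict hFE _ _ _ hG₂.nonneg hr₂)
      (hb.mono fun n hn e he e' he' => nul_comm.1 (hn e' he' e he))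
      (fun F₂ hF₂ => (hm F₂ hF₂).mono fun n hn => by omega) hd
    change 2 * k + 1 ≤ D.c + D.j₂ + D.j₁
    omega

end Vale.Agent.P054A
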