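import Vale.Agent.P054A.TermP
import Vale.Agent.P054A.Iso
import Vale.Agent.P054A.DichA

/-!
The terminal isotropic case.
-/

namespace Vale.Agent.P054A

open MvPolynomial Sum
open scoped Classical

variable {k : ℕ} {ι R₁ R₂ : Type} {u : UF} {D : LD k ι R₁ R₂} {E : ℕ → Finset ι}

theorem termA_deg (l o : Tx k → ℂ) :
    (∑ i, C (l i) * (X i - C (o i)) : MvPolynomial (Tx k) ℂ).totalDegree ≤ 1 := by
  refine (totalDegree_finsetSum _ _).trans (Finset.sup_le fun i _ => ?_)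
  refine (totalDegree_mul _ _).trans ?_
  rw [totalDegree_C, zero_add]
  refine (totalDegree_sub _ _).trans (max_le ?_ ?_)
  · rw [totalDegree_X]
  · rw [totalDegree_C]
    exact zero_le_one

theorem termA_eval {a : ℕ} {l o x : Tx k → ℂ} {v : Fin a → Tx k → ℂ} {s : Fin a → ℂ}
    (hl : ∀ i, ∑ m, l m * v i m = 0) (hx : ∀ m, x m = o m + ∑ i, s i * v i m) :
    eval x (∑ i, C (l i) * (X i - C (o i)) : MvPolynomial (Tx k) ℂ) = 0 := by
  rw [map_sum]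
  have e : ∀ m, eval x (C (l m) * (X m - C (o m)) : MvPolynomial (Tx k) ℂ) =
      ∑ i, s i * (l m * v i m) := by
    intro m
    rw [map_mul, map_sub, eval_C, eval_C, eval_X, hx m, add_sub_cancel_left, Finset.mul_sum]
    exact Finset.sum_congr rfl fun i _ => by ring
  rw [Finset.sum_congr rfl fun m _ => e m, Finset.sum_comm]
  refine Finset.sum_eq_zero fun i _ => ?_
  rw [← Finset.mul_sum, hl i, mul_zero]

theorem termA_lin {a : ℕ} {x : ℕ → ι → Tx k → ℂ} {o : ℕ → Tx k → ℂ}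
    {v : ℕ → Fin a → Tx k → ℂ} {s : ℕ → ι → Fin a → ℂ}
    {Q : ℕ → Ideal (MvPolynomial (Sx k ⊕ Tx k) ℂ)}
    (hs : u.ev fun n => ∀ e ∈ E n, ∀ l, x n e l = o n l + ∑ i, s n e i * v n i l)
    (hQ : ∀ G : ℕ → MvPolynomial (Tx k) ℂ, (u.ev fun n => (G n).totalDegree ≤ 1 ∧
      ∀ e ∈ E n, eval (x n e) (G n) = 0) → u.ev fun n => rename inr (G n) ∈ Q n) :
    u.ev fun n => ∀ l : Tx k → ℂ, (∀ i, ∑ m, l m * v n i m = 0) →
      rename inr (∑ m, C (l m) * (X m - C (o n m)) : MvPolynomial (Tx k) ℂ) ∈ Q n := by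
  by_contra hn
  have h1 : u.ev fun n => ∃ l : Tx k → ℂ, (∀ i, ∑ m, l m * v n i m = 0) ∧
      rename inr (∑ m, C (l m) * (X m - C (o n m)) : MvPolynomial (Tx k) ℂ) ∉ Q n := by
    refine (UF.ev_not hn).mono fun n h => ?_
    by_contra h'
    exact h fun l hl => by_contra fun h2 => h' ⟨l, hl, h2⟩
  obtain ⟨l, hl⟩ := h1.choose
  have h2 := hQ (fun n => ∑ m, C (l n m) * (X m - C (o n m)))
    ((hs.and hl).mono fun n h => ⟨termA_deg _ _, fun e he => termA_eval h.2.1 (h.1 e he)⟩)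
  obtain ⟨n, h3, h4⟩ := (h2.and hl).exists
  exact h4.2 h3

theorem termA_num {N δ G B C c : ℝ} (hδ : 1 ≤ δ) (hB : 1 ≤ B) (hC : 0 ≤ C) (hN : C + 1 ≤ N)
    (h1 : N * N * (δ * G) ≤ c) (h2 : c ≤ C * δ * B) (h3 : B ≤ N * G) : False := by
  have h4 : C * δ * B ≤ C * δ * (N * G) :=
    mul_le_mul_of_nonneg_left h3 (mul_nonneg hC (by linarith))
  have h5 : 0 < δ * (N * G) := mul_pos (by linarith) (by linarith)
  nlinarith

/-- The isotropic case in coordinates. -/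
theorem term_iso (h : Loc u D E) (hc : 2 * k + 1 ≤ D.c + D.j₁ + D.j₂) {a : ℕ}
    (o : ℕ → Tx k → ℂ) (v : ℕ → Fin a → Tx k → ℂ) (s s' : ℕ → ι → Fin a → ℂ) (M : ℕ → ℕ)
    (hv : u.ev fun n => LinearIndependent ℂ fun i => fun l : Fin (k + 1) => v n i (inl l))
    (hs : u.ev fun n => ∀ e ∈ E n, (∀ l, D.x n e l = o n l + ∑ i, s n e i * v n i l) ∧
      ∀ l, D.y n e l = o n l + ∑ i, s' n e i * v n i l)
    (hspan : ∀ F, u.Full F E → u.ev fun n => affineSpan ℂ (s n '' (F n : Set ι)) = ⊤)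
    (hsep : u.ev fun n => ∀ e₀ ∈ E n, ∃ g : MvPolynomial (Tx k) ℂ, g.totalDegree ≤ M n ∧
      eval (D.y n e₀) g ≠ 0 ∧ ∀ e ∈ E n, D.r₂ n e ≠ D.r₂ n e₀ → eval (D.y n e) g = 0)
    {G : ℕ → ℝ} (hG : ∀ n, 0 ≤ G n) (hM : u.LE (fun n => ((M n : ℝ) + 1) ^ D.j₁) G)
    (hrich : u.LL (fun n => (sdg D.j₁ (E n) (D.r₁ n) (D.P₁ n) : ℝ) * G n) (cd E)) :
    a ≤ D.j₁ + 1 := by
  by_contra ha
  obtain ⟨F, t, c₁, c₂, φ₁, J₁, φ₂, J₂, Q₁, Q₂, hF, hP, hQ₁, hQ₂⟩ := h.pack hc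
  have hI₁ := termA_lin (hs.mono fun n h e he => (h e he).1) hQ₁
  have hI₂ := termA_lin (hs.mono fun n h e he => (h e he).2) hQ₂
  obtain ⟨F', κ, hκ, hF', hpr⟩ := exists_prune hF D.j₁ D.r₁ D.P₁ hG hrich
  have hFE := hF'.trans hF
  have hκ2 : 0 < κ / 2 := half_pos hκ
  obtain ⟨n, ⟨⟨⟨⟨⟨⟨k1, k2⟩, k3, k4⟩, k5, k6⟩, k7, k8⟩, k9, k10⟩, k11, k12⟩, ⟨k13, k14⟩, k15⟩ :=
    (((((((hP.and hI₁).and (hI₂.and hpr)).and (hF'.1.and hFE.1)).and
      ((hspan F' hFE).and (hFE.nonempty h.pos))).and (hv.and hs)).and (hsep.and h.inj)).and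
      (((hM _ hκ2).and (u.ev_pw_ge hκ2 ((((k + 2) ^ (2 * k + 1) *
        ((2 * k + 2) * t + 1) ^ (2 * k + 2) : ℕ) : ℝ) + 1))).and (u.ev_ge 1))).exists
  obtain ⟨e₀, he₀, hmax⟩ := (F' n).exists_max_image (fun e => dg D.j₁ (D.P₁ n e)) k8
  have hR := k1.restrict k5 k8
  rcases hR.iso (o n) (v n) k9 (s n) (fun e he => (k10 e (k6 he)).1) k2 k3 k7 hmax with h1 | h1
  · exact ha h1
  have h2 : ((F' n).filter fun e' => D.r₁ n e' = D.r₁ n e₀ ∧ D.P₁ n e' = D.P₁ n e₀).card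
      ≤ H (vanI (D.y n '' (F' n : Set ι))) (M n) := by
    refine card_le_H_of_sep _ (D.y n) (fun e he g hg => ?_) fun e he => ?_
    · exact hg _ ⟨e, (Finset.mem_filter.1 he).1, rfl⟩
    · obtain ⟨he1, he2, -⟩ := Finset.mem_filter.1 he
      obtain ⟨g, g1, g2, g3⟩ := k11 e (k6 he1)
      refine ⟨g, g1, g2, fun e' he' hne => ?_⟩
      obtain ⟨he1', he2', -⟩ := Finset.mem_filter.1 he'
      exact g3 e' (k6 he1') fun h3 => hne (k12 e' (k6 he1') e (k6 he1) (he2'.trans he2.symm) h3)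
  have h3 : 1 ≤ dg D.j₁ (D.P₁ n e₀) := by
    have h4 := (hR.yc₁ e₀ he₀).1.one_le_dg
    rwa [Fintype.card_fin, Nat.sub_sub_self h.le₁] at h4
  have h4 := k4 e₀ he₀
  have hn : (0 : ℝ) < n := by exact_mod_cast k15
  rw [← add_halves κ, Real.rpow_add hn] at h4
  refine termA_num (B := ((M n : ℝ) + 1) ^ D.j₁) (by exact_mod_cast h3)
    (one_le_pow₀ (le_add_of_nonneg_left (Nat.cast_nonneg _))) (Nat.cast_nonneg _) k14 h4 ?_ k13
  exact_mod_cast h2.trans (h1 (M n))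

end Vale.Agent.P054A
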