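import Vale.Agent.P054A.TermA
import Vale.Agent.P054A.Coord

/-!
The terminal isotropic case for the real model.
-/

namespace Vale.Agent.P054A

open MvPolynomial Sum
open scoped Classical

variable {k : ℕ}

/-- The link between a localised configuration and the real model. -/
structure Link (u : UF) {ι R₁ R₂ : Type} (D : LD k ι R₁ R₂) (E : ℕ → Finset ι)
    (xr yr : ℕ → ι → Tx k → ℝ) (X : ℕ → Finset (Tx k → ℝ)) (M : ℕ → ℕ) (K : ℕ → ℕ → ℕ) :
    Prop where
  mod : u.ev fun n => Mod (X n) ((E n).image fun e => (xr n e, yr n e)) (M n) (K n)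
  hx : u.ev fun n => ∀ e ∈ E n, D.x n e = cx (xr n e) ∧ D.y n e = cx (yr n e)
  root₁ : u.ev fun n => ∀ e ∈ E n, ∀ e' ∈ E n, xr n e = xr n e' → D.r₁ n e = D.r₁ n e'
  root₂ : u.ev fun n => ∀ e ∈ E n, ∀ e' ∈ E n, yr n e = yr n e' → D.r₂ n e = D.r₂ n e'

/-- The comparison sequence dominates all terminal bounds in dimension `j`. -/
structure Dom (u : UF) (k j : ℕ) (M : ℕ → ℕ) (K : ℕ → ℕ → ℕ) (G : ℕ → ℝ) : Prop where
  nonneg : ∀ n, 0 ≤ G n
  sep : u.LE (fun n => ((M n : ℝ) + 1) ^ j) G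
  low : ∀ a, 1 ≤ a → a ≤ k → a ≤ j + 1 → u.LE (nr fun n => K n a) G
  top : k ≤ j + 1 → u.LE (nr fun n => K n (k + 1)) G

variable {ι R₁ R₂ : Type} {u : UF} {D : LD k ι R₁ R₂} {E : ℕ → Finset ι}
  {xr yr : ℕ → ι → Tx k → ℝ} {X : ℕ → Finset (Tx k → ℝ)} {M : ℕ → ℕ} {K : ℕ → ℕ → ℕ}

theorem Link.restrict (h : Link u D E xr yr X M K) {F : ℕ → Finset ι}
    (hF : u.ev fun n => F n ⊆ E n) : Link u D F xr yr X M K := by
  refine ⟨(h.mod.and hF).mono fun n hn => hn.1.mono (Finset.image_subset_image hn.2),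
    (h.hx.and hF).mono fun n hn e he => hn.1 e (hn.2 he),
    (h.root₁.and hF).mono fun n hn e he e' he' => hn.1 e (hn.2 he) e' (hn.2 he'),
    (h.root₂.and hF).mono fun n hn e he e' he' => hn.1 e (hn.2 he) e' (hn.2 he')⟩

theorem Link.swap (h : Link u D E xr yr X M K) : Link u D.swap E yr xr X M K := by
  refine ⟨h.mod.mono fun n hn => ?_, h.hx.mono fun n hn e he => (hn e he).symm, h.root₂, h.root₁⟩
  have h1 := hn.swap
  rw [Finset.image_image] at h1
  exact h1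

theorem TermB_cx_add {τ : Type} (y z : τ → ℝ) (t : ℝ) :
    cx (y + t • z) = cx y + (t : ℂ) • cx z := by
  funext l
  simp [cx]

theorem TermB_fl {x y z : Tx k → ℝ} {b : Fin k → ℂ} (h : fl (cx y) b = fl (cx x) b)
    (h0 : cx x (inl 0) ≠ cx y (inl 0)) (hz : z ∈ Rb k) (hb : bil z (y - x) = 0) (w : Tx k → ℝ)
    (t : ℝ) : fl (cx (w + t • z)) b = fl (cx w) b := by
  have h1 : cx y - cx x = cx (y - x) := by
    funext l
    simp [cx]
  rw [TermB_cx_add, fl_add, fl0_eq_zero h h0 (fun i => by simp [cx, hz i])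
    (by rw [bil_smul_left, h1, cx_bil, hb, Complex.ofReal_zero, mul_zero]), add_zero]

theorem TermB_card {Y : Finset (Tx k → ℝ)} {F : Finset (Ed k)} {m : ℕ} {L : ℕ → ℕ}
    (h : Mod Y F m L) {U : Submodule ℝ (Tx k → ℝ)} (hU : Iso U) {e : Ed k} (he : e ∈ F)
    (h1 : e.2 - e.1 ∈ U) : 1 ≤ Module.finrank ℝ U ∧
      (Y.filter fun y => y - e.1 ∈ U).card ≤ L (Module.finrank ℝ U) := by
  have h2 : e.2 - e.1 ≠ 0 := fun h3 => (h.mem e he).2.2.2 (by rw [sub_eq_zero.1 h3])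
  have h3 : Submodule.span ℝ {e.2 - e.1} ≤ U := (Submodule.span_singleton_le_iff_mem _ _).2 h1
  have h4 := finrank_span_singleton (K := ℝ) h2
  have h5 : 1 ≤ Module.finrank ℝ U := h4 ▸ Submodule.finrank_mono h3
  refine ⟨h5, ?_⟩
  rcases h5.eq_or_lt with h6 | h6
  · rw [← h6, ← Submodule.eq_of_le_of_finrank_eq h3 (h4.trans h6)]
    exact h.line₁ e he
  · exact h.cnt _ (h.mem e he).1 U hU h6

theorem term_caseI (h : Loc u D E) (hc : 2 * k + 1 ≤ D.c + D.j₁ + D.j₂)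
    (hl : Link u D E xr yr X M K) {G : ℕ → ℝ} (hG : Dom u k D.j₁ M K G)
    (hrich : u.LL (fun n => (sdg D.j₁ (E n) (D.r₁ n) (D.P₁ n) : ℝ) * G n) (cd E))
    (hI : u.ev fun n => CaseI (X n) (M n) ((E n).image fun e => (xr n e, yr n e)))
    (hmin : ∀ F, u.Full F E → u.ev fun n =>
      adim ((E n).image (xr n)) ≤ adim ((F n).image (xr n))) : False := by
  obtain ⟨a', h1⟩ := (hI.mono fun n hn => caseI_coords hn).choose
  obtain ⟨a, -, ha⟩ := UF.ev_const_nat (a := a') (B := k + 1) (h1.mono fun n hn => by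
    obtain ⟨o, U, z, v, co, t, -, hU, -, -, -, -, h2, -⟩ := hn
    have := hU.finrank_le
    omega)
  have h2 := (h1.and ha).mono fun n hn => hn.2 ▸ hn.1
  obtain ⟨o, h2⟩ := h2.choose
  obtain ⟨U, h2⟩ := h2.choose
  obtain ⟨z, h2⟩ := h2.choose
  obtain ⟨v, h2⟩ := h2.choose
  obtain ⟨co, h2⟩ := h2.choose
  obtain ⟨t, h2⟩ := h2.choose
  clear h1 ha
  obtain ⟨r, hrk, hr⟩ := UF.ev_const_nat (a := fun n => Module.finrank ℝ (U n)) (B := k + 1)
    (h2.mono fun n hn => hn.2.1.finrank_le)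
  have hU : u.ev fun n => ∀ e ∈ E n, xr n e - o n ∈ U n ∧ yr n e - o n ∈ U n :=
    h2.mono fun n hn e he => hn.2.2.2.2.1 _ (Finset.mem_image_of_mem _ he)
  have hU' : u.ev fun n => ∀ e ∈ E n, ∀ e' ∈ E n, yr n e' - xr n e ∈ U n :=
    hU.mono fun n hn e he e' he' => by
      have h3 := (U n).sub_mem (hn e' he').2 (hn e he).1
      rwa [sub_sub_sub_cancel_right] at h3
  have hsh := h.shift (fun n e => cx (xr n e + t n (xr n e) • z n))
    (fun n e => cx (yr n e + t n (yr n e) • z n))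
    ((((h2.and hU').and hl.hx).and h.inc).mono fun n ⟨⟨⟨hn, hu⟩, hx⟩, hi⟩ e he => by
      have h3 := hi e he
      rw [(hx e he).1, (hx e he).2] at h3
      have h4 := TermB_fl h3.1 h3.2 hn.2.2.2.1 (hn.2.1 _ hn.2.2.1 _ (hu e he e he))
      rw [(hx e he).1, h4, h4]
      refine ⟨rfl, h3.1, ?_⟩
      have h5 : z n (inl 0) = 0 := hn.2.2.2.1 0
      simpa [cx, h5] using h3.2)
    ((hl.hx.and h.root₁).mono fun n ⟨hx, hn⟩ e he e' he' h3 => by
      have h4 := hn e he e' he' h3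
      rw [(hx e he).1, (hx e' he').1] at h4
      simp only [cx_injective h4])
    ((hl.hx.and h.root₂).mono fun n ⟨hx, hn⟩ e he e' he' h3 => by
      have h4 := hn e he e' he' h3
      rw [(hx e he).2, (hx e' he').2] at h4
      simp only [cx_injective h4])
  have hco : u.ev fun n => ∀ y, y - o n ∈ U n → ∀ l, cx (y + t n y • z n) l =
      cx (o n) l + ∑ i, cx (co n y) i * cx (v n i) l := h2.mono fun n hn y hy l => by
    have h3 := hn.2.2.2.2.2.2.2.2.1 y hy l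
    simp only [cx, Pi.add_apply, Pi.smul_apply, smul_eq_mul, h3]
    push_cast
    rfl
  have haj : a ≤ D.j₁ + 1 := by
    refine term_iso hsh hc (fun n => cx (o n)) (fun n i => cx (v n i))
      (fun n e => cx (co n (xr n e))) (fun n e => cx (co n (yr n e))) M
      (h2.mono fun n hn => hn.2.2.2.2.2.2.2.1)
      ((hco.and hU).mono fun n hn e he =>
        ⟨hn.1 _ (hn.2 e he).1, hn.1 _ (hn.2 e he).2⟩) (fun F hF => ?_) ?_ hG.nonneg hG.sep hrich
    · refine (((h2.and (hmin F hF)).and hF.1).and (hF.nonempty h.pos)).mono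
        fun n ⟨⟨⟨hn, hm⟩, hs⟩, hne⟩ => ?_
      have h3 : ((E n).image fun e => (xr n e, yr n e)).image Prod.fst = (E n).image (xr n) := by
        rw [Finset.image_image]
        rfl
      have h4 := hn.2.2.2.2.2.2.2.2.2 ((F n).image (xr n)) (hne.image _)
        (h3 ▸ Finset.image_subset_image hs) (h3 ▸ hm)
      rwa [Finset.coe_image, Set.image_image] at h4
    · refine (((h2.and hU).and hl.mod).and hl.root₂).mono fun n ⟨⟨⟨hn, hu⟩, hm⟩, h3⟩ e₀ he₀ => ?_
      obtain ⟨g, hg, hinv, hne, hz⟩ := hn.2.2.2.2.2.1 (yr n e₀)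
        (hm.mem _ (Finset.mem_image_of_mem _ he₀)).2.1 (hu e₀ he₀).2
      refine ⟨g, hg, ?_, fun e he hr => ?_⟩
      · change eval (cx (yr n e₀ + t n (yr n e₀) • z n)) g ≠ 0
        rwa [TermB_cx_add, hinv]
      · change eval (cx (yr n e + t n (yr n e) • z n)) g = 0
        rw [TermB_cx_add, hinv]
        exact hz _ (hm.mem _ (Finset.mem_image_of_mem _ he)).2.1 (hu e he).2
          fun h4 => hr (h3 e he e₀ he₀ h4)
  have hcard : u.ev fun n => ∀ e ∈ E n, 1 ≤ r ∧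
      ((X n).filter fun y => y - xr n e ∈ U n).card ≤ K n r :=
    (((h2.and hU').and hl.mod).and hr).mono fun n ⟨⟨⟨hn, hu⟩, hm⟩, h3⟩ e he =>
      h3 ▸ TermB_card hm hn.2.1 (Finset.mem_image_of_mem _ he) (hu e he e he)
  have hB : u.LE (nr fun n => K n r) G := by
    obtain ⟨n, ⟨⟨hn, h3⟩, h4⟩, e, he⟩ := (((h2.and hr).and hcard).and h.pos).exists
    have h5 := hn.2.2.2.2.2.2.1
    have h6 := (h4 e he).1
    rw [h3] at h5
    rcases hrk.eq_or_lt with h7 | h7
    · rw [h7]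
      exact hG.top (by omega)
    · exact hG.low r h6 (by omega) (by omega)
  refine term_count h (UF.Full.refl u E) hG.nonneg hrich _ hB
    (((((hcard.and hU').and hl.mod).and hl.root₂).and (h.inj.and h.s₁)).mono
      fun n ⟨⟨⟨⟨h3, hu⟩, hm⟩, h4⟩, hi, hs⟩ e he => ?_)
  have h5 := (hs e he).one_le_dg
  rw [Fintype.card_fin, Nat.sub_sub_self h.le₁] at h5
  have h6 : ((E n).filter fun e' => D.r₁ n e' = D.r₁ n e ∧ D.P₁ n e' = D.P₁ n e).card ≤
      ((X n).filter fun y => y - xr n e ∈ U n).card := by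
    refine Finset.card_le_card_of_injOn (yr n) (fun e' he' => ?_) fun e' he' e'' he'' h7 => ?_
    · have h7 := (Finset.mem_filter.1 he').1
      exact Finset.mem_filter.2 ⟨(hm.mem _ (Finset.mem_image_of_mem _ h7)).2.1, hu e he e' h7⟩
    · have h8 := Finset.mem_filter.1 he'
      have h9 := Finset.mem_filter.1 he''
      exact hi e' h8.1 e'' h9.1 (h8.2.1.trans h9.2.1.symm) (h4 e' h8.1 e'' h9.1 h7)
  have h7 := (h6.trans (h3 e he).2).trans (Nat.le_mul_of_pos_left _ h5)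
  unfold nr
  exact_mod_cast h7

end Vale.Agent.P054A
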