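import Vale.Agent.P054A.PackS
import Vale.Agent.P054A.CritB

/-!
The terminal isotropic case.
-/

namespace Vale.Agent.P054A

open MvPolynomial Sum
open scoped Classical

variable {k : ℕ} {ι R₁ R₂ : Type} {u : UF} {D : LD k ι R₁ R₂} {E : ℕ → Finset ι}

theorem Loc.bip (h : Loc u D E) (hc : 2 * k + 1 ≤ D.c + D.j₁ + D.j₂) :
    ∃ F, u.Full F E ∧ u.ev fun n => ∀ e ∈ F n, ∀ e' ∈ F n, nul (D.x n e) (D.y n e') := by
  obtain ⟨F, t, c₁, c₂, φ₁, J₁, φ₂, J₂, Q₁, Q₂, hF, hP, -⟩ := h.pack hc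
  exact ⟨F, hF, hP.mono fun n hn => hn.bip⟩

/-- Moving the end points without moving the points of the edges. -/
theorem Loc.shift (h : Loc u D E) (x y : ℕ → ι → Tx k → ℂ)
    (hx : u.ev fun n => ∀ e ∈ E n, fl (x n e) (D.b n e) = fl (D.x n e) (D.b n e) ∧
      fl (y n e) (D.b n e) = fl (D.x n e) (D.b n e) ∧ x n e (inl 0) ≠ y n e (inl 0))
    (h₁ : u.ev fun n => ∀ e ∈ E n, ∀ e' ∈ E n, D.r₁ n e = D.r₁ n e' → x n e = x n e')
    (h₂ : u.ev fun n => ∀ e ∈ E n, ∀ e' ∈ E n, D.r₂ n e = D.r₂ n e' → y n e = y n e') :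
    Loc u { D with x := x, y := y } E := by
  refine ⟨h.pos, h.one_le, h.le₁, h.le₂, hx.mono fun n hn e he => ?_, h₁, h₂, h.inj,
    (h.sv.and hx).mono fun n hn => ⟨hn.1.1, fun e he => ?_⟩, h.s₁, h.s₂,
    fun M hM F g hF => h.robV M hM F g ((hF.and hx).mono fun n hn => ⟨hn.1.1, ?_⟩), h.rob₁, h.rob₂⟩
  · exact ⟨(hn e he).2.1.trans (hn e he).1.symm, (hn e he).2.2⟩
  · have h1 := hn.1.2 e he
    unfold LD.p at h1 ⊢
    rw [← (hn.2 e he).1] at h1
    exact h1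
  · refine ⟨hn.1.2.cons, hn.1.2.notin, hn.1.2.deg, fun e he => ?_⟩
    have h1 := hn.1.2.zero e he
    unfold LD.p at h1 ⊢
    rw [← (hn.2 e (hn.1.1 he)).1]
    exact h1

theorem termp_count {σ R : Type} {B F E : Finset ι} (hBF : B ⊆ F) (hBE : B ⊆ E) (v : ℕ) (r : ι → R)
    (P : ι → Ideal (MvPolynomial σ ℂ)) {w : ℝ} (hw : 0 ≤ w)
    (h : ∀ e ∈ B, ((F.filter fun e' => r e' = r e ∧ P e' = P e).card : ℝ) ≤ dg v (P e) * w) :
    (B.card : ℝ) ≤ sdg v E r P * w := by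
  have h1 : (B.card : ℝ) ≤ sdg v B r P * w := by
    rw [Finset.card_eq_sum_card_image (fun e => (r e, P e)) B, sdg]
    push_cast
    rw [Finset.sum_mul]
    refine Finset.sum_le_sum fun z hz => ?_
    obtain ⟨e, he, rfl⟩ := Finset.mem_image.1 hz
    refine le_trans ?_ (h e he)
    refine Nat.cast_le.2 (Finset.card_le_card fun e' he' => ?_)
    rw [Finset.mem_filter] at he' ⊢
    exact ⟨hBF he'.1, Prod.mk.inj he'.2⟩
  exact h1.trans (mul_le_mul_of_nonneg_right (Nat.cast_le.2 (sdg_mono v hBE r P)) hw)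

theorem termp_half (n : ℕ) {κ : ℝ} (hκ : 0 < κ) :
    (n : ℝ) ^ (κ / 2) * (n : ℝ) ^ (κ / 2) = (n : ℝ) ^ κ := by
  rw [← Real.rpow_add' (Nat.cast_nonneg n) (by rw [add_halves]; exact hκ.ne'), add_halves]

/-- Pruning of the poor nodes. -/
theorem exists_prune {σ R : Type} {F : ℕ → Finset ι} (hF : u.Full F E) (v : ℕ) (r : ℕ → ι → R)
    (P : ℕ → ι → Ideal (MvPolynomial σ ℂ)) {G : ℕ → ℝ} (hG : ∀ n, 0 ≤ G n)
    (h : u.LL (fun n => (sdg v (E n) (r n) (P n) : ℝ) * G n) (cd E)) :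
    ∃ (F' : ℕ → Finset ι) (κ : ℝ), 0 < κ ∧ u.Full F' F ∧ u.ev fun n => ∀ e ∈ F' n,
      (n : ℝ) ^ κ * (dg v (P n e) * G n)
        ≤ ((F' n).filter fun e' => r n e' = r n e ∧ P n e' = P n e).card := by
  obtain ⟨κ, hκ, h⟩ := h
  have hw : ∀ n : ℕ, 0 ≤ (n : ℝ) ^ (κ / 2) := fun n => Real.rpow_nonneg (Nat.cast_nonneg n) _
  let B : ℕ → Finset ι := fun n => (F n).filter fun e =>
    (((F n).filter fun e' => r n e' = r n e ∧ P n e' = P n e).card : ℝ)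
      < dg v (P n e) * ((n : ℝ) ^ (κ / 2) * G n)
  have hB : u.LL (cd B) (cd E) := by
    refine ⟨κ / 2, half_pos hκ, (h.and hF.1).mono fun n hn => le_trans ?_ hn.1⟩
    have h1 := termp_count (B := B n) (Finset.filter_subset _ _)
      ((Finset.filter_subset _ _).trans hn.2) v (r n) (P n) (mul_nonneg (hw n) (hG n))
      fun e he => (Finset.mem_filter.1 he).2.le
    have h2 := mul_le_mul_of_nonneg_left h1 (hw n)
    rw [← termp_half n hκ]
    unfold cd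
    linarith
  refine ⟨fun n => F n \ B n, κ / 2, half_pos hκ, (UF.Full.refl u F).sdiff (hF.ll hB),
    u.ev_of_forall fun n e he => ?_⟩
  rw [Finset.mem_sdiff] at he
  have h1 : ¬ (((F n).filter fun e' => r n e' = r n e ∧ P n e' = P n e).card : ℝ)
      < dg v (P n e) * ((n : ℝ) ^ (κ / 2) * G n) := fun h' => he.2 (Finset.mem_filter.2 ⟨he.1, h'⟩)
  have h2 : ((F n).filter fun e' => r n e' = r n e ∧ P n e' = P n e) ⊆
      (F n \ B n).filter fun e' => r n e' = r n e ∧ P n e' = P n e := by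
    intro e' he'
    rw [Finset.mem_filter] at he' ⊢
    refine ⟨Finset.mem_sdiff.2 ⟨he'.1, fun h' => h1 ?_⟩, he'.2⟩
    have h3 := (Finset.mem_filter.1 h').2
    rwa [he'.2.1, he'.2.2] at h3
  have h3 : (((F n).filter fun e' => r n e' = r n e ∧ P n e' = P n e).card : ℝ) ≤
      ((F n \ B n).filter fun e' => r n e' = r n e ∧ P n e' = P n e).card :=
    Nat.cast_le.2 (Finset.card_le_card h2)
  linarith [not_lt.1 h1]

/-- A bound for the number of second end points contradicts richness. -/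
theorem term_count (h : Loc u D E) {F : ℕ → Finset ι} (hF : u.Full F E) {G : ℕ → ℝ}
    (hG : ∀ n, 0 ≤ G n)
    (hrich : u.LL (fun n => (sdg D.j₁ (E n) (D.r₁ n) (D.P₁ n) : ℝ) * G n) (cd E)) (B : ℕ → ℝ)
    (hB : u.LE B G) (hb : u.ev fun n => ∀ e ∈ F n,
      (((F n).filter fun e' => D.r₁ n e' = D.r₁ n e ∧ D.P₁ n e' = D.P₁ n e).card : ℝ)
        ≤ dg D.j₁ (D.P₁ n e) * B n) : False := by
  obtain ⟨κ, hκ, hr⟩ := hrich
  have hw : ∀ n : ℕ, 0 ≤ (n : ℝ) ^ (κ / 2) := fun n => Real.rpow_nonneg (Nat.cast_nonneg n) _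
  refine hF.not_ll h.pos ⟨κ / 2, half_pos hκ,
    (((hr.and hF.1).and (hB _ (half_pos hκ))).and hb).mono fun n hn => le_trans ?_ hn.1.1.1⟩
  have h1 := termp_count (B := F n) subset_rfl hn.1.1.2 D.j₁ (D.r₁ n) (D.P₁ n)
    (mul_nonneg (hw n) (hG n)) fun e he => (hn.2 e he).trans
      (mul_le_mul_of_nonneg_left hn.1.2 (Nat.cast_nonneg _))
  have h2 := mul_le_mul_of_nonneg_left h1 (hw n)
  rw [← termp_half n hκ]
  unfold cd
  linarith

end Vale.Agent.P054A
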