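import Vale.Agent.P054A.Nest
import Vale.Agent.P054A.Asy

/-!
Trees: initial state, restriction, and the next scale.
-/

namespace Vale.Agent.P054A

open MvPolynomial
open scoped Classical

variable {ι R σ : Type} {u : UF} {E F : ℕ → Finset ι} {r : ℕ → ι → R} {π : ℕ → ι → σ → ℂ}
  {P : ℕ → ι → Ideal (MvPolynomial σ ℂ)}

theorem RobAt.restrict {M : ℕ → ℕ} (h : RobAt u E r π P M) (hF : u.Full F E) :
    RobAt u F r π P M := by
  intro G g hG
  exact hF.ll (h G g ((hG.and hF.1).mono fun n hn => ⟨hn.1.1.trans hn.2, hn.1.2⟩))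

theorem RobAt.mono {M M' : ℕ → ℕ} (h : RobAt u E r π P M) (hM : u.ev fun n => M' n ≤ M n) :
    RobAt u E r π P M' := by
  intro G g hG
  exact h G g ((hG.and hM).mono fun n hn => ⟨hn.1.1, hn.1.2.mono subset_rfl hn.2⟩)

theorem RobBelow.restrict {ν : ℝ} (h : RobBelow u E r π P ν) (hF : u.Full F E) :
    RobBelow u F r π P ν := by
  exact fun M hM => (h M hM).restrict hF

theorem RobBelow.mono {ν ν' : ℝ} (h : RobBelow u E r π P ν) (hν : ν' ≤ ν) :
    RobBelow u E r π P ν' := by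
  exact fun M hM => h M (hM.trans_le (UF.LE.pw_pw u hν))

theorem trA_small {j : ℕ → ℕ} (hj : ∀ N, u.ev fun n => N ≤ j n) {κ : ℝ} (hκ : 0 < κ) :
    u.ev fun n => 1 / ((j n : ℝ) + 1) ≤ κ := by
  obtain ⟨N, hN⟩ := exists_nat_one_div_lt hκ
  refine (hj N).mono fun n hn => le_trans ?_ hN.le
  have : (N : ℝ) ≤ j n := by exact_mod_cast hn
  exact one_div_le_one_div_of_le (by positivity) (by linarith)

theorem trA_attain {ν : ℝ} (h : ∀ j : ℕ, ∃ x ≤ ν + 1 / ((j : ℝ) + 1), CapAt u E r π P x) :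
    CapAt u E r π P ν := by
  choose x hx F g M hM hF hC using h
  have key : ∀ j : ℕ, u.ev fun n => (F j n ⊆ E n ∧
      Cap (F j n) (r n) (π n) (P n) (M j n) (g j n)) ∧
      (M j n : ℝ) ≤ (n : ℝ) ^ (1 / ((j : ℝ) + 1)) * pw (x j) n ∧
      ((E n).card : ℝ) ≤ (n : ℝ) ^ (1 / ((j : ℝ) + 1)) * (F j n).card := fun j =>
    ((hF j).1.and (hC j)).and ((hM j _ (by positivity)).and ((hF j).2 _ (by positivity)))
  obtain ⟨j, hj, hP⟩ := UF.diag key
  have hP' := hP.mono fun n hn => hn (j n) le_rfl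
  refine ⟨fun n => F (j n) n, fun n => g (j n) n, fun n => M (j n) n, fun κ hκ => ?_,
    ⟨hP'.mono fun n hn => hn.1.1, fun κ hκ => ?_⟩, hP'.mono fun n hn => hn.1.2⟩
  · refine ((hP'.and (trA_small hj (half_pos hκ))).and (u.ev_ge 1)).mono fun n hn => ?_
    obtain ⟨⟨⟨-, h1, -⟩, h2⟩, h3⟩ := hn
    have hn : (1 : ℝ) ≤ n := by exact_mod_cast h3
    have hn0 : (0 : ℝ) < n := by linarith
    refine h1.trans ?_
    simp only [pw]
    rw [← Real.rpow_add hn0, ← Real.rpow_add hn0]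
    exact Real.rpow_le_rpow_of_exponent_le hn (by linarith [hx (j n)])
  · refine ((hP'.and (trA_small hj hκ)).and (u.ev_ge 1)).mono fun n hn => ?_
    obtain ⟨⟨⟨-, -, h1⟩, h2⟩, h3⟩ := hn
    have hn : (1 : ℝ) ≤ n := by exact_mod_cast h3
    exact h1.trans (mul_le_mul_of_nonneg_right (Real.rpow_le_rpow_of_exponent_le hn h2)
      (Nat.cast_nonneg _))

/-- The first scale of capture. -/
theorem scale_dich (u : UF) (E : ℕ → Finset ι) (r : ℕ → ι → R) (π : ℕ → ι → σ → ℂ)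
    (P : ℕ → ι → Ideal (MvPolynomial σ ℂ)) {μ μ' : ℝ} (h : μ ≤ μ') :
    ∃ ν, μ ≤ ν ∧ ν ≤ μ' ∧ (μ < ν → RobBelow u E r π P ν) ∧ (ν < μ' → CapAt u E r π P ν) := by
  set S : Set ℝ := {x | (μ ≤ x ∧ CapAt u E r π P x) ∨ x = μ'} with hS
  have hne : S.Nonempty := ⟨μ', Or.inr rfl⟩
  have hlb : ∀ x ∈ S, μ ≤ x := fun x hx => hx.elim (fun h' => h'.1) fun h' => h' ▸ h
  have hbd : BddBelow S := ⟨μ, hlb⟩
  refine ⟨sInf S, le_csInf hne hlb, csInf_le hbd (Or.inr rfl), fun hμ M hM G g hG => ?_,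
    fun hν => trA_attain fun j => ?_⟩
  · obtain ⟨ν', hν', hM'⟩ := hM.exists_pw
    refine (UF.full_or_ll (hG.mono fun n hn => hn.1)).resolve_left fun hf => ?_
    have hx : max μ ν' ∈ S := Or.inl ⟨le_max_left _ _, G, g, M,
      (UF.LE.pw_pw u (le_max_right μ ν')).mono_left hM', hf, hG.mono fun n hn => hn.2⟩
    exact absurd (csInf_le hbd hx) (not_le.2 (max_lt hμ hν'))
  · have hlt : sInf S < min μ' (sInf S + 1 / ((j : ℝ) + 1)) :=
      lt_min hν (lt_add_of_pos_right _ (by positivity))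
    obtain ⟨x, hx, hx'⟩ := exists_lt_of_csInf_lt hne hlt
    rcases hx with hx | hx
    · exact ⟨x, (lt_min_iff.1 hx').2.le, hx.2⟩
    · exact absurd hx (lt_min_iff.1 hx').1.ne

/-- A uniform bound for all captured parts. -/
theorem RobAt.exists_bound {M : ℕ → ℕ} (h : RobAt u E r π P M) :
    ∃ K : ℕ → ℕ, u.LL (nr K) (cd E) ∧ ∀ n, ∀ G ⊆ E n, ∀ g,
      Cap G (r n) (π n) (P n) (M n) g → G.card ≤ K n := by
  have key : ∀ n, ∃ G₀ : Finset ι, (G₀ ⊆ E n ∧ ∃ g, Cap G₀ (r n) (π n) (P n) (M n) g) ∧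
      ∀ G ⊆ E n, ∀ g, Cap G (r n) (π n) (P n) (M n) g → G.card ≤ G₀.card := fun n => by
    obtain ⟨G₀, h₀, h₁⟩ := Finset.exists_max_image
      ((E n).powerset.filter fun G => ∃ g, Cap G (r n) (π n) (P n) (M n) g) Finset.card
      ⟨∅, Finset.mem_filter.2 ⟨Finset.empty_mem_powerset _, fun _ => 0,
        ⟨by simp, by simp, by simp, by simp⟩⟩⟩
    obtain ⟨h₂, h₃⟩ := Finset.mem_filter.1 h₀
    exact ⟨G₀, ⟨Finset.mem_powerset.1 h₂, h₃⟩, fun G hG g hg =>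
      h₁ G (Finset.mem_filter.2 ⟨Finset.mem_powerset.2 hG, g, hg⟩)⟩
  choose G₀ h₀ h₁ using key
  choose g hg using fun n => (h₀ n).2
  exact ⟨fun n => (G₀ n).card, h G₀ g (u.ev_of_forall fun n => ⟨(h₀ n).1, hg n⟩), h₁⟩

variable [Fintype σ] {c cU : ℕ} {J : ℕ → σ} {f : ℕ → ι → ℕ → MvPolynomial σ ℂ} {μ θ : ℝ}

omit [Fintype σ] in
theorem trA_single {v : ℕ} {G : Finset ι} {r : ι → R} {P : ι → Ideal (MvPolynomial σ ℂ)} {ρ : R}
    {Q : Ideal (MvPolynomial σ ℂ)} (h : ∀ e ∈ G, r e = ρ ∧ P e = Q) : sdg v G r P ≤ dg v Q := by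
  rw [sdg]
  refine le_trans (Finset.sum_le_sum_of_subset (t := {(ρ, Q)}) ?_) ?_
  · intro z hz
    obtain ⟨e, he, rfl⟩ := Finset.mem_image.1 hz
    rw [(h e he).1, (h e he).2]
    exact Finset.mem_singleton_self _
  · rw [Finset.sum_singleton]

omit [Fintype σ] in
theorem trA_le_sdg (v : ℕ) {G : Finset ι} (r : ι → R) (P : ι → Ideal (MvPolynomial σ ℂ)) {e : ι}
    (he : e ∈ G) : dg v (P e) ≤ sdg v G r P := by
  rw [sdg]
  refine Finset.single_le_sum (f := fun z : R × Ideal (MvPolynomial σ ℂ) => dg v z.2)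
    (a := (r e, P e)) (fun _ _ => Nat.zero_le _) ?_
  simp only [Finset.mem_image]
  exact ⟨e, he, rfl⟩

omit [Fintype σ] in
theorem trA_chain (G : Finset ι) (r : ι → R) (π : ι → σ → ℂ) (J : ℕ → σ) :
    Chain G r π 0 J fun _ _ => 0 := by
  refine ⟨fun e _ i hi => ?_, fun _ _ _ _ _ i hi => absurd hi (Nat.not_lt_zero i)⟩
  obtain rfl : i = 0 := Nat.le_zero.1 hi
  refine ⟨fun i => i.elim0, ?_⟩
  rw [minor, Matrix.det_isEmpty, map_one]
  exact one_ne_zero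

theorem TS.init (u : UF) {E : ℕ → Finset ι} (hE : u.ev fun n => (E n).Nonempty) (r : ℕ → ι → R)
    (π : ℕ → ι → σ → ℂ) (J : ℕ → σ) : TS u E r π 0 J (fun _ _ _ => 0) 0 0 0 := by
  have h0 : u.LL (nr fun _ => 0) (pw 0) :=
    ⟨1, one_pos, u.ev_of_forall fun n => by simpa [nr] using pw_nonneg 0 n⟩
  refine ⟨le_rfl, le_rfl, by simp, hE, u.ev_of_forall fun n => trA_chain _ _ _ _,
    ⟨fun _ => 0, h0, u.ev_of_forall fun n e _ i _ => by simp⟩,
    ⟨fun _ => 0, h0.le (u.ev_of_forall (pw_nonneg 0)), u.ev_of_forall fun n e _ i _ => by simp⟩,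
    fun M hM G g hG => ?_, ⟨fun _ => 1, UF.LE.one_pw u le_rfl, u.ev_of_forall fun n ρ => ?_⟩,
    fun G hG => ?_, ⟨fun _ => 1, UF.LE.one_pw u (by simp), u.ev_of_forall fun n e₀ _ => ?_⟩⟩
  · refine ⟨1, one_pos, ((hM.ev_le (u.ev_of_forall (nr_nonneg M)) 2).and hG).mono fun n hn => ?_⟩
    obtain ⟨h1, -, h2⟩ := hn
    have hM0 : M n = 0 := by
      simp only [nr, pw, Real.rpow_zero] at h1
      have : 2 * M n ≤ 1 := by exact_mod_cast h1
      omega
    have hG0 : G n = ∅ := by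
      refine Finset.eq_empty_of_forall_notMem fun e he => h2.notin e he ?_
      have hd := h2.deg e he
      rw [hM0, Nat.le_zero, totalDegree_eq_zero_iff_eq_C] at hd
      have hz := h2.zero e he
      rw [hd, eval_C] at hz
      rw [hd, hz, C_0]
      exact Ideal.zero_mem _
    simp [cd, hG0]
  · rw [Nat.cast_le_one]
    refine le_trans (trA_single (ρ := ρ) (Q := ⊥) fun e he =>
      ⟨(Finset.mem_filter.1 he).2, lev_zero _ _ _⟩) ?_
    exact dg_bot_le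
  · refine UF.LE.of_ev (u.ev_of_forall (nr_nonneg _)) ((hG.nonempty hE).mono fun n hn => ?_)
    obtain ⟨e, he⟩ := hn
    simp only [pw, nr, Real.rpow_zero, Nat.one_le_cast]
    exact le_trans ((trA_chain (G n) (r n) (π n) J).isComp he le_rfl).one_le_dg
      (trA_le_sdg _ _ _ he)
  · rw [one_mul, Nat.cast_le]
    exact trA_single fun e he => (Finset.mem_filter.1 he).2

theorem TS.restrict (h : TS u E r π c J f cU μ θ) (hF : u.Full F E) :
    TS u F r π c J f cU μ θ := by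
  obtain ⟨s, hs, hs'⟩ := h.degU
  obtain ⟨t, ht, ht'⟩ := h.degV
  obtain ⟨T, hT, hT'⟩ := h.up
  obtain ⟨B, hB, hB'⟩ := h.ext
  refine ⟨h.le, h.mu0, h.thle, hF.nonempty h.pos,
    (h.chain.and hF.1).mono fun n hn => hn.1.mono hn.2,
    ⟨s, hs, (hs'.and hF.1).mono fun n hn e he => hn.1 e (hn.2 he)⟩,
    ⟨t, ht, (ht'.and hF.1).mono fun n hn e he => hn.1 e (hn.2 he)⟩, h.rob.restrict hF,
    ⟨T, hT, (hT'.and hF.1).mono fun n hn ρ => le_trans ?_ (hn.1 ρ)⟩,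
    fun G hG => h.low G (hG.trans hF),
    ⟨B, hB, (hB'.and hF.1).mono fun n hn e₀ he₀ => le_trans ?_ (hn.1 e₀ (hn.2 he₀))⟩⟩
  · exact Nat.cast_le.2 (sdg_mono _ (Finset.filter_subset_filter _ hn.2) _ _)
  · exact Nat.cast_le.2 (sdg_mono _ (Finset.filter_subset_filter _ hn.2) _ _)

theorem TS.le_card (h : TS u E r π c J f cU μ θ) : c ≤ Fintype.card σ := by
  obtain ⟨n, h1, h2⟩ := (h.chain.and h.pos).exists
  exact h1.le_card h2

end Vale.Agent.P054A
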