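import Vale.Agent.P054A.TrU

/-!
Trees: passing to a larger scale.
-/

namespace Vale.Agent.P054A

open MvPolynomial
open scoped Classical

variable {ι R σ : Type} [Fintype σ] {u : UF} {E : ℕ → Finset ι} {r : ℕ → ι → R}
  {π : ℕ → ι → σ → ℂ} {c cU : ℕ} {J : ℕ → σ} {f : ℕ → ι → ℕ → MvPolynomial σ ℂ} {μ θ : ℝ}

section Fin

variable {E F : Finset ι} {r : ι → R} {π : ι → σ → ℂ} {f : ι → ℕ → MvPolynomial σ ℂ}

omit [Fintype σ] in
theorem trB_sum_le (v : ℕ) (F : Finset ι) (r : ι → R) (P : ι → Ideal (MvPolynomial σ ℂ)) :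
    ∑ b ∈ F.image P, dg v b ≤ sdg v F r P := by
  have e : F.image P = (F.image fun e => (r e, P e)).image Prod.snd := by
    rw [Finset.image_image]; rfl
  rw [e, sdg]
  exact Finset.sum_image_le_of_nonneg fun _ _ => Nat.zero_le _

theorem trB_H_le (h : Chain E r π c J f) (hF : F ⊆ E) (M : ℕ) :
    ∑ b ∈ F.image (lev f π c),
      H (vanI ((((F.filter fun e => lev f π c e = b).image π : Finset (σ → ℂ))) : Set (σ → ℂ))) M
      ≤ sdg (Fintype.card σ - c) F r (lev f π c) * (M + 1) ^ (Fintype.card σ - c) := by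
  refine le_trans ?_ (Nat.mul_le_mul_right _ (trB_sum_le _ F r _))
  rw [Finset.sum_mul]
  refine Finset.sum_le_sum fun b hb => ?_
  obtain ⟨e₀, he₀, rfl⟩ := Finset.mem_image.1 hb
  refine le_trans (H_anti ?_ M) ((h.isComp (hF he₀) le_rfl).H_le M)
  intro g hg p hp
  obtain ⟨e, he, rfl⟩ := Finset.mem_image.1 (Finset.mem_coe.1 hp)
  obtain ⟨he, hl⟩ := Finset.mem_filter.1 he
  exact (h.isComp (hF he) le_rfl).on g (hl ▸ hg)

theorem trB_fin (h : Chain E r π c J f) (hF : F ⊆ E) (hc : cU ≤ c) (hN : c ≤ Fintype.card σ)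
    {M C : ℕ} (hM : ∀ e ∈ E, dg (Fintype.card σ - cU) (lev f π cU e) *
      (M + 1) ^ (Fintype.card σ - cU) ≤ C * H (lev f π cU e) M) :
    ∃ G : Finset ι, ∃ g, (G ⊆ E ∧ Cap G r π (lev f π cU) M g) ∧
      sdg (Fintype.card σ - cU) (F \ G) r (lev f π cU) * (M + 1) ^ (c - cU)
        ≤ C * sdg (Fintype.card σ - c) F r (lev f π c) := by
  set lab : ι → R × Ideal (MvPolynomial σ ℂ) := fun e => (r e, lev f π cU e) with hlab
  set nd : R × Ideal (MvPolynomial σ ℂ) → Finset ι := fun z => F.filter fun e => lab e = z with hnd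
  set S : R × Ideal (MvPolynomial σ ℂ) → ℕ := fun z => ∑ b ∈ (nd z).image (lev f π c),
    H (vanI (((((nd z).filter fun e => lev f π c e = b).image π : Finset (σ → ℂ))) :
      Set (σ → ℂ))) M with hS
  set G : Finset ι := F.filter fun e => S (lab e) < H (lev f π cU e) M with hG
  have hGF : G ⊆ F := Finset.filter_subset _ _
  obtain ⟨g, hg⟩ := exists_cap G r π (lev f π cU) M fun e₀ he₀ => by
    obtain ⟨g, h1, h2, h3⟩ := exists_poly_of_sum_lt (nd (lab e₀)) π (lev f π c)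
      (Finset.mem_filter.1 he₀).2
    exact ⟨g, h1, h2, fun e he hr hP => h3 e
      (Finset.mem_filter.2 ⟨hGF he, Prod.ext hr hP⟩)⟩
  refine ⟨G, g, ⟨hGF.trans hF, hg⟩, ?_⟩
  have hv : Fintype.card σ - cU = (c - cU) + (Fintype.card σ - c) := by omega
  have hpos : 0 < (M + 1) ^ (Fintype.card σ - c) := by positivity
  refine Nat.le_of_mul_le_mul_right ?_ hpos
  rw [mul_assoc, ← pow_add, ← hv]
  have hsum := sum_sdg_eq (Fintype.card σ - c) F r (lev f π c) lab fun e he e' he' hr hl =>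
    Prod.ext hr ((h.eq_of_lev (hF he) (hF he') hr le_rfl hl).1 cU hc)
  rw [← hsum, sdg, Finset.sum_mul, Finset.mul_sum, Finset.sum_mul]
  refine le_trans (Finset.sum_le_sum fun z hz => ?_)
    (Finset.sum_le_sum_of_subset (s := (F \ G).image fun e => (r e, lev f π cU e)) fun z hz => by
      obtain ⟨e, he, rfl⟩ := Finset.mem_image.1 hz
      simp only [Finset.mem_image]
      exact ⟨e, (Finset.mem_sdiff.1 he).1, rfl⟩)
  obtain ⟨e₀, he₀, rfl⟩ := Finset.mem_image.1 hz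
  obtain ⟨he₀, hn⟩ := Finset.mem_sdiff.1 he₀
  have h1 : H (lev f π cU e₀) M ≤ S (lab e₀) :=
    not_lt.1 fun hlt => hn (Finset.mem_filter.2 ⟨he₀, hlt⟩)
  have h2 := trB_H_le h ((Finset.filter_subset (fun e => lab e = lab e₀) F).trans hF) M
  refine (hM e₀ (hF he₀)).trans ?_
  rw [mul_assoc]
  refine Nat.mul_le_mul_left _ ((h1.trans h2).trans (Nat.mul_le_mul_right _ (sdg_mono _ ?_ _ _)))
  intro e he
  simp only [Finset.mem_filter] at he ⊢
  exact he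

end Fin

theorem trB_real {n θ μ κ ε a b m C : ℝ} {k : ℕ} (hn : 1 ≤ n) (hε : ε * k ≤ κ / 3)
    (ha : 0 ≤ a) (hb : 0 ≤ b) (h1 : n ^ θ ≤ n ^ (κ / 3) * a) (h2 : n ^ (μ - ε) ≤ m)
    (h3 : a * m ^ k ≤ C * b) (h4 : C ≤ n ^ (κ / 3)) : n ^ (θ + μ * k) ≤ n ^ κ * b := by
  have hn0 : 0 < n := by linarith
  have e1 : n ^ (θ + μ * k) = n ^ θ * (n ^ (μ - ε)) ^ k * n ^ (ε * k) := by
    rw [← Real.rpow_natCast, ← Real.rpow_mul hn0.le, ← Real.rpow_add hn0, ← Real.rpow_add hn0]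
    congr 1; ring
  have e2 : n ^ κ = n ^ (κ / 3) * n ^ (κ / 3) * n ^ (κ / 3) := by
    rw [← Real.rpow_add hn0, ← Real.rpow_add hn0]; congr 1; ring
  have p1 : 0 < n ^ (κ / 3) := Real.rpow_pos_of_pos hn0 _
  have h5 : (n ^ (μ - ε)) ^ k ≤ m ^ k := pow_le_pow_left₀ (Real.rpow_nonneg hn0.le _) h2 k
  have h6 : n ^ (ε * k) ≤ n ^ (κ / 3) := Real.rpow_le_rpow_of_exponent_le hn hε
  have h7 : a * (n ^ (μ - ε)) ^ k ≤ n ^ (κ / 3) * b :=
    (mul_le_mul_of_nonneg_left h5 ha).trans (h3.trans (mul_le_mul_of_nonneg_right h4 hb))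
  rw [e1, e2]
  calc n ^ θ * (n ^ (μ - ε)) ^ k * n ^ (ε * k)
      ≤ n ^ (κ / 3) * a * (n ^ (μ - ε)) ^ k * n ^ (κ / 3) := by gcongr
    _ = n ^ (κ / 3) * (a * (n ^ (μ - ε)) ^ k) * n ^ (κ / 3) := by ring
    _ ≤ n ^ (κ / 3) * (n ^ (κ / 3) * b) * n ^ (κ / 3) := by gcongr
    _ = _ := by ring

theorem TS.low_new (h : TS u E r π c J f cU μ θ) (F : ℕ → Finset ι) (hF : u.Full F E) :
    u.LE (pw (θ + μ * ((c - cU : ℕ) : ℝ)))
      (nr fun n => sdg (Fintype.card σ - c) (F n) (r n) (lev (f n) (π n) c)) := by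
  intro κ hκ
  have hk : (0 : ℝ) < ((c - cU : ℕ) : ℝ) + 1 := by positivity
  obtain ⟨M, hM1, hM2, hM3⟩ := h.exists_deg (ε := κ / 3 / (((c - cU : ℕ) : ℝ) + 1)) (by positivity)
  set C : ℕ := (2 * Fintype.card σ + 2) ^ (2 * Fintype.card σ) with hC
  have key : u.ev fun n => ∃ a : Finset ι × (ι → MvPolynomial σ ℂ),
      (a.1 ⊆ E n ∧ Cap a.1 (r n) (π n) (lev (f n) (π n) cU) (M n) a.2) ∧
      sdg (Fintype.card σ - cU) (F n \ a.1) (r n) (lev (f n) (π n) cU) * (M n + 1) ^ (c - cU)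
        ≤ C * sdg (Fintype.card σ - c) (F n) (r n) (lev (f n) (π n) c) :=
    ((h.chain.and hF.1).and hM3).mono fun n hn => by
      obtain ⟨G, g, hG⟩ := trB_fin hn.1.1 hn.1.2 h.le h.le_card hn.2
      exact ⟨(G, g), hG⟩
  obtain ⟨a, ha⟩ := key.choose
  have hll := h.rob M hM1 (fun n => (a n).1) (fun n => (a n).2) (ha.mono fun n hn => hn.1)
  have hlow := h.low _ (hF.sdiff hll) (κ / 3) (by positivity)
  refine (((ha.and hlow).and hM2).and ((u.ev_ge 1).and (u.ev_pw_ge (κ := κ / 3) (by positivity) C))).mono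
    fun n hn => ?_
  obtain ⟨⟨⟨⟨-, h3⟩, h1⟩, h2⟩, hn, h4⟩ := hn
  refine trB_real (C := C) (by exact_mod_cast hn) ?_ (Nat.cast_nonneg _) (Nat.cast_nonneg _) h1 h2
    (by simp only [nr]; exact_mod_cast h3) h4
  rw [div_mul_eq_mul_div, div_le_iff₀ hk]
  nlinarith

theorem TS.advance (h : TS u E r π c J f cU μ θ) {ν : ℝ} (hν : μ < ν)
    (hrob : RobBelow u E r π (fun n => lev (f n) (π n) c) ν) :
    TS u E r π c J f c ν (θ + μ * ((c - cU : ℕ) : ℝ)) := by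
  obtain ⟨s, hs, hd⟩ := h.degV
  refine ⟨le_rfl, h.mu0.trans hν.le, ?_, h.pos, h.chain, ⟨s, hs.trans_ll (UF.LL.pw_pw u hν), hd⟩,
    ⟨s, hs.trans (UF.LE.pw_pw u hν.le), hd⟩, hrob, h.up_new, h.low_new, fun _ => 1, ?_, ?_⟩
  · have h1 := h.thle
    have h2 : (c : ℝ) * μ ≤ c * ν := mul_le_mul_of_nonneg_left hν.le (Nat.cast_nonneg _)
    rw [Nat.cast_sub h.le]
    linarith
  · exact UF.LE.one_pw u (mul_nonneg (h.mu0.trans hν.le) (Nat.cast_nonneg _))
  · refine u.ev_of_forall fun n e₀ _ => ?_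
    rw [one_mul, Nat.cast_le, sdg]
    refine le_trans (Finset.sum_le_sum_of_subset (t := {(r n e₀, lev (f n) (π n) c e₀)}) ?_) ?_
    · intro z hz
      obtain ⟨e, he, rfl⟩ := Finset.mem_image.1 hz
      obtain ⟨-, h1, h2⟩ := Finset.mem_filter.1 he
      rw [h1, h2]
      exact Finset.mem_singleton_self _
    · rw [Finset.sum_singleton]

end Vale.Agent.P054A
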