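import Vale.Agent.P054A.TrB

/-!
Trees: points of high multiplicity are negligible.
-/

namespace Vale.Agent.P054A

open MvPolynomial
open scoped Classical

section Fin

variable {ι R σ : Type} [Fintype σ] {E F : Finset ι} {r : ι → R} {π : ι → σ → ℂ} {c : ℕ}
  {J : ℕ → σ} {f : ι → ℕ → MvPolynomial σ ℂ} {g : ι → MvPolynomial σ ℂ} {M : ℕ}

theorem trc_node (hch : Chain E r π c J f) (hF : F ⊆ E) (hcap : Cap F r π (lev f π c) M g)
    {v ρ : ℕ} (hv : v + 1 + c = Fintype.card σ) (hρ : 1 ≤ ρ)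
    (ho : ∀ e ∈ F, ∀ (lam : σ → ℂ) (i : ℕ), i < (v + 1) * ρ →
      eval (π e) ((Dl (pre (f e) c) (pre J c) lam)^[i] (g e)) = 0)
    {e₁ : ι} (he₁ : e₁ ∈ F) (W : Finset (σ → ℂ))
    (hW : ∀ p ∈ W, ∃ e ∈ F, π e = p ∧ r e = r e₁ ∧ lev f π c e = lev f π c e₁) (M₁ : ℕ) :
    H (vanI (W : Set (σ → ℂ))) M₁ * ρ ≤
      3 ^ (v + 1) * (v + 2) ^ v * max M 1 * (M₁ + 1) ^ v * dg (v + 1) (lev f π c e₁) := by
  have hpre : ∀ e ∈ F, r e = r e₁ → lev f π c e = lev f π c e₁ → pre (f e) c = pre (f e₁) c := by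
    intro e he h1 h2
    funext i
    exact (hch.eq_of_lev (hF he) (hF he₁) h1 le_rfl h2).2 i i.2
  have hcomp := hch.isComp (hF he₁) (le_refl c)
  have h1 := mult_lemma (f := pre (f e₁) c) (J := pre J c) (P := lev f π c e₁) W
    (fun p hp => by
      obtain ⟨e, he, rfl, a1, a2⟩ := hW p hp
      rw [← hpre e he a1 a2]
      exact ⟨hch.simple e (hF he) c le_rfl, a2⟩)
    (g e₁) (v := v + 1) (r := ρ) (by rw [Fintype.card_fin]; exact hv) (by omega)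
    (fun p hp lam i hi => by
      obtain ⟨e, he, rfl, a1, a2⟩ := hW p hp
      rw [← hpre e he a1 a2, ← hcap.cons e he e₁ he₁ a1 a2]
      exact ho e he lam i hi) M₁
  have hd : Fintype.card σ - c = v + 1 := by omega
  have h2 := H_sec hcomp.prime (v := v) (a := dg (v + 1) (lev f π c e₁))
    (fun N => by have := hcomp.H_le N; rwa [hd] at this) (hcap.notin e₁ he₁)
    ((hcap.deg e₁ he₁).trans (le_max_left M 1)) (le_max_right M 1) ((v + 1) * ρ * (M₁ + 1))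
  have h3 : (v + 1) * ρ * (M₁ + 1) + 1 ≤ (v + 2) * (ρ * (M₁ + 1)) := by
    have : 1 ≤ ρ * (M₁ + 1) := Nat.mul_pos hρ (Nat.succ_pos _)
    nlinarith
  have h4 : ((v + 1) * ρ * (M₁ + 1) + 1) ^ v ≤ (v + 2) ^ v * (ρ ^ v * (M₁ + 1) ^ v) := by
    rw [← mul_pow, ← mul_pow]
    exact Nat.pow_le_pow_left h3 v
  have h5 := h1.trans (h2.trans (Nat.mul_le_mul_left _ h4))
  refine Nat.le_of_mul_le_mul_right (c := ρ ^ v) ?_ (Nat.pow_pos hρ)
  calc _ = H (vanI (W : Set (σ → ℂ))) M₁ * ρ ^ (v + 1) := by ring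
    _ ≤ _ := h5
    _ = _ := by ring

theorem trc_fin (hch : Chain E r π c J f) (hF : F ⊆ E) (hcap : Cap F r π (lev f π c) M g)
    {v ρ k cU : ℕ} (hk : cU + k = c) (hv : v + 1 + c = Fintype.card σ) (hρ : 1 ≤ ρ)
    (ho : ∀ e ∈ F, ∀ (lam : σ → ℂ) (i : ℕ), i < (v + 1) * ρ →
      eval (π e) ((Dl (pre (f e) c) (pre J c) lam)^[i] (g e)) = 0)
    {M₁ C₂ : ℕ} {B : ℝ} (hB0 : 0 ≤ B)
    (hB : ∀ e₀ ∈ E, (sdg (Fintype.card σ - c) (E.filter fun e => r e = r e₀ ∧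
        lev f π cU e = lev f π cU e₀) r (lev f π c) : ℝ)
      ≤ B * dg (Fintype.card σ - cU) (lev f π cU e₀))
    (hH : ∀ e ∈ E, dg (Fintype.card σ - cU) (lev f π cU e) * (M₁ + 1) ^ (Fintype.card σ - cU)
      ≤ C₂ * H (lev f π cU e) M₁)
    (hlt : ((3 ^ (v + 1) * (v + 2) ^ v * C₂ : ℕ) : ℝ) * (max M 1 : ℕ) * B
      < ρ * ((M₁ : ℝ) + 1) ^ (k + 1)) :
    ∃ g', Cap F r π (lev f π cU) M₁ g' := by
  refine exists_cap F r π _ M₁ fun e₀ he₀ => ?_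
  obtain ⟨G, hG⟩ : ∃ G : Finset ι, ∀ e, e ∈ G ↔
      e ∈ F ∧ r e = r e₀ ∧ lev f π cU e = lev f π cU e₀ :=
    ⟨F.filter fun e => r e = r e₀ ∧ lev f π cU e = lev f π cU e₀, fun e => Finset.mem_filter⟩
  suffices h : ∃ g' : MvPolynomial σ ℂ, g' ∉ lev f π cU e₀ ∧ g'.totalDegree ≤ M₁ ∧
      ∀ e ∈ G, eval (π e) g' = 0 by
    obtain ⟨g', a1, a2, a3⟩ := h
    exact ⟨g', a1, a2, fun e he b1 b2 => a3 e ((hG e).2 ⟨he, b1, b2⟩)⟩
  refine exists_poly_of_sum_lt G π (lev f π c) ?_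
  have hs := sum_sdg_eq (v + 1) G r (lev f π c) (lev f π c) fun e _ e' _ _ h => h
  have hd : Fintype.card σ - c = v + 1 := by omega
  have hd' : Fintype.card σ - cU = v + (k + 1) := by omega
  have hm : sdg (v + 1) G r (lev f π c) ≤ sdg (v + 1) (E.filter fun e => r e = r e₀ ∧
      lev f π cU e = lev f π cU e₀) r (lev f π c) :=
    sdg_mono _ (fun e he => Finset.mem_filter.2 ⟨hF ((hG e).1 he).1, ((hG e).1 he).2⟩) _ _
  have hB' := hB e₀ (hF he₀)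
  have hH' := hH e₀ (hF he₀)
  rw [hd, hd'] at hB'
  rw [hd'] at hH'
  have hpos : 1 ≤ H (lev f π cU e₀) M₁ :=
    one_le_H (hch.isComp (hF he₀) (show cU ≤ c by omega)).on M₁
  suffices key : ∀ S : ℕ, S * ρ ≤
      3 ^ (v + 1) * (v + 2) ^ v * max M 1 * (M₁ + 1) ^ v * sdg (v + 1) G r (lev f π c) →
      S < H (lev f π cU e₀) M₁ by
    refine key _ ?_
    rw [← hs, Finset.sum_mul, Finset.mul_sum]
    refine Finset.sum_le_sum fun b hb => ?_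
    obtain ⟨e₁, he₁, rfl⟩ := Finset.mem_image.1 hb
    have hG₁ := (hG e₁).1 he₁
    refine (trc_node hch hF hcap hv hρ ho hG₁.1 _ (fun p hp => ?_) M₁).trans
      (Nat.mul_le_mul_left _ ?_)
    · obtain ⟨e, he, rfl⟩ := Finset.mem_image.1 hp
      have he' := Finset.mem_filter.1 he
      have hGe := (hG e).1 he'.1
      exact ⟨e, hGe.1, rfl, hGe.2.1.trans hG₁.2.1.symm, he'.2⟩
    · unfold sdg
      exact Finset.single_le_sum (f := fun z : R × Ideal (MvPolynomial σ ℂ) => dg (v + 1) z.2)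
        (fun _ _ => Nat.zero_le _) (a := (r e₁, lev f π c e₁))
        (Finset.mem_image.2 ⟨e₁, Finset.mem_filter.2 ⟨he₁, rfl⟩, rfl⟩)
  intro S hle
  generalize H (lev f π cU e₀) M₁ = h at hH' hpos ⊢
  generalize dg (v + (k + 1)) (lev f π cU e₀) = δ at hB' hH'
  have hm' : (sdg (v + 1) G r (lev f π c) : ℝ) ≤ B * δ := le_trans (by exact_mod_cast hm) hB'
  generalize sdg (v + 1) G r (lev f π c) = s at hm' hle
  generalize max M 1 = m at hlt hle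
  generalize 3 ^ (v + 1) * (v + 2) ^ v = C at hlt hle
  have r1 : (S : ℝ) * ρ ≤ C * m * ((M₁ : ℝ) + 1) ^ v * s := by exact_mod_cast hle
  have r2 : (δ : ℝ) * ((M₁ : ℝ) + 1) ^ (v + (k + 1)) ≤ C₂ * h := by exact_mod_cast hH'
  have r3 : (0 : ℝ) < h := by exact_mod_cast hpos
  have r4 : (0 : ℝ) < ρ * ((M₁ : ℝ) + 1) ^ (k + 1) := by
    have : (0 : ℝ) < ρ := by exact_mod_cast hρ
    positivity
  push_cast at hlt
  have r5 : (S : ℝ) * (ρ * ((M₁ : ℝ) + 1) ^ (k + 1)) < h * (ρ * ((M₁ : ℝ) + 1) ^ (k + 1)) := by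
    calc (S : ℝ) * (ρ * ((M₁ : ℝ) + 1) ^ (k + 1)) = (S * ρ) * ((M₁ : ℝ) + 1) ^ (k + 1) := by ring
      _ ≤ (C * m * ((M₁ : ℝ) + 1) ^ v * s) * ((M₁ : ℝ) + 1) ^ (k + 1) := by gcongr
      _ ≤ (C * m * ((M₁ : ℝ) + 1) ^ v * (B * δ)) * ((M₁ : ℝ) + 1) ^ (k + 1) := by gcongr
      _ = C * m * B * (δ * ((M₁ : ℝ) + 1) ^ (v + (k + 1))) := by ring
      _ ≤ C * m * B * (C₂ * h) := by gcongr
      _ = h * (C * C₂ * m * B) := by ring
      _ < _ := by gcongr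
  exact_mod_cast lt_of_mul_lt_mul_right r5 r4.le

end Fin

theorem trc_real {x μ κ C m ρ N : ℝ} {k : ℕ} (hx : 1 ≤ x) (hC : 0 ≤ C)
    (hm : m ≤ x ^ (κ / 8) * x ^ μ) (hρ : x ^ (3 * κ / 4) < ρ) (hCx : C ≤ x ^ (κ / 4))
    (hN : x ^ (μ - κ / (4 * (k + 1))) ≤ N) :
    C * m * (x ^ (κ / 8) * x ^ (μ * k)) < ρ * N ^ (k + 1) := by
  have hx0 : 0 < x := by linarith
  have h1 : (x ^ (μ - κ / (4 * (k + 1)))) ^ (k + 1) ≤ N ^ (k + 1) :=
    pow_le_pow_left₀ (by positivity) hN _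
  rw [← Real.rpow_natCast, ← Real.rpow_mul hx0.le] at h1
  have e1 : (μ - κ / (4 * (k + 1))) * ((k + 1 : ℕ) : ℝ) = μ * (k + 1) - κ / 4 := by
    push_cast
    field_simp
  rw [e1] at h1
  calc C * m * (x ^ (κ / 8) * x ^ (μ * k))
      ≤ x ^ (κ / 4) * (x ^ (κ / 8) * x ^ μ) * (x ^ (κ / 8) * x ^ (μ * k)) := by
        refine mul_le_mul_of_nonneg_right ?_ (by positivity)
        exact (mul_le_mul_of_nonneg_left hm hC).trans
          (mul_le_mul_of_nonneg_right hCx (by positivity))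
    _ = x ^ (3 * κ / 4) * x ^ (μ * (k + 1) - κ / 4) := by
        simp only [← Real.rpow_add hx0]
        congr 1
        ring
    _ < ρ * x ^ (μ * (k + 1) - κ / 4) := by gcongr
    _ ≤ ρ * N ^ (k + 1) := by
        have : 0 < ρ := lt_trans (by positivity) hρ
        gcongr

variable {ι R σ : Type} [Fintype σ] {u : UF} {E : ℕ → Finset ι} {r : ℕ → ι → R}
  {π : ℕ → ι → σ → ℂ} {c cU : ℕ} {J : ℕ → σ} {f : ℕ → ι → ℕ → MvPolynomial σ ℂ} {μ θ : ℝ}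

theorem TS.lt_card (h : TS u E r π c J f cU μ θ)
    (hc : CapAt u E r π (fun n => lev (f n) (π n) c) μ) : c < Fintype.card σ := by
  obtain ⟨F, g, M, -, hF, hcap⟩ := hc
  refine lt_of_le_of_ne h.le_card fun hcc => ?_
  obtain ⟨n, ⟨⟨e, he⟩, hsub⟩, hch, hcp⟩ :=
    (((hF.nonempty h.pos).and hF.1).and (h.chain.and hcap)).exists
  have hcomp := hch.isComp (hsub he) (le_refl c)
  refine eval_ne_zero_of_dim_zero hcomp.prime
    (a := dg (Fintype.card σ - c) (lev (f n) (π n) c e)) (fun N => ?_) (hcp.notin e he) hcomp.on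
    (hcp.zero e he)
  have := hcomp.H_le N
  have h0 : Fintype.card σ - c = 0 := by omega
  rwa [h0, pow_zero, mul_one, ← h0] at this

theorem TS.mult_small (h : TS u E r π c J f cU μ θ) (F : ℕ → Finset ι)
    (g : ℕ → ι → MvPolynomial σ ℂ) (M : ℕ → ℕ) (hM : u.LE (nr M) (pw μ))
    (hc : u.ev fun n => F n ⊆ E n ∧ Cap (F n) (r n) (π n) (lev (f n) (π n) c) (M n) (g n))
    {κ : ℝ} (hκ : 0 < κ)
    (ho : u.ev fun n => ∀ e ∈ F n, ∀ (lam : σ → ℂ) (i : ℕ), (i : ℝ) < (n : ℝ) ^ κ →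
      eval (π n e) ((Dl (pre (f n e) c) (pre J c) lam)^[i] (g n e)) = 0) :
    u.LL (cd F) (cd E) := by
  rcases UF.full_or_ll (hc.mono fun n hn => hn.1) with hfull | hll
  swap
  · exact hll
  have hlt : c < Fintype.card σ := h.lt_card ⟨F, g, M, hM, hfull, hc.mono fun n hn => hn.2⟩
  obtain ⟨v, hv⟩ : ∃ v, v + 1 + c = Fintype.card σ := ⟨Fintype.card σ - c - 1, by omega⟩
  obtain ⟨k, hk⟩ : ∃ k, cU + k = c := ⟨c - cU, by have := h.le; omega⟩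
  obtain ⟨M₁, hM₁, hM₂, hM₃⟩ := h.exists_deg (ε := κ / (4 * (k + 1))) (by positivity)
  obtain ⟨B, hB, hB'⟩ := h.ext
  have hkk : c - cU = k := by omega
  rw [hkk] at hB
  have hex : u.ev fun n => ∃ g', F n ⊆ E n ∧
      Cap (F n) (r n) (π n) (lev (f n) (π n) cU) (M₁ n) g' := by
    have t1 := u.ev_pw_ge (κ := κ / 4) (by positivity) (2 * (v + 1) + 1)
    have t2 := u.ev_pw_ge (κ := κ / 4) (by positivity)
      ((3 ^ (v + 1) * (v + 2) ^ v * (2 * Fintype.card σ + 2) ^ (2 * Fintype.card σ) : ℕ) : ℝ)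
    refine ((((hc.and ho).and (h.chain.and (u.ev_ge 1))).and ((hM₂.and hM₃).and
      (hB'.and (hB (κ / 8) (by positivity))))).and ((t1.and t2).and
      (hM (κ / 8) (by positivity)))).mono ?_
    rintro n ⟨⟨⟨⟨⟨hsub, hcap⟩, hord⟩, hch, hn⟩, ⟨a1, a2⟩, a3, a4⟩, ⟨a5, a6⟩, a7⟩
    have hx : (1 : ℝ) ≤ n := by exact_mod_cast hn
    have hx0 : (0 : ℝ) < n := by linarith
    have hv0 : (0 : ℝ) < (v : ℝ) + 1 := by positivity
    have hp1 : (1 : ℝ) ≤ (n : ℝ) ^ (3 * κ / 4) := Real.one_le_rpow hx (by positivity)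
    have hsplit : (n : ℝ) ^ κ = (n : ℝ) ^ (3 * κ / 4) * (n : ℝ) ^ (κ / 4) := by
      rw [← Real.rpow_add hx0]
      congr 1
      ring
    obtain ⟨ρ, hρ1, hρ2⟩ : ∃ ρ : ℕ, ((v : ℝ) + 1) * ρ ≤ (n : ℝ) ^ κ ∧
        (n : ℝ) ^ (3 * κ / 4) < ρ := by
      refine ⟨⌊(n : ℝ) ^ κ / (v + 1)⌋₊, ?_, ?_⟩
      · have := Nat.floor_le (a := (n : ℝ) ^ κ / (v + 1)) (by positivity)
        rwa [le_div_iff₀' hv0] at this
      · have b1 := Nat.lt_floor_add_one ((n : ℝ) ^ κ / (v + 1))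
        have b2 : 2 * (n : ℝ) ^ (3 * κ / 4) ≤ (n : ℝ) ^ κ / (v + 1) := by
          rw [le_div_iff₀ hv0, hsplit]
          nlinarith
        linarith
    have hρ : 1 ≤ ρ := by
      have : (1 : ℝ) < ρ := hp1.trans_lt hρ2
      exact_mod_cast this.le
    have hm : ((max (M n) 1 : ℕ) : ℝ) ≤ (n : ℝ) ^ (κ / 8) * (n : ℝ) ^ μ := by
      push_cast
      refine max_le a7 ?_
      exact one_le_mul_of_one_le_of_one_le (Real.one_le_rpow hx (by positivity))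
        (Real.one_le_rpow hx h.mu0)
    obtain ⟨g', hg'⟩ := trc_fin hch hsub hcap hk hv hρ
      (fun e he lam i hi => hord e he lam i (by
        have : (i : ℝ) < ((v : ℝ) + 1) * ρ := by exact_mod_cast hi
        linarith))
      (M₁ := M₁ n) (B := (n : ℝ) ^ (κ / 8) * (n : ℝ) ^ (μ * k)) (by positivity)
      (fun e₀ he₀ => (a3 e₀ he₀).trans (mul_le_mul_of_nonneg_right a4 (Nat.cast_nonneg _)))
      a2 (trc_real hx (Nat.cast_nonneg _) hm hρ2 a6 a1)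
    exact ⟨g', hsub, hg'⟩
  obtain ⟨g', hg'⟩ := hex.choose
  exact h.rob M₁ hM₁ F g' hg'

end Vale.Agent.P054A
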