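import Vale.Agent.P054A.TrA

/-!
Trees: passing to a larger scale.
-/

namespace Vale.Agent.P054A

open MvPolynomial
open scoped Classical

variable {ι R σ : Type} [Fintype σ] {u : UF} {E : ℕ → Finset ι} {r : ℕ → ι → R}
  {π : ℕ → ι → σ → ℂ} {c cU : ℕ} {J : ℕ → σ} {f : ℕ → ι → ℕ → MvPolynomial σ ℂ} {μ θ : ℝ}

/-- A working degree just below the current scale, in the mature range of the level `cU`. -/
theorem TS.exists_deg (h : TS u E r π c J f cU μ θ) {ε : ℝ} (hε : 0 < ε) :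
    ∃ M : ℕ → ℕ, u.LL (nr M) (pw μ) ∧ (u.ev fun n => pw (μ - ε) n ≤ (M n : ℝ) + 1) ∧
      u.ev fun n => ∀ e ∈ E n,
        dg (Fintype.card σ - cU) (lev (f n) (π n) cU e) * (M n + 1) ^ (Fintype.card σ - cU)
          ≤ (2 * Fintype.card σ + 2) ^ (2 * Fintype.card σ) * H (lev (f n) (π n) cU e) (M n) := by
  obtain ⟨s, ⟨κ, hκ, hs⟩, hd⟩ := h.degU
  have hδ : 0 < min ε (κ / 2) := lt_min hε (half_pos hκ)
  have hfl := u.floor_pw (μ - min ε (κ / 2))
  have hc : cU ≤ Fintype.card σ := h.le.trans h.le_card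
  refine ⟨fun n => ⌊pw (μ - min ε (κ / 2)) n⌋₊,
    (UF.LL.pw_pw u (by linarith)).mono_left (hfl.mono fun n hn => hn.1),
    (hfl.and (u.ev_ge 1)).mono fun n hn => le_trans ?_ hn.1.2, ?_⟩
  · exact Real.rpow_le_rpow_of_exponent_le (by exact_mod_cast hn.2)
      (by linarith [min_le_left ε (κ / 2)])
  · refine (((hs.and hd).and h.chain).and ((u.ev_ge 1).and
      (u.ev_pw_ge (half_pos hκ) (2 * cU)))).mono fun n hn e he => ?_
    obtain ⟨⟨⟨h1, h2⟩, h3⟩, h4, h5⟩ := hn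
    have hn : (1 : ℝ) ≤ n := by exact_mod_cast h4
    have hn0 : (0 : ℝ) < n := by linarith
    have hM : 2 * (Fintype.card (Fin cU) * s n) ≤ ⌊pw (μ - min ε (κ / 2)) n⌋₊ := by
      refine Nat.le_floor ?_
      rw [Fintype.card_fin]
      have p1 : (0 : ℝ) < (n : ℝ) ^ (κ / 2) := Real.rpow_pos_of_pos hn0 _
      have e1 : (n : ℝ) ^ κ = (n : ℝ) ^ (κ / 2) * (n : ℝ) ^ (κ / 2) := by
        rw [← Real.rpow_add hn0, add_halves]
      have e2 : (n : ℝ) ^ μ = (n : ℝ) ^ (κ / 2) * (n : ℝ) ^ (μ - κ / 2) := by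
        rw [← Real.rpow_add hn0, add_sub_cancel]
      have h6 : (n : ℝ) ^ (μ - κ / 2) ≤ pw (μ - min ε (κ / 2)) n :=
        Real.rpow_le_rpow_of_exponent_le hn (by linarith [min_le_right ε (κ / 2)])
      simp only [nr, pw] at h1
      rw [e1, e2, mul_assoc] at h1
      have h7 := le_of_mul_le_mul_left h1 p1
      have h8 := mul_le_mul_of_nonneg_right h5 (Nat.cast_nonneg (α := ℝ) (s n))
      push_cast
      linarith
    have h9 := dg_le_H (h3.simple e he cU h.le) (s := s n) (fun i => h2 e he i i.2)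
      (v := Fintype.card σ - cU) (by rw [Fintype.card_fin]; omega) hM
    refine h9.trans (Nat.mul_le_mul_right _ ?_)
    exact (Nat.pow_le_pow_left (by omega) _).trans (Nat.pow_le_pow_right (by omega) (by omega))

omit [Fintype σ] in
theorem trU_sum_le (v : ℕ) (F : Finset ι) (r : ι → R) (P : ι → Ideal (MvPolynomial σ ℂ)) :
    ∑ b ∈ F.image P, dg v b ≤ sdg v F r P := by
  have e : F.image P = (F.image fun e => (r e, P e)).image Prod.snd := by
    rw [Finset.image_image]; rfl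
  rw [e, sdg]
  exact Finset.sum_image_le_of_nonneg fun _ _ => Nat.zero_le _

omit [Fintype σ] in
theorem trU_fin {v w : ℕ} {E : Finset ι} {r : ι → R} {P Q : ι → Ideal (MvPolynomial σ ℂ)} {B : ℝ}
    (hB : 0 ≤ B) (h : ∀ e₀ ∈ E, (sdg v (E.filter fun e => r e = r e₀ ∧ P e = P e₀) r Q : ℝ)
      ≤ B * dg w (P e₀)) (ρ : R) :
    (sdg v (E.filter fun e => r e = ρ) r Q : ℝ) ≤ B * sdg w (E.filter fun e => r e = ρ) r P := by
  have h1 := sdg_le_sum v (E.filter fun e => r e = ρ) r Q P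
  have h2 := trU_sum_le w (E.filter fun e => r e = ρ) r P
  refine le_trans (Nat.cast_le.2 h1) (le_trans ?_
    (mul_le_mul_of_nonneg_left (Nat.cast_le.2 h2) hB))
  rw [Nat.cast_sum, Nat.cast_sum, Finset.mul_sum]
  refine Finset.sum_le_sum fun b hb => ?_
  obtain ⟨e₀, he₀, rfl⟩ := Finset.mem_image.1 hb
  obtain ⟨he₀, hr⟩ := Finset.mem_filter.1 he₀
  refine le_trans (Nat.cast_le.2 (sdg_mono _ ?_ _ _)) (h e₀ he₀)
  intro e he
  simp only [Finset.mem_filter] at he ⊢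
  exact ⟨he.1.1, he.1.2.trans hr.symm, he.2⟩

theorem TS.up_new (h : TS u E r π c J f cU μ θ) :
    ∃ T : ℕ → ℝ, u.LE T (pw (θ + μ * ((c - cU : ℕ) : ℝ))) ∧ u.ev fun n => ∀ ρ : R,
      (sdg (Fintype.card σ - c) ((E n).filter fun e => r n e = ρ) (r n) (lev (f n) (π n) c) : ℝ)
        ≤ T n := by
  obtain ⟨T, hT, hT'⟩ := h.up
  obtain ⟨B, hB, hB'⟩ := h.ext
  have hmax : ∀ {a : ℕ → ℝ} {ν : ℝ}, u.LE a (pw ν) → u.LE (fun n => max (a n) 0) (pw ν) :=
    fun {a ν} ha κ hκ => (ha κ hκ).mono fun n hn => max_le hn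
      (mul_nonneg (Real.rpow_nonneg (Nat.cast_nonneg _) _) (pw_nonneg _ _))
  refine ⟨fun n => max (T n) 0 * max (B n) 0,
    ((hmax hT).mul (hmax hB) (u.ev_of_forall fun n => le_max_right _ _)
      (u.ev_of_forall fun n => le_max_right _ _)).mono_right
      ((u.ev_pw_add _ _).mono fun n hn => hn.le), (hT'.and hB').mono fun n hn ρ => ?_⟩
  have h1 := trU_fin (B := max (B n) 0) (le_max_right _ _) (fun e₀ he₀ => (hn.2 e₀ he₀).trans
    (mul_le_mul_of_nonneg_right (le_max_left _ _) (Nat.cast_nonneg _))) ρ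
  refine h1.trans ?_
  rw [mul_comm]
  exact mul_le_mul_of_nonneg_right ((hn.1 ρ).trans (le_max_left _ _)) (le_max_right _ _)

end Vale.Agent.P054A
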