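import Vale.Agent.P054A.Exl
import Vale.Agent.P054A.DichA

/-!
A generic choice of coordinates.
-/

namespace Vale.Agent.P054A

open MvPolynomial Sum
open scoped Classical

noncomputable section

/-- A real linear form as a complex polynomial. -/
def twLin {d : ℕ} (f : (Fin d → ℝ) →ₗ[ℝ] ℝ) : MvPolynomial (Fin d) ℂ :=
  ∑ j, C ((f (Pi.single j 1) : ℝ) : ℂ) * X j

theorem twLin_eval {d : ℕ} (f : (Fin d → ℝ) →ₗ[ℝ] ℝ) (lam : Fin d → ℝ) :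
    eval (cx lam) (twLin f) = (f lam : ℂ) := by
  have e : f lam = ∑ j, f (Pi.single j 1) * lam j := by
    conv_lhs => rw [← Finset.univ_sum_single lam, map_sum]
    refine Finset.sum_congr rfl fun j _ => ?_
    have : Pi.single j (lam j) = lam j • (Pi.single j 1 : Fin d → ℝ) := by
      rw [← Pi.single_smul, smul_eq_mul, mul_one]
    rw [this, map_smul, smul_eq_mul, mul_comm]
  rw [e, twLin, map_sum]
  push_cast
  refine Finset.sum_congr rfl fun j _ => ?_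
  rw [map_mul, eval_C, eval_X]
  rfl

theorem twLin_hom {d : ℕ} (f : (Fin d → ℝ) →ₗ[ℝ] ℝ) : (twLin f).IsHomogeneous 1 :=
  IsHomogeneous.sum _ _ _ fun j _ => (isHomogeneous_X ℂ j).C_mul _

/-- The first half of the twisted coordinates. -/
def twS {d : ℕ} (A : Matrix (Fin d) (Fin d) ℝ) :
    ((Fin d → ℝ) × (Fin d → ℝ)) →ₗ[ℝ] (Fin d → ℝ) :=
  (LinearMap.fst ℝ _ _ - LinearMap.snd ℝ _ _) -
    A.mulVecLin ∘ₗ (LinearMap.fst ℝ _ _ + LinearMap.snd ℝ _ _)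

theorem twS_apply {d : ℕ} (A : Matrix (Fin d) (Fin d) ℝ) (v : (Fin d → ℝ) × (Fin d → ℝ)) :
    twS A v = (v.1 - v.2) - A.mulVec (v.1 + v.2) := rfl

theorem tw_skew {d : ℕ} {A : Matrix (Fin d) (Fin d) ℝ} (hA : A.transpose = -A)
    (x y : Fin d → ℝ) : A.mulVec x ⬝ᵥ y + A.mulVec y ⬝ᵥ x = 0 := by
  rw [dotProduct_comm (A.mulVec x) y, Matrix.dotProduct_mulVec, ← Matrix.mulVec_transpose, hA,
    Matrix.neg_mulVec, neg_dotProduct, neg_add_cancel]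

theorem twS_bil {d : ℕ} {A : Matrix (Fin d) (Fin d) ℝ} (hA : A.transpose = -A)
    (v w : (Fin d → ℝ) × (Fin d → ℝ)) :
    twS A v ⬝ᵥ (w.1 + w.2) + twS A w ⬝ᵥ (v.1 + v.2) = 2 * (v.1 ⬝ᵥ w.1 - v.2 ⬝ᵥ w.2) := by
  have h := tw_skew hA (v.1 + v.2) (w.1 + w.2)
  rw [twS_apply, twS_apply, sub_dotProduct _ (A.mulVec _), sub_dotProduct _ (A.mulVec _)]
  have e : (v.1 - v.2) ⬝ᵥ (w.1 + w.2) + (w.1 - w.2) ⬝ᵥ (v.1 + v.2) =
      2 * (v.1 ⬝ᵥ w.1 - v.2 ⬝ᵥ w.2) := by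
    simp only [sub_dotProduct, dotProduct_add]
    rw [dotProduct_comm w.1 v.1, dotProduct_comm w.1 v.2, dotProduct_comm w.2 v.1,
      dotProduct_comm w.2 v.2]
    ring
  linarith

/-- The shear on the first half. -/
def twL1 {k : ℕ} (l : Fin k → ℝ) : (Fin (k + 1) → ℝ) →ₗ[ℝ] (Fin (k + 1) → ℝ) where
  toFun s := Fin.cons (s 0 + ∑ i, l i * s i.succ) fun i => s i.succ
  map_add' s t := by
    funext i
    refine Fin.cases ?_ (fun j => ?_) i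
    · simp only [Fin.cons_zero, Pi.add_apply, mul_add, Finset.sum_add_distrib]
      ring
    · simp only [Fin.cons_succ, Pi.add_apply]
  map_smul' c s := by
    funext i
    refine Fin.cases ?_ (fun j => ?_) i
    · simp only [Fin.cons_zero, Pi.smul_apply, smul_eq_mul, RingHom.id_apply, mul_add,
        Finset.mul_sum]
      congr 1
      exact Finset.sum_congr rfl fun i _ => by ring
    · simp only [Fin.cons_succ, Pi.smul_apply, RingHom.id_apply]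

/-- The shear on the second half. -/
def twL2 {k : ℕ} (l : Fin k → ℝ) : (Fin (k + 1) → ℝ) →ₗ[ℝ] (Fin (k + 1) → ℝ) where
  toFun w := Fin.cons (w 0) fun i => w i.succ - l i * w 0
  map_add' s t := by
    funext i
    refine Fin.cases ?_ (fun j => ?_) i
    · simp only [Fin.cons_zero, Pi.add_apply]
    · simp only [Fin.cons_succ, Pi.add_apply]
      ring
  map_smul' c s := by
    funext i
    refine Fin.cases ?_ (fun j => ?_) i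
    · simp only [Fin.cons_zero, Pi.smul_apply, RingHom.id_apply]
    · simp only [Fin.cons_succ, Pi.smul_apply, RingHom.id_apply, smul_eq_mul]
      ring

theorem twL1_zero {k : ℕ} (l : Fin k → ℝ) (s : Fin (k + 1) → ℝ) :
    twL1 l s 0 = s 0 + ∑ i, l i * s i.succ := rfl

theorem twL1_succ {k : ℕ} (l : Fin k → ℝ) (s : Fin (k + 1) → ℝ) (i : Fin k) :
    twL1 l s i.succ = s i.succ := rfl

theorem twL2_zero {k : ℕ} (l : Fin k → ℝ) (w : Fin (k + 1) → ℝ) : twL2 l w 0 = w 0 := rfl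

theorem twL2_succ {k : ℕ} (l : Fin k → ℝ) (w : Fin (k + 1) → ℝ) (i : Fin k) :
    twL2 l w i.succ = w i.succ - l i * w 0 := rfl

theorem twL_dot {k : ℕ} (l : Fin k → ℝ) (s w : Fin (k + 1) → ℝ) :
    twL1 l s ⬝ᵥ twL2 l w = s ⬝ᵥ w := by
  simp only [dotProduct, Fin.sum_univ_succ, twL1_zero, twL1_succ, twL2_zero, twL2_succ, mul_sub,
    Finset.sum_sub_distrib, add_mul, Finset.sum_mul]
  have e : ∑ i, s (Fin.succ i) * (l i * w 0) = ∑ i, l i * s i.succ * w 0 :=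
    Finset.sum_congr rfl fun i _ => by ring
  rw [e]
  ring

theorem twL1_eq_zero {k : ℕ} (l : Fin k → ℝ) {s : Fin (k + 1) → ℝ} (h : twL1 l s = 0) :
    s = 0 := by
  have h1 : ∀ i : Fin k, s i.succ = 0 := fun i => by
    rw [← twL1_succ l s i, h]
    rfl
  have h2 : s 0 = 0 := by
    have := twL1_zero l s
    rw [h] at this
    simp only [h1, mul_zero, Finset.sum_const_zero, add_zero] at this
    exact this.symm
  funext i
  exact Fin.cases h2 h1 i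

/-- The twisted coordinates. -/
def twT {k : ℕ} (A : Matrix (Fin (k + 1)) (Fin (k + 1)) ℝ) (l : Fin k → ℝ) :
    ((Fin (k + 1) → ℝ) × (Fin (k + 1) → ℝ)) →ₗ[ℝ] (Tx k → ℝ) :=
  (LinearEquiv.sumArrowLequivProdArrow _ _ ℝ ℝ).symm.toLinearMap ∘ₗ
    (twL1 l ∘ₗ twS A).prod (twL2 l ∘ₗ (LinearMap.fst ℝ _ _ + LinearMap.snd ℝ _ _))

theorem twT_inl {k : ℕ} (A : Matrix (Fin (k + 1)) (Fin (k + 1)) ℝ) (l : Fin k → ℝ)
    (v : (Fin (k + 1) → ℝ) × (Fin (k + 1) → ℝ)) (i : Fin (k + 1)) :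
    twT A l v (inl i) = twL1 l (twS A v) i := rfl

theorem twT_inr {k : ℕ} (A : Matrix (Fin (k + 1)) (Fin (k + 1)) ℝ) (l : Fin k → ℝ)
    (v : (Fin (k + 1) → ℝ) × (Fin (k + 1) → ℝ)) (i : Fin (k + 1)) :
    twT A l v (inr i) = twL2 l (v.1 + v.2) i := rfl

theorem twT_bil {k : ℕ} {A : Matrix (Fin (k + 1)) (Fin (k + 1)) ℝ} (hA : A.transpose = -A)
    (l : Fin k → ℝ) (v w : (Fin (k + 1) → ℝ) × (Fin (k + 1) → ℝ)) :
    bil (twT A l v) (twT A l w) = 2 * (v.1 ⬝ᵥ w.1 - v.2 ⬝ᵥ w.2) := by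
  rw [← twS_bil hA, ← twL_dot l (twS A v), ← twL_dot l (twS A w)]
  simp only [bil, twT_inl, twT_inr, Finset.sum_add_distrib, dotProduct]

theorem twT_inj {k : ℕ} {A : Matrix (Fin (k + 1)) (Fin (k + 1)) ℝ} (hA : A.transpose = -A)
    (l : Fin k → ℝ) : Function.Injective (twT A l) := by
  rw [injective_iff_map_eq_zero]
  intro v hv
  have h := twT_bil hA l v (v.1, -v.2)
  rw [hv] at h
  have h0 : bil (0 : Tx k → ℝ) (twT A l (v.1, -v.2)) = 0 := by simp [bil]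
  rw [h0, dotProduct_neg] at h
  have n1 : 0 ≤ v.1 ⬝ᵥ v.1 := Finset.sum_nonneg fun i _ => mul_self_nonneg _
  have n2 : 0 ≤ v.2 ⬝ᵥ v.2 := Finset.sum_nonneg fun i _ => mul_self_nonneg _
  have h' : (0 : ℝ) = 2 * (v.1 ⬝ᵥ v.1 - -(v.2 ⬝ᵥ v.2)) := h
  exact Prod.ext (dotProduct_self_eq_zero.1 (by linarith)) (dotProduct_self_eq_zero.1 (by linarith))

theorem twT_Rb {k : ℕ} (A : Matrix (Fin (k + 1)) (Fin (k + 1)) ℝ) (l : Fin k → ℝ)
    (v : (Fin (k + 1) → ℝ) × (Fin (k + 1) → ℝ)) : twT A l v ∈ Rb k ↔ twS A v = 0 := by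
  constructor
  · intro h
    exact twL1_eq_zero l (funext fun i => h i)
  · intro h i
    rw [twT_inl, h, map_zero]
    rfl

theorem tw_gen {d : ℕ} (φ : (Fin d → ℝ) →ₗ[ℝ] ((Fin d → ℝ) × (Fin d → ℝ)))
    {Ψ : MvPolynomial (Fin d) ℂ} {g : ℕ} (hΨ : Ψ.IsHomogeneous g) (h0 : Ψ ≠ 0) :
    ∃ Ξ : MvPolynomial {p : Fin d × Fin d // p.1 < p.2} ℂ, Ξ ≠ 0 ∧
      ∀ a : {p : Fin d × Fin d // p.1 < p.2} → ℝ, eval (cx a) Ξ ≠ 0 →
        ∀ lam : Fin d → ℝ, φ lam ≠ 0 → twS (skw a) (φ lam) = 0 → eval (cx lam) Ψ ≠ 0 := by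
  obtain ⟨Ξ, h1, h2⟩ := exists_skew_poly
    (LinearMap.toMatrix' ((LinearMap.fst ℝ _ _ - LinearMap.snd ℝ _ _) ∘ₗ φ))
    (LinearMap.toMatrix' ((LinearMap.fst ℝ _ _ + LinearMap.snd ℝ _ _) ∘ₗ φ)) Ψ hΨ h0
  refine ⟨Ξ, h1, fun a ha lam hl hs => h2 a ha lam ?_ ?_⟩
  · rw [LinearMap.toMatrix'_mulVec]
    intro hw
    have hw' : (φ lam).1 + (φ lam).2 = 0 := hw
    rw [twS_apply, hw', Matrix.mulVec_zero, sub_zero, sub_eq_zero] at hs
    rw [hs, ← two_smul ℝ, smul_eq_zero_iff_right two_ne_zero] at hw'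
    exact hl (Prod.ext (hs.trans hw') hw')
  · rw [LinearMap.toMatrix'_mulVec, LinearMap.toMatrix'_mulVec]
    rw [twS_apply, sub_eq_zero] at hs
    exact hs

/-- The dichotomy for one subspace. -/
def twGood {d : ℕ} (Ψ : MvPolynomial (Fin d) ℂ) (A : Matrix (Fin d) (Fin d) ℝ)
    (U : Submodule ℝ ((Fin d → ℝ) × (Fin d → ℝ))) : Prop :=
  (∀ v ∈ U, twS A v = 0 → v = 0) ∨
    ((∀ v ∈ U, ∀ w ∈ U, v.1 ⬝ᵥ w.1 - v.2 ⬝ᵥ w.2 = 0) ∧ Module.finrank ℝ U = d ∧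
      ∃ z ∈ U, z ≠ 0 ∧ twS A z = 0 ∧ (∀ v ∈ U, twS A v = 0 → ∃ c : ℝ, c • z = v) ∧
        eval (cx z.1) Ψ ≠ 0)

theorem tw_small {k : ℕ} (U : Submodule ℝ ((Fin (k + 1) → ℝ) × (Fin (k + 1) → ℝ)))
    (hU : Module.finrank ℝ U ≤ k) :
    ∃ Ξ : MvPolynomial {p : Fin (k + 1) × Fin (k + 1) // p.1 < p.2} ℂ, Ξ ≠ 0 ∧
      ∀ a, eval (cx a) Ξ ≠ 0 → ∀ v ∈ U, twS (skw a) v = 0 → v = 0 := by
  obtain ⟨f, hf⟩ := (finrank_le_iff_exists_linearMap (R := ℝ) (M := U)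
    (M' := Fin k → ℝ)).1 (by simpa using hU)
  obtain ⟨g, hg⟩ := f.exists_leftInverse_of_injective (LinearMap.ker_eq_bot.2 hf)
  obtain ⟨Ξ, h1, h2⟩ := tw_gen (U.subtype ∘ₗ g ∘ₗ LinearMap.funLeft ℝ ℝ Fin.succ)
    (isHomogeneous_X ℂ (0 : Fin (k + 1))) (X_ne_zero _)
  refine ⟨Ξ, h1, fun a ha v hv hs => ?_⟩
  by_contra hne
  have e : (U.subtype ∘ₗ g ∘ₗ LinearMap.funLeft ℝ ℝ Fin.succ) (Fin.cons 0 (f ⟨v, hv⟩)) = v := by
    have e1 : g (f ⟨v, hv⟩) = ⟨v, hv⟩ := LinearMap.congr_fun hg ⟨v, hv⟩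
    exact congrArg Subtype.val e1
  refine h2 a ha (Fin.cons 0 (f ⟨v, hv⟩)) (by rwa [e]) (by rwa [e]) ?_
  rw [eval_X]
  simp [cx]

theorem tw_noniso {d : ℕ} (φ : (Fin d → ℝ) →ₗ[ℝ] ((Fin d → ℝ) × (Fin d → ℝ)))
    {x : Fin d → ℝ} (hx : (φ x).1 ⬝ᵥ (φ x).1 - (φ x).2 ⬝ᵥ (φ x).2 ≠ 0) :
    ∃ Ξ : MvPolynomial {p : Fin d × Fin d // p.1 < p.2} ℂ, Ξ ≠ 0 ∧
      ∀ a, eval (cx a) Ξ ≠ 0 → ∀ lam, twS (skw a) (φ lam) = 0 → φ lam = 0 := by
  obtain ⟨Ψ, hΨ⟩ : ∃ Ψ : MvPolynomial (Fin d) ℂ, Ψ = ∑ i,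
      (twLin (LinearMap.proj i ∘ₗ LinearMap.fst ℝ _ _ ∘ₗ φ) ^ 2 -
        twLin (LinearMap.proj i ∘ₗ LinearMap.snd ℝ _ _ ∘ₗ φ) ^ 2) := ⟨_, rfl⟩
  have hh : Ψ.IsHomogeneous (1 * 2) := by
    rw [hΨ]
    exact IsHomogeneous.sum _ _ _ fun i _ => ((twLin_hom _).pow 2).sub ((twLin_hom _).pow 2)
  have he : ∀ lam, eval (cx lam) Ψ =
      (((φ lam).1 ⬝ᵥ (φ lam).1 - (φ lam).2 ⬝ᵥ (φ lam).2 : ℝ) : ℂ) := by
    intro lam
    rw [hΨ, map_sum, dotProduct, dotProduct, ← Finset.sum_sub_distrib]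
    push_cast
    refine Finset.sum_congr rfl fun i _ => ?_
    rw [map_sub, map_pow, map_pow, twLin_eval, twLin_eval, sq, sq]
    rfl
  have h0 : Ψ ≠ 0 := fun h => by
    have := he x
    rw [h, map_zero] at this
    exact hx (by exact_mod_cast this.symm)
  obtain ⟨Ξ, h1, h2⟩ := tw_gen φ hh h0
  refine ⟨Ξ, h1, fun a ha lam hs => ?_⟩
  by_contra hne
  refine h2 a ha lam hne hs ?_
  have h3 := twS_bil (skw_transpose a) (φ lam) (φ lam)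
  rw [hs, zero_dotProduct] at h3
  rw [he]
  exact_mod_cast (by linarith : (φ lam).1 ⬝ᵥ (φ lam).1 - (φ lam).2 ⬝ᵥ (φ lam).2 = 0)

theorem tw_iso {k : ℕ} (φ : (Fin (k + 1) → ℝ) →ₗ[ℝ] ((Fin (k + 1) → ℝ) × (Fin (k + 1) → ℝ)))
    (hφ : Function.Injective φ) (hx : ∀ x, (φ x).1 ⬝ᵥ (φ x).1 - (φ x).2 ⬝ᵥ (φ x).2 = 0)
    {Ψ : MvPolynomial (Fin (k + 1)) ℂ} {r : ℕ} (h0 : Ψ ≠ 0) (hΨ : Ψ.IsHomogeneous r) :
    ∃ Ξ : MvPolynomial {p : Fin (k + 1) × Fin (k + 1) // p.1 < p.2} ℂ, Ξ ≠ 0 ∧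
      ∀ a, eval (cx a) Ξ ≠ 0 → ∀ lam, φ lam ≠ 0 → twS (skw a) (φ lam) = 0 →
        lam 0 ≠ 0 ∧ eval (cx (φ lam).1) Ψ ≠ 0 := by
  have hinj : Function.Injective (LinearMap.fst ℝ _ _ ∘ₗ φ) := by
    rw [injective_iff_map_eq_zero]
    intro x h
    have h1 : (φ x).1 = 0 := h
    have h2 := hx x
    rw [h1, zero_dotProduct, zero_sub, neg_eq_zero, dotProduct_self_eq_zero] at h2
    exact (injective_iff_map_eq_zero φ).1 hφ x (Prod.ext h1 h2)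
  have hsurj := LinearMap.injective_iff_surjective.1 hinj
  obtain ⟨Φ, hΦ⟩ : ∃ Φ : MvPolynomial (Fin (k + 1)) ℂ, Φ = aeval
      (fun i => twLin (LinearMap.proj i ∘ₗ LinearMap.fst ℝ _ _ ∘ₗ φ)) Ψ := ⟨_, rfl⟩
  have hh : Φ.IsHomogeneous (1 * r) := by
    rw [hΦ]
    exact hΨ.aeval _ fun i => twLin_hom _
  have he : ∀ lam, eval (cx lam) Φ = eval (cx (φ lam).1) Ψ := by
    intro lam
    have e : (fun i => eval (cx lam) (twLin (LinearMap.proj i ∘ₗ LinearMap.fst ℝ _ _ ∘ₗ φ))) =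
        cx (φ lam).1 := by
      funext i
      rw [twLin_eval]
      rfl
    rw [hΦ, ← e, aeval_eq_bind₁]
    exact aeval_bind₁ (cx lam) _ Ψ
  obtain ⟨z, hz⟩ := exists_real_ne ({()} : Finset Unit) (fun _ => Ψ) fun _ _ => h0
  obtain ⟨x, hxz⟩ := hsurj z
  have hΦ0 : Φ ≠ 0 := fun h => by
    have h3 := he x
    have h4 : (φ x).1 = z := hxz
    rw [h, map_zero, h4] at h3
    exact hz () (Finset.mem_singleton_self _) h3.symm
  obtain ⟨Ξ, h1, h2⟩ := tw_gen φ ((isHomogeneous_X ℂ (0 : Fin (k + 1))).mul hh)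
    (mul_ne_zero (X_ne_zero _) hΦ0)
  refine ⟨Ξ, h1, fun a ha lam hl hs => ?_⟩
  have h3 := h2 a ha lam hl hs
  rw [map_mul, eval_X, he, mul_ne_zero_iff] at h3
  refine ⟨fun h => h3.1 ?_, h3.2⟩
  simp [cx, h]

theorem tw_one {k : ℕ} (U : Submodule ℝ ((Fin (k + 1) → ℝ) × (Fin (k + 1) → ℝ)))
    {Ψ : MvPolynomial (Fin (k + 1)) ℂ} {r : ℕ} (h0 : Ψ ≠ 0) (hΨ : Ψ.IsHomogeneous r) :
    ∃ Ξ : MvPolynomial {p : Fin (k + 1) × Fin (k + 1) // p.1 < p.2} ℂ, Ξ ≠ 0 ∧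
      ∀ a, eval (cx a) Ξ ≠ 0 → Module.finrank ℝ U ≤ k + 1 → twGood Ψ (skw a) U := by
  rcases lt_trichotomy (Module.finrank ℝ U) (k + 1) with h | h | h
  · obtain ⟨Ξ, h1, h2⟩ := tw_small U (by omega)
    exact ⟨Ξ, h1, fun a ha _ => Or.inl (h2 a ha)⟩
  · let e : (Fin (k + 1) → ℝ) ≃ₗ[ℝ] U := (Module.finBasisOfFinrankEq ℝ U h).equivFun.symm
    obtain ⟨φ, hφ⟩ : ∃ φ : (Fin (k + 1) → ℝ) →ₗ[ℝ] ((Fin (k + 1) → ℝ) × (Fin (k + 1) → ℝ)),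
        φ = U.subtype ∘ₗ e.toLinearMap := ⟨_, rfl⟩
    have hmem : ∀ x, φ x ∈ U := fun x => by
      rw [hφ]
      exact (e x).2
    have hsur : ∀ v ∈ U, ∃ x, φ x = v := fun v hv => ⟨e.symm ⟨v, hv⟩, by
      rw [hφ]
      exact congrArg Subtype.val (e.apply_symm_apply ⟨v, hv⟩)⟩
    have hinj : Function.Injective φ := by
      rw [hφ]
      exact U.subtype_injective.comp e.injective
    by_cases hi : ∀ x, (φ x).1 ⬝ᵥ (φ x).1 - (φ x).2 ⬝ᵥ (φ x).2 = 0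
    · obtain ⟨Ξ, h1, h2⟩ := tw_iso φ hinj hi h0 hΨ
      refine ⟨Ξ, h1, fun a ha _ => ?_⟩
      by_cases hz : ∀ v ∈ U, twS (skw a) v = 0 → v = 0
      · exact Or.inl hz
      push Not at hz
      obtain ⟨z, hzU, hs, hz0⟩ := hz
      obtain ⟨x, rfl⟩ := hsur z hzU
      obtain ⟨x0, hx⟩ := h2 a ha x hz0 hs
      refine Or.inr ⟨fun v hv w hw => ?_, h, φ x, hzU, hz0, hs, fun v hv hsv => ?_, hx⟩
      · obtain ⟨y, rfl⟩ := hsur v hv
        obtain ⟨y', rfl⟩ := hsur w hw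
        have e1 := hi y
        have e2 := hi y'
        have e3 := hi (y + y')
        simp only [map_add, Prod.fst_add, Prod.snd_add, add_dotProduct, dotProduct_add] at e3
        rw [dotProduct_comm (φ y').1 (φ y).1, dotProduct_comm (φ y').2 (φ y).2] at e3
        linarith
      · obtain ⟨y, rfl⟩ := hsur v hv
        refine ⟨y 0 / x 0, ?_⟩
        by_contra hne
        have e1 : φ ((y 0 / x 0) • x - y) = (y 0 / x 0) • φ x - φ y := by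
          rw [map_sub, map_smul]
        refine (h2 a ha ((y 0 / x 0) • x - y) (by rw [e1]; exact sub_ne_zero.2 hne) (by
          rw [e1, map_sub, map_smul, hs, hsv, smul_zero, sub_zero])).1 ?_
        rw [Pi.sub_apply, Pi.smul_apply, smul_eq_mul, div_mul_cancel₀ _ x0, sub_self]
    · push Not at hi
      obtain ⟨x, hx⟩ := hi
      obtain ⟨Ξ, h1, h2⟩ := tw_noniso φ hx
      refine ⟨Ξ, h1, fun a ha _ => Or.inl fun v hv hs => ?_⟩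
      obtain ⟨y, rfl⟩ := hsur v hv
      exact h2 a ha y hs
  · exact ⟨1, one_ne_zero, fun a _ h' => absurd h' (by omega)⟩

theorem tw_shear {k : ℕ} {α : Type} (Z : Finset α) (s : α → Fin (k + 1) → ℝ)
    (hs : ∀ z ∈ Z, s z ≠ 0) : ∃ l : Fin k → ℝ, ∀ z ∈ Z, twL1 l (s z) 0 ≠ 0 := by
  have he : ∀ z (l : Fin k → ℝ), eval (cx l) (C ((s z 0 : ℝ) : ℂ) +
      ∑ i : Fin k, C ((s z i.succ : ℝ) : ℂ) * X i : MvPolynomial (Fin k) ℂ) =
      (twL1 l (s z) 0 : ℝ) := by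
    intro z l
    rw [twL1_zero, map_add, eval_C, map_sum]
    push_cast
    congr 1
    refine Finset.sum_congr rfl fun i _ => ?_
    rw [map_mul, eval_C, eval_X, mul_comm]
    rfl
  obtain ⟨l, hl⟩ := exists_real_ne Z (fun z => (C ((s z 0 : ℝ) : ℂ) +
      ∑ i : Fin k, C ((s z i.succ : ℝ) : ℂ) * X i : MvPolynomial (Fin k) ℂ)) (fun z hz h => by
    have h1 : ∀ l : Fin k → ℝ, twL1 l (s z) 0 = 0 := fun l => by
      have := he z l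
      rw [h, map_zero] at this
      exact_mod_cast this.symm
    have h2 : s z 0 = 0 := by simpa [twL1_zero] using h1 0
    refine hs z hz (funext fun i => Fin.cases h2 (fun j => ?_) i)
    simpa [twL1_zero, h2, Pi.single_apply] using h1 (Pi.single j 1))
  refine ⟨l, fun z hz h => hl z hz ?_⟩
  rw [he, h, Complex.ofReal_zero]

end

theorem exists_twist {k : ℕ} (hk : 1 ≤ k)
    (S : Finset (Submodule ℝ ((Fin (k + 1) → ℝ) × (Fin (k + 1) → ℝ))))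
    (Z : Finset ((Fin (k + 1) → ℝ) × (Fin (k + 1) → ℝ))) (hZ : ∀ z ∈ Z, z ≠ 0)
    {Ψ : MvPolynomial (Fin (k + 1)) ℂ} {r : ℕ} (h0 : Ψ ≠ 0) (hΨ : Ψ.IsHomogeneous r) :
    ∃ T : ((Fin (k + 1) → ℝ) × (Fin (k + 1) → ℝ)) ≃ₗ[ℝ] (Tx k → ℝ),
      (∀ v w, bil (T v) (T w) = 2 * (v.1 ⬝ᵥ w.1 - v.2 ⬝ᵥ w.2)) ∧ (∀ z ∈ Z, T z (inl 0) ≠ 0) ∧
      ∀ U ∈ S, Module.finrank ℝ U ≤ k + 1 → U.map T.toLinearMap ⊓ Rb k = ⊥ ∨
        (Iso (U.map T.toLinearMap) ∧ Module.finrank ℝ U = k + 1 ∧ ∃ z ∈ U, z ≠ 0 ∧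
          U.map T.toLinearMap ⊓ Rb k = Submodule.span ℝ {T z} ∧ eval (cx z.1) Ψ ≠ 0) := by
  choose Ξ hΞ0 hΞ using fun U => tw_one (k := k) U h0 hΨ
  obtain ⟨a, ha⟩ := exists_real_ne (S ∪ Z.image fun z => Submodule.span ℝ {z}) Ξ
    fun U _ => hΞ0 U
  have hA := skw_transpose a
  have hs : ∀ z ∈ Z, twS (skw a) z ≠ 0 := by
    intro z hz h
    have r1 : Module.finrank ℝ (Submodule.span ℝ {z}) = 1 := finrank_span_singleton (hZ z hz)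
    rcases hΞ _ a (ha _ (Finset.mem_union_right _ (Finset.mem_image_of_mem _ hz))) (by omega)
      with h1 | h1
    · exact hZ z hz (h1 z (Submodule.mem_span_singleton_self z) h)
    · have := h1.2.1
      omega
  obtain ⟨l, hl⟩ := tw_shear Z (twS (skw a)) hs
  refine ⟨(twT (skw a) l).linearEquivOfInjective (twT_inj hA l) (by simp), twT_bil hA l, hl,
    fun U hU hr => ?_⟩
  have eT : ((twT (skw a) l).linearEquivOfInjective (twT_inj hA l) (by simp)).toLinearMap =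
      twT (skw a) l := rfl
  rw [eT]
  rcases hΞ U a (ha U (Finset.mem_union_left _ hU)) hr with h1 | ⟨h1, h2, z, hz, hz0, h3, h4, h5⟩
  · refine Or.inl (eq_bot_iff.2 ?_)
    rintro _ ⟨⟨v, hv, rfl⟩, hb⟩
    rw [h1 v hv ((twT_Rb _ l v).1 hb), map_zero]
    exact Submodule.zero_mem _
  · refine Or.inr ⟨?_, h2, z, hz, hz0, le_antisymm ?_ ?_, h5⟩
    · rintro _ ⟨v, hv, rfl⟩ _ ⟨w, hw, rfl⟩
      rw [twT_bil hA, h1 v hv w hw, mul_zero]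
    · rintro _ ⟨⟨v, hv, rfl⟩, hb⟩
      obtain ⟨c, rfl⟩ := h4 v hv ((twT_Rb _ l v).1 hb)
      rw [map_smul]
      exact Submodule.smul_mem _ c (Submodule.mem_span_singleton_self _)
    · rw [Submodule.span_singleton_le_iff_mem]
      exact ⟨⟨z, hz, rfl⟩, (twT_Rb _ l z).2 h3⟩

end Vale.Agent.P054A
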