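import Vale.Agent.P054A.UPb
import Vale.Agent.P054A.Cnt

/-!
The ultraproduct step: one component.
-/

namespace Vale.Agent.P054A

open MvPolynomial
open scoped Classical

variable {ι σ τ : Type} [Fintype σ] [Fintype τ]

theorem up_main (u : UF) (E : ℕ → Finset ι) (hE : u.ev fun n => (E n).Nonempty)
    (p : ℕ → ι → σ → ℂ) (z : ℕ → ι → τ → ℂ) {c : ℕ} (f : ℕ → Fin c → MvPolynomial σ ℂ)
    (J : Fin c → σ) (P : ℕ → Ideal (MvPolynomial σ ℂ))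
    (hP : u.ev fun n => ∀ e ∈ E n, Simple (f n) J (p n e) ∧ locP (f n) (p n e) = P n)
    (m : ℕ → ℕ) (hm : ∀ n, 1 ≤ m n)
    (hrob : ∀ M : ℕ → ℕ, u.LE (nr M) (nr m) → RobAt u E (fun _ _ => ()) p (fun n _ => P n) M) :
    ∃ (F : ℕ → Finset ι) (c' t : ℕ) (φ : ℕ → Fin c' → MvPolynomial (σ ⊕ τ) ℂ) (J' : Fin c' → τ)
      (M : ℕ → ℕ) (Q : ℕ → Ideal (MvPolynomial (σ ⊕ τ) ℂ)),
      u.Full F E ∧ u.LE (nr M) (nr m) ∧ (u.ev fun n => ∀ i, BD t (M n) (φ n i)) ∧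
      (u.ev fun n => ∀ e ∈ F n,
        Simple (ext (f n) (φ n)) (Sum.map J J') (Sum.elim (p n e) (z n e)) ∧
        locP (ext (f n) (φ n)) (Sum.elim (p n e) (z n e)) = Q n) ∧
      ∀ (G : ℕ → MvPolynomial (σ ⊕ τ) ℂ) (t' : ℕ) (M' : ℕ → ℕ) (F' : ℕ → Finset ι),
        u.LE (nr M') (nr m) → u.Full F' F →
        (u.ev fun n => BD t' (M' n) (G n) ∧
          ∀ e ∈ F' n, eval (Sum.elim (p n e) (z n e)) (G n) = 0) →
        u.ev fun n => G n ∈ Q n := by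
  have hP' : u.ev fun n => (P n).IsPrime ∧ ∀ e ∈ E n, On (p n e) (P n) :=
    (hE.and hP).mono fun n hn => by
      obtain ⟨e₀, he₀⟩ := hn.1
      refine ⟨(hn.2 e₀ he₀).2 ▸ locP_prime (hn.2 e₀ he₀).1, fun e he => ?_⟩
      exact (hn.2 e he).2 ▸ on_locP (hn.2 e he).1.1
  obtain ⟨F₀, hF₀, h01⟩ := zero_one u E hE p z P hP' m hm hrob
  obtain ⟨c', t, φ, J', M, hM, hBD, hns, hlast⟩ :=
    up_system u E F₀ hE hF₀ p z P hP' m hm hrob h01
  have hF₁ := hF₀.sdiff hns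
  obtain ⟨F₁, e₁⟩ : ∃ F₁ : ℕ → Finset ι, F₁ = fun n => F₀ n \ (F₀ n).filter fun e =>
    ¬ Simple (φ n) (fun i => Sum.inr (J' i)) (Sum.elim (p n e) (z n e)) := ⟨_, rfl⟩
  rw [← e₁] at hF₁
  have hsub : ∀ n, F₁ n ⊆ F₀ n := fun n => e₁ ▸ Finset.sdiff_subset
  have hS : u.ev fun n => ∀ e ∈ F₁ n,
      Simple (ext (f n) (φ n)) (Sum.map J J') (Sum.elim (p n e) (z n e)) ∧
        locP (f n) (p n e) = P n := (hF₁.1.and hP).mono fun n hn e he => by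
    have h1 := hn.2 e (hn.1 he)
    refine ⟨ext_simple.2 ⟨h1.1, by_contra fun k => ?_⟩, h1.2⟩
    rw [e₁] at he
    obtain ⟨a, b⟩ := Finset.mem_sdiff.1 he
    exact b (Finset.mem_filter.2 ⟨a, k⟩)
  obtain ⟨Q, hQ⟩ := hF₁.pigeon (fun n e => locP (ext (f n) (φ n)) (Sum.elim (p n e) (z n e)))
    (UF.LE.of_const (((Fintype.card τ * t + 1) ^ Fintype.card τ : ℕ) : ℝ)
      (u.ev_of_forall fun _ => zero_le_one) ((hS.and hBD).mono fun n hn => by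
        have h1 := card_components_le (f := f n) (J := J) (J' := J') hn.2 (P := P n)
          ((F₁ n).image fun e => (p n e, z n e)) fun w hw => by
            obtain ⟨e, he, rfl⟩ := Finset.mem_image.1 hw
            exact hn.1 e he
        rw [Finset.image_image] at h1
        rw [mul_one]
        exact_mod_cast h1))
  refine ⟨_, c', t, φ, J', M, Q, hQ, hM, hBD, hS.mono fun n hn e he =>
    ⟨(hn e (Finset.mem_filter.1 he).1).1, (Finset.mem_filter.1 he).2⟩,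
    fun G t' M' F' hM' hF' hG => ?_⟩
  have hG1 := hG.mono fun n hn => hn.1
  have h1 := (h01 G t' M' hM' hG1).resolve_left fun k => (hF'.trans hQ).not_ll hE
    (k.mono_left ((hF'.1.and hG).mono fun n hn => Nat.cast_le.2 (Finset.card_le_card fun e he =>
      Finset.mem_filter.2 ⟨hsub n (Finset.mem_filter.1 (hn.1 he)).1, hn.2.2 e he⟩)))
  obtain ⟨q, hq0, hq⟩ := hlast G t' M' hM' hG1 h1
  refine ((((hQ.sdiff hq0).nonempty hE).and hq).and hS).mono fun n hn => ?_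
  obtain ⟨⟨⟨e, he⟩, h2⟩, h3⟩ := hn
  obtain ⟨a, b⟩ := Finset.mem_sdiff.1 he
  obtain ⟨a1, a2⟩ := Finset.mem_filter.1 a
  obtain ⟨s1, s2⟩ := h3 e a1
  rw [← a2]
  refine ((locP_prime s1).mem_or_mem (?_ : q n * G n ∈ _)).resolve_left fun k =>
    b (Finset.mem_filter.2 ⟨hsub n a1, on_locP s1.1 _ k⟩)
  refine (sup_le (Ideal.span_le.2 ?_) (Ideal.map_le_iff_le_comap.2 fun g hg => ?_) :
    _ ≤ locP (ext (f n) (φ n)) (Sum.elim (p n e) (z n e))) h2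
  · rintro _ ⟨i, rfl⟩
    exact mem_locP (ext (f n) (φ n)) _ (Sum.inr i)
  · exact Ideal.mem_comap.2 ((rename_mem_locP_ext s1 g).2 (s2 ▸ hg))

end Vale.Agent.P054A
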