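import Vale.Agent.P054A.UPaX

/-!
The ultraproduct step: a zero-one law on a full part.
-/

namespace Vale.Agent.P054A

open MvPolynomial
open scoped Classical

section Den

variable {R K τ : Type} [CommRing R] [Field K]

theorem clear_den (ψ : R →+* K) (hψ : ∀ k : K, ∃ a b, ψ b ≠ 0 ∧ ψ b * k = ψ a)
    (c : MvPolynomial τ K) :
    ∃ (b : R) (c' : MvPolynomial τ R), ψ b ≠ 0 ∧ C (ψ b) * c = map ψ c' := by
  induction c using MvPolynomial.induction_on with
  | C k =>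
    obtain ⟨a, b, h1, h2⟩ := hψ k
    exact ⟨b, C a, h1, by rw [← C_mul, h2, map_C]⟩
  | add x y hx hy =>
    obtain ⟨b, c, h1, h2⟩ := hx
    obtain ⟨b', c', h3, h4⟩ := hy
    refine ⟨b * b', C b' * c + C b * c', by rw [map_mul]; exact mul_ne_zero h1 h3, ?_⟩
    simp only [map_add, map_mul, map_C, ← h2, ← h4]
    ring
  | mul_X x i hx =>
    obtain ⟨b, c, h1, h2⟩ := hx
    exact ⟨b, c * X i, h1, by rw [map_mul, map_X, ← h2, mul_assoc]⟩

theorem clear_den_ideal (ψ : R →+* K) (hψ : ∀ k : K, ∃ a b, ψ b ≠ 0 ∧ ψ b * k = ψ a)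
    (I : Ideal (MvPolynomial τ R)) {x : MvPolynomial τ K}
    (hx : x ∈ I.map (map ψ : MvPolynomial τ R →+* MvPolynomial τ K)) :
    ∃ (a : R) (G : MvPolynomial τ R), ψ a ≠ 0 ∧ G ∈ I ∧ C (ψ a) * x = map ψ G := by
  induction hx using Submodule.span_induction with
  | mem x hx =>
    obtain ⟨G, hG, rfl⟩ := hx
    exact ⟨1, G, by rw [map_one]; exact one_ne_zero, hG, by rw [map_one, C_1, one_mul]⟩
  | zero => exact ⟨1, 0, by rw [map_one]; exact one_ne_zero, I.zero_mem, by simp⟩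
  | add x y _ _ hx hy =>
    obtain ⟨b, c, h1, h5, h2⟩ := hx
    obtain ⟨b', c', h3, h6, h4⟩ := hy
    refine ⟨b * b', C b' * c + C b * c', by rw [map_mul]; exact mul_ne_zero h1 h3,
      I.add_mem (I.mul_mem_left _ h5) (I.mul_mem_left _ h6), ?_⟩
    simp only [map_add, map_mul, map_C, ← h2, ← h4]
    ring
  | smul c x _ hx =>
    obtain ⟨b, G, h1, h5, h2⟩ := hx
    obtain ⟨b', c', h3, h4⟩ := clear_den ψ hψ c
    refine ⟨b' * b, c' * G, by rw [map_mul]; exact mul_ne_zero h3 h1, I.mul_mem_left _ h5, ?_⟩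
    simp only [map_mul, ← h2, ← h4, smul_eq_mul]
    ring

/-- A family of ideals has a member which is maximal after inverting the complement of a prime
of the coefficient ring. -/
theorem exists_max_mod [Finite τ] {α : Type} (N : Ideal R) (hN : N.IsPrime) (S : α → Prop)
    (hS : ∃ a, S a) (I : α → Ideal (MvPolynomial τ R)) :
    ∃ a, S a ∧ ∀ b, S b → I a ≤ I b → ∀ G ∈ I b, ∃ r ∉ N, ∃ G' ∈ I a,
      C r * G - G' ∈ N.map (C : R →+* MvPolynomial τ R) := by
  let K := FractionRing (R ⧸ N)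
  let ψ : R →+* K := (algebraMap (R ⧸ N) K).comp (Ideal.Quotient.mk N)
  have hker : ∀ r, ψ r = 0 ↔ r ∈ N := fun r => by
    simp only [ψ, RingHom.comp_apply]
    rw [IsFractionRing.to_map_eq_zero_iff, Ideal.Quotient.eq_zero_iff_mem]
  have hψ : ∀ k : K, ∃ a b, ψ b ≠ 0 ∧ ψ b * k = ψ a := fun k => by
    obtain ⟨a, b, hb, rfl⟩ := IsFractionRing.div_surjective (A := R ⧸ N) k
    obtain ⟨a, rfl⟩ := Ideal.Quotient.mk_surjective a
    obtain ⟨b, rfl⟩ := Ideal.Quotient.mk_surjective b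
    have h1 : ψ b ≠ 0 :=
      IsFractionRing.to_map_ne_zero_of_mem_nonZeroDivisors (R := R ⧸ N) (K := K) hb
    exact ⟨a, b, h1, mul_div_cancel₀ _ h1⟩
  let J : α → Ideal (MvPolynomial τ K) := fun a =>
    (I a).map (map ψ : MvPolynomial τ R →+* MvPolynomial τ K)
  obtain ⟨a₀, ha₀⟩ := hS
  obtain ⟨_, ⟨a, ha, rfl⟩, hmax⟩ := set_has_maximal_iff_noetherian.2
    (inferInstance : IsNoetherian (MvPolynomial τ K) (MvPolynomial τ K)) (J '' {a | S a})
    ⟨J a₀, a₀, ha₀, rfl⟩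
  refine ⟨a, ha, fun b hb hab G hG => ?_⟩
  have h1 : J a ≤ J b := Ideal.map_mono hab
  have h2 : J b ≤ J a := by
    by_contra h
    exact hmax _ ⟨b, hb, rfl⟩ (lt_of_le_not_ge h1 h)
  obtain ⟨r, G', h3, h4, h5⟩ := clear_den_ideal ψ hψ (I a) (h2 (Ideal.mem_map_of_mem _ hG))
  refine ⟨r, fun h => h3 ((hker r).2 h), G', h4, ?_⟩
  rw [mem_map_C_iff]
  intro β
  rw [← hker, ← coeff_map, map_sub, map_mul, map_C, h5, sub_self, coeff_zero]

end Den

variable {ι σ τ : Type} [Fintype σ] [Fintype τ]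

/-- Polynomials over the ring of sequences vanishing eventually on `F`. -/
def JJ (u : UF) (m : ℕ → ℕ) (hm : ∀ n, 1 ≤ m n) (p : ℕ → ι → σ → ℂ) (z : ℕ → ι → τ → ℂ)
    (F : ℕ → Finset ι) : Ideal (MvPolynomial τ (RR u σ m hm)) where
  carrier := {G | u.ev fun n => ∀ e ∈ F n, eval (Sum.elim (p n e) (z n e)) (evn n G) = 0}
  add_mem' := fun ha hb => (UF.ev.and ha hb).mono fun n h e he => by
    rw [map_add, map_add, h.1 e he, h.2 e he, add_zero]
  zero_mem' := u.ev_of_forall fun n e _ => by rw [map_zero, map_zero]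
  smul_mem' := fun c a ha => UF.ev.mono ha fun n h e he => by
    rw [smul_eq_mul, map_mul, map_mul, h e he, mul_zero]

/-- On a suitable full part every bounded family of polynomials vanishes almost everywhere or
almost nowhere. -/
theorem zero_one (u : UF) (E : ℕ → Finset ι) (hE : u.ev fun n => (E n).Nonempty)
    (p : ℕ → ι → σ → ℂ) (z : ℕ → ι → τ → ℂ) (P : ℕ → Ideal (MvPolynomial σ ℂ))
    (hP : u.ev fun n => (P n).IsPrime ∧ ∀ e ∈ E n, On (p n e) (P n)) (m : ℕ → ℕ)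
    (hm : ∀ n, 1 ≤ m n)
    (hrob : ∀ M : ℕ → ℕ, u.LE (nr M) (nr m) → RobAt u E (fun _ _ => ()) p (fun n _ => P n) M) :
    ∃ F, u.Full F E ∧ ∀ (G : ℕ → MvPolynomial (σ ⊕ τ) ℂ) (t : ℕ) (M : ℕ → ℕ),
      u.LE (nr M) (nr m) → (u.ev fun n => BD t (M n) (G n)) →
        u.LL (cd fun n => (F n).filter fun e => eval (Sum.elim (p n e) (z n e)) (G n) = 0) (cd E) ∨
        u.LL (cd fun n => (F n).filter fun e => eval (Sum.elim (p n e) (z n e)) (G n) ≠ 0)
          (cd E) := by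
  have _ := hE
  obtain ⟨F, hF, hmax⟩ := exists_max_mod (NN u m hm P) (NN_prime (hP.mono fun _ h => h.1))
    (fun F => u.Full F E) ⟨E, UF.Full.refl u E⟩ (JJ u m hm p z)
  refine ⟨F, hF, fun G t M hM hG => ?_⟩
  obtain ⟨Gh, hGh⟩ := exists_hat hm hM hG
  have hs1 : u.ev fun n =>
      ((F n).filter fun e => eval (Sum.elim (p n e) (z n e)) (G n) = 0) ⊆ E n :=
    hF.1.mono fun n h => (Finset.filter_subset _ _).trans h
  have hs2 : u.ev fun n =>
      ((F n).filter fun e => eval (Sum.elim (p n e) (z n e)) (G n) ≠ 0) ⊆ E n :=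
    hF.1.mono fun n h => (Finset.filter_subset _ _).trans h
  rcases UF.full_or_ll hs1 with h | h
  · right
    obtain ⟨r, hr, G', hG', hd⟩ := hmax _ h
      (fun g hg => UF.ev.mono hg fun n hn e he => hn e (Finset.mem_filter.1 he).1) Gh
      (hGh.mono fun n hn e he => by rw [hn]; exact (Finset.mem_filter.1 he).2)
    refine ll_of_notin hrob hr ?_
    refine ((((hs2.and (evn_mem_map hd)).and hG').and hGh).and hP).mono ?_
    rintro n ⟨⟨⟨⟨h1, h2⟩, h3⟩, h4⟩, h5⟩
    refine ⟨h1, fun e he => ?_⟩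
    have h6 := eval_eq_zero_of_mem_map (h5.2 e (h1 he)) (z n e) h2
    obtain ⟨he1, he2⟩ := Finset.mem_filter.1 he
    rw [map_sub, map_sub, h3 e he1, sub_zero, map_mul, map_mul, h4, evn_C, eval_rename] at h6
    exact (mul_eq_zero.1 h6).resolve_right he2
  · exact Or.inl h

end Vale.Agent.P054A
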