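import Vale.Agent.P054A.GenS
import Vale.Agent.P054A.Asy

/-!
The ring of sequences of polynomials of controlled degree.
-/

namespace Vale.Agent.P054A

open MvPolynomial
open scoped Classical

noncomputable section

variable {ι σ τ : Type}

/-- Sequences of polynomials of degree at most `m` up to slowly growing factors. -/
def RR (u : UF) (σ : Type) (m : ℕ → ℕ) (hm : ∀ n, 1 ≤ m n) :
    Subalgebra ℂ (ℕ → MvPolynomial σ ℂ) where
  carrier := {g | u.LE (nr fun n => (g n).totalDegree) (nr m)}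
  mul_mem' := fun {a b} ha hb => by
    refine (UF.LE.add ha hb (u.ev_of_forall (nr_nonneg m))).mono_left (u.ev_of_forall fun n => ?_)
    simp only [nr, Pi.mul_apply]
    exact_mod_cast totalDegree_mul _ _
  add_mem' := fun {a b} ha hb => by
    refine (UF.LE.add ha hb (u.ev_of_forall (nr_nonneg m))).mono_left (u.ev_of_forall fun n => ?_)
    simp only [nr, Pi.add_apply]
    exact_mod_cast (totalDegree_add _ _).trans (max_le (Nat.le_add_right _ _) (Nat.le_add_left _ _))
  algebraMap_mem' := fun c => by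
    refine UF.LE.of_ev (u.ev_of_forall (nr_nonneg m)) (u.ev_of_forall fun n => ?_)
    have e : (algebraMap ℂ (ℕ → MvPolynomial σ ℂ) c) n = C c := rfl
    simp only [nr, e, totalDegree_C]
    exact_mod_cast Nat.zero_le _

variable {u : UF} {m : ℕ → ℕ} {hm : ∀ n, 1 ≤ m n}

/-- The `n`-th member of a sequence, as a polynomial in more variables. -/
def evC (τ : Type) (n : ℕ) : RR u σ m hm →+* MvPolynomial (σ ⊕ τ) ℂ :=
  (rename Sum.inl : MvPolynomial σ ℂ →ₐ[ℂ] MvPolynomial (σ ⊕ τ) ℂ).toRingHom.comp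
    ((Pi.evalRingHom (fun _ : ℕ => MvPolynomial σ ℂ) n).comp (RR u σ m hm).val.toRingHom)

theorem evC_apply (n : ℕ) (a : RR u σ m hm) :
    evC τ n a = rename Sum.inl ((a : ℕ → MvPolynomial σ ℂ) n) := rfl

/-- The `n`-th member of a polynomial over the ring of sequences. -/
def evn (n : ℕ) : MvPolynomial τ (RR u σ m hm) →+* MvPolynomial (σ ⊕ τ) ℂ :=
  eval₂Hom (evC τ n) fun l => X (Sum.inr l)

theorem evn_C (n : ℕ) (a : RR u σ m hm) :
    evn n (C a : MvPolynomial τ (RR u σ m hm)) = rename Sum.inl ((a : ℕ → MvPolynomial σ ℂ) n) :=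
  eval₂Hom_C _ _ _

theorem evn_X (n : ℕ) (l : τ) : evn n (X l : MvPolynomial τ (RR u σ m hm)) = X (Sum.inr l) :=
  eval₂Hom_X' _ _ _

theorem evn_pderiv (n : ℕ) (l : τ) (G : MvPolynomial τ (RR u σ m hm)) :
    evn n (pderiv l G) = pderiv (Sum.inr l) (evn n G) := by
  induction G using MvPolynomial.induction_on with
  | C a =>
    rw [pderiv_C, map_zero, evn_C]
    refine (pderiv_eq_zero_of_notMem_vars fun h => ?_).symm
    obtain ⟨i, -, hi⟩ := mem_vars_rename _ _ h
    exact Sum.inl_ne_inr hi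
  | add a b ha hb => rw [map_add, map_add, map_add, map_add, ha, hb]
  | mul_X a i ha =>
    rw [Derivation.leibniz, map_mul, evn_X, Derivation.leibniz, smul_eq_mul, smul_eq_mul,
      smul_eq_mul, smul_eq_mul, map_add, map_mul, map_mul, ha, evn_X, pderiv_X, pderiv_X]
    by_cases h : i = l
    · subst h; simp
    · have h' : (Sum.inr i : σ ⊕ τ) ≠ Sum.inr l := fun e => h (Sum.inr_injective e)
      rw [Pi.single_eq_of_ne h, Pi.single_eq_of_ne h', map_zero]

theorem evn_minor {κ : Type} [Fintype κ] [DecidableEq κ] (n : ℕ)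
    (φ : κ → MvPolynomial τ (RR u σ m hm)) (J : κ → τ) :
    evn n (minor φ J) = minor (fun i => evn n (φ i)) fun i => Sum.inr (J i) := by
  unfold minor
  rw [Matrix.det_apply', Matrix.det_apply', map_sum]
  refine Finset.sum_congr rfl fun s _ => ?_
  rw [map_mul, map_prod, map_intCast]
  simp only [Matrix.of_apply, evn_pderiv]

variable [Fintype σ] [Fintype τ]

theorem bd_X_inr (l : τ) : BD 1 0 (X (Sum.inr l) : MvPolynomial (σ ⊕ τ) ℂ) := by
  intro α hα
  rw [support_X, Finset.mem_singleton] at hα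
  subst hα
  refine ⟨?_, ?_⟩
  · simp [Finsupp.single_apply]
  · simp

theorem exists_bd_evn (G : MvPolynomial τ (RR u σ m hm)) :
    ∃ (t : ℕ) (M : ℕ → ℕ), u.LE (nr M) (nr m) ∧ ∀ n, BD t (M n) (evn n G) := by
  induction G using MvPolynomial.induction_on with
  | C a => exact ⟨0, _, a.2, fun n => by rw [evn_C]; exact BD.rename_inl le_rfl⟩
  | add a b ha hb =>
    obtain ⟨t, M, h1, h2⟩ := ha
    obtain ⟨t', M', h3, h4⟩ := hb
    refine ⟨t + t', fun n => M n + M' n, ?_, fun n => ?_⟩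
    · refine (UF.LE.add h1 h3 (u.ev_of_forall (nr_nonneg m))).mono_left
        (u.ev_of_forall fun n => ?_)
      simp only [nr, Nat.cast_add, le_refl]
    · rw [map_add]
      exact ((h2 n).mono (Nat.le_add_right _ _) (Nat.le_add_right _ _)).add
        ((h4 n).mono (Nat.le_add_left _ _) (Nat.le_add_left _ _))
  | mul_X a i ha =>
    obtain ⟨t, M, h1, h2⟩ := ha
    refine ⟨t + 1, M, h1, fun n => ?_⟩
    rw [map_mul, evn_X]
    exact (h2 n).mul (bd_X_inr i)

theorem monomial_split (α : σ ⊕ τ →₀ ℕ) (a : ℂ) :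
    (monomial α a : MvPolynomial (σ ⊕ τ) ℂ) =
      rename Sum.inl (monomial (Finsupp.equivFunOnFinite.symm fun i => α (Sum.inl i)) a) *
        ∏ l, X (Sum.inr l) ^ α (Sum.inr l) := by
  rw [monomial_eq, monomial_eq, Finsupp.prod_fintype _ _ (by simp),
    Finsupp.prod_fintype _ _ (by simp), Fintype.prod_sum_type, map_mul, rename_C, map_prod,
    mul_assoc]
  simp

theorem exists_hat (hm : ∀ n, 1 ≤ m n) {G : ℕ → MvPolynomial (σ ⊕ τ) ℂ} {t : ℕ} {M : ℕ → ℕ}
    (hM : u.LE (nr M) (nr m)) (hG : u.ev fun n => BD t (M n) (G n)) :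
    ∃ Gh : MvPolynomial τ (RR u σ m hm), u.ev fun n => evn n Gh = G n := by
  let zp : (σ ⊕ τ →₀ ℕ) → τ →₀ ℕ := fun α => Finsupp.equivFunOnFinite.symm fun l => α (Sum.inr l)
  let pp : (σ ⊕ τ →₀ ℕ) → σ →₀ ℕ := fun α => Finsupp.equivFunOnFinite.symm fun l => α (Sum.inl l)
  let c : (τ →₀ ℕ) → ℕ → MvPolynomial σ ℂ := fun β n =>
    ∑ α ∈ (G n).support.filter fun α => zp α = β, monomial (pp α) ((G n).coeff α)
  have hc : ∀ β, c β ∈ RR u σ m hm := fun β => by
    refine hM.mono_left (hG.mono fun n hn => ?_)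
    simp only [nr, Nat.cast_le]
    refine (totalDegree_finsetSum _ _).trans (Finset.sup_le fun α hα => ?_)
    refine (totalDegree_monomial_le _ _).trans ?_
    rw [Finsupp.sum_fintype _ _ (by simp)]
    exact (hn α (Finset.mem_filter.1 hα).1).2
  let B : Finset (τ →₀ ℕ) := Finset.Iic (Finsupp.equivFunOnFinite.symm fun _ => t)
  refine ⟨∑ β ∈ B, monomial β ⟨c β, hc β⟩, hG.mono fun n hn => ?_⟩
  rw [map_sum]
  have h1 : ∀ β ∈ B, evn n (monomial β (⟨c β, hc β⟩ : RR u σ m hm)) =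
      ∑ α ∈ (G n).support.filter fun α => zp α = β, monomial α ((G n).coeff α) := by
    intro β _
    rw [monomial_eq, map_mul, evn_C, Finsupp.prod_fintype _ _ (by simp), map_prod]
    simp only [map_pow, evn_X, c, map_sum, Finset.sum_mul]
    refine Finset.sum_congr rfl fun α hα => ?_
    rw [monomial_split α, ← (Finset.mem_filter.1 hα).2]
    rfl
  rw [Finset.sum_congr rfl h1, Finset.sum_fiberwise_of_maps_to, ← as_sum]
  intro α hα
  rw [Finset.mem_Iic]
  intro l
  have h2 := (hn α hα).1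
  exact (Finset.single_le_sum (f := fun i => α (Sum.inr i)) (fun _ _ => Nat.zero_le _)
    (Finset.mem_univ l)).trans h2

omit [Fintype σ] [Fintype τ] in
/-- Sequences which eventually lie in the given ideals. -/
def NN (u : UF) (m : ℕ → ℕ) (hm : ∀ n, 1 ≤ m n) (P : ℕ → Ideal (MvPolynomial σ ℂ)) :
    Ideal (RR u σ m hm) where
  carrier := {a | u.ev fun n => (a : ℕ → MvPolynomial σ ℂ) n ∈ P n}
  add_mem' := fun {a b} ha hb => (UF.ev.and ha hb).mono fun n h => (P n).add_mem h.1 h.2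
  zero_mem' := u.ev_of_forall fun n => (P n).zero_mem
  smul_mem' := fun c a ha => UF.ev.mono ha fun n h => (P n).mul_mem_left _ h

omit [Fintype σ] [Fintype τ] in
theorem NN_prime {P : ℕ → Ideal (MvPolynomial σ ℂ)} (hP : u.ev fun n => (P n).IsPrime) :
    (NN u m hm P).IsPrime := by
  refine ⟨fun h => ?_, fun {a b} hab => ?_⟩
  · have h1 : (1 : RR u σ m hm) ∈ NN u m hm P := h ▸ Submodule.mem_top
    obtain ⟨n, h2, h3⟩ := (UF.ev.and h1 hP).exists
    exact h3.ne_top ((Ideal.eq_top_iff_one _).2 h2)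
  · exact UF.ev_or ((UF.ev.and hab hP).mono fun n h => h.2.mem_or_mem h.1)

omit [Fintype σ] [Fintype τ] in
theorem evn_mem_map {P : ℕ → Ideal (MvPolynomial σ ℂ)} {G : MvPolynomial τ (RR u σ m hm)}
    (hG : G ∈ (NN u m hm P).map (C : RR u σ m hm →+* MvPolynomial τ (RR u σ m hm))) :
    u.ev fun n => evn n G ∈
      (P n).map (rename Sum.inl : MvPolynomial σ ℂ →ₐ[ℂ] MvPolynomial (σ ⊕ τ) ℂ) := by
  induction hG using Submodule.span_induction with
  | mem x hx =>
    obtain ⟨a, ha, rfl⟩ := hx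
    exact UF.ev.mono ha fun n h => by rw [evn_C]; exact Ideal.mem_map_of_mem _ h
  | zero => exact u.ev_of_forall fun n => by rw [map_zero]; exact Ideal.zero_mem _
  | add x y _ _ hx hy =>
    exact (UF.ev.and hx hy).mono fun n h => by rw [map_add]; exact Ideal.add_mem _ h.1 h.2
  | smul c x _ hx =>
    exact UF.ev.mono hx fun n h => by
      rw [smul_eq_mul, map_mul]; exact Ideal.mul_mem_left _ _ h

omit [Fintype σ] [Fintype τ] in
theorem eval_eq_zero_of_mem_map {P : Ideal (MvPolynomial σ ℂ)} {p : σ → ℂ} (hp : On p P)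
    (z : τ → ℂ) {G : MvPolynomial (σ ⊕ τ) ℂ}
    (hG : G ∈ P.map (rename Sum.inl : MvPolynomial σ ℂ →ₐ[ℂ] MvPolynomial (σ ⊕ τ) ℂ)) :
    eval (Sum.elim p z) G = 0 := by
  have h : P.map (rename Sum.inl : MvPolynomial σ ℂ →ₐ[ℂ] MvPolynomial (σ ⊕ τ) ℂ) ≤
      RingHom.ker (eval (Sum.elim p z)) := by
    rw [Ideal.map_le_iff_le_comap]
    intro g hg
    rw [Ideal.mem_comap, RingHom.mem_ker, eval_rename]
    exact hp g hg
  exact h hG

omit [Fintype σ] [Fintype τ] in
/-- The zeros of a sequence outside `NN` are negligible. -/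
theorem ll_of_notin {E F : ℕ → Finset ι} {p : ℕ → ι → σ → ℂ} {P : ℕ → Ideal (MvPolynomial σ ℂ)}
    (hrob : ∀ M : ℕ → ℕ, u.LE (nr M) (nr m) → RobAt u E (fun _ _ => ()) p (fun n _ => P n) M)
    {a : RR u σ m hm} (ha : a ∉ NN u m hm P)
    (hF : u.ev fun n => F n ⊆ E n ∧
      ∀ e ∈ F n, eval (p n e) ((a : ℕ → MvPolynomial σ ℂ) n) = 0) : u.LL (cd F) (cd E) := by
  refine hrob _ a.2 F (fun n _ => (a : ℕ → MvPolynomial σ ℂ) n) ?_
  refine (UF.ev.and hF (UF.ev_not ha)).mono fun n h => ⟨h.1.1, ?_⟩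
  exact ⟨fun _ _ _ _ _ _ => rfl, fun _ _ => h.2, fun _ _ => le_rfl, h.1.2⟩

end

end Vale.Agent.P054A
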