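import Vale.Agent.P054A.UPa

/-!
The ultraproduct step: a simple system of bounded degree.
-/

namespace Vale.Agent.P054A

open MvPolynomial
open scoped Classical

section Neg

variable {ι : Type} {u : UF} {E A B D : ℕ → Finset ι}

theorem upb_sub (h : u.LL (cd A) (cd E)) (hs : u.ev fun n => ∀ e ∈ D n, e ∈ A n) :
    u.LL (cd D) (cd E) :=
  h.mono_left (hs.mono fun n hn => by
    simp only [cd, Nat.cast_le]
    exact Finset.card_le_card hn)

theorem upb_union (h : u.LL (cd A) (cd E)) (h' : u.LL (cd B) (cd E))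
    (hs : u.ev fun n => ∀ e ∈ D n, e ∈ A n ∨ e ∈ B n) : u.LL (cd D) (cd E) :=
  (h.add h' (u.ev_of_forall (cd_nonneg E))).mono_left (hs.mono fun n hn => by
    simp only [cd]
    have h1 : D n ⊆ A n ∪ B n := fun e he => Finset.mem_union.2 (hn e he)
    exact_mod_cast (Finset.card_le_card h1).trans (Finset.card_union_le _ _))

theorem upb_empty (hs : ∀ n, ∀ e, e ∉ D n) : u.LL (cd D) (cd E) :=
  ⟨1, one_pos, u.ev_of_forall fun n => by
    have h1 : D n = ∅ := Finset.eq_empty_of_forall_notMem (hs n)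
    simp [cd, h1]⟩

theorem upb_biUnion {α : Type} (s : Finset α) {T : α → ℕ → Finset ι}
    (h : ∀ a, u.LL (cd (T a)) (cd E)) : u.LL (cd fun n => s.biUnion fun a => T a n) (cd E) := by
  induction s using Finset.induction_on with
  | empty => exact upb_empty fun n e => by simp
  | insert a s _ ih =>
    refine upb_union (h a) ih (u.ev_of_forall fun n e he => ?_)
    rwa [Finset.biUnion_insert, Finset.mem_union] at he

theorem upb_le_sum {α : Type} (s : Finset α) {M : α → ℕ → ℕ} {m : ℕ → ℕ}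
    (h : ∀ a, u.LE (nr (M a)) (nr m)) : u.LE (nr fun n => ∑ a ∈ s, M a n) (nr m) := by
  induction s using Finset.induction_on with
  | empty =>
    exact UF.LE.of_ev (u.ev_of_forall (nr_nonneg m)) (u.ev_of_forall fun n => by simp [nr])
  | insert a s ha ih =>
    refine ((h a).add ih (u.ev_of_forall (nr_nonneg m))).mono_left (u.ev_of_forall fun n => ?_)
    simp only [nr, Finset.sum_insert ha, Nat.cast_add, le_refl]

end Neg

variable {ι σ τ : Type} [Fintype σ] [Fintype τ]

/-- Polynomials over the ring of sequences vanishing on almost all of `F`. -/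
def II (u : UF) (m : ℕ → ℕ) (hm : ∀ n, 1 ≤ m n) (p : ℕ → ι → σ → ℂ) (z : ℕ → ι → τ → ℂ)
    (E F : ℕ → Finset ι) : Ideal (MvPolynomial τ (RR u σ m hm)) where
  carrier := {G | u.LL (cd fun n => (F n).filter fun e =>
    eval (Sum.elim (p n e) (z n e)) (evn n G) ≠ 0) (cd E)}
  add_mem' := fun {a b} ha hb => upb_union ha hb (u.ev_of_forall fun n e he => by
    simp only [Finset.mem_filter, map_add] at he ⊢
    by_cases h : eval (Sum.elim (p n e) (z n e)) (evn n a) = 0
    · exact Or.inr ⟨he.1, fun h' => he.2 (by rw [h, h', add_zero])⟩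
    · exact Or.inl ⟨he.1, h⟩)
  zero_mem' := upb_empty fun n e => by simp
  smul_mem' := fun c a ha => upb_sub ha (u.ev_of_forall fun n e he => by
    simp only [Finset.mem_filter, smul_eq_mul, map_mul] at he ⊢
    exact ⟨he.1, right_ne_zero_of_mul he.2⟩)

theorem up_system (u : UF) (E F : ℕ → Finset ι) (hE : u.ev fun n => (E n).Nonempty)
    (hF : u.Full F E) (p : ℕ → ι → σ → ℂ) (z : ℕ → ι → τ → ℂ)
    (P : ℕ → Ideal (MvPolynomial σ ℂ))
    (hP : u.ev fun n => (P n).IsPrime ∧ ∀ e ∈ E n, On (p n e) (P n)) (m : ℕ → ℕ)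
    (hm : ∀ n, 1 ≤ m n)
    (hrob : ∀ M : ℕ → ℕ, u.LE (nr M) (nr m) → RobAt u E (fun _ _ => ()) p (fun n _ => P n) M)
    (h01 : ∀ (G : ℕ → MvPolynomial (σ ⊕ τ) ℂ) (t : ℕ) (M : ℕ → ℕ),
      u.LE (nr M) (nr m) → (u.ev fun n => BD t (M n) (G n)) →
        u.LL (cd fun n => (F n).filter fun e => eval (Sum.elim (p n e) (z n e)) (G n) = 0) (cd E) ∨
        u.LL (cd fun n => (F n).filter fun e => eval (Sum.elim (p n e) (z n e)) (G n) ≠ 0)
          (cd E)) :
    ∃ (c t : ℕ) (φ : ℕ → Fin c → MvPolynomial (σ ⊕ τ) ℂ) (J : Fin c → τ) (M : ℕ → ℕ),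
      u.LE (nr M) (nr m) ∧ (u.ev fun n => ∀ i, BD t (M n) (φ n i)) ∧
      u.LL (cd fun n => (F n).filter fun e =>
        ¬ Simple (φ n) (fun i => Sum.inr (J i)) (Sum.elim (p n e) (z n e))) (cd E) ∧
      ∀ (G : ℕ → MvPolynomial (σ ⊕ τ) ℂ) (t' : ℕ) (M' : ℕ → ℕ), u.LE (nr M') (nr m) →
        (u.ev fun n => BD t' (M' n) (G n)) →
        u.LL (cd fun n => (F n).filter fun e => eval (Sum.elim (p n e) (z n e)) (G n) ≠ 0)
          (cd E) →
        ∃ q : ℕ → MvPolynomial (σ ⊕ τ) ℂ,
          u.LL (cd fun n => (F n).filter fun e => eval (Sum.elim (p n e) (z n e)) (q n) = 0)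
            (cd E) ∧
          u.ev fun n => q n * G n ∈ Ideal.span (Set.range (φ n)) ⊔
            (P n).map (rename Sum.inl : MvPolynomial σ ℂ →ₐ[ℂ] MvPolynomial (σ ⊕ τ) ℂ) := by
  have _ := hP
  have hnot := hF.not_ll hE
  have hz : ∀ G : MvPolynomial τ (RR u σ m hm), G ∉ II u m hm p z E F →
      u.LL (cd fun n => (F n).filter fun e => eval (Sum.elim (p n e) (z n e)) (evn n G) = 0)
        (cd E) := fun G hG => by
    obtain ⟨t, M, h1, h2⟩ := exists_bd_evn G
    exact (h01 (fun n => evn n G) t M h1 (u.ev_of_forall h2)).resolve_right hG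
  have hprime : (II u m hm p z E F).IsPrime := by
    refine ⟨fun h => ?_, fun {a b} hab => ?_⟩
    · have h1 : (1 : MvPolynomial τ (RR u σ m hm)) ∈ II u m hm p z E F := h ▸ Submodule.mem_top
      refine hnot (upb_sub h1 (u.ev_of_forall fun n e he => ?_))
      rw [Finset.mem_filter, map_one, map_one]
      exact ⟨he, one_ne_zero⟩
    · by_contra hc
      rw [not_or] at hc
      have h1 : u.LL (cd fun n => (F n).filter fun e =>
          eval (Sum.elim (p n e) (z n e)) (evn n (a * b)) = 0) (cd E) := by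
        refine upb_union (hz a hc.1) (hz b hc.2) (u.ev_of_forall fun n e he => ?_)
        simp only [Finset.mem_filter, map_mul, mul_eq_zero] at he ⊢
        exact he.2.imp (fun h => ⟨he.1, h⟩) fun h => ⟨he.1, h⟩
      refine hnot (upb_union h1 hab (u.ev_of_forall fun n e he => ?_))
      simp only [Finset.mem_filter]
      exact (em _).imp (fun h => ⟨he, h⟩) fun h => ⟨he, h⟩
  have hcomap : (II u m hm p z E F).comap C ≤ NN u m hm P := fun r hr => by
    by_contra hc
    have h1 : u.LL (cd fun n => (F n).filter fun e =>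
        eval (p n e) ((r : ℕ → MvPolynomial σ ℂ) n) = 0) (cd E) :=
      ll_of_notin hrob hc (hF.1.mono fun n h =>
        ⟨(Finset.filter_subset _ _).trans h, fun e he => (Finset.mem_filter.1 he).2⟩)
    refine hnot (upb_union h1 hr (u.ev_of_forall fun n e he => ?_))
    simp only [Finset.mem_filter, evn_C, eval_rename]
    exact (em _).imp (fun h => ⟨he, h⟩) fun h => ⟨he, h⟩
  let _ : Algebra ℚ (RR u σ m hm) :=
    ((algebraMap ℂ (RR u σ m hm)).comp (algebraMap ℚ ℂ)).toAlgebra
  obtain ⟨c, φ, J, hφ, hmin, hgen⟩ := exists_generic_system _ hprime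
  choose t M hM hBD using fun i => exists_bd_evn (φ i)
  refine ⟨c, ∑ i, t i, fun n i => evn n (φ i), J, fun n => ∑ i, M i n, upb_le_sum _ hM,
    u.ev_of_forall fun n i => (hBD i n).mono ?_ ?_, ?_, fun G t' M' hM' hG hneg => ?_⟩
  · exact Finset.single_le_sum (f := t) (fun _ _ => Nat.zero_le _) (Finset.mem_univ i)
  · exact Finset.single_le_sum (f := fun i => M i n) (fun _ _ => Nat.zero_le _)
      (Finset.mem_univ i)
  · refine upb_union (upb_biUnion Finset.univ hφ) (hz _ hmin)
      (u.ev_of_forall fun n e he => ?_)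
    obtain ⟨he1, he2⟩ := Finset.mem_filter.1 he
    simp only [Finset.mem_biUnion, Finset.mem_filter, Finset.mem_univ, true_and]
    by_contra hc
    rw [not_or] at hc
    refine he2 ⟨fun i => ?_, fun h => hc.2 ⟨he1, ?_⟩⟩
    · by_contra h
      exact hc.1 ⟨i, he1, h⟩
    · rw [evn_minor]
      exact h
  · obtain ⟨Gh, hGh⟩ := exists_hat hm hM' hG
    have h1 : Gh ∈ II u m hm p z E F := upb_sub hneg (hGh.mono fun n hn e he => by
      rw [Finset.mem_filter, hn] at he
      exact Finset.mem_filter.2 he)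
    obtain ⟨q, hq, hqG⟩ := hgen Gh h1
    obtain ⟨x, hx, y, hy, hxy⟩ := Submodule.mem_sup.1 hqG
    refine ⟨fun n => evn n q, hz q hq,
      (hGh.and (evn_mem_map (Ideal.map_mono hcomap hy))).mono fun n hn => ?_⟩
    rw [← hn.1, ← map_mul, ← hxy, map_add]
    refine Submodule.add_mem_sup ?_ hn.2
    have h2 := Ideal.mem_map_of_mem (evn n) hx
    rwa [Ideal.map_span, ← Set.range_comp] at h2

end Vale.Agent.P054A
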